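import Vale.Agent.P168.LogLower

/-! Counting the positions that meet a new site at most once. -/

open Finset

namespace Vale.Agent.P168.MP.Cav

open Vale.Agent.P168

variable {N K : ℕ}

lemma av_comm {A B : Type*} [Fintype A] [Fintype B] (f : A → B → ℝ) :
    av (fun a => av fun b => f a b) = av fun b => av fun a => f a b := by
  simp only [av, ← Finset.sum_div]
  rw [Finset.sum_comm, div_right_comm]

lemma av_prod_type {A B : Type*} [Fintype A] [Fintype B] (f : A × B → ℝ) :
    av f = av fun a => av fun b => f (a, b) := by
  simp only [av, ← Finset.sum_div, Fintype.sum_prod_type, Fintype.card_prod, Nat.cast_mul, div_div]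
  rw [mul_comm (Fintype.card A : ℝ)]

lemma abs_av_le' {A : Type*} [Fintype A] {f : A → ℝ} {B : ℝ} (hB : 0 ≤ B) (h : ∀ a, |f a| ≤ B) :
    |av f| ≤ B := by
  rcases isEmpty_or_nonempty A with hA | hA
  · simpa [av] using hB
  · exact abs_av_le h

/-- the positions avoiding the new site -/
noncomputable def avA (N : ℕ) {K : ℕ} (g : (Fin K → Fin (N + 1)) → ℝ) : ℝ :=
  av fun i : Fin K → Fin N => g (Fin.castSucc ∘ i)

/-- the positions meeting the new site at one slot -/
noncomputable def avH (N : ℕ) {K : ℕ} (g : (Fin K → Fin (N + 1)) → ℝ) : ℝ :=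
  av fun p : Fin K × (Fin K → Fin N) => g (Function.update (Fin.castSucc ∘ p.2) p.1 (Fin.last N))

lemma av_fin_succ [NeZero N] (h : Fin (N + 1) → ℝ) :
    av h = (N : ℝ) / (N + 1) * av (fun y : Fin N => h y.castSucc) + 1 / (N + 1) * h (Fin.last N) := by
  have hN : (N : ℝ) ≠ 0 := Nat.cast_ne_zero.2 (NeZero.ne N)
  simp only [av, Fintype.card_fin, Fin.sum_univ_castSucc, Nat.cast_add, Nat.cast_one]
  field_simp

lemma avA_succ (g : (Fin (K + 1) → Fin (N + 1)) → ℝ) :
    avA N g = av fun y : Fin N => avA N fun q => g (Fin.cons y.castSucc q) := by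
  rw [avA, av_succ, av_comm]
  simp only [avA, Fin.comp_cons]

lemma avH_succ [NeZero N] (g : (Fin (K + 1) → Fin (N + 1)) → ℝ) :
    ((K : ℝ) + 1) * avH N g = avA N (fun q => g (Fin.cons (Fin.last N) q)) +
      (K : ℝ) * av fun y : Fin N => avH N fun q => g (Fin.cons y.castSucc q) := by
  have h0 : av (fun i : Fin (K + 1) → Fin N =>
      g (Function.update (Fin.castSucc ∘ i) 0 (Fin.last N)))
      = avA N fun q => g (Fin.cons (Fin.last N) q) := by
    rw [av_succ, av_comm]
    simp only [Fin.comp_cons, Fin.update_cons_zero]
    exact av_const _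
  have hs : ∀ ℓ : Fin K, av (fun i : Fin (K + 1) → Fin N =>
      g (Function.update (Fin.castSucc ∘ i) ℓ.succ (Fin.last N)))
      = av fun y : Fin N => av fun i : Fin K → Fin N =>
          g (Fin.cons y.castSucc (Function.update (Fin.castSucc ∘ i) ℓ (Fin.last N))) := by
    intro ℓ
    rw [av_succ, av_comm]
    simp only [Fin.comp_cons, Fin.cons_update]
  have e1 : ((K : ℝ) + 1) * avH N g = ∑ ℓ : Fin (K + 1), av fun i : Fin (K + 1) → Fin N =>
      g (Function.update (Fin.castSucc ∘ i) ℓ (Fin.last N)) := by
    rw [avH, av_prod_type]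
    simp only [av, Fintype.card_fin, Nat.cast_add, Nat.cast_one]
    field_simp
  have e2 : (K : ℝ) * av (fun y : Fin N => avH N fun q => g (Fin.cons y.castSucc q))
      = ∑ ℓ : Fin K, av fun y : Fin N => av fun i : Fin K → Fin N =>
          g (Fin.cons y.castSucc (Function.update (Fin.castSucc ∘ i) ℓ (Fin.last N))) := by
    rcases Nat.eq_zero_or_pos K with rfl | hK
    · simp
    · simp only [avH, av_prod_type, av_comm (A := Fin N) (B := Fin K)]
      have hK0 : (K : ℝ) ≠ 0 := by positivity
      conv_lhs => rw [av, Fintype.card_fin]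
      field_simp
  rw [e1, e2, Fin.sum_univ_succ, h0]
  simp only [hs]

/-- at most one slot meets the new site, up to `K² / (N+1)²` -/
theorem av_split [NeZero N] : ∀ (K : ℕ) (g : (Fin K → Fin (N + 1)) → ℝ) (B : ℝ), 0 ≤ B →
    (∀ q, |g q| ≤ B) →
    |av g - ((N : ℝ) / (N + 1)) ^ K * avA N g| ≤ B * (K * (1 / (N + 1))) ∧
    |av g - ((N : ℝ) / (N + 1)) ^ K * avA N g -
      K * (1 / (N + 1)) * ((N : ℝ) / (N + 1)) ^ (K - 1) * avH N g| ≤ B * (K * (1 / (N + 1))) ^ 2 := by
  intro K
  set x : ℝ := (N : ℝ) / (N + 1) with hx
  set d : ℝ := 1 / ((N : ℝ) + 1) with hd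
  have hx0 : 0 ≤ x := by positivity
  have hd0 : 0 ≤ d := by positivity
  have hxd : x + d = 1 := by rw [hx, hd, ← add_div, div_self]; positivity
  induction K with
  | zero =>
      intro g B hB hg
      have e : avA N g = av g := by
        have hc : ∀ q : Fin 0 → Fin (N + 1), g q = g Fin.elim0 :=
          fun q => congrArg g (funext fun i => i.elim0)
        rw [avA, show g = fun _ => g Fin.elim0 from funext hc, av_const, av_const]
      simp [e]
  | succ K ih =>
      intro g B hB hg
      have hav : av g = x * av (fun y : Fin N => av fun q => g (Fin.cons y.castSucc q))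
          + d * av fun q => g (Fin.cons (Fin.last N) q) := by
        rw [av_succ, av_comm, av_fin_succ]
      have h1 : ∀ z, |av (fun q => g (Fin.cons z q)) - x ^ K * avA N fun q => g (Fin.cons z q)|
          ≤ B * (K * d) := fun z => (ih _ B hB fun q => hg _).1
      have hsub : ∀ (f f' : Fin N → ℝ) (c : ℝ), (∀ y, |f y - c * f' y| ≤ B * (K * d)) →
          |av f - c * av f'| ≤ B * (K * d) := fun f f' c h => by
        rw [show av f - c * av f' = av fun y => f y - c * f' y by
          simp only [av, Finset.sum_sub_distrib, ← Finset.mul_sum, sub_div, mul_div_assoc]]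
        exact abs_av_le h
      have hA := avA_succ g
      constructor
      · have e : av g - x ^ (K + 1) * avA N g
            = x * (av (fun y : Fin N => av fun q => g (Fin.cons y.castSucc q))
                - x ^ K * av fun y : Fin N => avA N fun q => g (Fin.cons y.castSucc q))
              + d * av fun q => g (Fin.cons (Fin.last N) q) := by
          rw [hav, hA]; ring
        rw [e]
        refine (abs_add_le _ _).trans ?_
        rw [abs_mul, abs_mul, abs_of_nonneg hx0, abs_of_nonneg hd0]
        refine (add_le_add (mul_le_mul (show x ≤ 1 by linarith) (hsub _ _ _ fun y => h1 _)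
          (abs_nonneg _) zero_le_one) (mul_le_mul_of_nonneg_left (abs_av_le fun q => hg _) hd0)).trans ?_
        push_cast
        linarith
      · have h2 : ∀ y : Fin N, |(av (fun q => g (Fin.cons y.castSucc q))
            - x ^ K * avA N fun q => g (Fin.cons y.castSucc q))
            - K * d * x ^ (K - 1) * avH N fun q => g (Fin.cons y.castSucc q)| ≤ B * (K * d) ^ 2 :=
          fun y => (ih _ B hB fun q => hg _).2
        have e : av g - x ^ (K + 1) * avA N g - ((K : ℕ) + 1 : ℝ) * d * x ^ (K + 1 - 1) * avH N g
            = x * (av fun y : Fin N => (av (fun q => g (Fin.cons y.castSucc q))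
                - x ^ K * avA N fun q => g (Fin.cons y.castSucc q))
                - K * d * x ^ (K - 1) * avH N fun q => g (Fin.cons y.castSucc q))
              + d * (av (fun q => g (Fin.cons (Fin.last N) q))
                - x ^ K * avA N fun q => g (Fin.cons (Fin.last N) q)) := by
          have hH := avH_succ g
          have hK : (K : ℝ) * x ^ (K - 1) * x = K * x ^ K := by
            cases K with
            | zero => simp
            | succ K => rw [Nat.add_sub_cancel, pow_succ x K]; ring
          rw [hav, hA, Nat.add_sub_cancel,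
            show av (fun y : Fin N => (av (fun q => g (Fin.cons y.castSucc q))
                - x ^ K * avA N fun q => g (Fin.cons y.castSucc q))
                - K * d * x ^ (K - 1) * avH N fun q => g (Fin.cons y.castSucc q))
              = av (fun y : Fin N => av fun q => g (Fin.cons y.castSucc q))
                - x ^ K * av (fun y : Fin N => avA N fun q => g (Fin.cons y.castSucc q))
                - K * d * x ^ (K - 1) * av (fun y : Fin N => avH N fun q => g (Fin.cons y.castSucc q)) by
              simp only [av, Finset.sum_sub_distrib, ← Finset.mul_sum, sub_div, mul_div_assoc]]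
          linear_combination (-d * x ^ K) * hH
            + (d * av fun y : Fin N => avH N fun q => g (Fin.cons y.castSucc q)) * hK
        rw [show ((K + 1 : ℕ) : ℝ) = (K : ℝ) + 1 by push_cast; ring, e]
        refine (abs_add_le _ _).trans ?_
        rw [abs_mul, abs_mul, abs_of_nonneg hx0, abs_of_nonneg hd0]
        refine (add_le_add (mul_le_mul (show x ≤ 1 by linarith) (abs_av_le h2) (abs_nonneg _)
          zero_le_one) (mul_le_mul_of_nonneg_left (h1 _) hd0)).trans ?_
        nlinarith [mul_nonneg hB (mul_nonneg hd0 hd0), Nat.cast_nonneg (α := ℝ) K]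

end Vale.Agent.P168.MP.Cav
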