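import Vale.Agent.P168.MP.Comb

/-! Calculus of the hierarchical expectations: positivity, linearity, support. -/

namespace Vale.Agent.P168.MP

open Finset

variable {Ω : Type*} [Fintype Ω] {R : ℕ} {m : ℕ → ℝ} {w : List Ω → ℝ}

section
variable [Nonempty Ω]

lemma card_pos_real : (0 : ℝ) < Fintype.card Ω := by exact_mod_cast Fintype.card_pos

lemma avg_pos {f : Ω → ℝ} (hf : ∀ o, 0 < f o) : 0 < avg f :=
  div_pos (sum_pos (fun o _ => hf o) univ_nonempty) card_pos_real

lemma avg_const (c : ℝ) : avg (fun _ : Ω => c) = c := by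
  have := card_pos_real (Ω := Ω)
  simp [avg]

lemma Z_pos (hw : ∀ p, 0 < w p) : ∀ k pre, 0 < Z m w k pre
  | 0, pre => hw pre
  | k + 1, _ => Real.rpow_pos_of_pos
      (avg_pos fun _ => Real.rpow_pos_of_pos (Z_pos hw k _) _) _

lemma trans_den_pos (hw : ∀ p, 0 < w p) (k : ℕ) (pre : List Ω) :
    0 < ∑ o, Z m w k (pre ++ [o]) ^ m (pre.length + 1) :=
  sum_pos (fun _ _ => Real.rpow_pos_of_pos (Z_pos hw k _) _) univ_nonempty

lemma trans_pos (hw : ∀ p, 0 < w p) (k : ℕ) (pre : List Ω) (o : Ω) : 0 < trans m w k pre o :=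
  div_pos (Real.rpow_pos_of_pos (Z_pos hw k _) _) (trans_den_pos hw k pre)

lemma trans_nonneg (hw : ∀ p, 0 < w p) (k : ℕ) (pre : List Ω) (o : Ω) : 0 ≤ trans m w k pre o :=
  (trans_pos hw k pre o).le

lemma trans_sum (hw : ∀ p, 0 < w p) (k : ℕ) (pre : List Ω) : ∑ o, trans m w k pre o = 1 := by
  simp only [trans]
  rw [← Finset.sum_div, div_self (trans_den_pos hw k pre).ne']

end

/-! ### extensions -/

@[simp] lemma ext_zero (pre : List Ω) (F : List Ω → ℝ) : ext m w 0 pre F = F pre := by rw [ext]

lemma ext_succ (k : ℕ) (pre : List Ω) (F : List Ω → ℝ) :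
    ext m w (k + 1) pre F = ∑ o, trans m w k pre o * ext m w k (pre ++ [o]) F := by rw [ext]

lemma ext_add (k : ℕ) (pre : List Ω) (F G : List Ω → ℝ) :
    ext m w k pre (fun q => F q + G q) = ext m w k pre F + ext m w k pre G := by
  induction k generalizing pre with
  | zero => simp
  | succ k ih => simp only [ext_succ, ih, mul_add, sum_add_distrib]

lemma ext_const_mul (k : ℕ) (pre : List Ω) (c : ℝ) (F : List Ω → ℝ) :
    ext m w k pre (fun q => c * F q) = c * ext m w k pre F := by
  induction k generalizing pre with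
  | zero => simp
  | succ k ih => simp only [ext_succ, ih, mul_sum, mul_left_comm]

lemma ext_mul_const (k : ℕ) (pre : List Ω) (c : ℝ) (F : List Ω → ℝ) :
    ext m w k pre (fun q => F q * c) = ext m w k pre F * c := by
  simp only [mul_comm _ c, ext_const_mul]

lemma ext_neg (k : ℕ) (pre : List Ω) (F : List Ω → ℝ) :
    ext m w k pre (fun q => -F q) = -ext m w k pre F := by
  simpa using ext_const_mul k pre (-1) F

lemma ext_sub (k : ℕ) (pre : List Ω) (F G : List Ω → ℝ) :
    ext m w k pre (fun q => F q - G q) = ext m w k pre F - ext m w k pre G := by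
  simp only [sub_eq_add_neg, ext_add, ext_neg]

lemma ext_sum {ι : Type*} (s : Finset ι) (k : ℕ) (pre : List Ω) (F : ι → List Ω → ℝ) :
    ext m w k pre (fun q => ∑ i ∈ s, F i q) = ∑ i ∈ s, ext m w k pre (F i) := by
  induction k generalizing pre with
  | zero => simp
  | succ k ih => simp only [ext_succ, ih, mul_sum]; exact Finset.sum_comm

lemma ext_list_sum {ι : Type*} (L : List ι) (k : ℕ) (pre : List Ω) (F : ι → List Ω → ℝ) :
    ext m w k pre (fun q => (L.map fun i => F i q).sum) =
      (L.map fun i => ext m w k pre (F i)).sum := by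
  induction L with
  | nil => simpa using ext_const_mul k pre 0 fun _ => 0
  | cons a L ih => simp only [List.map_cons, List.sum_cons, ext_add, ih]

/-- only the paths extending `pre` by `k` marks matter -/
lemma ext_congr {k : ℕ} {pre : List Ω} {F G : List Ω → ℝ}
    (h : ∀ suf : List Ω, suf.length = k → F (pre ++ suf) = G (pre ++ suf)) :
    ext m w k pre F = ext m w k pre G := by
  induction k generalizing pre with
  | zero => simpa using h [] rfl
  | succ k ih =>
    simp only [ext_succ]
    refine sum_congr rfl fun o _ => ?_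
    rw [ih fun suf hs => ?_]
    simpa using h (o :: suf) (by simp [hs])

lemma Z_Z (a b : ℕ) (pre : List Ω) :
    Z m (fun q => Z m w b q) a pre = Z m w (a + b) pre := by
  induction a generalizing pre with
  | zero => simp [Z]
  | succ a ih =>
    rw [show a + 1 + b = a + b + 1 by omega, Z, Z]
    simp only [ih]

lemma trans_Z (a b : ℕ) (pre : List Ω) (o : Ω) :
    trans m (fun q => Z m w b q) a pre o = trans m w (a + b) pre o := by
  simp only [trans, Z_Z]

/-- tower property: the first `a` steps are tilted by the weight integrated over the last `b` -/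
lemma ext_tower (a b : ℕ) (pre : List Ω) (F : List Ω → ℝ) :
    ext m w (a + b) pre F = ext m (fun q => Z m w b q) a pre (fun q => ext m w b q F) := by
  induction a generalizing pre with
  | zero => simp
  | succ a ih =>
    rw [show a + 1 + b = a + b + 1 by omega]
    simp only [ext_succ, ih, trans_Z]

section
variable [Nonempty Ω]

lemma ext_const (hw : ∀ p, 0 < w p) (k : ℕ) (pre : List Ω) (c : ℝ) :
    ext m w k pre (fun _ => c) = c := by
  induction k generalizing pre with
  | zero => simp
  | succ k ih => simp only [ext_succ, ih, ← Finset.sum_mul, trans_sum hw, one_mul]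

lemma ext_mono_on (hw : ∀ p, 0 < w p) {k : ℕ} {pre : List Ω} {F G : List Ω → ℝ}
    (h : ∀ suf : List Ω, suf.length = k → F (pre ++ suf) ≤ G (pre ++ suf)) :
    ext m w k pre F ≤ ext m w k pre G := by
  induction k generalizing pre with
  | zero => simpa using h [] rfl
  | succ k ih =>
    simp only [ext_succ]
    refine sum_le_sum fun o _ => mul_le_mul_of_nonneg_left ?_ (trans_nonneg hw k pre o)
    exact ih fun suf hs => by simpa using h (o :: suf) (by simp [hs])

lemma ext_mono (hw : ∀ p, 0 < w p) {k : ℕ} {pre : List Ω} {F G : List Ω → ℝ}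
    (h : ∀ q, F q ≤ G q) : ext m w k pre F ≤ ext m w k pre G :=
  ext_mono_on hw fun _ _ => h _

lemma ext_nonneg (hw : ∀ p, 0 < w p) {k : ℕ} {pre : List Ω} {F : List Ω → ℝ}
    (h : ∀ q, 0 ≤ F q) : 0 ≤ ext m w k pre F := by
  simpa [ext_const hw] using ext_mono (m := m) (pre := pre) (k := k) hw (F := fun _ => 0) h

lemma ext_abs_le (hw : ∀ p, 0 < w p) (k : ℕ) (pre : List Ω) (F : List Ω → ℝ) :
    |ext m w k pre F| ≤ ext m w k pre (fun q => |F q|) := by
  rw [abs_le, ← ext_neg]
  exact ⟨ext_mono hw fun q => neg_abs_le _, ext_mono hw fun q => le_abs_self _⟩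

lemma ext_bound (hw : ∀ p, 0 < w p) {k : ℕ} {pre : List Ω} {F : List Ω → ℝ} {C : ℝ}
    (h : ∀ q, |F q| ≤ C) : |ext m w k pre F| ≤ C :=
  (ext_abs_le hw k pre F).trans ((ext_mono hw h).trans_eq (ext_const hw k pre C))

/-- conditional Jensen for the square -/
lemma ext_sq_le (hw : ∀ p, 0 < w p) (k : ℕ) (pre : List Ω) (F : List Ω → ℝ) :
    ext m w k pre F ^ 2 ≤ ext m w k pre (fun q => F q ^ 2) := by
  set c := ext m w k pre F with hc
  have h : 0 ≤ ext m w k pre (fun q => (F q - c) ^ 2) := ext_nonneg hw fun q => sq_nonneg _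
  simp only [sub_sq, ext_add, ext_sub, mul_comm (2 : ℝ) (F _), ext_mul_const, ext_const hw,
    ← hc] at h
  nlinarith

end

/-! ### replica expectations -/

@[simp] lemma ET_nil (F : List (List Ω) → ℝ) : ET R m w [] F = F [] := by rw [ET]

lemma ET_cons (p v : ℕ) (T : List (ℕ × ℕ)) (F : List (List Ω) → ℝ) :
    ET R m w ((p, v) :: T) F =
      ET R m w T fun ps => ext m w (R - v) ((ps.getD p []).take v) fun q => F (ps ++ [q]) := by
  rw [ET]

/-- the first replica -/
lemma ET_single (F : List (List Ω) → ℝ) :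
    ET R m w [(0, 0)] F = ext m w R [] fun q => F [q] := by
  simp [ET_cons]

lemma ET_add (T : List (ℕ × ℕ)) (F G : List (List Ω) → ℝ) :
    ET R m w T (fun ps => F ps + G ps) = ET R m w T F + ET R m w T G := by
  induction T generalizing F G with
  | nil => simp
  | cons a T ih => obtain ⟨p, v⟩ := a; simp only [ET_cons, ext_add, ih]

lemma ET_const_mul (T : List (ℕ × ℕ)) (c : ℝ) (F : List (List Ω) → ℝ) :
    ET R m w T (fun ps => c * F ps) = c * ET R m w T F := by
  induction T generalizing F with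
  | nil => simp
  | cons a T ih => obtain ⟨p, v⟩ := a; simp only [ET_cons, ext_const_mul, ih]

lemma ET_mul_const (T : List (ℕ × ℕ)) (c : ℝ) (F : List (List Ω) → ℝ) :
    ET R m w T (fun ps => F ps * c) = ET R m w T F * c := by
  simp only [mul_comm _ c, ET_const_mul]

lemma ET_neg (T : List (ℕ × ℕ)) (F : List (List Ω) → ℝ) :
    ET R m w T (fun ps => -F ps) = -ET R m w T F := by
  simpa using ET_const_mul T (-1) F

lemma ET_sub (T : List (ℕ × ℕ)) (F G : List (List Ω) → ℝ) :
    ET R m w T (fun ps => F ps - G ps) = ET R m w T F - ET R m w T G := by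
  simp only [sub_eq_add_neg, ET_add, ET_neg]

lemma ET_sum {ι : Type*} (s : Finset ι) (T : List (ℕ × ℕ)) (F : ι → List (List Ω) → ℝ) :
    ET R m w T (fun ps => ∑ i ∈ s, F i ps) = ∑ i ∈ s, ET R m w T (F i) := by
  induction T generalizing F with
  | nil => simp
  | cons a T ih => obtain ⟨p, v⟩ := a; simp only [ET_cons, ext_sum, ih]

lemma ET_list_sum {ι : Type*} (L : List ι) (T : List (ℕ × ℕ)) (F : ι → List (List Ω) → ℝ) :
    ET R m w T (fun ps => (L.map fun i => F i ps).sum) =
      (L.map fun i => ET R m w T (F i)).sum := by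
  induction L with
  | nil => simpa using ET_const_mul T 0 fun _ => 0
  | cons a L ih => simp only [List.map_cons, List.sum_cons, ET_add, ih]

/-! ### support -/

lemma valid_split {p v : ℕ} {T : List (ℕ × ℕ)} (h : Valid R ((p, v) :: T)) :
    Valid R T ∧ v ≤ R ∧ ((T = [] ∧ p = 0 ∧ v = 0) ∨ p < T.length) := by
  cases T with
  | nil => obtain ⟨rfl, rfl⟩ := h; exact ⟨trivial, Nat.zero_le _, Or.inl ⟨rfl, rfl, rfl⟩⟩
  | cons b T => obtain ⟨h1, h2, h3⟩ := h; exact ⟨h3, h2, Or.inr h1⟩

lemma valid_cons_of {p v : ℕ} {T : List (ℕ × ℕ)} (h : Valid R T) (hp : p < T.length)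
    (hv : v ≤ R) : Valid R ((p, v) :: T) := by
  cases T with
  | nil => simp at hp
  | cons b T => exact ⟨hp, hv, h⟩

/-- the lists of paths charged by `ET R m w T` -/
def Supp (R : ℕ) (T : List (ℕ × ℕ)) (ps : List (List Ω)) : Prop :=
  ps.length = T.length ∧ (∀ a, a < T.length → (ps.getD a []).length = R) ∧
    ∀ a b, a < T.length → b < T.length →
      (ps.getD a []).take (sp R T a b) = (ps.getD b []).take (sp R T a b)

omit [Fintype Ω] in
lemma take_of_le {q r : List Ω} {v j : ℕ} (h : q.take v = r.take v) (hj : j ≤ v) :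
    q.take j = r.take j := by
  have := congrArg (List.take j) h
  simpa [List.take_take, min_eq_left hj] using this

omit [Fintype Ω] in
lemma supp_snoc {p v : ℕ} {T : List (ℕ × ℕ)} (h : Valid R ((p, v) :: T)) {ps : List (List Ω)}
    (hs : Supp R T ps) {suf : List Ω} (hl : suf.length = R - v) :
    Supp R ((p, v) :: T) (ps ++ [(ps.getD p []).take v ++ suf]) := by
  obtain ⟨hlen, hR, hsp⟩ := hs
  obtain ⟨-, hv, hp⟩ := valid_split h
  have hpre : ((ps.getD p []).take v).length = v := by
    rcases hp with ⟨-, -, rfl⟩ | hp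
    · simp
    · rw [List.length_take, hR p hp, min_eq_left hv]
  set q := (ps.getD p []).take v ++ suf with hq
  have hqv : q.take v = (ps.getD p []).take v := List.take_left' hpre
  have hold : ∀ a, a < T.length → (ps ++ [q]).getD a [] = ps.getD a [] := fun a ha =>
    List.getD_append _ _ _ _ (hlen ▸ ha)
  have hnew : (ps ++ [q]).getD T.length [] = q := by
    rw [List.getD_append_right _ _ _ _ hlen.le]; simp [hlen]
  refine ⟨by simp [hlen], fun a ha => ?_, fun a b ha hb => ?_⟩
  · simp only [List.length_cons] at ha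
    rcases Nat.lt_succ_iff_lt_or_eq.1 ha with ha | rfl
    · rw [hold a ha, hR a ha]
    · rw [hnew, hq, List.length_append, hpre, hl]; omega
  · simp only [List.length_cons] at ha hb
    by_cases hab : a = b
    · rw [hab]
    rcases Nat.lt_succ_iff_lt_or_eq.1 ha with ha | rfl <;>
      rcases Nat.lt_succ_iff_lt_or_eq.1 hb with hb | rfl
    · have e : sp R ((p, v) :: T) a b = sp R T a b := by simp [sp, hab, ha.ne, hb.ne]
      rw [e, hold a ha, hold b hb]; exact hsp a b ha hb
    · have hpT : p < T.length := by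
        rcases hp with ⟨rfl, -, -⟩ | hp
        · simp at ha
        · exact hp
      have e : sp R ((p, v) :: T) a T.length = min v (sp R T a p) := by simp [sp, hab]
      rw [e, hold a ha, hnew, take_of_le (hsp a p ha hpT) (min_le_right _ _),
        take_of_le hqv (min_le_left _ _)]
    · have hpT : p < T.length := by
        rcases hp with ⟨rfl, -, -⟩ | hp
        · simp at hb
        · exact hp
      have e : sp R ((p, v) :: T) T.length b = min v (sp R T p b) := by simp [sp, hab]
      rw [e, hold b hb, hnew, ← take_of_le (hsp p b hpT hb) (min_le_right _ _),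
        take_of_le hqv (min_le_left _ _)]
    · exact absurd rfl hab

lemma ET_congr {T : List (ℕ × ℕ)} (hT : Valid R T) {F G : List (List Ω) → ℝ}
    (h : ∀ ps, Supp R T ps → F ps = G ps) : ET R m w T F = ET R m w T G := by
  induction T generalizing F G with
  | nil => simpa using h [] ⟨rfl, by simp, by simp⟩
  | cons a T ih =>
    obtain ⟨p, v⟩ := a
    simp only [ET_cons]
    exact ih (valid_split hT).1 fun ps hs => ext_congr fun suf hl => h _ (supp_snoc hT hs hl)

section
variable [Nonempty Ω]

lemma ET_const (hw : ∀ p, 0 < w p) (T : List (ℕ × ℕ)) (c : ℝ) :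
    ET R m w T (fun _ => c) = c := by
  induction T with
  | nil => simp
  | cons a T ih => obtain ⟨p, v⟩ := a; simp only [ET_cons, ext_const hw, ih]

lemma ET_mono_on (hw : ∀ p, 0 < w p) {T : List (ℕ × ℕ)} (hT : Valid R T)
    {F G : List (List Ω) → ℝ} (h : ∀ ps, Supp R T ps → F ps ≤ G ps) :
    ET R m w T F ≤ ET R m w T G := by
  induction T generalizing F G with
  | nil => simpa using h [] ⟨rfl, by simp, by simp⟩
  | cons a T ih =>
    obtain ⟨p, v⟩ := a
    simp only [ET_cons]
    exact ih (valid_split hT).1 fun ps hs => ext_mono_on hw fun suf hl => h _ (supp_snoc hT hs hl)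

lemma ET_mono (hw : ∀ p, 0 < w p) {T : List (ℕ × ℕ)} {F G : List (List Ω) → ℝ}
    (h : ∀ ps, F ps ≤ G ps) : ET R m w T F ≤ ET R m w T G := by
  induction T generalizing F G with
  | nil => simpa using h []
  | cons a T ih => obtain ⟨p, v⟩ := a; simp only [ET_cons]; exact ih fun ps => ext_mono hw fun q => h _

lemma ET_nonneg (hw : ∀ p, 0 < w p) {T : List (ℕ × ℕ)} {F : List (List Ω) → ℝ}
    (h : ∀ ps, 0 ≤ F ps) : 0 ≤ ET R m w T F := by
  simpa [ET_const hw] using ET_mono (R := R) (m := m) (T := T) hw (F := fun _ => 0) h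

lemma ET_abs_le (hw : ∀ p, 0 < w p) (T : List (ℕ × ℕ)) (F : List (List Ω) → ℝ) :
    |ET R m w T F| ≤ ET R m w T (fun ps => |F ps|) := by
  rw [abs_le, ← ET_neg]
  exact ⟨ET_mono hw fun q => neg_abs_le _, ET_mono hw fun q => le_abs_self _⟩

lemma ET_bound (hw : ∀ p, 0 < w p) {T : List (ℕ × ℕ)} {F : List (List Ω) → ℝ} {C : ℝ}
    (h : ∀ ps, |F ps| ≤ C) : |ET R m w T F| ≤ C :=
  (ET_abs_le hw T F).trans ((ET_mono hw h).trans_eq (ET_const hw T C))

lemma ET_sq_le (hw : ∀ p, 0 < w p) (T : List (ℕ × ℕ)) (F : List (List Ω) → ℝ) :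
    ET R m w T F ^ 2 ≤ ET R m w T (fun q => F q ^ 2) := by
  set c := ET R m w T F with hc
  have h : 0 ≤ ET R m w T (fun q => (F q - c) ^ 2) := ET_nonneg hw fun q => sq_nonneg _
  simp only [sub_sq, ET_add, ET_sub, mul_comm (2 : ℝ) (F _), ET_mul_const, ET_const hw,
    ← hc] at h
  nlinarith

/-- marginal: dropping the newest replica -/
lemma ET_dropLast (hw : ∀ p, 0 < w p) (x : ℕ × ℕ) (T : List (ℕ × ℕ))
    (F : List (List Ω) → ℝ) :
    ET R m w (x :: T) (fun ps => F ps.dropLast) = ET R m w T F := by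
  obtain ⟨p, v⟩ := x
  simp only [ET_cons, List.dropLast_concat, ext_const hw]

end

end Vale.Agent.P168.MP
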