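import Vale.Agent.P168.MP.Restrict
import Vale.Agent.P168.MP.Calc

/-! The character lemma (A6 of ROUTE.md): under the flat weight the marks of different nodes are
independent and uniform, so the expectation of a product of functions of the marks of selected
replicas is the product over the nodes of the averages. -/

namespace Vale.Agent.P168.MP

open Finset
open Classical

variable {Ω : Type*} [Fintype Ω] {R : ℕ} {m : ℕ → ℝ} {ι : Type*} [Fintype ι]

theorem Lev_chi [Nonempty Ω] {d : ι → ι → ℕ} (hu : Ult R d) (χ : ι → ℕ → Ω → ℝ) :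
    ∀ k, k ≤ R → ∀ pre : ι → List Ω, (∀ i, (pre i).length = R - k) →
      Lev R m (fun _ => 1) d k pre
          (fun P => ∏ i, ∏ l ∈ range R, ((P i)[l]?).elim 1 (χ i (l + 1)))
        = (∏ i, ∏ l ∈ range (R - k), ((pre i)[l]?).elim 1 (χ i (l + 1))) *
          ∏ l ∈ Finset.Ico (R - k) R, ∏ C ∈ classes d (l + 1),
            avg fun o => ∏ i ∈ C, χ i (l + 1) o := by
  intro k
  induction k with
  | zero => intro _ pre _; simp [Lev]
  | succ k ih =>
      intro hk pre hlen
      have hl : R - k ≤ R := Nat.sub_le _ _
      have hj : R - (k + 1) + 1 = R - k := by omega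
      have hsplit : ∀ f : Cls d (R - k) → Ω,
          (∏ i, ∏ l ∈ range (R - k),
            ((pre i ++ [f (cl d (R - k) i)])[l]?).elim 1 (χ i (l + 1)))
          = (∏ i, ∏ l ∈ range (R - (k + 1)), ((pre i)[l]?).elim 1 (χ i (l + 1))) *
            ∏ q : Cls d (R - k), ∏ i ∈ q.1, χ i (R - k) (f q) := by
        intro f
        have hfib : ∏ q : Cls d (R - k), ∏ i ∈ q.1, χ i (R - k) (f q)
            = ∏ i, χ i (R - k) (f (cl d (R - k) i)) := by
          rw [← Finset.prod_fiberwise univ (cl d (R - k)) fun i =>
            χ i (R - k) (f (cl d (R - k) i))]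
          refine Finset.prod_congr rfl fun q _ => Finset.prod_congr ?_ fun i hi => ?_
          · ext i; simp [hu.mem_iff hl]
          · simp only [mem_filter, mem_univ, true_and] at hi
            rw [hi]
        rw [hfib, ← Finset.prod_mul_distrib]
        refine Finset.prod_congr rfl fun i _ => ?_
        rw [show range (R - k) = range (R - (k + 1) + 1) from by rw [hj], Finset.prod_range_succ]
        congr 1
        · refine Finset.prod_congr rfl fun l hl' => ?_
          rw [List.getElem?_append_left (by rw [hlen]; exact mem_range.1 hl')]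
        · rw [List.getElem?_append_right (by rw [hlen]), hlen, Nat.sub_self, hj]
          rfl
      have havg : ∑ f : Cls d (R - k) → Ω, (∏ q, trans m (fun _ => 1) k (pre (rep q)) (f q)) *
          ∏ q : Cls d (R - k), ∏ i ∈ q.1, χ i (R - k) (f q)
          = ∏ C ∈ classes d (R - k), avg fun o => ∏ i ∈ C, χ i (R - k) o := by
        simp only [trans_one, ← Finset.prod_mul_distrib]
        rw [← Fintype.prod_sum fun (q : Cls d (R - k)) o =>
            1 / (Fintype.card Ω : ℝ) * ∏ i ∈ q.1, χ i (R - k) o,
          ← Finset.prod_coe_sort (classes d (R - k))]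
        refine Finset.prod_congr rfl fun q _ => ?_
        rw [avg, ← Finset.mul_sum]
        ring
      have hIco := Finset.prod_eq_prod_Ico_succ_bot
        (show R - (k + 1) < R by omega)
        (fun l => ∏ C ∈ classes d (l + 1), avg fun o => ∏ i ∈ C, χ i (l + 1) o)
      rw [hIco, hj, ← havg, Finset.sum_mul, Finset.mul_sum]
      simp only [Lev]
      refine Finset.sum_congr rfl fun f _ => ?_
      rw [ih (by omega) _ (fun i => by rw [List.length_append, hlen]; simp; omega), hsplit]
      ring

/-- **Character lemma**: product over the selected replicas and the levels of functions of their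
marks; each node contributes the average of the product of the functions read at it. -/
theorem ET_chi [Nonempty Ω] {T : List (ℕ × ℕ)} (hT : Valid R T) (s : ι → ℕ)
    (hsl : ∀ i, s i < T.length) (χ : ι → ℕ → Ω → ℝ) :
    ET R m (fun _ => 1) T
        (fun ps => ∏ i, ∏ l ∈ range R, ((ps.getD (s i) [])[l]?).elim 1 (χ i (l + 1)))
      = ∏ l ∈ range R, ∏ C ∈ classes (fun i j => sp R T (s i) (s j)) (l + 1),
          avg fun o => ∏ i ∈ C, χ i (l + 1) o := by
  rw [ET_sel (fun k pre => sum_trans_one m k pre) hT s hsl
    fun P => ∏ i, ∏ l ∈ range R, ((P i)[l]?).elim 1 (χ i (l + 1)),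
    Lev_chi (ult_sp R T s) χ R le_rfl _ (fun i => by simp), Nat.sub_self]
  simp [← Finset.range_eq_Ico]

/-- averages over products of finite types -/
theorem avg_prod_mul {A B : Type*} [Fintype A] [Fintype B] (f : A → ℝ) (g : B → ℝ) :
    (avg fun o : A × B => f o.1 * g o.2) = avg f * avg g := by
  simp only [avg, Fintype.sum_prod_type, ← Finset.mul_sum, ← Finset.sum_mul, Fintype.card_prod,
    Nat.cast_mul]
  rw [div_mul_div_comm]

/-- averages over finite powers -/
theorem avg_pi_prod {φ : Type*} [Fintype φ] [DecidableEq φ] {A : φ → Type*} [∀ i, Fintype (A i)]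
    (g : ∀ i, A i → ℝ) : (avg fun o : ∀ i, A i => ∏ i, g i (o i)) = ∏ i, avg (g i) := by
  simp only [avg, ← Fintype.prod_sum, Fintype.card_pi, Nat.cast_prod, Finset.prod_div_distrib]

/-- the mean of a power of a random sign -/
theorem avg_sign_pow (n : ℕ) :
    (avg fun b : Bool => (if b then (-1 : ℝ) else 1) ^ n) = if Even n then 1 else 0 := by
  by_cases hn : Even n
  · simp [avg, hn, hn.neg_one_pow]
  · simp [avg, hn, (Nat.not_even_iff_odd.1 hn).neg_one_pow]

/-- **parity**: signs read at nodes average to the parity indicators of the nodes -/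
theorem ET_parity {φ : Type*} [Fintype φ] [DecidableEq φ] {T : List (ℕ × ℕ)} (hT : Valid R T)
    (s : ι → ℕ) (hsl : ∀ i, s i < T.length) (A : ι → ℕ → φ → ℕ) :
    ET R m (fun _ => 1) T (fun ps => ∏ i, ∏ l ∈ range R, ((ps.getD (s i) [])[l]?).elim 1
        fun o : φ → Bool => ∏ f, (if o f then (-1 : ℝ) else 1) ^ A i (l + 1) f)
      = ∏ l ∈ range R, ∏ C ∈ classes (fun i j => sp R T (s i) (s j)) (l + 1),
          if ∀ f, Even (∑ i ∈ C, A i (l + 1) f) then 1 else 0 := by
  rw [ET_chi hT s hsl fun i l (o : φ → Bool) => ∏ f, (if o f then (-1 : ℝ) else 1) ^ A i l f]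
  refine Finset.prod_congr rfl fun l _ => Finset.prod_congr rfl fun C _ => ?_
  calc (avg fun o : φ → Bool => ∏ i ∈ C, ∏ f, (if o f then (-1 : ℝ) else 1) ^ A i (l + 1) f)
      = avg fun o : φ → Bool =>
          ∏ f, (fun b : Bool => (if b then (-1 : ℝ) else 1) ^ ∑ i ∈ C, A i (l + 1) f) (o f) := by
        congr 1
        funext o
        rw [Finset.prod_comm]
        simp only [Finset.prod_pow_eq_pow_sum]
    _ = _ := by
        rw [avg_pi_prod fun f (b : Bool) =>
          (if b then (-1 : ℝ) else 1) ^ ∑ i ∈ C, A i (l + 1) f]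
        simp only [avg_sign_pow]
        rw [Finset.prod_boole]
        simp

/-- two marks of the same kind: correlated exactly when the nodes coincide -/
theorem ET_pair [Nonempty Ω] {T : List (ℕ × ℕ)} (hT : Valid R T) {a b l : ℕ} (ha : a < T.length)
    (hb : b < T.length) (hl : l < R) (e : Ω → ℝ) (he2 : avg (fun o => e o * e o) = 1)
    (he : avg e = 0) :
    ET R m (fun _ => 1) T
        (fun ps => ((ps.getD a [])[l]?).elim 1 e * ((ps.getD b [])[l]?).elim 1 e)
      = if l + 1 ≤ sp R T a b then 1 else 0 := by
  let s : Fin 2 → ℕ := ![a, b]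
  let χ : Fin 2 → ℕ → Ω → ℝ := fun _ l' o => if l' = l + 1 then e o else 1
  have hsl : ∀ i, s i < T.length := by intro i; fin_cases i <;> simp [s, ha, hb]
  have h := ET_chi (m := m) hT s hsl χ
  have hfun : ∀ q : List Ω, ∏ l' ∈ range R, (q[l']?).elim 1 (χ 0 (l' + 1))
      = (q[l]?).elim 1 e := by
    intro q
    rw [Finset.prod_eq_single_of_mem l (mem_range.2 hl)]
    · cases q[l]? <;> simp [χ]
    · intro l' _ hne
      cases q[l']? <;> simp [χ, hne]
  simp only [Fin.prod_univ_two] at h
  rw [show χ 1 = χ 0 from rfl] at h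
  simp only [hfun] at h
  rw [show (fun ps : List (List Ω) => ((ps.getD a [])[l]?).elim 1 e *
      ((ps.getD b [])[l]?).elim 1 e) = fun ps : List (List Ω) =>
        ((ps.getD (s 0) [])[l]?).elim 1 e * ((ps.getD (s 1) [])[l]?).elim 1 e from rfl, h,
    Finset.prod_eq_single_of_mem l (mem_range.2 hl)]
  · have hu := ult_sp R T s
    by_cases hab : l + 1 ≤ sp R T a b
    · have hcl : classes (fun i j : Fin 2 => sp R T (s i) (s j)) (l + 1) = {univ} := by
        have : ∀ i : Fin 2, cls (fun i j : Fin 2 => sp R T (s i) (s j)) (l + 1) i = univ := by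
          intro i
          ext j
          fin_cases i <;> fin_cases j <;>
            simp [cls, s, sp_self, hab, sp_comm R T b a, hl] <;> omega
        simp [classes, funext this, Finset.image_const]
      rw [if_pos hab, hcl, Finset.prod_singleton]
      simp [χ, Fin.prod_univ_two, ← sq] at he2 ⊢
      exact he2
    · have hcl : classes (fun i j : Fin 2 => sp R T (s i) (s j)) (l + 1) = {{0}, {1}} := by
        have : ∀ i : Fin 2, cls (fun i j : Fin 2 => sp R T (s i) (s j)) (l + 1) i = {i} := by
          intro i
          ext j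
          fin_cases i <;> fin_cases j <;>
            simp [cls, s, sp_self, hab, sp_comm R T b a, hl] <;> omega
        ext C
        simp [classes, funext this, Fin.exists_fin_two, eq_comm]
      rw [if_neg hab, hcl, Finset.prod_pair (by simp)]
      simp [χ, he]
  · intro l' _ hne
    refine Finset.prod_eq_one fun C _ => ?_
    simp [χ, hne, avg_const]

end Vale.Agent.P168.MP
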