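import Vale.Agent.P168.MP.AttBasic

/-! Concentration of an observable under a small random tilt (B1 of ROUTE.md). -/

namespace Vale.Agent.P168.MP

open Finset Real MeasureTheory

variable {Ω : Type*} [Fintype Ω] [Nonempty Ω] {R : ℕ} {m : ℕ → ℝ} {w : List Ω → ℝ}

/-- the weight tilted by `u * D` -/
noncomputable def tilt (w D : List Ω → ℝ) (u : ℝ) (p : List Ω) : ℝ := w p * exp (u * D p)

omit [Fintype Ω] [Nonempty Ω] in
lemma Ok.tilt (h : Ok R m w) (D : List Ω → ℝ) (u : ℝ) : Ok R m (tilt w D u) :=
  ⟨h.pos, h.mono, h.top, h.last, fun p => mul_pos (h.wpos p) (exp_pos _)⟩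

omit [Fintype Ω] [Nonempty Ω] in
lemma hasDerivAt_tilt (w D : List Ω → ℝ) (u : ℝ) (p : List Ω) :
    HasDerivAt (fun t => MP.tilt w D t p) (MP.tilt w D u p * D p) u := by
  have h := ((hasDerivAt_id u).mul_const (D p)).exp.const_mul (w p)
  refine h.congr_deriv ?_
  simp [MP.tilt]; ring

/-- mean of a path observable -/
noncomputable def mean1 (R : ℕ) (m : ℕ → ℝ) (w D : List Ω → ℝ) : ℝ :=
  ET R m w [(0, 0)] fun ps => D (ps.getD 0 [])

omit [Nonempty Ω] in
lemma mean1_eq (D : List Ω → ℝ) : mean1 R m w D = ext m w R [] D := by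
  rw [mean1, ET_single]; rfl

lemma abs_mean1_le (h : Ok R m w) {D : List Ω → ℝ} {C : ℝ} (hD : ∀ p, |D p| ≤ C) :
    |mean1 R m w D| ≤ C :=
  ET_bound h.wpos fun _ => hD _

/-- expected square of the conditional mean given the first `l` marks -/
noncomputable def condSq (R : ℕ) (m : ℕ → ℝ) (w D : List Ω → ℝ) (l : ℕ) : ℝ :=
  ext m w R [] fun q => ext m w (R - l) (q.take l) D ^ 2

omit [Nonempty Ω] in
lemma ET_two (D : List Ω → ℝ) (l : ℕ) :
    ET R m w [(0, l), (0, 0)] (fun ps => D (ps.dropLast.getD 0 []) * D (ps.getLastD [])) =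
      ext m w R [] fun q => D q * ext m w (R - l) (q.take l) D := by
  rw [ET_cons, ET_single]
  refine ext_congr fun suf _ => ?_
  simp [ext_const_mul]

lemma ext_cond (h : Ok R m w) (D : List Ω → ℝ) {l : ℕ} (hl : l ≤ R) :
    ext m w R [] (fun q => D q * ext m w (R - l) (q.take l) D) = condSq R m w D l := by
  obtain ⟨b, rfl⟩ := Nat.exists_eq_add_of_le hl
  simp only [condSq, ext_tower, Nat.add_sub_cancel_left]
  refine ext_congr fun pre hpre => ?_
  simp only [List.nil_append]
  have e : ∀ c : List Ω → ℝ → ℝ, ext m w b pre (fun q => c q (ext m w b (q.take l) D)) =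
        ext m w b pre (fun q => c q (ext m w b pre D)) := fun c =>
    ext_congr fun suf _ => by rw [List.take_left' hpre]
  rw [e (fun q x => D q * x), e (fun _ x => x ^ 2), ext_mul_const, ext_const h.wpos]
  ring

/-- the expectation of the square -/
noncomputable def sq1 (R : ℕ) (m : ℕ → ℝ) (w D : List Ω → ℝ) : ℝ :=
  ext m w R [] fun q => D q ^ 2

lemma condSq_le (h : Ok R m w) (D : List Ω → ℝ) {l : ℕ} (hl : l ≤ R) :
    condSq R m w D l ≤ sq1 R m w D := by
  obtain ⟨b, rfl⟩ := Nat.exists_eq_add_of_le hl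
  simp only [condSq, sq1, ext_tower, Nat.add_sub_cancel_left]
  refine ext_mono_on (fun p => Z_pos h.wpos b p) fun pre hpre => ?_
  simp only [List.nil_append]
  rw [ext_congr (G := fun _ => ext m w b pre D ^ 2) fun suf _ => by rw [List.take_left' hpre],
    ext_const h.wpos]
  exact ext_sq_le h.wpos b pre D

lemma range_telescope (f : ℕ → ℝ) : ∀ k a, ((List.range' a k).map fun l => f l - f (l + 1)).sum =
    f a - f (a + k)
  | 0, a => by simp
  | k + 1, a => by
    rw [List.range'_succ, List.map_cons, List.sum_cons, range_telescope f k (a + 1),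
      show a + 1 + k = a + (k + 1) by omega]
    ring

/-- the derivative of the mean dominates the variance -/
lemma var_le_deriv (h : Ok R m w) (hR : 1 ≤ R) (D : List Ω → ℝ) :
    m 1 * (sq1 R m w D - mean1 R m w D ^ 2) ≤ ((att R m [(0, 0)]).map fun c => c.2 *
      ET R m w (c.1 :: [(0, 0)]) fun ps => D (ps.dropLast.getD 0 []) * D (ps.getLastD [])).sum := by
  simp only [att, List.map_append, List.sum_append, List.map_map, Function.comp_def,
    List.map_cons, List.map_nil, List.sum_cons, List.sum_nil, add_zero, List.length_nil,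
    Nat.zero_add, Nat.sub_zero, ET_two]
  have h0 : ext m w R [] (fun q => D q * ext m w (R - 0) (q.take 0) D) = mean1 R m w D ^ 2 := by
    simp only [Nat.sub_zero, List.take_zero, ext_mul_const, mean1_eq, sq]
  rw [Nat.sub_zero] at h0
  rw [h0]
  have h1 : m 1 * sq1 R m w D ≤ ((List.range' 1 R).map fun l =>
      (m l - m (l + 1)) * ext m w R [] fun q => D q * ext m w (R - l) (q.take l) D).sum := by
    have e : ((List.range' 1 R).map fun l => (m l - m (l + 1)) * sq1 R m w D).sum =
        m 1 * sq1 R m w D := by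
      rw [List.sum_map_mul_right, range_telescope, add_comm 1 R, h.last, sub_zero]
    rw [← e]
    refine List.sum_le_sum fun l hl => ?_
    rw [List.mem_range'_1] at hl
    rw [ext_cond h D (by omega : l ≤ R)]
    rcases Nat.lt_or_eq_of_le (show l ≤ R by omega) with hlt | rfl
    · exact mul_le_mul_of_nonpos_left (condSq_le h D hlt.le)
        (by linarith [h.mono l hl.1 hlt])
    · refine le_of_eq (congrArg _ ?_)
      simp only [condSq, sq1, Nat.sub_self, ext_zero]
      refine ext_congr fun suf hs => ?_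
      simp [List.take_of_length_le (le_of_eq hs)]
  linarith

lemma var_eq (h : Ok R m w) (D : List Ω → ℝ) :
    (ET R m w [(0, 0)] fun ps => (D (ps.getD 0 []) - mean1 R m w D) ^ 2) =
      sq1 R m w D - mean1 R m w D ^ 2 := by
  rw [ET_single]
  simp only [List.getD_cons_zero, sub_sq, ext_add, ext_sub, mul_comm (2 : ℝ) (D _), ext_mul_const,
    ext_const h.wpos, sq1, mean1_eq]
  ring

/-- mean absolute deviation -/
noncomputable def mad (R : ℕ) (m : ℕ → ℝ) (w D : List Ω → ℝ) : ℝ :=
  ET R m w [(0, 0)] fun ps => |D (ps.getD 0 []) - mean1 R m w D|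

lemma mad_nonneg (h : Ok R m w) (D : List Ω → ℝ) : 0 ≤ mad R m w D :=
  ET_nonneg h.wpos fun _ => abs_nonneg _

lemma continuous_ET_tilt (h : Ok R m w) (D : List Ω → ℝ) {T : List (ℕ × ℕ)} (hT : Valid R T)
    (F : List (List Ω) → ℝ) : Continuous fun u => ET R m (tilt w D u) T F :=
  continuous_iff_continuousAt.2 fun u =>
    (hasDerivAt_ET_const (h.tilt D u) (hasDerivAt_tilt w D u) hT F).continuousAt

lemma continuous_ext_tilt (h : Ok R m w) (D : List Ω → ℝ) : ∀ (k : ℕ) (pre : List Ω)
    {F : ℝ → List Ω → ℝ}, pre.length + k ≤ R → (∀ q, Continuous fun t => F t q) →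
    Continuous fun t => ext m (tilt w D t) k pre (F t)
  | 0, pre, F, _, hF => by simpa using hF pre
  | k + 1, pre, F, hk, hF => by
    simp only [ext_succ]
    refine continuous_finsetSum _ fun o _ => ?_
    refine Continuous.mul (continuous_iff_continuousAt.2 fun u =>
      (hasDerivAt_trans (h.tilt D u) (hasDerivAt_tilt w D u) hk o).continuousAt) ?_
    exact continuous_ext_tilt h D k _ (by simp; omega) hF

lemma mad_le (h : Ok R m w) (hR : 1 ≤ R) (D : List Ω → ℝ) {t : ℝ} (ht : 0 < t) :
    mad R m w D ≤ ((att R m [(0, 0)]).map fun c => c.2 *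
      ET R m w (c.1 :: [(0, 0)]) fun ps => D (ps.dropLast.getD 0 []) * D (ps.getLastD [])).sum /
        (2 * t * m 1) + t / 2 := by
  have hm := h.pos 1 le_rfl hR
  refine le_trans ?_ (add_le_add (div_le_div_of_nonneg_right (var_le_deriv h hR D) (by positivity))
    le_rfl)
  rw [← var_eq h D, show ∀ x : ℝ, m 1 * x / (2 * t * m 1) = x * (1 / (2 * t)) by
    intro x; field_simp, ← ET_mul_const, ← ET_const h.wpos (R := R) (m := m) [(0, 0)] (t / 2),
    ← ET_add]
  refine ET_mono h.wpos fun ps => ?_
  set x := D (ps.getD 0 []) - mean1 R m w D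
  have : |x| ^ 2 = x ^ 2 := sq_abs x
  have h2 := sq_nonneg (|x| - t)
  rw [show x ^ 2 * (1 / (2 * t)) + t / 2 = (x ^ 2 + t * t) / (2 * t) by field_simp,
    le_div_iff₀ (by positivity)]
  nlinarith

/-- B1: the mean absolute deviation is small on average over the tilt -/
theorem concentration (h : Ok R m w) (hR : 1 ≤ R) {D : List Ω → ℝ} {C ub : ℝ}
    (hD : ∀ p, |D p| ≤ C) (hC : 0 < C) (hub : 0 < ub) :
    ∫ u in (0:ℝ)..ub, mad R m (tilt w D u) D ≤ √(2 * C * ub / m 1) := by
  have hm := h.pos 1 le_rfl hR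
  set V : ℝ → ℝ := fun u => ((att R m [(0, 0)]).map fun c => c.2 *
    ET R m (tilt w D u) (c.1 :: [(0, 0)]) fun ps =>
      D (ps.dropLast.getD 0 []) * D (ps.getLastD [])).sum
  have hV : Continuous V := by
    refine continuous_list_sum _ fun c hc => continuous_const.mul ?_
    exact continuous_ET_tilt h D (att_valid valid_single hc) _
  have hM : ∀ u, HasDerivAt (fun u => mean1 R m (tilt w D u) D) (V u) u := fun u =>
    hasDerivAt_ET_const (h.tilt D u) (hasDerivAt_tilt w D u) valid_single _
  have hmad : Continuous fun u => mad R m (tilt w D u) D := by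
    unfold mad
    simp only [ET_single]
    exact continuous_ext_tilt h D R [] (by simp) fun q =>
      (continuous_const.sub (continuous_iff_continuousAt.2 fun v => (hM v).continuousAt)).abs
  have hint : ∫ u in (0:ℝ)..ub, V u = mean1 R m (tilt w D ub) D - mean1 R m (tilt w D 0) D :=
    intervalIntegral.integral_eq_sub_of_hasDerivAt (fun u _ => hM u) (hV.intervalIntegrable _ _)
  have hI : ∫ u in (0:ℝ)..ub, V u ≤ 2 * C := by
    rw [hint]
    have a := abs_le.1 (abs_mean1_le (h.tilt D ub) hD)
    have b := abs_le.1 (abs_mean1_le (h.tilt D 0) hD)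
    linarith [a.2, b.1]
  set t := √(2 * C / (m 1 * ub))
  have ht : 0 < t := sqrt_pos.2 (by positivity)
  calc ∫ u in (0:ℝ)..ub, mad R m (tilt w D u) D
      ≤ ∫ u in (0:ℝ)..ub, (V u / (2 * t * m 1) + t / 2) :=
        intervalIntegral.integral_mono_on hub.le (hmad.intervalIntegrable _ _)
          (((hV.div_const _).add continuous_const).intervalIntegrable _ _)
          fun u _ => mad_le (h.tilt D u) hR D ht
    _ = (∫ u in (0:ℝ)..ub, V u) / (2 * t * m 1) + ub * (t / 2) := by
        rw [intervalIntegral.integral_add ((hV.div_const _).intervalIntegrable _ _)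
          intervalIntegrable_const, intervalIntegral.integral_div, intervalIntegral.integral_const,
          sub_zero, smul_eq_mul]
    _ ≤ 2 * C / (2 * t * m 1) + ub * (t / 2) := by gcongr
    _ = √(2 * C * ub / m 1) := by
        have e : √(2 * C * ub / m 1) = ub * t := by
          rw [← sqrt_sq hub.le, ← sqrt_mul (sq_nonneg _), sqrt_sq hub.le]
          congr 1; field_simp
        have h2 : t ^ 2 * (m 1 * ub) = 2 * C := by
          rw [sq_sqrt (by positivity)]; field_simp
        rw [e]; field_simp; linarith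

end Vale.Agent.P168.MP
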