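import Vale.Agent.P168.MP.Site
import Vale.Agent.P168.MP.Conc

/-! Chains of derivatives, elementary bounds and the exchange step (B2 of ROUTE.md). -/

namespace Vale.Agent.P168.MP

open Finset

section chain
variable {Ω : Type*} [Fintype Ω] {R : ℕ} {m : ℕ → ℝ} {w g : List Ω → ℝ}

lemma attSeq_succ_sum (φ : List (ℕ × ℕ) × ℝ → ℝ) : ∀ (j : ℕ) (T : List (ℕ × ℕ)),
    ((attSeq R m (j + 1) T).map φ).sum = ((attSeq R m j T).map fun d =>
      ((att R m d.1).map fun c => φ (c.1 :: d.1, d.2 * c.2)).sum).sum
  | 0, T => by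
    simp [attSeq, List.flatMap_def, List.map_flatten, List.sum_flatten, List.map_map, Function.comp_def]
  | j + 1, T => by
    conv_lhs => rw [attSeq]
    conv_rhs => rw [attSeq]
    simp only [List.map_flatMap, List.map_map, Function.comp_def]
    simp only [List.flatMap_def, List.sum_flatten, List.map_map, Function.comp_def]
    refine congrArg List.sum (List.map_congr_left fun c _ => ?_)
    rw [attSeq_succ_sum (fun d => φ (d.1, c.2 * d.2)) j (c.1 :: T)]
    simp only [mul_assoc]

/-- the `j`-th derivative along a tilt -/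
noncomputable def chain (R : ℕ) (m : ℕ → ℝ) (w g : List Ω → ℝ) (T : List (ℕ × ℕ))
    (H : List (List Ω) → ℝ) (j : ℕ) (s : ℝ) : ℝ :=
  ((attSeq R m j T).map fun d => d.2 * ET R m (tilt w g s) d.1 fun ps =>
    H (ps.take T.length) * ∏ t ∈ range j, g (ps.getD (T.length + t) [])).sum

lemma chain_zero {T : List (ℕ × ℕ)} (hT : Valid R T) (H : List (List Ω) → ℝ) (s : ℝ) :
    chain R m w g T H 0 s = ET R m (tilt w g s) T H := by
  simp only [chain, attSeq, List.map_cons, List.map_nil, List.sum_cons, List.sum_nil, add_zero,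
    one_mul, Finset.range_zero, Finset.prod_empty, mul_one]
  exact ET_congr hT fun ps hs => by rw [← hs.1, List.take_length]

variable [Nonempty Ω]

lemma hasDerivAt_list_sum {α : Type*} (L : List α) {f : α → ℝ → ℝ} {f' : α → ℝ} {x : ℝ}
    (h : ∀ a ∈ L, HasDerivAt (f a) (f' a) x) :
    HasDerivAt (fun t => (L.map fun a => f a t).sum) (L.map f').sum x := by
  induction L with
  | nil => simpa using hasDerivAt_const x (0 : ℝ)
  | cons a L ih =>
    simpa using (h a (List.mem_cons_self ..)).fun_add (ih fun b hb => h b (List.mem_cons_of_mem _ hb))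

lemma hasDerivAt_chain (hok : Ok R m w) {T : List (ℕ × ℕ)} (hT : Valid R T)
    (H : List (List Ω) → ℝ) (j : ℕ) (s : ℝ) :
    HasDerivAt (chain R m w g T H j) (chain R m w g T H (j + 1) s) s := by
  have h := hasDerivAt_list_sum (attSeq R m j T) (x := s)
    (f := fun d t => d.2 * ET R m (tilt w g t) d.1 fun ps =>
      H (ps.take T.length) * ∏ t ∈ range j, g (ps.getD (T.length + t) []))
    (fun d hd => (hasDerivAt_ET_const (hok.tilt g s) (hasDerivAt_tilt w g s)
      (attSeq_mem j hT d hd).1 _).const_mul d.2)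
  refine h.congr_deriv ?_
  rw [chain, attSeq_succ_sum]
  refine congrArg List.sum (List.map_congr_left fun d hd => ?_)
  obtain ⟨hd1, hd2⟩ := attSeq_mem j hT d hd
  rw [← List.sum_map_mul_left]
  refine congrArg List.sum (List.map_congr_left fun c hc => ?_)
  rw [← mul_assoc]
  congr 1
  refine ET_congr (att_valid hd1 hc) fun ps hs => ?_
  have hl : ps.length = T.length + j + 1 := by rw [hs.1]; simp [hd2]
  obtain ⟨qs, q, rfl⟩ : ∃ qs q, ps = qs ++ [q] := by
    refine ⟨ps.dropLast, ps.getLast (by intro h; simp [h] at hl), ?_⟩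
    rw [List.dropLast_append_getLast]
  have hq : qs.length = T.length + j := by simp at hl; omega
  rw [List.dropLast_concat, List.getLastD_concat, Finset.prod_range_succ,
    List.take_append_of_le_length (by omega), List.getD_append_right _ _ _ _ hq.le]
  have e : ∀ t ∈ range j, g ((qs ++ [q]).getD (T.length + t) []) = g (qs.getD (T.length + t) []) :=
    fun t ht => by rw [List.getD_append _ _ _ _ (by rw [hq]; simp at ht; omega)]
  rw [Finset.prod_congr rfl e]
  rw [← hq, Nat.sub_self]
  simp only [List.getD_cons_zero]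
  ring

lemma abs_chain_le (hok : Ok R m w) {T : List (ℕ × ℕ)} (hT : Valid R T)
    {H : List (List Ω) → ℝ} {CH Cg : ℝ} (hH : ∀ ps, |H ps| ≤ CH) (hg : ∀ p, |g p| ≤ Cg)
    (j : ℕ) (s : ℝ) : |chain R m w g T H j s| ≤ seqBound R j T.length * (CH * Cg ^ j) := by
  have hCH : 0 ≤ CH := (abs_nonneg _).trans (hH [])
  have hCg : 0 ≤ Cg := (abs_nonneg _).trans (hg [])
  refine (abs_sum_map_le _ _).trans ((List.sum_le_sum (g := fun d => |d.2| * (CH * Cg ^ j)) ?_).trans ?_)
  · intro d _
    rw [abs_mul]
    refine mul_le_mul_of_nonneg_left (ET_bound (hok.tilt g s).wpos fun ps => ?_) (abs_nonneg _)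
    rw [abs_mul, Finset.abs_prod]
    refine mul_le_mul (hH _) ?_ (prod_nonneg fun _ _ => abs_nonneg _) hCH
    calc ∏ t ∈ range j, |g (ps.getD (T.length + t) [])| ≤ ∏ _t ∈ range j, Cg :=
          prod_le_prod (fun _ _ => abs_nonneg _) fun t _ => hg _
      _ = Cg ^ j := by simp
  · rw [List.sum_map_mul_right]
    exact mul_le_mul_of_nonneg_right (abs_attSeq hok j hT) (by positivity)

omit [Fintype Ω] [Nonempty Ω] in
lemma tilt_zero (w g : List Ω → ℝ) : tilt w g 0 = w := by
  funext p; simp [tilt]

lemma abs_ET_tilt_sub (hok : Ok R m w) {T : List (ℕ × ℕ)} (hT : Valid R T)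
    {H : List (List Ω) → ℝ} {CH Cg : ℝ} (hH : ∀ ps, |H ps| ≤ CH) (hg : ∀ p, |g p| ≤ Cg) (u : ℝ) :
    |ET R m (tilt w g u) T H - ET R m w T H| ≤ seqBound R 1 T.length * (CH * Cg) * |u| := by
  have main : ∀ (g : List Ω → ℝ), (∀ p, |g p| ≤ Cg) → ∀ s : ℝ, 0 ≤ s →
      |ET R m (tilt w g s) T H - ET R m w T H| ≤ seqBound R 1 T.length * (CH * Cg) * s := by
    intro g hg s hs
    have h := abs_sub_le_of_deriv hs (fun x _ => hasDerivAt_chain (g := g) hok hT H 0 x)
      (fun x _ => abs_chain_le hok hT hH hg 1 x)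
    rwa [chain_zero hT, chain_zero hT, tilt_zero, pow_one] at h
  rcases le_or_gt 0 u with hu | hu
  · rw [abs_of_nonneg hu]; exact main g hg u hu
  · rw [abs_of_neg hu]
    have := main (fun p => -g p) (fun p => by rw [abs_neg]; exact hg p) (-u) (by linarith)
    rwa [show tilt w (fun p => -g p) (-u) = tilt w g u by funext p; simp [tilt]] at this

end chain

section bounds
variable {N : ℕ} (b : Batch) (σ : Fin N → Bool) (s : ℕ → Site N b.k)

lemma abs_phi_le (a : Fin (b.k + 1)) : |phi b σ s a| ≤ 1 := by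
  have h1 : |(Fin.cons 1 (fun a => sg ((s 1).2.2.1 a)) : Fin (b.k + 1) → ℝ) a| = 1 := by
    induction a using Fin.cases with
    | zero => simp
    | succ c => simp
  have h2 : |if b.spin a then sg (σ (s 1).1) else 1| = 1 := by split <;> simp
  have h3 : |∏ q : Pair b.k, if q.1.1 = a ∨ q.1.2 = a then xiv b s q else 1| ≤ 1 := by
    rw [Finset.abs_prod]
    exact Finset.prod_le_one (fun _ _ => abs_nonneg _) fun q _ => by split <;> simp [xiv]
  rw [phi, abs_mul, abs_mul, h1, h2, one_mul, one_mul]
  exact h3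

lemma abs_psi0_le : |psi0 b σ s| ≤ 1 := by
  rw [psi0, abs_mul, abs_mul, Finset.abs_prod, Finset.abs_prod]
  have h2 : ∀ q : Pair b.k, |if (s 1).2.1 q then (-1:ℝ) else 1| = 1 := fun q => by split <;> simp
  simp only [abs_sg, h2, Finset.prod_const_one, mul_one]
  exact abs_phi_le b σ s 0

lemma abs_psiH_le : |psiH b σ s| ≤ b.k := by
  refine (abs_sum_le_sum_abs _ _).trans ((sum_le_sum fun a _ => abs_phi_le b σ s a.succ).trans ?_)
  simp

end bounds

variable {N S : ℕ} [NeZero N] {ι : Type} [DecidableEq ι] {β : ι → Batch}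

omit [DecidableEq ι] in
lemma abs_batchSum_le (R : ℕ) (j : ι) (p : List (Mark N S β)) : |batchSum R j p| ≤ S := by
  refine (abs_sum_le_sum_abs _ _).trans ((sum_le_sum fun i _ => abs_psi0_le _ _ _).trans ?_)
  simp

/-- exchange two sites of the same batch -/
def swapMark (j : ι) (a c : Fin S) : Mark N S β ≃ Mark N S β :=
  Function.Involutive.toPerm
    (fun o => (o.1, Function.update (Function.update o.2 (j, a) (o.2 (j, c))) (j, c) (o.2 (j, a))))
    fun o => by
      refine Prod.ext rfl (funext fun y => ?_)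
      simp only
      by_cases hc : y = (j, c)
      · subst hc
        by_cases hac : a = c
        · subst hac; simp
        · simp [Function.update_of_ne, Prod.ext_iff, hac]
      · by_cases ha : y = (j, a)
        · subst ha; simp [Function.update_of_ne, hc]
        · simp [Function.update_of_ne, hc, ha]

omit [NeZero N] in
lemma swapMark_apply (j : ι) (a c : Fin S) (o : Mark N S β) :
    swapMark j a c o =
      (o.1, Function.update (Function.update o.2 (j, a) (o.2 (j, c))) (j, c) (o.2 (j, a))) := rfl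

lemma swapMark_default (j : ι) (a c : Fin S) : swapMark (β := β) (N := N) j a c default = default := by
  rw [swapMark_apply]
  refine Prod.ext rfl (funext fun y => ?_)
  by_cases hc : y = (j, c)
  · subst hc; simp; rfl
  · by_cases ha : y = (j, a)
    · subst ha; simp [Function.update_of_ne, hc]; rfl
    · simp [Function.update_of_ne, hc, ha]

lemma getD_swap (j : ι) (a c : Fin S) (p : List (Mark N S β)) (i : ℕ) :
    (p.map (swapMark j a c)).getD i default = swapMark j a c (p.getD i default) := by
  conv_lhs => rw [← swapMark_default (β := β) j a c]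
  rw [List.getD_map]

lemma spinAt_swap (R : ℕ) (j : ι) (a c : Fin S) (p : List (Mark N S β)) :
    spinAt R (p.map (swapMark j a c)) = spinAt R p := by
  simp only [spinAt, getD_swap, swapMark_apply]

lemma siteAt_swap_right (j : ι) (a c : Fin S) (p : List (Mark N S β)) :
    siteAt (p.map (swapMark j a c)) (j, c) = siteAt p (j, a) := by
  funext l
  simp only [siteAt, getD_swap, swapMark_apply, Function.update_self]

lemma siteAt_swap_left (j : ι) (a c : Fin S) (p : List (Mark N S β)) :
    siteAt (p.map (swapMark j a c)) (j, a) = siteAt p (j, c) := by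
  funext l
  by_cases hac : a = c
  · subst hac; simp only [siteAt, getD_swap, swapMark_apply, Function.update_self]
  · have h : ((j, a) : ι × Fin S) ≠ (j, c) := by simp [hac]
    simp only [siteAt, getD_swap, swapMark_apply, Function.update_of_ne h, Function.update_self]

lemma siteAt_swap_ne (j : ι) (a c : Fin S) (p : List (Mark N S β)) {y : ι × Fin S}
    (ha : y ≠ (j, a)) (hc : y ≠ (j, c)) :
    siteAt (p.map (swapMark j a c)) y = siteAt p y := by
  funext l
  simp only [siteAt, getD_swap, swapMark_apply, Function.update_of_ne hc, Function.update_of_ne ha]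

variable [Fintype ι] {R : ℕ} {m : ℕ → ℝ} {W : (Fin N → Bool) → ℝ} {h u : ι → ℝ}

lemma pw_swap (j : ι) (a c : Fin S) (p : List (Mark N S β)) :
    pw R W h u (p.map (swapMark j a c)) = pw R W h u p := by
  rw [pw, pw, spinAt_swap]
  congr 2
  refine Fintype.sum_equiv (Equiv.swap (j, a) (j, c)) _ _ fun y => ?_
  rw [gain1, gain1, spinAt_swap]
  by_cases ha : y = (j, a)
  · subst ha; rw [Equiv.swap_apply_left, siteAt_swap_left]
  · by_cases hc : y = (j, c)
    · subst hc; rw [Equiv.swap_apply_right, siteAt_swap_right]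
    · rw [Equiv.swap_apply_of_ne_of_ne ha hc, siteAt_swap_ne j a c p ha hc]

omit [DecidableEq ι] in
lemma ok_pw (hm1 : ∀ l, 1 ≤ l → l ≤ R → 0 < m l) (hm2 : ∀ l, 1 ≤ l → l < R → m l ≤ m (l + 1))
    (hm3 : m R = 1) (hm4 : m (R + 1) = 0) (hW : ∀ σ, 0 < W σ) :
    Ok R m (pw (S := S) (β := β) R W h u) :=
  ⟨hm1, hm2, hm3, hm4, fun _ => mul_pos (hW _) (Real.exp_pos _)⟩

/-- B2: exchange -/
theorem exchange (hok : Ok R m (pw (S := S) (β := β) R W h u)) (j : ι) (a : Fin S)
    {T : List (ℕ × ℕ)} (hT : Valid R T) (hne : T ≠ [])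
    {F : List (Fin N → Bool) → ℝ} (hF : ∀ σs, |F σs| ≤ 1) :
    |ET R m (pw (S := S) (β := β) R W h u) T (fun ps => F (ps.map (spinAt R)) *
        psi0 (β j) (spinAt R (ps.getD 0 [])) (siteAt (ps.getD 0 []) (j, a))) -
      ET R m (pw (S := S) (β := β) R W h u) T (fun ps => F (ps.map (spinAt R))) *
        (mean1 R m (pw (S := S) (β := β) R W h u) (batchSum R j) / S)| ≤
      mad R m (pw (S := S) (β := β) R W h u) (batchSum R j) / S := by
  set w := pw (S := S) (β := β) R W h u
  set D := batchSum (N := N) (S := S) (β := β) R j with hD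
  have hS : (0:ℝ) < S := by exact_mod_cast a.pos
  set X : Fin S → ℝ := fun c => ET R m w T fun ps => F (ps.map (spinAt R)) *
    psi0 (β j) (spinAt R (ps.getD 0 [])) (siteAt (ps.getD 0 []) (j, c))
  have hX : ∀ c, X c = X a := fun c => by
    simp only [X]
    rw [ET_map (e := swapMark j a c) (fun p => pw_swap j a c p)]
    refine congrArg _ (funext fun ps => ?_)
    have e1 : (ps.map (List.map (swapMark j a c))).map (spinAt R) = ps.map (spinAt R) := by
      simp [List.map_map, Function.comp_def, spinAt_swap]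
    have e2 : (ps.map (List.map (swapMark j a c))).getD 0 [] = (ps.getD 0 []).map (swapMark j a c) := by
      conv_lhs => rw [show ([] : List (Mark N S β)) = List.map (swapMark j a c) [] from rfl]
      rw [List.getD_map]
    rw [e1, e2, spinAt_swap, siteAt_swap_right]
  have hsum : ET R m w T (fun ps => F (ps.map (spinAt R)) * D (ps.getD 0 [])) = S * X a := by
    simp only [hD, batchSum, mul_sum, ET_sum]
    rw [Finset.sum_congr rfl fun c _ => hX c]
    simp
  have hmain : |S * X a - ET R m w T (fun ps => F (ps.map (spinAt R))) * mean1 R m w D| ≤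
      mad R m w D := by
    rw [← hsum, ← ET_mul_const, ← ET_sub]
    refine (ET_abs_le hok.wpos _ _).trans ?_
    rw [mad, ← ET_first hok.wpos hT hne fun p => |D p - mean1 R m w D|]
    refine ET_mono hok.wpos fun ps => ?_
    rw [← mul_sub, abs_mul]
    exact mul_le_of_le_one_left (abs_nonneg _) (hF _)
  rw [show X a - _ * (mean1 R m w D / S) =
    (S * X a - ET R m w T (fun ps => F (ps.map (spinAt R))) * mean1 R m w D) / S by field_simp,
    abs_div, abs_of_pos hS]
  exact div_le_div_of_nonneg_right hmain hS.le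

end Vale.Agent.P168.MP
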