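import Mathlib

/-! Finite hierarchical structures used for the Mézard-Parisi formula.

A structure is given by a finite mark type `Ω`, exponents `m 1 ≤ ... ≤ m R = 1` (with `m (R+1) = 0`)
and a positive weight `w` on paths (lists of length `R`). The prior is uniform at every level.
Lists of attachments `T` are stored newest first; `(p, v)` means that the new replica shares the
first `v` marks with replica `p` (the first replica being `(0, 0)`). -/

namespace Vale.Agent.P168.MP

open Finset

variable {Ω : Type*} [Fintype Ω]

/-- average over one uniform mark -/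
noncomputable def avg (f : Ω → ℝ) : ℝ := (∑ o, f o) / Fintype.card Ω

/-- `Z m w k pre`: the nested power mean with `k` levels below the prefix `pre`. -/
noncomputable def Z (m : ℕ → ℝ) (w : List Ω → ℝ) : ℕ → List Ω → ℝ
  | 0, pre => w pre
  | k + 1, pre =>
      (avg fun o => Z m w k (pre ++ [o]) ^ m (pre.length + 1)) ^ (1 / m (pre.length + 1))

/-- the nested log functional -/
noncomputable def logZ0 (R : ℕ) (m : ℕ → ℝ) (w : List Ω → ℝ) : ℝ := Real.log (Z m w R [])

/-- tilted transition probabilities -/
noncomputable def trans (m : ℕ → ℝ) (w : List Ω → ℝ) (k : ℕ) (pre : List Ω) (o : Ω) : ℝ :=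
  Z m w k (pre ++ [o]) ^ m (pre.length + 1) /
    ∑ o', Z m w k (pre ++ [o']) ^ m (pre.length + 1)

/-- expectation over the extension of `pre` by `k` tilted marks -/
noncomputable def ext (m : ℕ → ℝ) (w : List Ω → ℝ) : ℕ → List Ω → (List Ω → ℝ) → ℝ
  | 0, pre, F => F pre
  | k + 1, pre, F => ∑ o, trans m w k pre o * ext m w k (pre ++ [o]) F

/-- expectation over the replicas described by `T` (newest first); replicas are listed oldest
first in the argument of `F` -/
noncomputable def ET (R : ℕ) (m : ℕ → ℝ) (w : List Ω → ℝ) :
    List (ℕ × ℕ) → (List (List Ω) → ℝ) → ℝ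
  | [], F => F []
  | (p, v) :: T, F =>
      ET R m w T fun ps => ext m w (R - v) ((ps.getD p []).take v) fun q => F (ps ++ [q])

/-- attachment points with their coefficients: the derivative of a replica expectation is the
signed sum over these of the expectation with one more replica -/
noncomputable def att (R : ℕ) (m : ℕ → ℝ) : List (ℕ × ℕ) → List ((ℕ × ℕ) × ℝ)
  | [] => []
  | (p, v) :: T =>
      ((List.range' (v + 1) (R - v)).map fun l => ((T.length, l), m l - m (l + 1))) ++
        (((p, v), -m (v + 1)) :: att R m T)

/-- number of common marks of replicas `a` and `b` -/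
def sp (R : ℕ) : List (ℕ × ℕ) → ℕ → ℕ → ℕ
  | [], _, _ => R
  | (p, v) :: T, a, b =>
      if a = b then R
      else if a = T.length then min v (sp R T p b)
      else if b = T.length then min v (sp R T a p)
      else sp R T a b

/-- well-formed attachment lists -/
def Valid (R : ℕ) : List (ℕ × ℕ) → Prop
  | [] => True
  | [(p, v)] => p = 0 ∧ v = 0
  | (p, v) :: T => p < T.length ∧ v ≤ R ∧ Valid R T

/-- standing hypotheses on the exponents and the weight -/
structure Ok (R : ℕ) (m : ℕ → ℝ) (w : List Ω → ℝ) : Prop where
  pos : ∀ l, 1 ≤ l → l ≤ R → 0 < m l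
  mono : ∀ l, 1 ≤ l → l < R → m l ≤ m (l + 1)
  top : m R = 1
  last : m (R + 1) = 0
  wpos : ∀ p, 0 < w p

end Vale.Agent.P168.MP
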