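import Vale.Agent.P168.Core
import Vale.Agent.P168.MP.Defs

/-! The perturbation: batches of isolated clauses carried by the marks of a structure. -/

namespace Vale.Agent.P168.MP

open Finset Real

/-- A batch: features `0..k`, the level of every pair of features, and which features read a spin. -/
structure Batch where
  /-- number of features besides the feature `0` -/
  k : ℕ
  /-- levels of the pairs of features -/
  lev : Fin (k + 1) → Fin (k + 1) → ℕ
  /-- the features that read a spin -/
  spin : Fin (k + 1) → Bool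

/-- unordered pairs of features -/
abbrev Pair (k : ℕ) : Type := {q : Fin (k + 1) × Fin (k + 1) // q.1 < q.2}

/-- mark of one site: position, `J`, `eps`, `xi` -/
abbrev Site (N k : ℕ) : Type := Fin N × (Pair k → Bool) × (Fin k → Bool) × (Pair k → Bool)

/-- mark of a node: configuration and the marks of all sites -/
abbrev Mark (N S : ℕ) {ι : Type} (β : ι → Batch) : Type :=
  (Fin N → Bool) × ((i : ι × Fin S) → Site N (β i.1).k)

variable {N S : ℕ} [NeZero N] {ι : Type} {β : ι → Batch}

/-- the configuration of a path -/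
def spinAt (R : ℕ) (p : List (Mark N S β)) : Fin N → Bool := (p.getD (R - 1) default).1

/-- the mark of site `i` at level `l` of a path -/
def siteAt (p : List (Mark N S β)) (i : ι × Fin S) (l : ℕ) : Site N (β i.1).k :=
  (p.getD (l - 1) default).2 i

variable (b : Batch)

/-- the sign of the pair `q`, read at level `lev q + J q` -/
def xiv (s : ℕ → Site N b.k) (q : Pair b.k) : ℝ :=
  sg ((s (b.lev q.1.1 q.1.2 + if (s 1).2.1 q then 1 else 0)).2.2.2 q)

/-- the value of feature `a` -/
def phi (σ : Fin N → Bool) (s : ℕ → Site N b.k) (a : Fin (b.k + 1)) : ℝ :=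
  (Fin.cons 1 (fun a => sg ((s 1).2.2.1 a)) : Fin (b.k + 1) → ℝ) a *
    (if b.spin a then sg (σ (s 1).1) else 1) *
      ∏ q : Pair b.k, if q.1.1 = a ∨ q.1.2 = a then xiv b s q else 1

/-- the observable of a site -/
def psi0 (σ : Fin N → Bool) (s : ℕ → Site N b.k) : ℝ :=
  phi b σ s 0 * (∏ a, sg ((s 1).2.2.1 a)) * ∏ q, if (s 1).2.1 q then -1 else 1

/-- the field of a site -/
def psiH (σ : Fin N → Bool) (s : ℕ → Site N b.k) : ℝ := ∑ a : Fin b.k, phi b σ s a.succ

/-- contribution of site `i` to the exponent -/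
def gain1 (R : ℕ) (h u : ι → ℝ) (p : List (Mark N S β)) (i : ι × Fin S) : ℝ :=
  h i.1 * psiH (β i.1) (spinAt R p) (siteAt p i) + u i.1 * psi0 (β i.1) (spinAt R p) (siteAt p i)

/-- the perturbed weight -/
noncomputable def pw [Fintype ι] (R : ℕ) (W : (Fin N → Bool) → ℝ) (h u : ι → ℝ)
    (p : List (Mark N S β)) : ℝ :=
  W (spinAt R p) * exp (∑ i : ι × Fin S, gain1 R h u p i)

/-- the sum of the observables of batch `j` along a path -/
def batchSum (R : ℕ) (j : ι) (p : List (Mark N S β)) : ℝ :=
  ∑ i : Fin S, psi0 (β j) (spinAt R p) (siteAt p (j, i))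

/-- sequences of `j` successive attachments, with the product of the coefficients -/
noncomputable def attSeq (R : ℕ) (m : ℕ → ℝ) : ℕ → List (ℕ × ℕ) → List (List (ℕ × ℕ) × ℝ)
  | 0, T => [(T, 1)]
  | j + 1, T => (att R m T).flatMap fun c =>
      (attSeq R m j (c.1 :: T)).map fun d => (d.1, c.2 * d.2)

/-- the kernel: overlap of the marked replicas times the shape of the pairs -/
noncomputable def kappa (R : ℕ) (T : List (ℕ × ℕ)) (pos : Fin (b.k + 1) → ℕ)
    (σs : List (Fin N → Bool)) : ℝ :=
  avg (fun v : Fin N => ∏ a, if b.spin a then sg ((σs.getD (pos a) default) v) else 1) *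
    ∏ q : Pair b.k, if sp R T (pos q.1.1) (pos q.1.2) = b.lev q.1.1 q.1.2 then 1 else 0

/-- positions of the features: `0` at the first replica, `a` at the new replica `e a` -/
def posOf (n : ℕ) {k : ℕ} (e : Equiv.Perm (Fin k)) : Fin (k + 1) → ℕ :=
  Fin.cons 0 fun a => n + (e a : ℕ)

variable {Ω : Type*} [Fintype Ω]

/-- the order `k` term: all attachments of `k` marked replicas in all orders; `rd` reads the
configuration of a path -/
noncomputable def Dk (R : ℕ) (m : ℕ → ℝ) (w : List Ω → ℝ) (rd : List Ω → Fin N → Bool)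
    (T : List (ℕ × ℕ)) (F : List (Fin N → Bool) → ℝ) : ℝ :=
  ((attSeq R m b.k T).map fun d => d.2 * ∑ e : Equiv.Perm (Fin b.k), ET R m w d.1 fun ps =>
    F ((ps.take T.length).map rd) * kappa b R d.1 (posOf T.length e) (ps.map rd)).sum

end Vale.Agent.P168.MP
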