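import Vale.Agent.P168.MP.Defs
import Vale.Agent.P168.MP.Pert

/-! Level-labelled trees: shapes of replicas, their kernels and their node values (section C of ROUTE.md). -/

namespace Vale.Agent.P168.MP

open Finset

mutual
/-- a tree whose leaves are replicas and whose internal nodes carry a level -/
inductive LT : Type where
  | leaf : LT
  | node : ℕ → LF → LT
/-- a forest: the children of a node -/
inductive LF : Type where
  | nil : LF
  | cons : LT → LF → LF
end

/-- number of trees of a forest -/
def LF.length : LF → ℕ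
  | .nil => 0
  | .cons _ cs => cs.length + 1

mutual
/-- number of leaves -/
def LT.size : LT → ℕ
  | .leaf => 1
  | .node _ cs => LT.sizes cs
/-- number of leaves of a forest -/
def LT.sizes : LF → ℕ
  | .nil => 0
  | .cons c cs => c.size + LT.sizes cs
end

/-- level of the top node (`R` for a leaf) -/
def LT.top (R : ℕ) : LT → ℕ
  | .leaf => R
  | .node l _ => l

mutual
/-- level at which the leaves `i` and `j` (depth-first order) split -/
def LT.lv (R : ℕ) : LT → ℕ → ℕ → ℕ
  | .leaf, _, _ => R
  | .node l cs, i, j => LT.lvs R l cs i j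
/-- splitting level inside a forest hanging at a node of level `l` -/
def LT.lvs (R l : ℕ) : LF → ℕ → ℕ → ℕ
  | .nil, _, _ => l
  | .cons c cs, i, j =>
      if i < c.size then (if j < c.size then c.lv R i j else l)
      else if j < c.size then l
      else LT.lvs R l cs (i - c.size) (j - c.size)
end

mutual
/-- levels increase strictly from the node level `l` downwards and stay below `R`; every node has
at least two children -/
def LT.Wf (R : ℕ) : ℕ → LT → Prop
  | _, .leaf => True
  | lo, .node l cs => lo < l ∧ l < R ∧ 2 ≤ cs.length ∧ LT.Wfs R l cs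
/-- well-formedness of a forest under a node of level `l` -/
def LT.Wfs (R : ℕ) : ℕ → LF → Prop
  | _, .nil => True
  | l, .cons c cs => LT.Wf R l c ∧ LT.Wfs R l cs
end

/-- attachment list (newest first) realizing the leaves of `t` in depth-first order: leaf `i`
hangs from leaf `i - 1` at their splitting level -/
def LT.attach (R : ℕ) (t : LT) : List (ℕ × ℕ) :=
  ((List.range t.size).map fun i => if i = 0 then (0, 0) else (i - 1, t.lv R (i - 1) i)).reverse

/-- the batch of a tree: features are the leaves -/
def LT.batch (R : ℕ) (t : LT) (spin : ℕ → Bool) : Batch where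
  k := t.size - 1
  lev a b := t.lv R a b
  spin a := spin a

section values

variable {Ω : Type*} [Fintype Ω] {N : ℕ}

/-- tilted expectation of a function of the level-`l` prefix below `pre` -/
noncomputable def up (R : ℕ) (m : ℕ → ℝ) (w : List Ω → ℝ) (l : ℕ) (pre : List Ω)
    (F : List Ω → ℝ) : ℝ :=
  ext m (Z m w (R - l)) (l - pre.length) pre F

mutual
/-- node value: conditional mean, below the prefix `pre`, of the product of the spins of the
leaves of `t` at the site `v` -/
noncomputable def nv (R : ℕ) (m : ℕ → ℝ) (w : List Ω → ℝ) (rd : List Ω → Fin N → Bool) :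
    LT → List Ω → Fin N → ℝ
  | .leaf, pre, v => up R m w R pre fun p => sg (rd p v)
  | .node l cs, pre, v => up R m w l pre fun p => nvs R m w rd cs p v
/-- product of the values of a forest -/
noncomputable def nvs (R : ℕ) (m : ℕ → ℝ) (w : List Ω → ℝ) (rd : List Ω → Fin N → Bool) :
    LF → List Ω → Fin N → ℝ
  | .nil, _, _ => 1
  | .cons c cs, p, v => nv R m w rd c p v * nvs R m w rd cs p v
end

/-- normalised inner product over the sites -/
noncomputable def ip (x y : Fin N → ℝ) : ℝ := avg fun v => x v * y v

/-- `Lam t l`: mean squared value of `t` at level `l` -/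
noncomputable def Lam (R : ℕ) (m : ℕ → ℝ) (w : List Ω → ℝ) (rd : List Ω → Fin N → Bool)
    (t : LT) (l : ℕ) : ℝ :=
  up R m w l [] fun p => ip (nv R m w rd t p) (nv R m w rd t p)

/-- deviation of the top value of `t` from its value at level `η` along the path `p` -/
noncomputable def dev (R : ℕ) (m : ℕ → ℝ) (w : List Ω → ℝ) (rd : List Ω → Fin N → Bool)
    (t : LT) (η : ℕ) (p : List Ω) (v : Fin N) : ℝ :=
  nv R m w rd t (p.take (t.top R)) v - nv R m w rd t (p.take η) v

/-- purity of `t` below level `η`: two independent children of a node at level `η` -/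
noncomputable def dtwin (R : ℕ) (m : ℕ → ℝ) (w : List Ω → ℝ) (rd : List Ω → Fin N → Bool)
    (t : LT) (η : ℕ) : ℝ :=
  ET R m w [(0, η), (0, 0)] fun ps =>
    ip (dev R m w rd t η (ps.getD 0 [])) (dev R m w rd t η (ps.getD 1 [])) ^ 2

/-- the overlap of the top values of two copies of `t` -/
noncomputable def twinK (R : ℕ) (m : ℕ → ℝ) (w : List Ω → ℝ) (rd : List Ω → Fin N → Bool)
    (t : LT) (p q : List Ω) : ℝ :=
  ip (nv R m w rd t (p.take (t.top R))) (nv R m w rd t (q.take (t.top R)))

/-- the standing hypothesis of section C: all identities of order at most `kmax` hold up to `E` -/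
def Ident (R : ℕ) (m : ℕ → ℝ) (w : List Ω → ℝ) (rd : List Ω → Fin N → Bool) [NeZero N]
    (kmax : ℕ) (E : ℝ) : Prop :=
  ∀ (b : Batch), b.k ≤ kmax →
    (∀ q : Pair b.k, 1 ≤ b.lev q.1.1 q.1.2 ∧ b.lev q.1.1 q.1.2 < R) →
    ∀ (T : List (ℕ × ℕ)), Valid R T → T ≠ [] → T.length ≤ kmax + 1 →
    ∀ (F : List (Fin N → Bool) → ℝ), (∀ x, |F x| ≤ 1) →
      |Dk b R m w rd T F -
        ET R m w T (fun ps => F (ps.map rd)) * Dk b R m w rd [(0, 0)] (fun _ => 1)| ≤ E

/-- linear exponents -/
noncomputable def lin (R : ℕ) (l : ℕ) : ℝ := if l ≤ R then (l : ℝ) / R else 0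

end values

end Vale.Agent.P168.MP
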