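import Vale.Agent.P168.MP.Exchange
import Vale.Agent.P168.MP.Shape

/-! Growing the perturbed system by one site (section D of ROUTE.md): the position of a site is
read at level one only, so the new site is seen by the perturbation with probability `O(1/N)`. -/

namespace Vale.Agent.P168.MP

open Finset Real

section generic
variable {Ω Λ : Type*} [Fintype Ω] [Fintype Λ] {m : ℕ → ℝ} {w : List Ω → ℝ} {w0 : List Λ → ℝ}

lemma avg_equiv (e : Ω ≃ Λ) (f : Λ → ℝ) : avg (fun o => f (e o)) = avg f := by
  simp only [avg, Fintype.card_congr e, Equiv.sum_comp e f]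

lemma avg_prod_eq (f : Ω × Λ → ℝ) : avg f = avg fun a => avg fun b => f (a, b) := by
  simp only [avg, Fintype.card_prod, Fintype.sum_prod_type, Nat.cast_mul, ← Finset.sum_div,
    div_div]
  rw [mul_comm]

/-- marks may be projected along a map with uniform fibres -/
lemma Z_fibre (f : Ω → Λ) (hf : ∀ g : Λ → ℝ, avg (fun o => g (f o)) = avg g) {j : ℕ} :
    ∀ (k : ℕ) (pre : List Ω),
      (∀ suf : List Ω, suf.length = k → Z m w j (pre ++ suf) = Z m w0 j ((pre ++ suf).map f)) →
      Z m w (k + j) pre = Z m w0 (k + j) (pre.map f)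
  | 0, pre, h => by simpa using h [] rfl
  | k + 1, pre, h => by
    rw [show k + 1 + j = (k + j) + 1 by omega, Z, Z, List.length_map]
    have e : ∀ o, Z m w (k + j) (pre ++ [o]) = Z m w0 (k + j) (pre.map f ++ [f o]) := fun o => by
      rw [Z_fibre f hf k (pre ++ [o]) fun suf hs => by simpa using h (o :: suf) (by simp [hs])]
      simp
    simp only [e]
    rw [hf fun l => Z m w0 (k + j) (pre.map f ++ [l]) ^ m (pre.length + 1)]

lemma avg_le_avg {f g : Ω → ℝ} (h : ∀ o, f o ≤ g o) : avg f ≤ avg g :=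
  div_le_div_of_nonneg_right (sum_le_sum fun o _ => h o) (Nat.cast_nonneg _)

/-- nested means lie between the leaf averages of bounds depending on the last mark only -/
lemma Z_between [Nonempty Ω] {R : ℕ} (hok : Ok R m w) {lo hi : Ω → ℝ} (hlo : ∀ o, 0 < lo o)
    (h : ∀ p o, p.length + 1 = R → lo o ≤ w (p ++ [o]) ∧ w (p ++ [o]) ≤ hi o) :
    ∀ (k : ℕ) (pre : List Ω), pre.length + (k + 1) = R →
      avg lo ≤ Z m w (k + 1) pre ∧ Z m w (k + 1) pre ≤ avg hi
  | 0, pre, hk => by
    have e : Z m w 1 pre = avg fun o => w (pre ++ [o]) := by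
      simp only [Z, show pre.length + 1 = R by omega, hok.top, rpow_one, div_one]
    rw [e]
    exact ⟨avg_le_avg fun o => (h _ _ (by omega)).1, avg_le_avg fun o => (h _ _ (by omega)).2⟩
  | k + 1, pre, hk => by
    have hM : 0 < m (pre.length + 1) := hok.pos _ (by omega) (by omega)
    have ih := fun o => Z_between hok hlo h k (pre ++ [o]) (by simp; omega)
    have hpos : 0 < avg lo := avg_pos hlo
    have hhi : 0 ≤ avg hi := hpos.le.trans ((ih (Classical.arbitrary Ω)).1.trans (ih _).2)
    rw [Z]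
    constructor
    · calc avg lo = (avg fun _ : Ω => avg lo ^ m (pre.length + 1)) ^ (1 / m (pre.length + 1)) := by
            rw [avg_const, one_div, rpow_rpow_inv hpos.le hM.ne']
        _ ≤ _ := rpow_le_rpow (by rw [avg_const]; positivity)
            (avg_le_avg fun o => rpow_le_rpow hpos.le (ih o).1 hM.le) (by positivity)
    · calc (avg fun o => Z m w (k + 1) (pre ++ [o]) ^ m (pre.length + 1)) ^ (1 / m (pre.length + 1))
          ≤ (avg fun _ : Ω => avg hi ^ m (pre.length + 1)) ^ (1 / m (pre.length + 1)) :=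
            rpow_le_rpow (avg_pos fun o => rpow_pos_of_pos (Z_pos hok.wpos _ _) _).le
              (avg_le_avg fun o => rpow_le_rpow (Z_pos hok.wpos _ _).le (ih o).2 hM.le)
              (by positivity)
        _ = avg hi := by rw [avg_const, one_div, rpow_rpow_inv hhi hM.ne']

/-- log of two averages that agree on an embedded part -/
lemma log_avg_extend [Nonempty Ω] [Nonempty Λ] (e : Ω → Λ) (he : Function.Injective e) {f : Ω → ℝ}
    {g : Λ → ℝ} (heq : ∀ a, g (e a) = f a) {L U : ℝ} (hL : 0 < L)
    (hf : ∀ a, L ≤ f a ∧ f a ≤ U) (hg : ∀ b, L ≤ g b ∧ g b ≤ U) :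
    |log (avg g) - log (avg f)| ≤
      (1 - (Fintype.card Ω : ℝ) / Fintype.card Λ) * ((U - L) / L) := by
  classical
  have hX : L ≤ avg f ∧ avg f ≤ U := ⟨(avg_const L).symm.trans_le (avg_le_avg fun a => (hf a).1),
    (avg_le_avg fun a => (hf a).2).trans_eq (avg_const U)⟩
  have hY : L ≤ avg g := (avg_const L).symm.trans_le (avg_le_avg fun b => (hg b).1)
  have hn := card_pos_real (Ω := Ω)
  have hn' := card_pos_real (Ω := Λ)
  have hd : |avg g - avg f| ≤ (1 - (Fintype.card Ω : ℝ) / Fintype.card Λ) * (U - L) := by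
    have h1 : ∑ b ∈ univ.image e, g b = Fintype.card Ω * avg f := by
      rw [Finset.sum_image fun a _ b _ h => he h, avg, mul_div_cancel₀ _ hn.ne']
      exact sum_congr rfl fun a _ => heq a
    have hc : ((univ.image e).card : ℝ) = Fintype.card Ω := by
      rw [Finset.card_image_of_injective _ he, Finset.card_univ]
    have h2 : avg g - avg f = (∑ b ∈ (univ.image e)ᶜ, (g b - avg f)) / Fintype.card Λ := by
      rw [show avg g = (∑ b, g b) / Fintype.card Λ from rfl, Finset.sum_sub_distrib,
        ← Finset.sum_add_sum_compl (univ.image e) g, h1, Finset.sum_const, nsmul_eq_mul,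
        Finset.card_compl, Nat.cast_sub (Finset.card_le_univ _), hc]
      field_simp
      ring
    rw [h2, abs_div, Nat.abs_cast, div_le_iff₀ hn']
    refine (abs_sum_le_sum_abs _ _).trans ((sum_le_sum (g := fun _ => U - L) fun b _ => ?_).trans ?_)
    · rw [abs_le]; constructor <;> linarith [(hg b).1, (hg b).2, hX.1, hX.2]
    · rw [Finset.sum_const, nsmul_eq_mul, Finset.card_compl, Nat.cast_sub (Finset.card_le_univ _), hc]
      field_simp
      exact le_of_eq (by ring)
  have key : ∀ a b : ℝ, L ≤ a → L ≤ b → log a - log b ≤ |a - b| / L := fun a b ha hb => by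
    have hb0 : 0 < b := hL.trans_le hb
    rw [← log_div (hL.trans_le ha).ne' hb0.ne']
    refine (log_le_sub_one_of_pos (div_pos (hL.trans_le ha) hb0)).trans ?_
    rw [div_sub_one hb0.ne']
    calc (a - b) / b ≤ |a - b| / b := div_le_div_of_nonneg_right (le_abs_self _) hb0.le
      _ ≤ _ := div_le_div_of_nonneg_left (abs_nonneg _) hL hb
  rw [← mul_div_assoc]
  refine le_trans ?_ (div_le_div_of_nonneg_right hd hL.le)
  rw [abs_le]
  constructor
  · have := key _ _ hX.1 hY; rw [abs_sub_comm] at this; linarith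
  · exact key _ _ hY hX.1

end generic

lemma avg_mul_left {Ω : Type*} [Fintype Ω] (a : ℝ) (f : Ω → ℝ) :
    avg (fun o => a * f o) = a * avg f := by
  simp only [avg, ← mul_sum, mul_div_assoc]

lemma abs_gainsum {N S : ℕ} [NeZero N] {ι : Type} [Fintype ι] {β : ι → Batch} {R : ℕ} {h u : ι → ℝ}
    (p : List (Mark N S β)) :
    |∑ i : ι × Fin S, gain1 R h u p i| ≤ S * ∑ j, (|h j| * (β j).k + |u j|) := by
  refine (abs_sum_le_sum_abs _ _).trans ?_
  rw [Fintype.sum_prod_type, Finset.mul_sum]
  refine sum_le_sum fun j _ => ?_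
  refine (sum_le_sum (g := fun _ => |h j| * (β j).k + |u j|) fun i _ => ?_).trans (by simp [mul_add])
  rw [gain1]
  refine (abs_add_le _ _).trans (add_le_add ?_ ?_) <;> rw [abs_mul]
  · exact mul_le_mul_of_nonneg_left (abs_psiH_le _ _ _) (abs_nonneg _)
  · exact mul_le_of_le_one_right (abs_nonneg _) (abs_psi0_le _ _ _)

/-! ### projecting out the positions -/

section transfer
variable {N N' : ℕ} (b : Batch) {σ : Fin N → Bool} {σ' : Fin N' → Bool}
  {s : ℕ → Site N b.k} {s' : ℕ → Site N' b.k}

lemma phi_transfer (hv : σ' (s' 1).1 = σ (s 1).1) (hs : ∀ l, (s' l).2 = (s l).2)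
    (a : Fin (b.k + 1)) : phi b σ' s' a = phi b σ s a := by
  simp only [phi, xiv, hv, hs]

lemma psi0_transfer (hv : σ' (s' 1).1 = σ (s 1).1) (hs : ∀ l, (s' l).2 = (s l).2) :
    psi0 b σ' s' = psi0 b σ s := by
  simp only [psi0, phi_transfer b hv hs, hs]

lemma psiH_transfer (hv : σ' (s' 1).1 = σ (s 1).1) (hs : ∀ l, (s' l).2 = (s l).2) :
    psiH b σ' s' = psiH b σ s := by
  simp only [psiH, phi_transfer b hv hs]

end transfer

variable {N S : ℕ} [NeZero N] {ι : Type} [Fintype ι] [DecidableEq ι] {β : ι → Batch}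

/-- a mark without its positions -/
abbrev Bare (N S : ℕ) {ι : Type} (β : ι → Batch) : Type :=
  (Fin N → Bool) × ((i : ι × Fin S) →
    (Pair (β i.1).k → Bool) × (Fin (β i.1).k → Bool) × (Pair (β i.1).k → Bool))

/-- forget the positions -/
def down (o : Mark N S β) : Bare N S β := (o.1, fun i => (o.2 i).2)

/-- forget the positions and the new spin -/
def downS (o : Mark (N + 1) S β) : Bare N S β := (fun x => o.1 x.castSucc, fun i => (o.2 i).2)

/-- a mark is positions and the rest -/
def bareEquiv : (ι × Fin S → Fin N) × Bare N S β ≃ Mark N S β where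
  toFun q := (q.2.1, fun i => (q.1 i, q.2.2 i))
  invFun o := (fun i => (o.2 i).1, down o)
  left_inv _ := rfl
  right_inv _ := rfl

/-- a mark of the larger system -/
def bareEquivS : (ι × Fin S → Fin (N + 1)) × (Bare N S β × Bool) ≃ Mark (N + 1) S β where
  toFun q := ((Fin.snoc q.2.1.1 q.2.2 : Fin (N + 1) → Bool), fun i => (q.1 i, q.2.1.2 i))
  invFun o := (fun i => (o.2 i).1, downS o, o.1 (Fin.last N))
  left_inv q := by simp [downS]
  right_inv o := by
    refine Prod.ext ?_ rfl
    funext x
    induction x using Fin.lastCases with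
    | last => simp
    | cast x => simp [downS]

omit [NeZero N] in
lemma down_bareEquiv (v : ι × Fin S → Fin N) (a : Bare N S β) : down (bareEquiv (v, a)) = a := rfl

omit [NeZero N] in
lemma downS_bareEquivS (v : ι × Fin S → Fin (N + 1)) (q : Bare N S β × Bool) :
    downS (bareEquivS (v, q)) = q.1 ∧ (bareEquivS (v, q)).1 (Fin.last N) = q.2 := by
  simp [bareEquivS, downS]

lemma avg_down (g : Bare N S β → ℝ) : avg (fun o : Mark N S β => g (down o)) = avg g := by
  rw [← avg_equiv bareEquiv, avg_prod_eq]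
  simp only [down_bareEquiv, avg_const]

lemma avg_downS (g : Bare N S β → Bool → ℝ) :
    avg (fun o : Mark (N + 1) S β => g (downS o) (o.1 (Fin.last N))) =
      avg fun a => avg fun c => g a c := by
  rw [← avg_equiv bareEquivS, avg_prod_eq]
  simp only [(downS_bareEquivS _ _).1, (downS_bareEquivS _ _).2]
  rw [avg_const, avg_prod_eq]

/-- configuration of a bare path -/
def spinB (R : ℕ) (p : List (Bare N S β)) : Fin N → Bool := (p.getD (R - 1) default).1

/-- a site of a bare path with given positions -/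
def siteB (v : ι × Fin S → Fin N) (p : List (Bare N S β)) (i : ι × Fin S) (l : ℕ) :
    Site N (β i.1).k :=
  (v i, (p.getD (l - 1) default).2 i)

/-- exponent of a bare path with given positions -/
def gainB (R : ℕ) (h u : ι → ℝ) (v : ι × Fin S → Fin N) (p : List (Bare N S β)) : ℝ :=
  ∑ i : ι × Fin S, (h i.1 * psiH (β i.1) (spinB R p) (siteB v p i) +
    u i.1 * psi0 (β i.1) (spinB R p) (siteB v p i))

/-- weight of a bare path with given positions -/
noncomputable def bareW (R : ℕ) (W : (Fin N → Bool) → ℝ) (h u : ι → ℝ) (v : ι × Fin S → Fin N)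
    (p : List (Bare N S β)) : ℝ :=
  W (spinB R p) * exp (gainB R h u v p)

omit [Fintype ι] [DecidableEq ι] in
lemma getD_down (p : List (Mark N S β)) (i : ℕ) :
    (p.map down).getD i default = down (p.getD i default) := by
  rw [show (default : Bare N S β) = down (default : Mark N S β) from rfl, List.getD_map]

omit [Fintype ι] [DecidableEq ι] in
lemma getD_downS (p : List (Mark (N + 1) S β)) (i : ℕ) :
    (p.map downS).getD i default = downS (p.getD i default) := by
  rw [show (default : Bare N S β) = downS (default : Mark (N + 1) S β) from rfl, List.getD_map]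

omit [DecidableEq ι] in
lemma pw_down (R : ℕ) (W : (Fin N → Bool) → ℝ) (h u : ι → ℝ) (p : List (Mark N S β)) :
    pw R W h u p = bareW R W h u (fun i => ((p.getD 0 default).2 i).1) (p.map down) := by
  have hσ : spinB R (p.map down) = spinAt R p := by
    simp only [spinB, getD_down, down]; rfl
  rw [pw, bareW, hσ, gainB]
  congr 2
  refine sum_congr rfl fun i _ => ?_
  have hv : spinAt R p (siteAt p i 1).1 =
      spinB R (p.map down) (siteB (fun i => ((p.getD 0 default).2 i).1) (p.map down) i 1).1 := by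
    rw [hσ]; rfl
  have hs : ∀ l, (siteAt p i l).2 =
      (siteB (fun i => ((p.getD 0 default).2 i).1) (p.map down) i l).2 := fun l => by
    simp only [siteB, getD_down, down]; rfl
  rw [gain1, psiH_transfer (β i.1) hv hs, psi0_transfer (β i.1) hv hs]

omit [DecidableEq ι] in
lemma gain_downS (R : ℕ) (h u : ι → ℝ) (p : List (Mark (N + 1) S β)) (v : ι × Fin S → Fin N)
    (hp : ∀ i, ((p.getD 0 default).2 i).1 = (v i).castSucc) :
    ∑ i : ι × Fin S, gain1 R h u p i = gainB R h u v (p.map downS) := by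
  refine sum_congr rfl fun i _ => ?_
  have hv : spinAt R p (siteAt p i 1).1 = spinB R (p.map downS) (siteB v (p.map downS) i 1).1 := by
    simp only [spinB, getD_downS, downS, siteB, spinAt, siteAt, Nat.sub_self, hp]
  have hs : ∀ l, (siteAt p i l).2 = (siteB v (p.map downS) i l).2 := fun l => by
    simp only [siteB, getD_downS, downS]; rfl
  rw [gain1, psiH_transfer (β i.1) hv hs, psi0_transfer (β i.1) hv hs]

/-- constant of the growth bound -/
noncomputable def growC (R S : ℕ) {ι : Type} [Fintype ι] (β : ι → Batch) : ℝ :=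
  R * (Fintype.card ι * S) * exp (2 * (S * ∑ j, ((β j).k + 1 : ℝ)))

lemma ok_lin {Ω : Type*} {R : ℕ} (hR : 1 ≤ R) {w : List Ω → ℝ} (hw : ∀ p, 0 < w p) :
    Ok R (lin R) w where
  pos l h1 h2 := by
    have : (0:ℝ) < R := by exact_mod_cast hR
    have : (0:ℝ) < l := by exact_mod_cast h1
    simp only [lin, if_pos h2]; positivity
  mono l _ h2 := by
    simp only [lin, if_pos h2.le, if_pos (show l + 1 ≤ R by omega)]
    push_cast; gcongr; linarith
  top := by
    have : (R:ℝ) ≠ 0 := by exact_mod_cast (show R ≠ 0 by omega)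
    simp [lin, this]
  last := by simp [lin]
  wpos := hw

theorem grow_bound {R : ℕ} (hR : 2 ≤ R) {W : (Fin N → Bool) → ℝ} (hW : ∀ σ, 0 < W σ)
    {c : (Fin N → Bool) → Bool → ℝ} (hc : ∀ σ s, 0 < c σ s) {h u : ι → ℝ}
    (hh : ∀ j, |h j| ≤ 1) (hu : ∀ j, |u j| ≤ 1) :
    |logZ0 R (lin R) (pw (N := N + 1) (S := S) (β := β) R
        (fun τ => W (fun x => τ x.castSucc) * c (fun x => τ x.castSucc) (τ (Fin.last N))) h u) -
      logZ0 R (lin R) (pw (N := N) (S := S) (β := β) R (fun σ => W σ * avg (c σ)) h u)| ≤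
      growC R S β / ((N:ℝ) + 1) := by
  obtain ⟨r, rfl⟩ : ∃ r, R = r + 2 := ⟨R - 2, by omega⟩
  set m := lin (r + 2)
  set Wg : (Fin (N + 1) → Bool) → ℝ :=
    fun τ => W (fun x => τ x.castSucc) * c (fun x => τ x.castSucc) (τ (Fin.last N))
  set Wb : (Fin N → Bool) → ℝ := fun σ => W σ * avg (c σ)
  have hcb : ∀ σ, 0 < avg (c σ) := fun σ => avg_pos (hc σ)
  have hWg : ∀ τ, 0 < Wg τ := fun τ => mul_pos (hW _) (hc _ _)
  have hWb : ∀ σ, 0 < Wb σ := fun σ => mul_pos (hW _) (hcb _)
  have okN := ok_lin (R := r + 2) (by omega) (w := pw (N := N) (S := S) (β := β) (r + 2) Wb h u)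
    fun p => mul_pos (hWb _) (exp_pos _)
  have okS := ok_lin (R := r + 2) (by omega) (w := pw (N := N + 1) (S := S) (β := β) (r + 2) Wg h u)
    fun p => mul_pos (hWg _) (exp_pos _)
  set wN := pw (N := N) (S := S) (β := β) (r + 2) Wb h u with hwN
  set wS := pw (N := N + 1) (S := S) (β := β) (r + 2) Wg h u with hwS
  set G : ℝ := S * ∑ j, ((β j).k + 1 : ℝ)
  -- the exponent is bounded
  have hG : S * ∑ j, (|h j| * (β j).k + |u j|) ≤ G := by
    refine mul_le_mul_of_nonneg_left (sum_le_sum fun j _ => ?_) (Nat.cast_nonneg _)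
    have := mul_le_of_le_one_left (Nat.cast_nonneg (α := ℝ) (β j).k) (hh j)
    linarith [hu j]
  have hg : ∀ {M : ℕ} [NeZero M] (p : List (Mark M S β)),
      exp (-G) ≤ exp (∑ i : ι × Fin S, gain1 (r + 2) h u p i) ∧
        exp (∑ i : ι × Fin S, gain1 (r + 2) h u p i) ≤ exp G := fun p => by
    have := abs_le.1 ((abs_gainsum (R := r + 2) (h := h) (u := u) p).trans hG)
    exact ⟨exp_le_exp.2 this.1, exp_le_exp.2 this.2⟩
  -- bounds on the values at level one
  set B := avg fun σ : Fin N → Bool => Wb σ with hBdef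
  have hB : 0 < B := avg_pos hWb
  have hlastN : ∀ (p : List (Mark N S β)) o, p.length = r + 1 → spinAt (r + 2) (p ++ [o]) = o.1 :=
    fun p o hp => by simp [spinAt, List.getD_eq_getElem?_getD, hp]
  have hlastS : ∀ (p : List (Mark (N + 1) S β)) o, p.length = r + 1 →
      spinAt (r + 2) (p ++ [o]) = o.1 :=
    fun p o hp => by simp [spinAt, List.getD_eq_getElem?_getD, hp]
  have eN : avg (fun o : Mark N S β => Wb o.1) = B := by
    refine (avg_down (g := fun a : Bare N S β => Wb a.1)).trans ?_
    rw [avg_prod_eq, hBdef]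
    simp only [avg_const]
  have eS : avg (fun o : Mark (N + 1) S β => Wg o.1) = B := by
    refine (avg_downS (g := fun (a : Bare N S β) s => W a.1 * c a.1 s)).trans ?_
    rw [avg_prod_eq, hBdef]
    simp only [avg_const]
    refine congrArg avg (funext fun σ => ?_)
    simp only [Wb, avg, ← mul_sum, mul_div_assoc]
  have bN : ∀ o, exp (-G) * B ≤ Z m wN (r + 1) [o] ∧ Z m wN (r + 1) [o] ≤ exp G * B := fun o => by
    have := Z_between okN (lo := fun o : Mark N S β => exp (-G) * Wb o.1) (hi := fun o => exp G * Wb o.1)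
      (fun o => mul_pos (exp_pos _) (hWb _)) (fun p o hp => by
        rw [hwN, pw, hlastN p o (by omega), mul_comm (exp (-G)), mul_comm (exp G)]
        exact ⟨mul_le_mul_of_nonneg_left (hg _).1 (hWb _).le,
          mul_le_mul_of_nonneg_left (hg _).2 (hWb _).le⟩) r [o] (by simp; omega)
    rwa [avg_mul_left, avg_mul_left, eN] at this
  have bS : ∀ o, exp (-G) * B ≤ Z m wS (r + 1) [o] ∧ Z m wS (r + 1) [o] ≤ exp G * B := fun o => by
    have := Z_between okS (lo := fun o : Mark (N + 1) S β => exp (-G) * Wg o.1) (hi := fun o => exp G * Wg o.1)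
      (fun o => mul_pos (exp_pos _) (hWg _)) (fun p o hp => by
        rw [hwS, pw, hlastS p o (by omega), mul_comm (exp (-G)), mul_comm (exp G)]
        exact ⟨mul_le_mul_of_nonneg_left (hg _).1 (hWg _).le,
          mul_le_mul_of_nonneg_left (hg _).2 (hWg _).le⟩) r [o] (by simp; omega)
    rwa [avg_mul_left, avg_mul_left, eS] at this
  -- equal values when no site reads the new spin
  have hA : ∀ (v : ι × Fin S → Fin N) (a : Bare N S β),
      Z m wN (r + 1) [bareEquiv (v, a)] = Z m (bareW (r + 2) Wb h u v) (r + 1) [a] := by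
    intro v a
    refine Z_fibre (w0 := bareW (r + 2) Wb h u v) down avg_down (j := 0) (r + 1) [bareEquiv (v, a)]
      fun suf _ => ?_
    simp only [Z, hwN, pw_down]
    rfl
  have hA' : ∀ (v : ι × Fin S → Fin N) (a : Bare N S β) (s : Bool),
      Z m wS (r + 1) [bareEquivS (fun i => (v i).castSucc, a, s)] =
        Z m (bareW (r + 2) Wb h u v) (r + 1) [a] := by
    intro v a s
    have e := Z_fibre (m := m) (w := wS) (w0 := bareW (r + 2) Wb h u v) downS
      (fun g => by rw [avg_downS fun a _ => g a]; simp only [avg_const]) (j := 1) r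
      [bareEquivS (fun i => (v i).castSucc, a, s)] fun suf hs => ?_
    · rw [e]; simp [(downS_bareEquivS _ _).1]
    set p := [bareEquivS (fun i => (v i).castSucc, a, s)] ++ suf with hp
    have hl : p.length = r + 1 := by simp [hp, hs]
    have hm1 : m (p.length + 1) = 1 := by
      rw [hl, show r + 1 + 1 = r + 2 by omega]; exact okS.top
    simp only [Z, List.length_map, hm1, rpow_one, div_one]
    have hv : ∀ o i, (((p ++ [o]).getD 0 default).2 i).1 = (v i).castSucc := fun o i => by
      simp [hp, bareEquivS]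
    have hb : ∀ q : Bare N S β, spinB (r + 2) (p.map downS ++ [q]) = q.1 := fun q => by
      simp [spinB, List.getD_eq_getElem?_getD, hl]
    have e2 : ∀ o, wS (p ++ [o]) = (fun (q : Bare N S β) t => W q.1 * c q.1 t *
        exp (gainB (r + 2) h u v (p.map downS ++ [q]))) (downS o) (o.1 (Fin.last N)) := fun o => by
      rw [hwS, pw, hlastS p o hl, gain_downS (r + 2) h u (p ++ [o]) v (hv o), List.map_append]
      rfl
    simp only [e2]
    rw [avg_downS (fun (q : Bare N S β) t => W q.1 * c q.1 t *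
      exp (gainB (r + 2) h u v (p.map downS ++ [q])))]
    refine congrArg avg (funext fun q => ?_)
    simp only [bareW, hb, Wb, avg, ← Finset.sum_mul, ← mul_sum]
    ring
  -- compare the averages over the positions
  have hm : 0 < m 1 := okS.pos 1 le_rfl (by omega)
  set f : (ι × Fin S → Fin N) → ℝ := fun v => avg fun a => Z m wN (r + 1) [bareEquiv (v, a)] ^ m 1
  set g : (ι × Fin S → Fin (N + 1)) → ℝ :=
    fun v => avg fun q : Bare N S β × Bool => Z m wS (r + 1) [bareEquivS (v, q)] ^ m 1
  have eZN : Z m wN (r + 2) [] = avg f ^ (1 / m 1) := by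
    rw [Z, List.length_nil, Nat.zero_add, ← avg_equiv bareEquiv, avg_prod_eq]; rfl
  have eZS : Z m wS (r + 2) [] = avg g ^ (1 / m 1) := by
    rw [Z, List.length_nil, Nat.zero_add, ← avg_equiv bareEquivS, avg_prod_eq]; rfl
  set L := (exp (-G) * B) ^ m 1
  set U := (exp G * B) ^ m 1
  have hL : 0 < L := rpow_pos_of_pos (mul_pos (exp_pos _) hB) _
  have bf : ∀ v, L ≤ f v ∧ f v ≤ U := fun v =>
    ⟨(avg_const L).symm.trans_le (avg_le_avg fun a => rpow_le_rpow (by positivity) (bN _).1 hm.le),
      (avg_le_avg fun a => rpow_le_rpow (Z_pos okN.wpos _ _).le (bN _).2 hm.le).trans_eq (avg_const U)⟩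
  have bg : ∀ v, L ≤ g v ∧ g v ≤ U := fun v =>
    ⟨(avg_const L).symm.trans_le (avg_le_avg fun a => rpow_le_rpow (by positivity) (bS _).1 hm.le),
      (avg_le_avg fun a => rpow_le_rpow (Z_pos okS.wpos _ _).le (bS _).2 hm.le).trans_eq (avg_const U)⟩
  have heq : ∀ v : ι × Fin S → Fin N, g (fun i => (v i).castSucc) = f v := fun v => by
    simp only [g, f]
    rw [avg_prod_eq]
    simp only [hA, hA', avg_const]
  have hlog := log_avg_extend (fun (v : ι × Fin S → Fin N) i => (v i).castSucc)
    (fun a b hab => funext fun i => Fin.castSucc_injective _ (congrFun hab i)) heq hL bf bg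
  rw [Fintype.card_fun, Fintype.card_fun, Fintype.card_fin, Fintype.card_fin, Fintype.card_prod,
    Fintype.card_fin, Nat.cast_pow, Nat.cast_pow, ← div_pow] at hlog
  have hN1 : (0:ℝ) < (N:ℝ) + 1 := by positivity
  set P := Fintype.card ι * S
  have hfrac : 1 - ((N:ℝ) / ((N + 1 : ℕ) : ℝ)) ^ P ≤ (P : ℝ) / ((N:ℝ) + 1) := by
    push_cast
    have h1 := one_add_mul_le_pow (show (-2:ℝ) ≤ -(1 / ((N:ℝ) + 1)) by
      rw [le_neg]; exact (div_le_iff₀ hN1).2 (by linarith [show (0:ℝ) ≤ N by positivity])) P
    rw [show (1:ℝ) + -(1 / ((N:ℝ) + 1)) = (N:ℝ) / ((N:ℝ) + 1) by field_simp; ring] at h1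
    rw [show (P:ℝ) / ((N:ℝ) + 1) = (P:ℝ) * (1 / ((N:ℝ) + 1)) by ring]
    linarith
  have hUL : (U - L) / L ≤ exp (2 * G) := by
    have hG0 : 0 ≤ G := mul_nonneg (Nat.cast_nonneg _) (sum_nonneg fun j _ => by positivity)
    have : U / L ≤ exp (2 * G) := by
      rw [← div_rpow (by positivity) (by positivity), show exp G * B / (exp (-G) * B) = exp (2 * G) by
        rw [mul_div_mul_right _ _ hB.ne', ← exp_sub]; ring_nf, ← exp_mul]
      refine exp_le_exp.2 (mul_le_of_le_one_right (by linarith) ?_)
      show lin (r + 2) 1 ≤ 1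
      unfold lin; rw [if_pos (by omega), div_le_one (by positivity)]; push_cast; linarith
    rw [sub_div, div_self hL.ne']; linarith
  have hULn : 0 ≤ (U - L) / L := div_nonneg (by
    have := bf (Classical.arbitrary _); linarith [this.1, this.2]) hL.le
  have h3 : |log (avg g) - log (avg f)| ≤ (P:ℝ) / ((N:ℝ) + 1) * exp (2 * G) :=
    hlog.trans (mul_le_mul hfrac hUL hULn (by positivity))
  simp only [logZ0, eZN, eZS]
  have pf : 0 < avg f := avg_pos fun v => hL.trans_le (bf v).1
  have pg : 0 < avg g := avg_pos fun v => hL.trans_le (bg v).1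
  rw [log_rpow pg, log_rpow pf, ← mul_sub, abs_mul, abs_of_pos (by positivity : 0 < 1 / m 1)]
  refine (mul_le_mul_of_nonneg_left h3 (by positivity)).trans_eq ?_
  rw [show m 1 = 1 / ((r + 2 : ℕ) : ℝ) by simp [m, lin], growC]
  push_cast [P]
  field_simp
  simp only [G]; ring_nf

end Vale.Agent.P168.MP
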