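import Vale.Agent.P168.MP.Exchange
import Vale.Agent.P168.MP.Shape

/-! The identities (B3 of ROUTE.md). -/

namespace Vale.Agent.P168.MP

open Finset

variable {N S : ℕ} [NeZero N] {ι : Type} [DecidableEq ι] [Fintype ι] {β : ι → Batch}
  {R : ℕ} {m : ℕ → ℝ}

omit [NeZero N] in
lemma abs_spin_le (σ : Fin N → Bool) (v : Fin N) (c : Prop) [Decidable c] :
    |if c then sg (σ v) else 1| ≤ 1 := by split <;> simp

omit [NeZero N] in
lemma abs_prod_le_one {α : Type*} (s : Finset α) (f : α → ℝ) (h : ∀ a, |f a| ≤ 1) :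
    |∏ a ∈ s, f a| ≤ 1 := by
  rw [Finset.abs_prod]
  exact Finset.prod_le_one (fun _ _ => abs_nonneg _) fun a _ => h a

lemma abs_kappa_le (b : Batch) (R : ℕ) (T : List (ℕ × ℕ)) (pos : Fin (b.k + 1) → ℕ)
    (σs : List (Fin N → Bool)) : |kappa b R T pos σs| ≤ 1 := by
  have : Nonempty (Fin N) := ⟨0⟩
  rw [kappa, abs_mul]
  refine mul_le_one₀ ?_ (abs_nonneg _) (abs_prod_le_one _ _ fun q => by split <;> simp)
  have hb : ∀ v : Fin N, |∏ a, if b.spin a then sg ((σs.getD (pos a) default) v) else 1| ≤ 1 :=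
    fun v => abs_prod_le_one _ _ fun a => abs_spin_le _ _ _
  rw [avg, abs_div, Nat.abs_cast, div_le_one (Nat.cast_pos.2 Fintype.card_pos)]
  refine (abs_sum_le_sum_abs _ _).trans ((sum_le_sum fun v _ => hb v).trans ?_)
  simp

/-- constant in the change of the order term -/
noncomputable def dkConst (R k n : ℕ) : ℝ :=
  seqBound R k n * k.factorial * (seqBound R 1 (n + k) * (k + 1))

/-- constant of the identity -/
noncomputable def identConst (R k n : ℕ) : ℝ :=
  2 ^ Fintype.card (Pair k) * k.factorial *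
      (1 + 2 * seqBound R 1 n + 2 * (seqBound R (k + 1) n * (k : ℝ) ^ (k + 1))) +
    4 * dkConst R k n

lemma seqBound_mono (R j : ℕ) {n n' : ℕ} (h : n ≤ n') : seqBound R j n ≤ seqBound R j n' := by
  unfold seqBound
  have : (n : ℝ) ≤ n' := by exact_mod_cast h
  gcongr

lemma dkConst_mono (R k : ℕ) {n n' : ℕ} (h : n ≤ n') : dkConst R k n ≤ dkConst R k n' := by
  unfold dkConst
  have h1 := seqBound_mono R k h
  have h2 := seqBound_mono R 1 (show n + k ≤ n' + k by omega)
  have := seqBound_nonneg R k n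
  have := seqBound_nonneg R k n'
  have := seqBound_nonneg R 1 (n + k)
  gcongr

lemma identConst_mono (R k : ℕ) {n n' : ℕ} (h : n ≤ n') : identConst R k n ≤ identConst R k n' := by
  unfold identConst
  have h1 := seqBound_mono R 1 h
  have h2 := seqBound_mono R (k + 1) h
  have h3 := dkConst_mono R k h
  gcongr

lemma identConst_nonneg (R k n : ℕ) : 0 ≤ identConst R k n := by
  unfold identConst dkConst seqBound
  positivity

section free
variable {w : List (Mark N S β) → ℝ} {x : ι × Fin S} {T : List (ℕ × ℕ)}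

/-- field of site `x` along a path -/
def fieldAt (R : ℕ) (x : ι × Fin S) (p : List (Mark N S β)) : ℝ :=
  psiH (β x.1) (spinAt R p) (siteAt p x)

/-- observable of site `x` along a path -/
def obsAt (R : ℕ) (x : ι × Fin S) (p : List (Mark N S β)) : ℝ :=
  psi0 (β x.1) (spinAt R p) (siteAt p x)

/-- the observable at the first replica times a function of the configurations -/
def obsF (R : ℕ) (x : ι × Fin S) (F : List (Fin N → Bool) → ℝ) (ps : List (List (Mark N S β))) : ℝ :=
  F (ps.map (spinAt R)) * obsAt R x (ps.getD 0 [])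

omit [Fintype ι] [DecidableEq ι] in
lemma abs_obsF_le {F : List (Fin N → Bool) → ℝ} (hF : ∀ σs, |F σs| ≤ 1)
    (ps : List (List (Mark N S β))) : |obsF R x F ps| ≤ 1 := by
  rw [obsF, abs_mul]
  exact mul_le_one₀ (hF _) (abs_nonneg _) (abs_psi0_le _ _ _)

omit [Fintype ι] [DecidableEq ι] in
lemma obsF_take {n : ℕ} (hn : 0 < n) (F : List (Fin N → Bool) → ℝ)
    (ps : List (List (Mark N S β))) :
    obsF R x F (ps.take n) = F ((ps.map (spinAt R)).take n) * obsAt R x (ps.getD 0 []) := by
  rw [obsF, List.map_take]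
  congr 2
  simp [List.getD_eq_getElem?_getD, hn]

lemma chain_vanish (hw : Free w x) (hT : Valid R T) (hne : T ≠ []) (hR : 1 ≤ R)
    (hlev : ∀ q : Pair (β x.1).k, 1 ≤ (β x.1).lev q.1.1 q.1.2 ∧ (β x.1).lev q.1.1 q.1.2 < R)
    (F : List (Fin N → Bool) → ℝ) {j : ℕ} (hj : j < (β x.1).k) :
    chain R m w (fieldAt R x) T (obsF R x F) j 0 = 0 := by
  classical
  have hn : 0 < T.length := List.length_pos_iff.2 hne
  refine List.sum_eq_zero fun z hz => ?_
  obtain ⟨d, hd, rfl⟩ := List.mem_map.1 hz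
  obtain ⟨hd1, hd2⟩ := attSeq_mem j hT d hd
  rw [tilt_zero]
  simp only [obsF_take hn, ← Fin.prod_univ_eq_prod_range, fieldAt, psiH, Fintype.prod_sum, mul_sum,
    ET_sum]
  refine Finset.sum_eq_zero fun f _ => mul_eq_zero_of_right _ ?_
  obtain ⟨a₀, ha₀⟩ : ∃ a₀, ∀ t, f t ≠ a₀ := by
    by_contra hc
    push Not at hc
    have := Fintype.card_le_of_surjective f hc
    simp at this
    omega
  refine (congrArg _ (funext fun ps => ?_)).trans (ET_site_zero (m := m) hw hd1 hR
    (show (0:ℕ) < d.1.length by omega) hlev (fun t : Fin j => T.length + t)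
    (fun t => by have := t.2; omega) f ha₀ (fun σs => F (σs.take T.length)))
  simp only [obsAt]
  ring

lemma chain_top (hw : Free w x) (hT : Valid R T) (hne : T ≠ []) (hR : 1 ≤ R)
    (hlev : ∀ q : Pair (β x.1).k, 1 ≤ (β x.1).lev q.1.1 q.1.2 ∧ (β x.1).lev q.1.1 q.1.2 < R)
    (F : List (Fin N → Bool) → ℝ) :
    chain R m w (fieldAt R x) T (obsF R x F) (β x.1).k 0 =
      (1 / 2) ^ Fintype.card (Pair (β x.1).k) * Dk (β x.1) R m w (spinAt R) T F := by
  classical
  have hn : 0 < T.length := List.length_pos_iff.2 hne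
  rw [chain, Dk, ← List.sum_map_mul_left]
  refine congrArg List.sum (List.map_congr_left fun d hd => ?_)
  obtain ⟨hd1, hd2⟩ := attSeq_mem _ hT d hd
  rw [tilt_zero, mul_left_comm]
  congr 1
  simp only [obsF_take hn, ← Fin.prod_univ_eq_prod_range, fieldAt, psiH, Fintype.prod_sum, mul_sum,
    ET_sum]
  refine (Fintype.sum_of_injective (fun e : Equiv.Perm (Fin (β x.1).k) => ⇑e.symm)
    (fun e e' h => Equiv.symm_bijective.injective (Equiv.ext (congrFun h))) _ _ ?_ ?_).symm
  · intro f hf
    obtain ⟨a₀, ha₀⟩ : ∃ a₀, ∀ t, f t ≠ a₀ := by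
      by_contra hc
      push Not at hc
      have hb : Function.Bijective f := Finite.surjective_iff_bijective.1 hc
      exact hf ⟨(Equiv.ofBijective f hb).symm, by simp⟩
    refine (congrArg _ (funext fun ps => ?_)).trans (ET_site_zero (m := m) hw hd1 hR
      (show (0:ℕ) < d.1.length by omega) hlev (fun t : Fin (β x.1).k => T.length + (t : ℕ))
      (fun t => by have := t.2; omega) f ha₀ (fun σs => F (σs.take T.length)))
    simp only [obsAt]
    ring
  · intro e
    have h := ET_site (m := m) hw hd1 hR hlev (posOf T.length e) (fun a => by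
        induction a using Fin.cases with
        | zero => simp [posOf]; omega
        | succ c => simp [posOf]; have := (e c).2; omega) (fun σs => F (σs.take T.length))
    simp only [posOf, Fin.cons_zero, Fin.cons_succ] at h
    simp only [List.map_take, posOf]
    rw [← h]
    congr 1
    funext ps
    rw [← Equiv.prod_comp e (fun t => phi (β x.1) (spinAt R (ps.getD (T.length + (t : ℕ)) []))
      (siteAt (ps.getD (T.length + (t : ℕ)) []) x) (e.symm t).succ)]
    simp only [Equiv.symm_apply_apply, obsAt]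
    ring

end free

lemma abs_Dk_sub {Ω : Type*} [Fintype Ω] [Nonempty Ω] {w v : List Ω → ℝ} (hok : Ok R m w)
    {rd : List Ω → Fin N → Bool} (b : Batch) {T : List (ℕ × ℕ)} (hT : Valid R T)
    {F : List (Fin N → Bool) → ℝ} (hF : ∀ σs, |F σs| ≤ 1) {δ : ℝ} (hδ : 0 ≤ δ)
    (h : ∀ T' : List (ℕ × ℕ), Valid R T' → T'.length = T.length + b.k → ∀ H : List (List Ω) → ℝ,
      (∀ ps, |H ps| ≤ 1) → |ET R m v T' H - ET R m w T' H| ≤ δ) :
    |Dk b R m v rd T F - Dk b R m w rd T F| ≤ seqBound R b.k T.length * b.k.factorial * δ := by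
  unfold Dk
  rw [show ∀ (f g : List (ℕ × ℕ) × ℝ → ℝ) (L : List (List (ℕ × ℕ) × ℝ)),
    (L.map f).sum - (L.map g).sum = (L.map fun d => f d - g d).sum from fun f g L => by
      induction L with
      | nil => simp
      | cons a L ih => simp only [List.map_cons, List.sum_cons, ← ih]; ring]
  refine (abs_sum_map_le _ _).trans ((List.sum_le_sum
    (g := fun d => |d.2| * (b.k.factorial * δ)) fun d hd => ?_).trans ?_)
  · obtain ⟨hd1, hd2⟩ := attSeq_mem _ hT d hd
    rw [← mul_sub, abs_mul, ← Finset.sum_sub_distrib]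
    refine mul_le_mul_of_nonneg_left ((abs_sum_le_sum_abs _ _).trans
      ((sum_le_sum fun e _ => h _ hd1 hd2 _ fun ps => ?_).trans ?_)) (abs_nonneg _)
    · rw [abs_mul]
      exact mul_le_one₀ (hF _) (abs_nonneg _) (abs_kappa_le _ _ _ _ _)
    · simp [Fintype.card_perm]
  · rw [List.sum_map_mul_right, mul_assoc]
    exact mul_le_mul_of_nonneg_right (abs_attSeq hok _ hT) (mul_nonneg (Nat.cast_nonneg _) hδ)

variable {W : (Fin N → Bool) → ℝ} {h u : ι → ℝ}

omit [DecidableEq ι] in
lemma abs_gain_le (p : List (Mark N S β)) :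
    |∑ i : ι × Fin S, gain1 R h u p i| ≤ S * ∑ j, (|h j| * (β j).k + |u j|) := by
  refine (abs_sum_le_sum_abs _ _).trans ?_
  rw [Fintype.sum_prod_type, Finset.mul_sum]
  refine sum_le_sum fun j _ => ?_
  refine (sum_le_sum (g := fun _ => |h j| * (β j).k + |u j|) fun i _ => ?_).trans (by simp [mul_add])
  rw [gain1]
  refine (abs_add_le _ _).trans (add_le_add ?_ ?_) <;> rw [abs_mul]
  · exact mul_le_mul_of_nonneg_left (abs_psiH_le _ _ _) (abs_nonneg _)
  · exact mul_le_of_le_one_right (abs_nonneg _) (abs_psi0_le _ _ _)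

lemma pw_isolate (x : ι × Fin S) :
    pw (β := β) R W h u =
      tilt (tilt (pwFree R W h u x) (fieldAt R x) (h x.1)) (obsAt R x) (u x.1) := by
  funext p
  rw [pw, tilt, tilt, pwFree, ← Finset.add_sum_erase _ _ (mem_univ x), gain1, Real.exp_add,
    Real.exp_add, fieldAt, obsAt]
  ring

/-- linking with B1: the tilt by the sum over a batch -/
lemma pw_tilt (j : ι) :
    pw (S := S) (β := β) R W h u =
      tilt (pw R W h (Function.update u j 0)) (batchSum R j) (u j) := by
  funext p
  have e : ∑ i : ι × Fin S, gain1 R h u p i =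
      ∑ i : ι × Fin S, gain1 R h (Function.update u j 0) p i + u j * batchSum R j p := by
    rw [Fintype.sum_prod_type, Fintype.sum_prod_type, ← Finset.add_sum_erase _ _ (mem_univ j),
      ← Finset.add_sum_erase _ _ (mem_univ j), Finset.sum_congr rfl fun c hc =>
        Finset.sum_congr rfl fun i _ => show gain1 R h u p (c, i) =
          gain1 R h (Function.update u j 0) p (c, i) by
            rw [gain1, gain1, Function.update_of_ne (ne_of_mem_erase hc)]]
    simp only [batchSum, gain1, Function.update_self, mul_sum, zero_mul, add_zero,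
      Finset.sum_add_distrib]
    ring
  rw [pw, tilt, pw, e, Real.exp_add]
  ring

/-- IDENTITY -/
theorem identity (hok : Ok R m (pw (S := S) (β := β) R W h u)) (hS : 0 < S) (j : ι)
    (hlev : ∀ q : Pair (β j).k, 1 ≤ (β j).lev q.1.1 q.1.2 ∧ (β j).lev q.1.1 q.1.2 < R)
    (hR : 1 ≤ R) (hh0 : 0 < h j) (hh1 : h j ≤ 1) {T : List (ℕ × ℕ)} (hT : Valid R T) (hne : T ≠ [])
    {n : ℕ} (hn : T.length ≤ n) {F : List (Fin N → Bool) → ℝ} (hF : ∀ σs, |F σs| ≤ 1) :
    |Dk (β j) R m (pw (S := S) (β := β) R W h u) (spinAt R) T F -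
        ET R m (pw (S := S) (β := β) R W h u) T (fun ps => F (ps.map (spinAt R))) *
          Dk (β j) R m (pw (S := S) (β := β) R W h u) (spinAt R) [(0, 0)] (fun _ => 1)| ≤
      identConst R (β j).k n * (mad R m (pw (S := S) (β := β) R W h u) (batchSum R j) /
        (S * h j ^ (β j).k) + |u j| / h j ^ (β j).k + h j) := by
  set x : ι × Fin S := (j, ⟨0, hS⟩) with hx
  set w := pw (S := S) (β := β) R W h u with hw
  set w0 := pwFree (β := β) R W h u x with hw0
  have hok0 : Ok R m w0 := ⟨hok.pos, hok.mono, hok.top, hok.last, fun p => by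
    have := hok.wpos p
    rw [hw, pw] at this
    exact mul_pos ((mul_pos_iff_of_pos_right (Real.exp_pos _)).1 this) (Real.exp_pos _)⟩
  set k := (β j).k with hk
  set H := h j
  set U := u j
  have hiso : w = tilt (tilt w0 (fieldAt R x) H) (obsAt R x) U := pw_isolate x
  have hok1 : Ok R m (tilt w0 (fieldAt R x) H) := hok0.tilt _ _
  have hg : ∀ p : List (Mark N S β), |fieldAt R x p| ≤ (k : ℝ) := fun p => abs_psiH_le _ _ _
  have hp0 : ∀ p : List (Mark N S β), |obsAt R x p| ≤ 1 := fun p => abs_psi0_le _ _ _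
  have hn1 : 1 ≤ n := le_trans (List.length_pos_iff.2 hne) hn
  -- changing from the free weight to the full one
  have hchange : ∀ T' : List (ℕ × ℕ), Valid R T' → ∀ H' : List (List (Mark N S β)) → ℝ,
      (∀ ps, |H' ps| ≤ 1) →
      |ET R m w T' H' - ET R m w0 T' H'| ≤ seqBound R 1 T'.length * ((k + 1) * (H + |U|)) := by
    intro T' hT' H' hH'
    have a := abs_ET_tilt_sub hok1 hT' hH' hp0 U
    have b := abs_ET_tilt_sub hok0 hT' hH' hg H
    rw [← hiso] at a
    rw [abs_of_pos hh0] at b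
    have hs := seqBound_nonneg R 1 T'.length
    refine (abs_sub_le _ (ET R m (tilt w0 (fieldAt R x) H) T' H') _).trans ((add_le_add a b).trans ?_)
    have h1 : 0 ≤ seqBound R 1 T'.length * |U| * k := by positivity
    have h2 : 0 ≤ seqBound R 1 T'.length * H := mul_nonneg hs hh0.le
    nlinarith
  -- Taylor expansion of the exchanged quantity
  set c : ℝ := H ^ k / k.factorial * (1 / 2) ^ Fintype.card (Pair k) with hc
  have hcpos : 0 < c := by positivity
  set e : ℝ := seqBound R 1 n * |U| + seqBound R (k + 1) n * (k : ℝ) ^ (k + 1) * H ^ (k + 1) with he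
  have hexp : ∀ (T' : List (ℕ × ℕ)), Valid R T' → T' ≠ [] → T'.length ≤ n →
      ∀ F' : List (Fin N → Bool) → ℝ, (∀ σs, |F' σs| ≤ 1) →
      |ET R m w T' (obsF R x F') - c * Dk (β j) R m w0 (spinAt R) T' F'| ≤ e := by
    intro T' hT' hne' hn' F' hF'
    have a := abs_ET_tilt_sub hok1 hT' (abs_obsF_le (x := x) (R := R) hF') hp0 U
    rw [← hiso] at a
    have b := taylor_bound k (chain R m w0 (fieldAt R x) T' (obsF R x F')) hh0.le
      (fun i _ s _ => hasDerivAt_chain hok0 hT' _ i s)
      (fun s _ => abs_chain_le hok0 hT' (abs_obsF_le hF') hg (k + 1) s)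
      (fun i hi => chain_vanish (pwFree_free R W h u x) hT' hne' hR hlev F' hi)
    rw [chain_zero hT', chain_top (pwFree_free R W h u x) hT' hne' hR hlev F'] at b
    have e1 := seqBound_mono R 1 hn'
    have e2 := seqBound_mono R (k + 1) hn'
    refine (abs_sub_le _ (ET R m (tilt w0 (fieldAt R x) H) T' (obsF R x F')) _).trans ?_
    refine add_le_add (a.trans ?_) ((le_of_eq ?_).trans (b.trans ?_))
    · rw [one_mul, mul_one]; gcongr
    · rw [hc, mul_assoc]
    · rw [one_mul]; gcongr
  -- exchange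
  have hex := exchange hok j (⟨0, hS⟩ : Fin S) hT hne hF
  have hone : ET R m w [(0, 0)] (obsF R x fun _ => 1) = mean1 R m w (batchSum R j) / S := by
    have h1 := exchange hok j (⟨0, hS⟩ : Fin S) (T := [(0, 0)]) valid_single (by simp)
      (F := fun _ => 1) (by simp)
    have h2 : ∀ i : Fin S, ET R m w [(0, 0)] (fun ps => psi0 (β j) (spinAt R (ps.getD 0 []))
        (siteAt (ps.getD 0 []) (j, i))) = ET R m w [(0, 0)] (fun ps => psi0 (β j)
          (spinAt R (ps.getD 0 [])) (siteAt (ps.getD 0 []) (j, (⟨0, hS⟩ : Fin S)))) := by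
      intro i
      rw [ET_map (e := swapMark j (⟨0, hS⟩ : Fin S) i) (fun p => pw_swap j _ i p)]
      refine ET_congr valid_single fun ps hs => ?_
      obtain ⟨q, rfl⟩ : ∃ q, ps = [q] := List.length_eq_one_iff.1 hs.1
      simp [spinAt_swap, siteAt_swap_right]
    have hS' : (S : ℝ) ≠ 0 := by positivity
    rw [eq_div_iff hS', mean1]
    simp only [batchSum, ET_sum, Finset.sum_congr rfl fun i _ => h2 i]
    have e : (obsF R x (fun _ => 1) : List (List (Mark N S β)) → ℝ) = fun ps =>
        psi0 (β j) (spinAt R (ps.getD 0 [])) (siteAt (ps.getD 0 []) (j, (⟨0, hS⟩ : Fin S))) := by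
      funext ps; simp [obsF, obsAt]; rfl
    rw [e]; simp [mul_comm]
  set A := Dk (β j) R m w0 (spinAt R) T F
  set B := Dk (β j) R m w0 (spinAt R) [(0, 0)] (fun _ => 1)
  set E := ET R m w T (fun ps => F (ps.map (spinAt R)))
  have hE : |E| ≤ 1 := ET_bound hok.wpos fun _ => hF _
  have hM := mad_nonneg hok (batchSum R j)
  set M := mad R m w (batchSum R j)
  have hA : |A - E * B| ≤ (M / S + 2 * e) / c := by
    have a := hexp T hT hne hn F hF
    have b := hexp [(0, 0)] valid_single (by simp) (by simpa using hn1) (fun _ => 1) (by simp)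
    rw [hone] at b
    have a' : |ET R m w T (obsF R x F) - E * (mean1 R m w (batchSum R j) / S)| ≤ M / S := hex
    rw [le_div_iff₀ hcpos]
    have := abs_le.1 a; have := abs_le.1 a'
    have hb' : |E * (mean1 R m w (batchSum R j) / S) - E * (c * B)| ≤ e := by
      rw [← mul_sub, abs_mul]
      exact (mul_le_of_le_one_left (abs_nonneg _) hE).trans b
    have := abs_le.1 hb'
    rw [show |A - E * B| * c = |c * A - E * (c * B)| by
      rw [← abs_of_pos hcpos, ← abs_mul, abs_of_pos hcpos]; ring_nf]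
    rw [abs_le]; constructor <;> linarith
  have hdA : ∀ T' : List (ℕ × ℕ), Valid R T' → T'.length ≤ n → ∀ F' : List (Fin N → Bool) → ℝ,
      (∀ σs, |F' σs| ≤ 1) → |Dk (β j) R m w (spinAt R) T' F' - Dk (β j) R m w0 (spinAt R) T' F'| ≤
        dkConst R k n * (H + |U|) := by
    intro T' hT' hn' F' hF'
    refine (abs_Dk_sub hok0 (β j) hT' hF' (δ := seqBound R 1 (n + k) * ((k + 1) * (H + |U|)))
      (mul_nonneg (seqBound_nonneg _ _ _) (by positivity))
      fun T'' hT'' hlen H' hH' => (hchange T'' hT'' H' hH').trans ?_).trans ?_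
    · have := seqBound_mono R 1 (show T''.length ≤ n + k by omega)
      have : (0:ℝ) ≤ (k + 1) * (H + |U|) := by positivity
      gcongr
    · unfold dkConst
      have hmk := seqBound_mono R k hn'
      have := seqBound_nonneg R 1 (n + k)
      have hp : 0 ≤ (k.factorial : ℝ) * (seqBound R 1 (n + k) * ((k + 1) * (H + |U|))) := by positivity
      calc seqBound R (β j).k T'.length * (β j).k.factorial *
            (seqBound R 1 (n + k) * ((k + 1) * (H + |U|)))
          = seqBound R k T'.length * (k.factorial * (seqBound R 1 (n + k) * ((k + 1) * (H + |U|)))) := by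
            ring
        _ ≤ seqBound R k n * (k.factorial * (seqBound R 1 (n + k) * ((k + 1) * (H + |U|)))) :=
            mul_le_mul_of_nonneg_right hmk hp
        _ = _ := by ring
  have dA := abs_le.1 (hdA T hT hn F hF)
  have dB : |E * Dk (β j) R m w (spinAt R) [(0, 0)] (fun _ => 1) - E * B| ≤ dkConst R k n * (H + |U|) := by
    rw [← mul_sub, abs_mul]
    exact (mul_le_of_le_one_left (abs_nonneg _) hE).trans
      (hdA _ valid_single (by simpa using hn1) _ (by simp))
  have dB := abs_le.1 dB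
  have hA' := abs_le.1 hA
  set err := M / (S * H ^ k) + |U| / H ^ k + H with herr
  have hHk : 0 < H ^ k := pow_pos hh0 k
  have hHk1 : H ^ k ≤ 1 := pow_le_one₀ hh0.le hh1
  have t1 : 0 ≤ M / (S * H ^ k) := by positivity
  have t2 : |U| ≤ |U| / H ^ k := le_div_self (abs_nonneg _) hHk hHk1
  have hHU : H + |U| ≤ err := by rw [herr]; linarith
  have hK : 0 ≤ dkConst R k n := by unfold dkConst seqBound; positivity
  have hmain : (M / S + 2 * e) / c ≤ 2 ^ Fintype.card (Pair k) * k.factorial *
      (1 + 2 * seqBound R 1 n + 2 * (seqBound R (k + 1) n * (k : ℝ) ^ (k + 1))) * err := by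
    have key : (M / S + 2 * e) / c = 2 ^ Fintype.card (Pair k) * k.factorial *
        (M / (S * H ^ k) + 2 * seqBound R 1 n * (|U| / H ^ k) +
          2 * (seqBound R (k + 1) n * (k : ℝ) ^ (k + 1)) * H) := by
      rw [he, hc, div_pow, one_pow]; field_simp; ring
    rw [key, mul_assoc _ (1 + 2 * seqBound R 1 n + _)]
    refine mul_le_mul_of_nonneg_left ?_ (by positivity)
    have q1 := seqBound_nonneg R 1 n
    have q2 : 0 ≤ seqBound R (k + 1) n * (k : ℝ) ^ (k + 1) :=
      mul_nonneg (seqBound_nonneg _ _ _) (by positivity)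
    have t3 : 0 ≤ |U| / H ^ k := by positivity
    rw [herr]
    nlinarith [mul_nonneg q1 t1, mul_nonneg q1 hh0.le, mul_nonneg q2 t1, mul_nonneg q2 t3]
  have hkk : dkConst R k n * (H + |U|) ≤ dkConst R k n * err := mul_le_mul_of_nonneg_left hHU hK
  have herr0 : 0 ≤ dkConst R k n * err := le_trans (by positivity) hkk
  rw [show identConst R k n * err = 2 ^ Fintype.card (Pair k) * k.factorial *
      (1 + 2 * seqBound R 1 n + 2 * (seqBound R (k + 1) n * (k : ℝ) ^ (k + 1))) * err +
      4 * (dkConst R k n * err) by unfold identConst; ring, abs_le]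
  constructor <;> linarith [dA.1, dA.2, dB.1, dB.2, hA'.1, hA'.2]

/-! ### the family of all batches -/

/-- index of a batch of order at most `kmax` -/
abbrev BIdx (R kmax : ℕ) : Type :=
  Σ k : Fin (kmax + 1), (Pair (k : ℕ) → Fin R) × (Fin ((k : ℕ) + 1) → Bool)

instance instDecidableEqBIdx (R kmax : ℕ) : DecidableEq (BIdx R kmax) := inferInstance

instance instFintypeBIdx (R kmax : ℕ) : Fintype (BIdx R kmax) := inferInstance

/-- all batches of order at most `kmax` -/
def allBatch (R kmax : ℕ) (i : BIdx R kmax) : Batch where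
  k := i.1
  lev a c := if h : a < c then (i.2.1 ⟨(a, c), h⟩ : ℕ) else 0
  spin := i.2.2

omit [NeZero N] in
lemma kappa_congr {k : ℕ} {lev lev' : Fin (k + 1) → Fin (k + 1) → ℕ} {spin : Fin (k + 1) → Bool}
    (hl : ∀ q : Pair k, lev q.1.1 q.1.2 = lev' q.1.1 q.1.2) (R : ℕ) (T : List (ℕ × ℕ))
    (pos : Fin (k + 1) → ℕ) (σs : List (Fin N → Bool)) :
    kappa ⟨k, lev, spin⟩ R T pos σs = kappa ⟨k, lev', spin⟩ R T pos σs := by
  simp only [kappa, hl]

omit [NeZero N] in
lemma Dk_congr {k : ℕ} {lev lev' : Fin (k + 1) → Fin (k + 1) → ℕ} {spin : Fin (k + 1) → Bool}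
    (hl : ∀ q : Pair k, lev q.1.1 q.1.2 = lev' q.1.1 q.1.2) {Ω : Type*} [Fintype Ω]
    (w : List Ω → ℝ) (rd : List Ω → Fin N → Bool) (T : List (ℕ × ℕ))
    (F : List (Fin N → Bool) → ℝ) :
    Dk ⟨k, lev, spin⟩ R m w rd T F = Dk ⟨k, lev', spin⟩ R m w rd T F := by
  simp only [Dk, kappa_congr hl]

/-- the identities for the full family imply the hypothesis of section C -/
theorem ident_of_err {kmax : ℕ} {h u : BIdx R kmax → ℝ}
    (hok : Ok R m (pw (S := S) (β := allBatch R kmax) R W h u)) (hS : 0 < S) (hR : 1 ≤ R)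
    (hh : ∀ i, 0 < h i ∧ h i ≤ 1) {E : ℝ}
    (hE : ∀ i : BIdx R kmax, identConst R (i.1 : ℕ) (kmax + 1) *
      (mad R m (pw (S := S) (β := allBatch R kmax) R W h u) (batchSum R i) /
        (S * h i ^ (i.1 : ℕ)) + |u i| / h i ^ (i.1 : ℕ) + h i) ≤ E) :
    Ident R m (pw (S := S) (β := allBatch R kmax) R W h u) (spinAt R) kmax E := by
  classical
  rintro ⟨k, lev, spin⟩ hk hlev T hT hne hn F hF
  set i : BIdx R kmax := ⟨⟨k, Nat.lt_succ_of_le hk⟩,
    (fun q => ⟨lev q.1.1 q.1.2, (hlev q).2⟩, spin)⟩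
  have hl : ∀ q : Pair k, lev q.1.1 q.1.2 = (allBatch R kmax i).lev q.1.1 q.1.2 := fun q => by
    simp [allBatch, i, q.2]
  have hid := identity hok hS i (fun q => by rw [← hl q]; exact hlev q) hR (hh i).1 (hh i).2 hT hne hn hF
  rw [Dk_congr hl, Dk_congr hl]
  exact hid.trans (hE i)

end Vale.Agent.P168.MP
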