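import Vale.Agent.P168.MP.TrialBound
import Vale.Agent.P168.Pressure

/-! Truncation: replacing clauses and fields by images under maps changes the pressure and every trial
value by at most the mean change of the interaction and of the field, uniformly in `N` and in the
trial parameters. -/

open MeasureTheory Real Finset Filter

namespace Vale.Agent.P168.MP

variable {K : ℕ}

/-- the clause with `θ = 0` -/
def zeroClause : Clause K := ((1, 0), fun _ => (0, 0))

lemma theta_zeroClause (σ : Fin K → Bool) : theta (zeroClause (K := K)) σ = 0 := by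
  simp [theta, zeroClause]

/-- change of the interaction -/
noncomputable def tdist (c c' : Clause K) : ℝ := ∑ σ : Fin K → Bool, |theta c σ - theta c' σ|

lemma abs_theta_sub_le (c c' : Clause K) (σ : Fin K → Bool) : |theta c σ - theta c' σ| ≤ tdist c c' :=
  single_le_sum (f := fun σ => |theta c σ - theta c' σ|) (fun _ _ => abs_nonneg _) (mem_univ σ)

lemma tdist_comm (c c' : Clause K) : tdist c c' = tdist c' c := by simp only [tdist, abs_sub_comm]

lemma tdist_zeroClause (c : Clause K) : tdist c zeroClause = tsumAbs c := by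
  simp [tdist, tsumAbs, theta_zeroClause]

lemma integrable_tdist {μ : Measure (Clause K)} {T : Clause K → Clause K}
    (hθ : ∀ σ : Fin K → Bool, Integrable (fun c => theta c σ) μ)
    (hθT : ∀ σ : Fin K → Bool, Integrable (fun c => theta (T c) σ) μ) :
    Integrable (fun c => tdist c (T c)) μ :=
  integrable_finsetSum _ fun σ _ => ((hθ σ).sub (hθT σ)).abs

/-! ### pointwise -/

lemma abs_logZ_sub_le {N M : ℕ} (h h' : Fin N → ℝ) (w w' : Fin M → Clause K) (i : Fin M → Fin K → Fin N) :
    |logZ h w i - logZ h' w' i| ≤ ∑ x, |h x - h' x| + ∑ k, tdist (w k) (w' k) := by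
  have key : ∀ (h h' : Fin N → ℝ) (w w' : Fin M → Clause K),
      logZ h w i ≤ logZ h' w' i + (∑ x, |h x - h' x| + ∑ k, tdist (w k) (w' k)) := fun h h' w w' => by
    refine log_sum_diff fun σ => ?_
    have h1 : ∑ k, theta (w k) (fun j => σ (i k j)) - ∑ k, theta (w' k) (fun j => σ (i k j)) ≤
        ∑ k, tdist (w k) (w' k) := by
      rw [← sum_sub_distrib]
      exact sum_le_sum fun k _ => (le_abs_self _).trans (abs_theta_sub_le _ _ _)
    have h2 : ∑ x, h x * sg (σ x) - ∑ x, h' x * sg (σ x) ≤ ∑ x, |h x - h' x| := by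
      rw [← sum_sub_distrib]
      refine sum_le_sum fun x _ => (le_abs_self _).trans ?_
      rw [← sub_mul, abs_mul, abs_sg, mul_one]
    linarith
  have h1 := key h h' w w'
  have h2 := key h' h w' w
  simp only [fun x => abs_sub_comm (h' x) (h x), fun k => tdist_comm (w' k) (w k)] at h2
  exact abs_sub_le_iff.2 ⟨by linarith, by linarith⟩

lemma abs_logZ_le {N M : ℕ} (h : Fin N → ℝ) (w : Fin M → Clause K) (i : Fin M → Fin K → Fin N) :
    |logZ h w i| ≤ N * log 2 + ∑ x, |h x| + ∑ k, tsumAbs (w k) := by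
  have h0 : logZ (fun _ : Fin N => (0 : ℝ)) (fun _ : Fin M => zeroClause (K := K)) i = N * log 2 := by
    simp [logZ, theta_zeroClause, log_pow]
  have := abs_logZ_sub_le h (fun _ => 0) w (fun _ => zeroClause) i
  simp only [h0, sub_zero, tdist_zeroClause] at this
  have h1 := abs_add_le (logZ h w i - N * log 2) (N * log 2)
  rw [sub_add_cancel, abs_of_nonneg (a := (N : ℝ) * log 2) (by positivity)] at h1
  linarith

lemma abs_av_sub_le {α : Type*} [Fintype α] [Nonempty α] {f g : α → ℝ} {D : ℝ}
    (h : ∀ a, |f a - g a| ≤ D) : |av f - av g| ≤ D := by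
  have e : av f - av g = av fun a => f a - g a := by simp [av, sum_sub_distrib, sub_div]
  rw [e]; exact abs_av_le h

lemma clauseU_le_exp_mul {c c' : Clause K} (ℓ : Fin K) (s : Bool) {xs : Fin K → ℝ} (hx : ∀ j, |xs j| ≤ 1) :
    clauseU c ℓ s xs ≤ exp (tdist c c') * clauseU c' ℓ s xs := by
  unfold clauseU
  rw [mul_sum]
  refine sum_le_sum fun σ _ => ?_
  split_ifs
  · rw [← mul_assoc, ← exp_add]
    refine mul_le_mul_of_nonneg_right (exp_le_exp.2 ?_) (prod_nonneg fun j _ => abs_le_one_iff_msg (hx j) _)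
    linarith [(abs_le.1 (abs_theta_sub_le c c' σ)).2]
  · simp

lemma clauseV_le_exp_mul {c c' : Clause K} {xs : Fin K → ℝ} (hx : ∀ j, |xs j| ≤ 1) :
    clauseV c xs ≤ exp (tdist c c') * clauseV c' xs := by
  unfold clauseV
  rw [mul_sum]
  refine sum_le_sum fun σ _ => ?_
  rw [← mul_assoc, ← exp_add]
  refine mul_le_mul_of_nonneg_right (exp_le_exp.2 ?_) (prod_nonneg fun j _ => abs_le_one_iff_msg (hx j) _)
  linarith [(abs_le.1 (abs_theta_sub_le c c' σ)).2]

variable {n : ℕ}

lemma abs_log_sub_le_of_le_mul {a b D : ℝ} (ha : 0 < a) (hb : 0 < b) (h1 : a ≤ exp D * b)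
    (h2 : b ≤ exp D * a) : |log a - log b| ≤ D := by
  have i1 := log_le_log ha h1
  have i2 := log_le_log hb h2
  rw [log_mul (exp_pos _).ne' hb.ne', log_exp] at i1
  rw [log_mul (exp_pos _).ne' ha.ne', log_exp] at i2
  exact abs_sub_le_iff.2 ⟨by linarith, by linarith⟩

lemma abs_log_cavU_sub_le (h h' : ℝ) (w w' : Fin n → Clause K) (ℓ : Fin n → Fin K)
    {xs : Fin n → Fin K → ℝ} (hx : ∀ k j, |xs k j| ≤ 1) :
    |log (cavU h w ℓ xs) - log (cavU h' w' ℓ xs)| ≤ |h - h'| + ∑ k, tdist (w k) (w' k) := by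
  have key : ∀ (h h' : ℝ) (w w' : Fin n → Clause K),
      cavU h w ℓ xs ≤ exp (|h - h'| + ∑ k, tdist (w k) (w' k)) * cavU h' w' ℓ xs := fun h h' w w' => by
    rw [cavU_eq, cavU_eq, mul_sum]
    refine sum_le_sum fun s _ => ?_
    have hp : ∏ k, clauseU (w k) (ℓ k) s (xs k) ≤
        exp (∑ k, tdist (w k) (w' k)) * ∏ k, clauseU (w' k) (ℓ k) s (xs k) := by
      rw [exp_sum, ← prod_mul_distrib]
      exact prod_le_prod (fun k _ => (exp_pos _).le.trans (clauseU_mem_abs (w k) _ _ (hx k)).1)
        fun k _ => clauseU_le_exp_mul _ _ (hx k)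
    have he : exp (h * sg s) ≤ exp |h - h'| * exp (h' * sg s) := by
      rw [← exp_add, exp_le_exp]
      have := le_abs_self ((h - h') * sg s)
      rw [abs_mul, abs_sg, mul_one, sub_mul] at this
      linarith
    refine (mul_le_mul he hp (prod_nonneg fun k _ => (exp_pos _).le.trans (clauseU_mem_abs (w k) _ _ (hx k)).1)
      (by positivity)).trans (le_of_eq ?_)
    rw [exp_add]; ring
  refine abs_log_sub_le_of_le_mul ((exp_pos _).trans_le (cavU_mem_abs h w ℓ hx).1)
    ((exp_pos _).trans_le (cavU_mem_abs h' w' ℓ hx).1) (key h h' w w') ?_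
  simpa only [abs_sub_comm h' h, fun k => tdist_comm (w' k) (w k)] using key h' h w' w

lemma abs_log_cavV_sub_le (w w' : Fin n → Clause K) {xs : Fin n → Fin K → ℝ} (hx : ∀ k j, |xs k j| ≤ 1) :
    |log (cavV w xs) - log (cavV w' xs)| ≤ ∑ k, tdist (w k) (w' k) := by
  have key : ∀ (w w' : Fin n → Clause K), cavV w xs ≤ exp (∑ k, tdist (w k) (w' k)) * cavV w' xs := fun w w' => by
    rw [cavV_eq, cavV_eq, exp_sum, ← prod_mul_distrib]
    exact prod_le_prod (fun k _ => (exp_pos _).le.trans (clauseV_mem_abs (w k) (hx k)).1)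
      fun k _ => clauseV_le_exp_mul (hx k)
  refine abs_log_sub_le_of_le_mul ((exp_pos _).trans_le (cavV_mem_abs w hx).1)
    ((exp_pos _).trans_le (cavV_mem_abs w' hx).1) (key w w') ?_
  simpa only [fun k => tdist_comm (w' k) (w k)] using key w' w

/-! ### change of variables -/

lemma abs_int2_map_sub_le {X Y : Type} [MeasurableSpace X] [MeasurableSpace Y] {P : Measure X} {Q : Measure Y}
    [IsProbabilityMeasure P] [IsProbabilityMeasure Q] {A : X → X} {B : Y → Y} (hA : Measurable A)
    (hB : Measurable B) {F : X × Y → ℝ} (hi : Integrable F (P.prod Q))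
    (hi' : Integrable F ((P.map A).prod (Q.map B))) {D : X × Y → ℝ} (hD : Integrable D (P.prod Q))
    (h : ∀ q, |F q - F (A q.1, B q.2)| ≤ D q) :
    |(∫ a, ∫ b, F (a, b) ∂Q ∂P) - ∫ a, ∫ b, F (a, b) ∂(Q.map B) ∂(P.map A)| ≤ ∫ q, D q ∂(P.prod Q) := by
  have := Measure.isProbabilityMeasure_map (μ := P) hA.aemeasurable
  have := Measure.isProbabilityMeasure_map (μ := Q) hB.aemeasurable
  rw [← integral_prod _ hi, ← integral_prod _ hi']
  rw [Measure.map_prod_map P Q hA hB] at hi' ⊢
  have hc := (integrable_map_measure hi'.1 (hA.prodMap hB).aemeasurable).1 hi'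
  simp only [Function.comp_def] at hc
  rw [integral_map (hA.prodMap hB).aemeasurable hi'.1, ← integral_sub hi hc, ← Real.norm_eq_abs]
  exact norm_integral_le_of_norm_le hD (Eventually.of_forall fun q => by simpa [Real.norm_eq_abs, Prod.map] using h q)

lemma map_pi_comp {X ι : Type} [MeasurableSpace X] [Fintype ι] (P : Measure X) [IsProbabilityMeasure P]
    {A : X → X} (hA : Measurable A) :
    Measure.pi (fun _ : ι => P.map A) = (Measure.pi fun _ : ι => P).map fun v i => A (v i) := by
  have := Measure.isProbabilityMeasure_map (μ := P) hA.aemeasurable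
  exact (Measure.pi_map_pi (f := fun _ : ι => A) fun _ => hA.aemeasurable).symm

/-! ### pressure -/

variable {μ : Measure (Clause K)} {ρ : Measure ℝ} [IsProbabilityMeasure μ] [IsProbabilityMeasure ρ]
  {lam : ℝ} {N : ℕ} [NeZero N]

lemma integrable_av_logZM (hθ : ∀ σ : Fin K → Bool, Integrable (fun c : Clause K => theta c σ) μ)
    (hh : Integrable (fun y : ℝ => y) ρ) (M : ℕ) :
    Integrable (fun p : (Fin N → ℝ) × (Fin M → Clause K) => av (fun i => logZ p.1 p.2 i))
      ((Measure.pi fun _ => ρ).prod (Measure.pi fun _ => μ)) := by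
  refine (((integrable_const ((N : ℝ) * log 2)).add ((integral_sum_eval ρ hh.abs N).1.comp_fst _)).add
    ((integral_sum_eval μ (integrable_tsumAbs hθ) M).1.comp_snd _)).mono'
    measurable_av_logZ.aestronglyMeasurable (Eventually.of_forall fun p => ?_)
  simp only [Pi.add_apply, Real.norm_eq_abs]
  exact abs_av_le fun i => abs_logZ_le p.1 p.2 i

lemma summable_pressureM (hθ : ∀ σ : Fin K → Bool, Integrable (fun c : Clause K => theta c σ) μ)
    (hh : Integrable (fun y : ℝ => y) ρ) (hlam : 0 ≤ lam) :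
    Summable fun M : ℕ => pois (lam * N) M *
      ∫ h : Fin N → ℝ, ∫ w : Fin M → Clause K, av (fun i => logZ h w i)
        ∂Measure.pi (fun _ => μ) ∂Measure.pi (fun _ => ρ) := by
  refine summable_pois_mul (by positivity) (A := ∫ c, tsumAbs c ∂μ)
    (B := N * log 2 + N * ∫ y, |y| ∂ρ) fun M => ?_
  have i1 := integral_sum_eval ρ hh.abs N
  have i2 := integral_sum_eval μ (integrable_tsumAbs hθ) M
  rw [← integral_prod _ (integrable_av_logZM hθ hh M), ← Real.norm_eq_abs]
  refine (norm_integral_le_of_norm_le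
    (((integrable_const ((N : ℝ) * log 2)).add (i1.1.comp_fst _)).add (i2.1.comp_snd _))
    (Eventually.of_forall fun p => ?_)).trans (le_of_eq ?_)
  · simp only [Pi.add_apply, Real.norm_eq_abs]
    exact abs_av_le fun i => abs_logZ_le p.1 p.2 i
  · simp only [Pi.add_apply]
    rw [integral_add (f := fun p : (Fin N → ℝ) × (Fin M → Clause K) => (N : ℝ) * log 2 + ∑ x, |p.1 x|)
        ((integrable_const _).add (i1.1.comp_fst _)) (i2.1.comp_snd _),
      integral_add (integrable_const _) (i1.1.comp_fst _),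
      integral_fun_fst (fun h : Fin N → ℝ => ∑ x, |h x|),
      integral_fun_snd (fun w : Fin M → Clause K => ∑ k, tsumAbs (w k)), i1.2, i2.2]
    simp; ring

variable {T : Clause K → Clause K} {S : ℝ → ℝ}

/-- the pressure is Lipschitz under maps of the disorder, uniformly in `N` -/
theorem abs_pressureM_map_sub_le (hθ : ∀ σ : Fin K → Bool, Integrable (fun c : Clause K => theta c σ) μ)
    (hh : Integrable (fun y : ℝ => y) ρ) (hlam : 0 ≤ lam) (hT : Measurable T) (hS : Measurable S)
    (hθT : ∀ σ : Fin K → Bool, Integrable (fun c : Clause K => theta (T c) σ) μ) (hhS : Integrable S ρ) :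
    |pressureM μ ρ lam N - pressureM (μ.map T) (ρ.map S) lam N| ≤
      lam * (∫ c, tdist c (T c) ∂μ) + ∫ y, |y - S y| ∂ρ := by
  have := Measure.isProbabilityMeasure_map (μ := μ) hT.aemeasurable
  have := Measure.isProbabilityMeasure_map (μ := ρ) hS.aemeasurable
  have hθ' : ∀ σ : Fin K → Bool, Integrable (fun c : Clause K => theta c σ) (μ.map T) := fun σ =>
    (integrable_map_measure (measurable_theta σ).aestronglyMeasurable hT.aemeasurable).2 (hθT σ)
  have hh' : Integrable (fun y : ℝ => y) (ρ.map S) :=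
    (integrable_map_measure measurable_id.aestronglyMeasurable hS.aemeasurable).2 hhS
  set A := ∫ c, tdist c (T c) ∂μ
  set B := ∫ y, |y - S y| ∂ρ
  have key : ∀ M : ℕ,
      |(∫ h : Fin N → ℝ, ∫ w : Fin M → Clause K, av (fun i => logZ h w i)
        ∂Measure.pi (fun _ => μ) ∂Measure.pi (fun _ => ρ)) -
      ∫ h : Fin N → ℝ, ∫ w : Fin M → Clause K, av (fun i => logZ h w i)
        ∂Measure.pi (fun _ => μ.map T) ∂Measure.pi (fun _ => ρ.map S)| ≤ A * M + N * B := fun M => by
    have i1 := integral_sum_eval ρ (e := fun y => |y - S y|) (hh.sub hhS).abs N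
    have i2 := integral_sum_eval μ (integrable_tdist hθ hθT) M
    have hi' := integrable_av_logZM (N := N) hθ' hh' M
    have eS := map_pi_comp (ι := Fin N) ρ hS
    have eT := map_pi_comp (ι := Fin M) μ hT
    rw [eS, eT] at hi' ⊢
    refine (abs_int2_map_sub_le (F := fun p => av (fun i => logZ p.1 p.2 i))
      (measurable_pi_lambda _ fun x => hS.comp (measurable_pi_apply x))
      (measurable_pi_lambda _ fun k => hT.comp (measurable_pi_apply k))
      (integrable_av_logZM hθ hh M) hi' ((i1.1.comp_fst _).add (i2.1.comp_snd _))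
      fun q => ?_).trans (le_of_eq ?_)
    · simp only [Pi.add_apply]
      exact abs_av_sub_le fun i => abs_logZ_sub_le _ _ _ _ i
    · simp only [Pi.add_apply]
      rw [integral_add (i1.1.comp_fst _) (i2.1.comp_snd _),
        integral_fun_fst (fun h : Fin N → ℝ => ∑ x, |h x - S (h x)|),
        integral_fun_snd (fun w : Fin M → Clause K => ∑ k, tdist (w k) (T (w k))), i1.2, i2.2]
      simp [A, B]; ring
  have hr : 0 ≤ lam * (N : ℝ) := by positivity
  have hN : (0 : ℝ) < N := by exact_mod_cast NeZero.pos N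
  simp only [pressureM]
  rw [← mul_sub, ← (summable_pressureM hθ hh hlam).tsum_sub (summable_pressureM hθ' hh' hlam), abs_mul,
    abs_of_nonneg (show (0 : ℝ) ≤ 1 / N by positivity), ← Real.norm_eq_abs]
  refine (mul_le_mul_of_nonneg_left (tsum_of_norm_bounded (hasSum_pois_affine (lam * N) A (N * B))
    fun M => ?_) (by positivity)).trans (le_of_eq ?_)
  · rw [Real.norm_eq_abs, ← mul_sub, abs_mul, abs_of_nonneg (pois_nonneg hr M)]
    exact mul_le_mul_of_nonneg_left (key M) (pois_nonneg hr M)
  · field_simp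

/-! ### trial values -/

variable {r : ℕ} {m : Fin r → ℝ} {x : (Fin (r + 1) → ℝ) → ℝ}

omit [NeZero N] in
/-- every trial value is Lipschitz under maps of the disorder, uniformly in the trial parameters -/
theorem abs_trial_map_sub_le [NeZero K]
    (hθ : ∀ σ : Fin K → Bool, Integrable (fun c : Clause K => theta c σ) μ)
    (hh : Integrable (fun y : ℝ => y) ρ) (hlam : 0 ≤ lam) (hT : Measurable T) (hS : Measurable S)
    (hθT : ∀ σ : Fin K → Bool, Integrable (fun c : Clause K => theta (T c) σ) μ) (hhS : Integrable S ρ)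
    (hm : ∀ l, 0 < m l) (hx : Measurable x) (hx1 : ∀ ω, |x ω| ≤ 1) :
    |(TU μ ρ lam r m x - TV μ lam r m x) -
      (TU (μ.map T) (ρ.map S) lam r m x - TV (μ.map T) lam r m x)| ≤
      2 * K * lam * (∫ c, tdist c (T c) ∂μ) + ∫ y, |y - S y| ∂ρ := by
  have := Measure.isProbabilityMeasure_map (μ := μ) hT.aemeasurable
  have := Measure.isProbabilityMeasure_map (μ := ρ) hS.aemeasurable
  have hθ' : ∀ σ : Fin K → Bool, Integrable (fun c : Clause K => theta c σ) (μ.map T) := fun σ =>
    (integrable_map_measure (measurable_theta σ).aestronglyMeasurable hT.aemeasurable).2 (hθT σ)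
  have hh' : Integrable (fun y : ℝ => y) (ρ.map S) :=
    (integrable_map_measure measurable_id.aestronglyMeasurable hS.aemeasurable).2 hhS
  set A := ∫ c, tdist c (T c) ∂μ
  set B := ∫ y, |y - S y| ∂ρ
  have hA : 0 ≤ A := integral_nonneg fun c => sum_nonneg fun _ _ => abs_nonneg _
  have hK' : (1 : ℝ) ≤ K := by exact_mod_cast NeZero.one_le (n := K)
  have keyU : |TU μ ρ lam r m x - TU (μ.map T) (ρ.map S) lam r m x| ≤ A * (K * lam) + B := by
    have hr : 0 ≤ (K : ℝ) * lam := by positivity
    simp only [TU]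
    rw [← (TU_bound hθ hh hlam hm hx hx1).1.tsum_sub (TU_bound hθ' hh' hlam hm hx hx1).1, ← Real.norm_eq_abs]
    refine tsum_of_norm_bounded (hasSum_pois_affine _ A B) fun n => ?_
    rw [Real.norm_eq_abs, ← mul_sub, abs_mul, abs_of_nonneg (pois_nonneg hr n)]
    refine mul_le_mul_of_nonneg_left ?_ (pois_nonneg hr n)
    have i2 := integral_sum_eval μ (integrable_tdist hθ hθT) n
    have i1 : Integrable (fun y => |y - S y|) ρ := (hh.sub hhS).abs
    have hi' := integrable_avU (n := n) hθ' hh' hm hx hx1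
    rw [map_pi_comp (ι := Fin n) μ hT] at hi' ⊢
    refine (abs_int2_map_sub_le (F := fun q : ℝ × (Fin n → Clause K) =>
        av fun ℓ : Fin n → Fin K => levels r m x (cavU q.1 q.2 ℓ))
      hS (measurable_pi_lambda _ fun k => hT.comp (measurable_pi_apply k))
      (integrable_avU hθ hh hm hx hx1) hi' ((i1.comp_fst _).add (i2.1.comp_snd _))
      fun q => ?_).trans (le_of_eq ?_)
    · simp only [Pi.add_apply]
      exact abs_av_sub_le fun ℓ => abs_levels_sub_le hm hx hx1
        (measurable_cavU_slice _ _ ℓ) (measurable_cavU_slice _ _ ℓ)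
        (fun _ h => cavU_mem_abs _ _ ℓ h) (fun _ h => cavU_mem_abs _ _ ℓ h)
        fun _ h => abs_log_cavU_sub_le _ _ _ _ ℓ h
    · simp only [Pi.add_apply]
      rw [integral_add (i1.comp_fst _) (i2.1.comp_snd _), integral_fun_fst (fun y : ℝ => |y - S y|),
        integral_fun_snd (fun w : Fin n → Clause K => ∑ k, tdist (w k) (T (w k))), i2.2]
      simp [A, B]; ring
  have keyV : |TV μ lam r m x - TV (μ.map T) lam r m x| ≤ A * (((K : ℝ) - 1) * lam) := by
    have hr : 0 ≤ ((K : ℝ) - 1) * lam := mul_nonneg (by linarith) hlam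
    simp only [TV]
    rw [← (TV_bound NeZero.one_le hθ hlam hm hx hx1).1.tsum_sub (TV_bound NeZero.one_le hθ' hlam hm hx hx1).1,
      ← Real.norm_eq_abs]
    refine (tsum_of_norm_bounded (hasSum_pois_affine _ A 0) fun n => ?_).trans (le_of_eq (add_zero _))
    rw [Real.norm_eq_abs, ← mul_sub, abs_mul, abs_of_nonneg (pois_nonneg hr n)]
    refine mul_le_mul_of_nonneg_left ?_ (pois_nonneg hr n)
    have i2 := integral_sum_eval μ (integrable_tdist hθ hθT) n
    have hB : Measurable fun (w : Fin n → Clause K) k => T (w k) :=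
      measurable_pi_lambda _ fun k => hT.comp (measurable_pi_apply k)
    have hi' := integrable_levelsV (n := n) hθ' hm hx hx1
    rw [map_pi_comp (ι := Fin n) μ hT] at hi' ⊢
    have hc := (integrable_map_measure hi'.1 hB.aemeasurable).1 hi'
    simp only [Function.comp_def] at hc
    rw [integral_map hB.aemeasurable hi'.1, ← integral_sub (integrable_levelsV hθ hm hx hx1) hc,
      ← Real.norm_eq_abs]
    refine (norm_integral_le_of_norm_le i2.1 (Eventually.of_forall fun w => ?_)).trans (le_of_eq ?_)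
    · simp only [Real.norm_eq_abs]
      exact abs_levels_sub_le hm hx hx1 (measurable_cavV_slice _) (measurable_cavV_slice _)
        (fun _ h => cavV_mem_abs _ h) (fun _ h => cavV_mem_abs _ h) fun _ h => abs_log_cavV_sub_le _ _ h
    · rw [i2.2]; simp [A]; ring
  have e := abs_sub (TU μ ρ lam r m x - TU (μ.map T) (ρ.map S) lam r m x)
    (TV μ lam r m x - TV (μ.map T) lam r m x)
  rw [sub_sub_sub_comm]
  linarith [mul_nonneg hA hlam]

/-! ### bounded disorder suffices -/

/-- clauses with bounded interaction, all others replaced by the zero interaction -/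
noncomputable def truncC (L : ℝ) (c : Clause K) : Clause K := if tsumAbs c ≤ L then c else zeroClause

omit [NeZero N] in
lemma measurable_tsumAbs : Measurable (tsumAbs (K := K)) :=
  Finset.measurable_sum _ fun σ _ => (measurable_theta σ).abs

omit [NeZero N] in
lemma measurable_truncC (L : ℝ) : Measurable (truncC (K := K) L) :=
  Measurable.ite (measurableSet_le measurable_tsumAbs measurable_const) measurable_id measurable_const

omit [NeZero N] in
lemma tsumAbs_truncC_le {L : ℝ} (hL : 0 ≤ L) (c : Clause K) : tsumAbs (truncC L c) ≤ L := by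
  unfold truncC
  split_ifs with h
  · exact h
  · simpa [tsumAbs, theta_zeroClause] using hL

omit [NeZero N] [IsProbabilityMeasure μ] [IsProbabilityMeasure ρ] in
lemma tendsto_trunc_error (hθ : ∀ σ : Fin K → Bool, Integrable (fun c : Clause K => theta c σ) μ)
    (hh : Integrable (fun y : ℝ => y) ρ) :
    Tendsto (fun L : ℕ => ∫ c, tdist c (truncC L c) ∂μ) atTop (nhds 0) ∧
    Tendsto (fun L : ℕ => ∫ y, |y - clip L y| ∂ρ) atTop (nhds 0) := by
  constructor
  · rw [← integral_zero (Clause K) ℝ]
    refine tendsto_integral_of_dominated_convergence tsumAbs (fun L => ?_) (integrable_tsumAbs hθ)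
      (fun L => Eventually.of_forall fun c => ?_) (Eventually.of_forall fun c => ?_)
    · exact (Finset.measurable_sum _ fun σ _ =>
        ((measurable_theta σ).sub ((measurable_theta σ).comp (measurable_truncC _))).abs).aestronglyMeasurable
    · rw [Real.norm_eq_abs, abs_of_nonneg (show 0 ≤ tdist c (truncC L c) from sum_nonneg fun _ _ => abs_nonneg _)]
      unfold truncC
      split_ifs
      · simpa [tdist] using tsumAbs_nonneg c
      · rw [tdist_zeroClause]
    · refine tendsto_const_nhds.congr' ?_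
      filter_upwards [Filter.eventually_ge_atTop ⌈tsumAbs c⌉₊] with L hL
      simp [truncC, (Nat.le_ceil _).trans (Nat.cast_le.2 hL), tdist]
  · rw [← integral_zero ℝ ℝ (μ := ρ)]
    refine tendsto_integral_of_dominated_convergence (fun y => |y| + |y|) (fun L => ?_) (hh.abs.add hh.abs)
      (fun L => Eventually.of_forall fun y => ?_) (Eventually.of_forall fun y => ?_)
    · exact ((measurable_id.sub (continuous_clip (L : ℝ)).measurable).abs).aestronglyMeasurable
    · rw [Real.norm_eq_abs, abs_abs]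
      exact (abs_sub _ _).trans (add_le_add le_rfl (abs_clip_le_abs (Nat.cast_nonneg L) y))
    · refine tendsto_const_nhds.congr' ?_
      filter_upwards [Filter.eventually_ge_atTop ⌈|y|⌉₊] with L hL
      simp [clip_of_le ((Nat.le_ceil _).trans (Nat.cast_le.2 hL))]

omit [NeZero N] in
/-- **Truncation.** A lower bound by trial values for bounded disorder gives it in general. -/
theorem lower_of_bounded [NeZero K] (hθ : ∀ σ : Fin K → Bool, Integrable (fun c : Clause K => theta c σ) μ)
    (hh : Integrable (fun y : ℝ => y) ρ) (hlam : 0 ≤ lam)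
    (H : ∀ (μ' : Measure (Clause K)) (ρ' : Measure ℝ), IsProbabilityMeasure μ' → IsProbabilityMeasure ρ' →
      ∀ L : ℝ, 0 ≤ L → (∀ᵐ c ∂μ', tsumAbs c ≤ L) → (∀ᵐ y ∂ρ', |y| ≤ L) →
      ∀ ε > 0, ∀ᶠ N in atTop, ∃ v ∈ mpValues μ' ρ' lam, v - ε ≤ pressureM μ' ρ' lam N) :
    ∀ ε > 0, ∀ᶠ N in atTop, ∃ v ∈ mpValues μ ρ lam, v - ε ≤ pressureM μ ρ lam N := by
  intro ε hε
  obtain ⟨tc, tf⟩ := tendsto_trunc_error hθ hh
  have ht : Tendsto (fun L : ℕ => (2 * K + 1) * lam * (∫ c, tdist c (truncC L c) ∂μ) +
      2 * ∫ y, |y - clip L y| ∂ρ) atTop (nhds 0) := by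
    simpa using (tc.const_mul ((2 * (K : ℝ) + 1) * lam)).add (tf.const_mul 2)
  obtain ⟨L, hL⟩ := (ht.eventually_lt_const (half_pos hε)).exists
  have hT : Measurable (truncC (K := K) (L : ℝ)) := measurable_truncC _
  have hS : Measurable (clip (L : ℝ)) := (continuous_clip _).measurable
  have hθT : ∀ σ : Fin K → Bool, Integrable (fun c : Clause K => theta (truncC (L : ℝ) c) σ) μ := fun σ =>
    Integrable.of_bound ((measurable_theta σ).comp hT).aestronglyMeasurable (L : ℝ)
      (Eventually.of_forall fun c => by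
        rw [Real.norm_eq_abs]
        exact (abs_theta_le_tsumAbs _ σ).trans (tsumAbs_truncC_le (Nat.cast_nonneg L) c))
  have hhS : Integrable (clip (L : ℝ)) ρ := Integrable.of_bound hS.aestronglyMeasurable (L : ℝ)
    (Eventually.of_forall fun y => by rw [Real.norm_eq_abs]; exact abs_clip_le (Nat.cast_nonneg L) y)
  have hb := H (μ.map (truncC (L : ℝ))) (ρ.map (clip (L : ℝ)))
    (Measure.isProbabilityMeasure_map hT.aemeasurable) (Measure.isProbabilityMeasure_map hS.aemeasurable)
    L (Nat.cast_nonneg L)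
    ((ae_map_iff hT.aemeasurable (measurableSet_le measurable_tsumAbs measurable_const)).2
      (Eventually.of_forall fun c => tsumAbs_truncC_le (Nat.cast_nonneg L) c))
    ((ae_map_iff hS.aemeasurable (measurableSet_le measurable_id.abs measurable_const)).2
      (Eventually.of_forall fun y => abs_clip_le (Nat.cast_nonneg L) y))
    (ε / 2) (half_pos hε)
  filter_upwards [hb, Filter.eventually_ge_atTop 1] with N hN hN1
  obtain ⟨v, ⟨r, m, x, hm1, hm, hx, hx1, rfl⟩, hv⟩ := hN
  have : NeZero N := ⟨by omega⟩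
  have e1 := abs_le.1 (abs_pressureM_map_sub_le (N := N) hθ hh hlam hT hS hθT hhS)
  have e2 := abs_le.1 (abs_trial_map_sub_le hθ hh hlam hT hS hθT hhS (fun l => (hm l).1) hx hx1)
  exact ⟨_, ⟨r, m, x, hm1, hm, hx, hx1, rfl⟩, by linarith [e1.1, e2.2]⟩

end Vale.Agent.P168.MP
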