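import Vale.Agent.P168.MP.CavPhi
import Vale.Agent.P168.MP.CavCount
import Vale.Agent.P168.MP.Exchange
import Vale.Agent.P168.MP.Ident
import Vale.Agent.P168.MP.Grow
import Vale.Agent.P168.MP.Trunc
import Vale.Agent.P168.MP.Chi

/-! Section D of ROUTE.md: the perturbed pressure follows the pressure, and its increments are the
mean cavity gains. Everything is written through functions of an energy (see CavOps). -/

open MeasureTheory Real Finset Filter
open Vale.Agent.P168.MP.Cav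

namespace Vale.Agent.P168.MP

variable {K N S : ℕ} [NeZero N] {ι : Type} [Fintype ι] [DecidableEq ι] {β : ι → Batch}

/-! ### deterministic bounds -/

/-- bound of the exponent of the perturbation -/
def gainCap (S : ℕ) (β : ι → Batch) : ℝ := S * ∑ j, (((β j).k : ℝ) + 1)

omit [DecidableEq ι] in
lemma abs_gain_le_gainCap {h u : ι → ℝ} (hh : ∀ j, |h j| ≤ 1) (hu : ∀ j, |u j| ≤ 1) {R : ℕ}
    (p : List (Mark N S β)) : |∑ i : ι × Fin S, gain1 R h u p i| ≤ gainCap S β := by
  refine (abs_gain_le p).trans (mul_le_mul_of_nonneg_left ?_ (Nat.cast_nonneg _))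
  exact Finset.sum_le_sum fun j _ =>
    add_le_add (mul_le_of_le_one_left (Nat.cast_nonneg _) (hh j)) (hu j)

/-- a weight read from the configuration averages it at the last level -/
lemma Z_spinAt {R : ℕ} (hR : 1 ≤ R) {W : (Fin N → Bool) → ℝ} (hW : ∀ σ, 0 < W σ) :
    ∀ (k : ℕ) (pre : List (Mark N S β)), pre.length + (k + 1) = R →
      Z (lin R) (fun p => W (spinAt R p)) (k + 1) pre = avg W := by
  have hok := ok_lin hR (w := fun p : List (Mark N S β) => W (spinAt R p)) fun p => hW _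
  intro k
  induction k with
  | zero =>
      intro pre h
      have e : ∀ o : Mark N S β, spinAt R (pre ++ [o]) = o.1 := fun o => by
        rw [spinAt, List.getD_append_right _ _ _ _ (by omega), show R - 1 - pre.length = 0 by omega]
        rfl
      rw [Z, show pre.length + 1 = R by omega, hok.top]
      simp only [Z, e, Real.rpow_one, one_div, inv_one]
      have h1 := avg_prod_mul W (fun _ : (i : ι × Fin S) → Site N (β i.1).k => (1 : ℝ))
      simp only [mul_one, avg_const] at h1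
      exact h1
  | succ k ih =>
      intro pre h
      have hm := hok.pos (pre.length + 1) (by omega) (by omega)
      rw [Z]
      simp only [fun o : Mark N S β => ih (pre ++ [o]) (by simp; omega), avg_const, one_div]
      exact Real.rpow_rpow_inv (avg_pos hW).le hm.ne'

lemma logZ0_spinAt {R : ℕ} (hR : 1 ≤ R) {W : (Fin N → Bool) → ℝ} (hW : ∀ σ, 0 < W σ) :
    logZ0 R (lin R) (fun p : List (Mark N S β) => W (spinAt R p)) = log (avg W) := by
  obtain ⟨k, rfl⟩ := Nat.exists_eq_add_of_le' hR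
  rw [logZ0, Z_spinAt hR hW k [] (by simp)]

/-- the perturbation moves the log partition function by at most `gainCap` -/
lemma abs_logZ0_pw_sub_le {R : ℕ} (hR : 1 ≤ R) {W : (Fin N → Bool) → ℝ} (hW : ∀ σ, 0 < W σ)
    {h u : ι → ℝ} (hh : ∀ j, |h j| ≤ 1) (hu : ∀ j, |u j| ≤ 1) :
    |logZ0 R (lin R) (pw (S := S) (β := β) R W h u) - log (avg W)| ≤ gainCap S β := by
  have hw : ∀ p : List (Mark N S β), 0 < W (spinAt R p) := fun p => hW _
  have h1 := logZ0_mul (R := R) (m := lin R) hw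
    (Y := fun p : List (Mark N S β) => exp (∑ i : ι × Fin S, gain1 R h u p i)) fun p => exp_pos _
  rw [logZ0_spinAt hR hW] at h1
  have e : pw (S := S) (β := β) R W h u = fun p : List (Mark N S β) =>
      W (spinAt R p) * exp (∑ i : ι × Fin S, gain1 R h u p i) := rfl
  rw [e, h1]
  obtain ⟨ha, hb⟩ := nest_mem (ok_lin hR hw) (exp_pos (-gainCap S β)) (b := exp (gainCap S β))
    (Y := fun p : List (Mark N S β) => exp (∑ i : ι × Fin S, gain1 R h u p i))
    (fun p _ => ⟨exp_le_exp.2 (abs_le.1 (abs_gain_le_gainCap hh hu p)).1,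
      exp_le_exp.2 (abs_le.1 (abs_gain_le_gainCap hh hu p)).2⟩) R [] (by simp)
  rw [abs_le]
  constructor
  · rw [← log_exp (-gainCap S β)]; exact log_le_log (exp_pos _) ha
  · rw [← log_exp (gainCap S β)]; exact log_le_log ((exp_pos _).trans_le ha) hb

/-! ### energies -/

/-- energy of a clause between old sites -/
noncomputable def eA (c : Clause K) (i : Fin K → Fin N) : (Fin N → Bool) → ℝ :=
  fun σ => theta c fun j => σ (i j)

/-- energy of a clause meeting the new site at one slot -/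
noncomputable def eH (c : Clause K) (p : Fin K × (Fin K → Fin N)) : (Fin N → Bool) × Bool → ℝ :=
  fun x => theta c (Function.update (fun j => x.1 (p.2 j)) p.1 x.2)

/-- energy of the field of the new site -/
def eF (y : ℝ) (_ : Unit) : (Fin N → Bool) × Bool → ℝ := fun x => y * sg x.2

/-- energy of the fields -/
def fsE (f : Fin N → ℝ) : (Fin N → Bool) → ℝ := fun σ => ∑ x, f x * sg (σ x)

/-- an energy of the old sites read at `N + 1` sites -/
def liftA : ((Fin N → Bool) → ℝ) →ₗ[ℝ] ((Fin (N + 1) → Bool) → ℝ) :=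
  LinearMap.funLeft ℝ ℝ fun τ x => τ x.castSucc

/-- an energy of the old sites and the new one read at `N + 1` sites -/
def liftB : ((Fin N → Bool) × Bool → ℝ) →ₗ[ℝ] ((Fin (N + 1) → Bool) → ℝ) :=
  LinearMap.funLeft ℝ ℝ fun τ => (fun x => τ x.castSucc, τ (Fin.last N))

/-- the new spin averaged out -/
noncomputable def mrg (H : (Fin N → Bool) × Bool → ℝ) : (Fin N → Bool) → ℝ :=
  fun σ => log (avg fun s => exp (H (σ, s)))

/-- perturbed log partition function of an energy -/
noncomputable def GN (S : ℕ) (β : ι → Batch) (R : ℕ) (h u : ι → ℝ) (H : (Fin N → Bool) → ℝ) : ℝ :=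
  logZ0 R (lin R) (pw (N := N) (S := S) (β := β) R (fun σ => exp (H σ)) h u)

/-- log partition function of an energy -/
noncomputable def G0 (H : (Fin N → Bool) → ℝ) : ℝ := log (∑ σ, exp (H σ))

/-- new site part of the gain -/
noncomputable def gainU (S : ℕ) (β : ι → Batch) (R : ℕ) (h u : ι → ℝ) (μ : Measure (Clause K))
    (ρ : Measure ℝ) (lam : ℝ) (H : (Fin N → Bool) → ℝ) : ℝ :=
  cstep ρ eF (Phi (cstep μ eH) (K * lam) fun H₁ => GN S β R h u (H + mrg H₁)) 0

/-- old clauses part of the gain -/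
noncomputable def gainV (S : ℕ) (β : ι → Batch) (R : ℕ) (h u : ι → ℝ) (μ : Measure (Clause K))
    (lam : ℝ) (H : (Fin N → Bool) → ℝ) : ℝ :=
  Phi (cstep μ eA) (((K : ℝ) - 1) * lam) (GN S β R h u) H

lemma list_sum_eval {α γ : Type*} (l : List γ) (f : γ → α → ℝ) (a : α) :
    (l.map f).sum a = (l.map fun c => f c a).sum := by
  induction l with
  | nil => simp
  | cons c l ih => simp [ih]

omit [NeZero N] in
lemma norm_eA_le (c : Clause K) (i : Fin K → Fin N) : ‖eA c i‖ ≤ tsumAbs c :=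
  (pi_norm_le_iff_of_nonneg (tsumAbs_nonneg c)).2 fun _ => by
    rw [Real.norm_eq_abs]; exact abs_theta_le_tsumAbs c _

omit [NeZero N] in
lemma norm_eH_le (c : Clause K) (p : Fin K × (Fin K → Fin N)) : ‖eH c p‖ ≤ tsumAbs c :=
  (pi_norm_le_iff_of_nonneg (tsumAbs_nonneg c)).2 fun _ => by
    rw [Real.norm_eq_abs]; exact abs_theta_le_tsumAbs c _

omit [NeZero N] in
lemma norm_eF_le (y : ℝ) (a : Unit) : ‖(eF y a : (Fin N → Bool) × Bool → ℝ)‖ ≤ |y| :=
  (pi_norm_le_iff_of_nonneg (abs_nonneg y)).2 fun x => by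
    simp [eF, Real.norm_eq_abs, abs_mul]

omit [NeZero N] in
lemma norm_liftA_le (H : (Fin N → Bool) → ℝ) : ‖liftA H‖ ≤ ‖H‖ :=
  (pi_norm_le_iff_of_nonneg (norm_nonneg H)).2 fun _ => norm_le_pi_norm H _

omit [NeZero N] in
lemma norm_liftB_le (H : (Fin N → Bool) × Bool → ℝ) : ‖liftB H‖ ≤ ‖H‖ :=
  (pi_norm_le_iff_of_nonneg (norm_nonneg H)).2 fun _ => norm_le_pi_norm H _

omit [NeZero N] in
lemma abs_mrg_sub_le (H H' : (Fin N → Bool) × Bool → ℝ) : ‖mrg H - mrg H'‖ ≤ ‖H - H'‖ := by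
  refine (pi_norm_le_iff_of_nonneg (norm_nonneg _)).2 fun σ => ?_
  have key : ∀ H H' : (Fin N → Bool) × Bool → ℝ, mrg H σ ≤ mrg H' σ + ‖H - H'‖ := by
    intro H H'
    have h1 : avg (fun s => exp (H (σ, s))) ≤ exp ‖H - H'‖ * avg fun s => exp (H' (σ, s)) := by
      simp only [avg, ← mul_div_assoc, Finset.mul_sum, ← exp_add]
      gcongr with s
      have := norm_le_pi_norm (H - H') (σ, s)
      rw [Pi.sub_apply, Real.norm_eq_abs] at this
      linarith [(abs_le.1 this).2]
    have hp : ∀ H : (Fin N → Bool) × Bool → ℝ, 0 < avg fun s => exp (H (σ, s)) :=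
      fun H => avg_pos fun s => exp_pos _
    have := log_le_log (hp H) h1
    rw [log_mul (exp_pos _).ne' (hp H').ne', log_exp] at this
    simp only [mrg]
    linarith
  rw [Pi.sub_apply, Real.norm_eq_abs, abs_sub_le_iff]
  exact ⟨by linarith [key H H'], by linarith [key H' H, norm_sub_rev H H']⟩

omit [NeZero N] in
lemma hamW_eq (f : Fin N → ℝ) (l : List (Clause K × (Fin K → Fin N))) :
    hamW f l = fun σ => exp ((fsE f + (l.map fun c => eA c.1 c.2).sum) σ) := by
  funext σ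
  rw [hamW, Pi.add_apply, list_sum_eval, add_comm]
  rfl

variable {R : ℕ} {h u : ι → ℝ}

/-- the nested mean of a factor is an increment of `GN` -/
lemma nestC_exp (W Y : (Fin N → Bool) → ℝ) :
    nestC (S := S) (β := β) R (fun σ => exp (W σ)) h u (fun σ => exp (Y σ))
      = GN S β R h u (W + Y) - GN S β R h u W := by
  have hw : ∀ p, 0 < pw (S := S) (β := β) R (fun σ => exp (W σ)) h u p := fun p => by
    unfold pw; positivity
  have e : pw (S := S) (β := β) R (fun σ => exp ((W + Y) σ)) h u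
      = fun p => pw (S := S) (β := β) R (fun σ => exp (W σ)) h u p * exp (Y (spinAt R p)) := by
    funext p
    simp only [pw, Pi.add_apply, exp_add]
    ring
  rw [GN, e, nestC]
  exact (logZ0_mul hw fun p => exp_pos _).symm

lemma GN_bounds (hR : 1 ≤ R) (W Y : (Fin N → Bool) → ℝ) {a b : ℝ}
    (hab : ∀ σ, a ≤ Y σ ∧ Y σ ≤ b) :
    a ≤ GN S β R h u (W + Y) - GN S β R h u W ∧ GN S β R h u (W + Y) - GN S β R h u W ≤ b := by
  have hw : ∀ p, 0 < pw (S := S) (β := β) R (fun σ => exp (W σ)) h u p := fun p => by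
    unfold pw; positivity
  rw [← nestC_exp, nestC]
  obtain ⟨h1, h2⟩ := nest_mem (ok_lin (le_trans hR le_rfl) hw) (exp_pos a) (b := exp b)
    (Y := fun p => exp (Y (spinAt R p)))
    (fun p _ => ⟨exp_le_exp.2 (hab _).1, exp_le_exp.2 (hab _).2⟩) R [] (by simp)
  exact ⟨(le_log_iff_exp_le ((exp_pos a).trans_le h1)).2 h1,
    (log_le_iff_le_exp ((exp_pos a).trans_le h1)).2 h2⟩

lemma lip_GN (hR : 1 ≤ R) : Lip 1 (GN (N := N) S β R h u) := fun H H' => by
  obtain ⟨h1, h2⟩ := GN_bounds (S := S) (β := β) (h := h) (u := u) hR H' (H - H')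
    (a := -‖H - H'‖) (b := ‖H - H'‖) fun σ => by
      have := norm_le_pi_norm (H - H') σ
      rw [Real.norm_eq_abs, abs_le] at this
      exact this
  rw [add_sub_cancel] at h1 h2
  rw [one_mul, abs_le]
  exact ⟨h1, h2⟩

lemma GN_add_const (hR : 1 ≤ R) (H : (Fin N → Bool) → ℝ) (c : ℝ) :
    GN S β R h u (H + fun _ => c) = GN S β R h u H + c := by
  obtain ⟨h1, h2⟩ := GN_bounds (S := S) (β := β) (h := h) (u := u) hR H (fun _ => c)
    (a := c) (b := c) fun _ => ⟨le_rfl, le_rfl⟩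
  linarith

omit [NeZero N] in
lemma lip_G0 : Lip 1 (G0 (N := N)) := fun H H' => by
  have key : ∀ H H' : (Fin N → Bool) → ℝ, G0 H ≤ G0 H' + ‖H - H'‖ := fun H H' =>
    log_sum_diff fun σ => by
      have := norm_le_pi_norm (H - H') σ
      rw [Pi.sub_apply, Real.norm_eq_abs] at this
      linarith [(abs_le.1 this).2]
  rw [one_mul, abs_sub_le_iff]
  exact ⟨by linarith [key H H'], by linarith [key H' H, norm_sub_rev H H']⟩

omit [NeZero N] in
lemma lip_shift_mrg {D : ℝ} {G : ((Fin N → Bool) → ℝ) → ℝ} (hD : 0 ≤ D) (hG : Lip D G)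
    (H : (Fin N → Bool) → ℝ) : Lip D fun H₁ => G (H + mrg H₁) := fun H₁ H₁' => by
  refine (hG _ _).trans (mul_le_mul_of_nonneg_left ?_ hD)
  rw [add_sub_add_left_eq_sub]
  exact abs_mrg_sub_le _ _

/-! ### the random jumps -/

variable {μ : Measure (Clause K)} {ρ : Measure ℝ} {L lam : ℝ}

omit [NeZero N] in
lemma jump_eA (hμ : ∀ᵐ c ∂μ, tsumAbs c ≤ L) (hL : 0 ≤ L) :
    Jump μ (eA (K := K) (N := N)) L :=
  ⟨hL, fun i => measurable_pi_lambda _ fun σ => measurable_theta _,
    hμ.mono fun c hc i => (norm_eA_le c i).trans hc⟩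

omit [NeZero N] in
lemma jump_eH (hμ : ∀ᵐ c ∂μ, tsumAbs c ≤ L) (hL : 0 ≤ L) :
    Jump μ (eH (K := K) (N := N)) L :=
  ⟨hL, fun i => measurable_pi_lambda _ fun σ => measurable_theta _,
    hμ.mono fun c hc i => (norm_eH_le c i).trans hc⟩

omit [NeZero N] in
lemma jump_eF (hρ : ∀ᵐ y ∂ρ, |y| ≤ L) (hL : 0 ≤ L) : Jump ρ (eF (N := N)) L :=
  ⟨hL, fun i => measurable_pi_lambda _ fun σ => measurable_id.mul_const _,
    hρ.mono fun y hy i => (norm_eF_le y i).trans hy⟩

omit [NeZero N] in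
lemma jump_liftA (hμ : ∀ᵐ c ∂μ, tsumAbs c ≤ L) (hL : 0 ≤ L) :
    Jump μ (fun c i => liftA (eA (K := K) (N := N) c i)) L :=
  ⟨hL, fun i => measurable_pi_lambda _ fun σ => measurable_theta _,
    hμ.mono fun c hc i => ((norm_liftA_le _).trans (norm_eA_le c i)).trans hc⟩

omit [NeZero N] in
lemma jump_liftH (hμ : ∀ᵐ c ∂μ, tsumAbs c ≤ L) (hL : 0 ≤ L) :
    Jump μ (fun c p => liftB (eH (K := K) (N := N) c p)) L :=
  ⟨hL, fun i => measurable_pi_lambda _ fun σ => measurable_theta _,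
    hμ.mono fun c hc i => ((norm_liftB_le _).trans (norm_eH_le c i)).trans hc⟩

omit [NeZero N] in
lemma jump_liftF (hρ : ∀ᵐ y ∂ρ, |y| ≤ L) (hL : 0 ≤ L) :
    Jump ρ (fun y a => liftB (eF (N := N) y a)) L :=
  ⟨hL, fun i => measurable_pi_lambda _ fun σ => measurable_id.mul_const _,
    hρ.mono fun y hy i => ((norm_liftB_le _).trans (norm_eF_le y i)).trans hy⟩

omit [NeZero N] in
lemma integrable_fields [IsProbabilityMeasure ρ] (hρ : ∀ᵐ y ∂ρ, |y| ≤ L) (hL : 0 ≤ L) {D : ℝ}
    {G : ((Fin N → Bool) → ℝ) → ℝ} (hD : 0 ≤ D) (hG : Lip D G) :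
    Integrable (fun f : Fin N → ℝ => G (fsE f)) (Measure.pi fun _ => ρ) := by
  have hm : Measurable fun f : Fin N → ℝ => fsE f := by
    refine measurable_pi_lambda _ fun σ => ?_
    exact Finset.measurable_sum _ fun x _ => (measurable_pi_apply x).mul_const _
  refine Integrable.of_bound (hG.continuous.measurable.comp hm).aestronglyMeasurable
    (|G 0| + D * (N * L)) ?_
  have hall : ∀ᵐ f ∂Measure.pi (fun _ : Fin N => ρ), ∀ x, |f x| ≤ L := ae_all_iff.2 fun x =>
    (Measure.tendsto_eval_ae_ae (μ := fun _ : Fin N => ρ) (i := x)).eventually hρ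
  filter_upwards [hall] with f hf
  rw [Real.norm_eq_abs]
  refine (hG.abs_le _).trans (add_le_add le_rfl (mul_le_mul_of_nonneg_left ?_ hD))
  refine (pi_norm_le_iff_of_nonneg (by positivity)).2 fun σ => ?_
  rw [Real.norm_eq_abs, fsE]
  refine (abs_sum_le_sum_abs _ _).trans ((Finset.sum_le_sum fun x _ =>
    show |f x * sg (σ x)| ≤ L by rw [abs_mul, abs_sg, mul_one]; exact hf x).trans ?_)
  simp

lemma abs_integral_sub_le {X : Type*} [MeasurableSpace X] {Q : Measure X} [IsProbabilityMeasure Q]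
    {F G : X → ℝ} (hF : Integrable F Q) (hG : Integrable G Q) {c : ℝ} (h : ∀ x, |F x - G x| ≤ c) :
    |∫ x, F x ∂Q - ∫ x, G x ∂Q| ≤ c := by
  rw [← integral_sub hF hG, ← Real.norm_eq_abs]
  exact (norm_integral_le_of_norm_le_const (C := c)
    (Eventually.of_forall fun x => by rw [Real.norm_eq_abs]; exact h x)).trans (by simp)

variable [IsProbabilityMeasure μ] [IsProbabilityMeasure ρ]

lemma pertA_eq (hμ : ∀ᵐ c ∂μ, tsumAbs c ≤ L) (hL : 0 ≤ L) (hR : 1 ≤ R) :
    pertA (S := S) (β := β) μ ρ lam R N h u = ∫ f : Fin N → ℝ,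
      Phi (cstep μ eA) (lam * N) (GN S β R h u) (fsE f) ∂Measure.pi (fun _ => ρ) := by
  refine integral_congr_ae (Eventually.of_forall fun f => ?_)
  exact cex_eq_Phi (jump_eA hμ hL) zero_le_one (lip_GN hR) _ _ fun l => by
    rw [hamW_eq]; rfl

lemma lip_gainV (hμ : ∀ᵐ c ∂μ, tsumAbs c ≤ L) (hL : 0 ≤ L) (hR : 1 ≤ R) (hlam : 0 ≤ lam)
    (hK : 1 ≤ K) : Lip 1 (gainV (N := N) S β R h u μ lam) := by
  have h1 : (1 : ℝ) ≤ K := by exact_mod_cast hK
  exact (jump_eA hμ hL).isStep.lip_Phi zero_le_one (lip_GN hR)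
    (mul_nonneg (by linarith) hlam)

lemma lip_gainU [NeZero K] (hμ : ∀ᵐ c ∂μ, tsumAbs c ≤ L) (hρ : ∀ᵐ y ∂ρ, |y| ≤ L) (hL : 0 ≤ L)
    (hR : 1 ≤ R) (hlam : 0 ≤ lam) : Lip 1 (gainU (N := N) S β R h u μ ρ lam) := fun H H' => by
  have hsH := (jump_eH (N := N) hμ hL).isStep
  have hKl : 0 ≤ (K : ℝ) * lam := by positivity
  have hG := fun H : (Fin N → Bool) → ℝ =>
    lip_shift_mrg zero_le_one (lip_GN (S := S) (β := β) (h := h) (u := u) hR) H
  refine (jump_eF hρ hL).isStep.abs_sub ((hsH.lip_Phi zero_le_one (hG H) hKl).isLip zero_le_one)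
    ((hsH.lip_Phi zero_le_one (hG H') hKl).isLip zero_le_one) (fun H₁ => ?_) 0
  refine Phi_abs_sub hsH zero_le_one (hG H) zero_le_one (hG H') (fun H₂ => ?_) hKl H₁
  have := lip_GN (S := S) (β := β) (h := h) (u := u) hR (H + mrg H₂) (H' + mrg H₂)
  rwa [add_sub_add_right_eq_sub] at this

lemma cavGain_eq [NeZero K] (hμ : ∀ᵐ c ∂μ, tsumAbs c ≤ L) (hρ : ∀ᵐ y ∂ρ, |y| ≤ L) (hL : 0 ≤ L)
    (hR : 1 ≤ R) (hlam : 0 ≤ lam) (H : (Fin N → Bool) → ℝ) :
    cavGain (S := S) (β := β) μ ρ lam R (fun σ => exp (H σ)) h u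
      = gainU S β R h u μ ρ lam H + log 2 - gainV S β R h u μ lam H := by
  have hK : (1 : ℝ) ≤ K := by exact_mod_cast Nat.one_le_iff_ne_zero.2 (NeZero.ne K)
  have hsA := (jump_eA (N := N) hμ hL).isStep
  have hsH := (jump_eH (N := N) hμ hL).isStep
  have hjF := jump_eF (N := N) hρ hL
  have hKl : 0 ≤ (K : ℝ) * lam := by positivity
  have hKl' : 0 ≤ ((K : ℝ) - 1) * lam := mul_nonneg (by linarith) hlam
  have hGN := lip_GN (N := N) (S := S) (β := β) (h := h) (u := u) hR
  set g : ((Fin N → Bool) × Bool → ℝ) → ℝ := fun H₁ => GN S β R h u (H + mrg H₁) with hg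
  have hgl : Lip 1 g := lip_shift_mrg zero_le_one hGN H
  set c₀ := log 2 - GN S β R h u H with hc₀
  have hgl' : Lip 1 fun H₁ => cstep ρ eF g H₁ + c₀ := fun a b => by
    simpa using hjF.isStep.lip zero_le_one hgl a b
  -- the new site
  have eU : cex μ (K * lam) (fun l : List (Clause K × (Fin K × (Fin K → Fin N))) =>
      ∫ f₀, nestC (S := S) (β := β) R (fun σ => exp (H σ)) h u
        (fun σ => ∑ s : Bool, newFac f₀ l σ s) ∂ρ)
      = Phi (cstep μ eH) (K * lam) (fun H₁ => cstep ρ eF g H₁ + c₀) 0 := by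
    refine cex_eq_Phi (jump_eH hμ hL) zero_le_one hgl' _ _ fun l => ?_
    set H₁ : (Fin N → Bool) × Bool → ℝ := 0 + (l.map fun c => eH c.1 c.2).sum with hH₁
    have e : ∀ f₀, nestC (S := S) (β := β) R (fun σ => exp (H σ)) h u
        (fun σ => ∑ s : Bool, newFac f₀ l σ s) = av (fun a => g (H₁ + eF f₀ a)) + c₀ := by
      intro f₀
      have e1 : (fun σ : Fin N → Bool => ∑ s : Bool, newFac f₀ l σ s)
          = fun σ => exp ((mrg (H₁ + eF (N := N) f₀ ()) + fun _ => log 2 : (Fin N → Bool) → ℝ) σ) := by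
        funext σ
        have hs : ∀ s, exp ((H₁ + eF (N := N) f₀ ()) (σ, s)) = newFac f₀ l σ s := fun s => by
          rw [Pi.add_apply, hH₁, zero_add, list_sum_eval, newFac, add_comm]
          rfl
        rw [Pi.add_apply, mrg, exp_add, exp_log (avg_pos fun s => exp_pos _),
          exp_log two_pos]
        simp only [hs, avg, Fintype.card_bool]
        push_cast
        ring
      rw [e1, nestC_exp, ← add_assoc, GN_add_const hR, av_const (α := Unit) (g (H₁ + eF (N := N) f₀ ())),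
        hc₀, hg]
      ring
    simp only [e]
    rw [integral_add (hjF.integrable zero_le_one hgl H₁) (integrable_const _)]
    simp [cstep]
  -- the old clauses
  have eV : cex μ (((K : ℝ) - 1) * lam) (fun l : List (Clause K × (Fin K → Fin N)) =>
      nestC (S := S) (β := β) R (fun σ => exp (H σ)) h u (oldFac l))
      = Phi (cstep μ eA) (((K : ℝ) - 1) * lam) (fun x => GN S β R h u x + -GN S β R h u H) H := by
    refine cex_eq_Phi (jump_eA hμ hL) zero_le_one (fun a b => by simpa using hGN a b) _ _ fun l => ?_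
    have e1 : oldFac l = fun σ => exp ((l.map fun c => eA c.1 c.2).sum σ) := by
      funext σ
      rw [oldFac, list_sum_eval]
      rfl
    rw [e1, nestC_exp]
    ring
  rw [cavGain, eU, eV, hsH.Phi_add_const zero_le_one (hjF.isStep.lip zero_le_one hgl) _ hKl,
    hsA.Phi_add_const zero_le_one hGN _ hKl', gainU, gainV,
    step_Phi_comm hjF.isStep hsH
      (fun G ⟨D, hD, hG⟩ => cstep_comm hjF (jump_eH hμ hL) hD hG) zero_le_one hgl hKl, hc₀]
  ring

lemma cavMean_eq [NeZero K] (hμ : ∀ᵐ c ∂μ, tsumAbs c ≤ L) (hρ : ∀ᵐ y ∂ρ, |y| ≤ L) (hL : 0 ≤ L)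
    (hR : 1 ≤ R) (hlam : 0 ≤ lam) :
    cavMean (S := S) (β := β) μ ρ lam R N h u = (∫ f : Fin N → ℝ,
      Phi (cstep μ eA) (lam * (N + 1) * ((N : ℝ) / (N + 1)) ^ K)
        (gainU S β R h u μ ρ lam) (fsE f) ∂Measure.pi (fun _ => ρ)) + log 2
      - ∫ f : Fin N → ℝ, Phi (cstep μ eA) (lam * (N + 1) * ((N : ℝ) / (N + 1)) ^ K)
        (gainV S β R h u μ lam) (fsE f) ∂Measure.pi (fun _ => ρ) := by
  have hsA := (jump_eA (N := N) hμ hL).isStep
  have hK : 1 ≤ K := Nat.one_le_iff_ne_zero.2 (NeZero.ne K)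
  have hU := lip_gainU (N := N) (S := S) (β := β) (h := h) (u := u) hμ hρ hL hR hlam
  have hV := lip_gainV (N := N) (S := S) (β := β) (h := h) (u := u) hμ hL hR hlam hK
  have ha : 0 ≤ lam * (N + 1) * ((N : ℝ) / (N + 1)) ^ K := by positivity
  have hU2 : Lip 1 fun H : (Fin N → Bool) → ℝ => gainU S β R h u μ ρ lam H + log 2 :=
    fun a b => by simpa using hU a b
  have e : cavMean (S := S) (β := β) μ ρ lam R N h u = ∫ f : Fin N → ℝ,
      (Phi (cstep μ eA) (lam * (N + 1) * ((N : ℝ) / (N + 1)) ^ K)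
        (gainU S β R h u μ ρ lam) (fsE f) + log 2
      - Phi (cstep μ eA) (lam * (N + 1) * ((N : ℝ) / (N + 1)) ^ K)
        (gainV S β R h u μ lam) (fsE f)) ∂Measure.pi (fun _ => ρ) := by
    refine integral_congr_ae (Eventually.of_forall fun f => ?_)
    simp only
    rw [← hsA.Phi_add_const zero_le_one hU _ ha,
      ← Phi_sub hsA zero_le_one hU2 zero_le_one hV ha]
    refine cex_eq_Phi (jump_eA hμ hL) (by positivity : (0 : ℝ) ≤ |1| * 1 + |(-1 : ℝ)| * 1)
      (fun a b => by simpa [sub_eq_add_neg] using hU2.lin hV 1 (-1) a b) _ _ fun l => ?_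
    rw [hamW_eq, cavGain_eq hμ hρ hL hR hlam]
  rw [e, integral_sub, integral_add, integral_const]
  · simp
  · exact integrable_fields hρ hL zero_le_one (hsA.lip_Phi zero_le_one hU ha)
  · exact integrable_const _
  · exact (integrable_fields hρ hL zero_le_one (hsA.lip_Phi zero_le_one hU ha)).add
      (integrable_const _)
  · exact integrable_fields hρ hL zero_le_one (hsA.lip_Phi zero_le_one hV ha)

/-! ### (a) the pressure -/

theorem abs_pertA_sub_le [NeZero K] (hμ : ∀ᵐ c ∂μ, tsumAbs c ≤ L) (hρ : ∀ᵐ y ∂ρ, |y| ≤ L)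
    (hL : 0 ≤ L) (hlam : 0 ≤ lam) (hR : 1 ≤ R) (hh : ∀ j, |h j| ≤ 1) (hu : ∀ j, |u j| ≤ 1) :
    |pertA (S := S) (β := β) μ ρ lam R N h u - (N * pressureM μ ρ lam N - N * log 2)|
      ≤ gainCap S β := by
  have hj := jump_eA (N := N) hμ hL
  have hr : 0 ≤ lam * (N : ℝ) := by positivity
  have hG : ∀ H : (Fin N → Bool) → ℝ, |GN S β R h u H - (G0 H + -(N * log 2))| ≤ gainCap S β := by
    intro H
    have e : log (avg fun σ => exp (H σ)) = G0 H + -(N * log 2) := by
      simp only [avg, G0]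
      rw [log_div (Finset.sum_pos (fun σ _ => exp_pos _) univ_nonempty).ne'
        (Nat.cast_ne_zero.2 Fintype.card_ne_zero)]
      simp [Real.log_pow, sub_eq_add_neg]
    rw [← e]
    exact abs_logZ0_pw_sub_le hR (fun σ => exp_pos _) hh hu
  have hG0' : Lip 1 fun H : (Fin N → Bool) → ℝ => G0 H + -(N * log 2) :=
    fun a b => by simpa using lip_G0 a b
  rw [pertA_eq hμ hL hR]
  have e2 : (∫ f : Fin N → ℝ, Phi (cstep μ eA) (lam * N) G0 (fsE f) ∂Measure.pi (fun _ => ρ))
      = N * pressureM μ ρ lam N := by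
    have hN : (N : ℝ) ≠ 0 := Nat.cast_ne_zero.2 (NeZero.ne N)
    rw [pressureM, ← mul_assoc, mul_one_div_cancel hN, one_mul]
    set F : ℕ → (Fin N → ℝ) → ℝ := fun M f => pois (lam * N) M * (cstep μ eA)^[M] G0 (fsE f) with hF
    have hFi : ∀ M, Integrable (F M) (Measure.pi fun _ : Fin N => ρ) := fun M =>
      (integrable_fields hρ hL zero_le_one (hj.isStep.lip_iterate zero_le_one lip_G0 M)).const_mul _
    have hall : ∀ᵐ f ∂Measure.pi (fun _ : Fin N => ρ), ∀ x, |f x| ≤ L := ae_all_iff.2 fun x =>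
      (Measure.tendsto_eval_ae_ae (μ := fun _ : Fin N => ρ) (i := x)).eventually hρ
    have hb : ∀ M, ∫ f, ‖F M f‖ ∂Measure.pi (fun _ : Fin N => ρ)
        ≤ pois (lam * N) M * (L * M + (|G0 (0 : (Fin N → Bool) → ℝ)| + N * L)) := fun M => by
      refine (integral_mono_ae (hFi M).norm (integrable_const
        (pois (lam * N) M * (L * M + (|G0 (0 : (Fin N → Bool) → ℝ)| + N * L)))) ?_).trans (by simp)
      filter_upwards [hall] with f hf
      rw [Real.norm_eq_abs, hF, abs_mul, abs_of_nonneg (pois_nonneg hr M)]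
      refine mul_le_mul_of_nonneg_left ?_ (pois_nonneg hr M)
      have h1 := hj.isStep.near_iterate zero_le_one lip_G0 (fsE f) M
      have h2 := (lip_G0 (N := N)).abs_le (fsE f)
      have h3 : ‖fsE f‖ ≤ N * L := (pi_norm_le_iff_of_nonneg (by positivity)).2 fun σ => by
        rw [Real.norm_eq_abs, fsE]
        refine (abs_sum_le_sum_abs _ _).trans ((Finset.sum_le_sum fun x _ =>
          show |f x * sg (σ x)| ≤ L by rw [abs_mul, abs_sg, mul_one]; exact hf x).trans ?_)
        simp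
      linarith [abs_sub_abs_le_abs_sub ((cstep μ eA)^[M] G0 (fsE f)) (G0 (fsE f))]
    have hs : Summable fun M => ∫ f, ‖F M f‖ ∂Measure.pi (fun _ : Fin N => ρ) :=
      Summable.of_nonneg_of_le (fun M => integral_nonneg fun f => norm_nonneg _) hb
        (hasSum_pois_affine _ _ _).summable
    calc (∫ f : Fin N → ℝ, Phi (cstep μ eA) (lam * N) G0 (fsE f) ∂Measure.pi (fun _ => ρ))
        = ∫ f, ∑' M, F M f ∂Measure.pi (fun _ : Fin N => ρ) := rfl
      _ = ∑' M, ∫ f, F M f ∂Measure.pi (fun _ : Fin N => ρ) :=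
          (integral_tsum_of_summable_integral_norm hFi hs).symm
      _ = _ := by
        refine tsum_congr fun M => ?_
        simp only [hF]
        rw [integral_const_mul]
        congr 1
        refine integral_congr_ae (Eventually.of_forall fun f => ?_)
        simp only
        rw [cstep_iterate hj zero_le_one lip_G0]
        refine integral_congr_ae (Eventually.of_forall fun w => ?_)
        simp only [G0, logZ, fsE, eA, Pi.add_apply, Finset.sum_apply, add_comm]
  have hi0 : Integrable (fun f : Fin N → ℝ => Phi (cstep μ eA) (lam * N) G0 (fsE f))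
      (Measure.pi fun _ => ρ) :=
    integrable_fields hρ hL zero_le_one (hj.isStep.lip_Phi zero_le_one lip_G0 hr)
  have e3 : (∫ f : Fin N → ℝ,
      (Phi (cstep μ eA) (lam * N) G0 (fsE f) + -(N * log 2)) ∂Measure.pi (fun _ => ρ))
      = N * pressureM μ ρ lam N - N * log 2 := by
    rw [integral_add hi0 (integrable_const _), e2]
    simp [sub_eq_add_neg]
  rw [← e3]
  refine abs_integral_sub_le
    (integrable_fields hρ hL zero_le_one (hj.isStep.lip_Phi zero_le_one (lip_GN hR) hr))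
    (hi0.add (integrable_const _)) fun f => ?_
  simp only [Pi.add_apply]
  rw [← hj.isStep.Phi_add_const zero_le_one lip_G0 _ hr]
  exact Phi_abs_sub hj.isStep zero_le_one (lip_GN hR) zero_le_one hG0' hG hr _

/-! ### (b) one more site -/

omit [IsProbabilityMeasure μ] [IsProbabilityMeasure ρ] [NeZero N] in
lemma eA_castSucc (c : Clause K) (i : Fin K → Fin N) :
    eA (N := N + 1) c (Fin.castSucc ∘ i) = liftA (eA c i) := rfl

omit [IsProbabilityMeasure μ] [IsProbabilityMeasure ρ] [NeZero N] in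
lemma eA_update (c : Clause K) (l : Fin K) (i : Fin K → Fin N) :
    eA (N := N + 1) c (Function.update (Fin.castSucc ∘ i) l (Fin.last N)) = liftB (eH c (l, i)) := by
  funext τ
  show theta c _ = theta c _
  congr 1
  funext j
  by_cases hj : j = l
  · subst hj; simp
  · simp [Function.update_of_ne hj]

/-- `N / (N + 1)` to the power `n` -/
lemma pow_defect {x d : ℝ} (hxd : x + d = 1) (hd : 0 ≤ d) (hx : 0 ≤ x) :
    ∀ n : ℕ, (0 ≤ 1 - x ^ n ∧ 1 - x ^ n ≤ n * d) ∧ |1 - x ^ n - n * d| ≤ (n * d) ^ 2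
  | 0 => by simp
  | n + 1 => by
    obtain ⟨⟨h1, h2⟩, h3⟩ := pow_defect hxd hd hx n
    have hn : (0 : ℝ) ≤ n * d := mul_nonneg (Nat.cast_nonneg n) hd
    have hd' : d = 1 - x := by linarith
    have e : 1 - x ^ (n + 1) - ((n : ℝ) + 1) * d = x * (1 - x ^ n - n * d) - n * d ^ 2 := by
      rw [hd', pow_succ]; ring
    have e' : 1 - x ^ (n + 1) = d + x * (1 - x ^ n) := by rw [hd', pow_succ]; ring
    push_cast
    refine ⟨⟨?_, ?_⟩, ?_⟩
    · rw [e']; exact add_nonneg hd (mul_nonneg hx h1)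
    · rw [e']
      linarith [mul_le_of_le_one_left h1 (show x ≤ 1 by linarith)]
    · rw [e]
      refine (abs_sub _ _).trans ?_
      rw [abs_mul, abs_of_nonneg hx, abs_of_nonneg (show 0 ≤ (n : ℝ) * d ^ 2 by positivity)]
      nlinarith [mul_le_of_le_one_left (abs_nonneg (1 - x ^ n - n * d)) (show x ≤ 1 by linarith)]

/-- the step on `N + 1` sites is a mixture of the steps avoiding and meeting the new site -/
lemma step_split [NeZero K] (hμ : ∀ᵐ c ∂μ, tsumAbs c ≤ L) (hL : 0 ≤ L)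
    {G : ((Fin (N + 1) → Bool) → ℝ) → ℝ} (hG : Lip 1 G) (H : (Fin (N + 1) → Bool) → ℝ) :
    |cstep μ (eA (N := N + 1)) G H
      - (((N : ℝ) / (N + 1)) ^ K * cstep μ (fun c i => liftA (eA (N := N) c i)) G H
        + (1 - ((N : ℝ) / (N + 1)) ^ K) * cstep μ (fun c p => liftB (eH (N := N) c p)) G H)|
      ≤ 4 * L * ((K : ℝ) * (1 / (N + 1))) ^ 2 := by
  set x : ℝ := (N : ℝ) / (N + 1) with hx
  set d : ℝ := 1 / ((N : ℝ) + 1) with hd
  have hx0 : 0 ≤ x := by positivity
  have hd0 : 0 ≤ d := by positivity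
  have hxd : x + d = 1 := by rw [hx, hd, ← add_div, div_self]; positivity
  have hjQ := jump_eA (N := N + 1) hμ hL
  have hjA := jump_liftA (N := N) hμ hL
  have hjB := jump_liftH (N := N) hμ hL
  have hiA : Integrable (fun c => av fun i : Fin K → Fin N => G (H + liftA (eA c i))) μ :=
    hjA.integrable zero_le_one hG H
  have hiB : Integrable (fun c => av fun p : Fin K × (Fin K → Fin N) => G (H + liftB (eH c p))) μ :=
    hjB.integrable zero_le_one hG H
  simp only [cstep]
  have hiAB : Integrable (fun c => x ^ K * (av fun i : Fin K → Fin N => G (H + liftA (eA c i))) +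
      (1 - x ^ K) * av fun p : Fin K × (Fin K → Fin N) => G (H + liftB (eH c p))) μ :=
    (hiA.const_mul _).add (hiB.const_mul _)
  rw [← integral_const_mul, ← integral_const_mul,
    ← integral_add (hiA.const_mul _) (hiB.const_mul _),
    ← integral_sub (hjQ.integrable zero_le_one hG H) hiAB,
    ← Real.norm_eq_abs]
  refine (norm_integral_le_of_norm_le_const (C := 4 * L * ((K : ℝ) * d) ^ 2) ?_).trans (by simp)
  filter_upwards [hμ] with c hc
  rw [Real.norm_eq_abs]
  set g : (Fin K → Fin (N + 1)) → ℝ := fun q => G (H + eA c q) - G H with hg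
  have hgb : ∀ q, |g q| ≤ L := fun q => by
    refine (hG _ _).trans ?_
    rw [one_mul, add_sub_cancel_left]
    exact (norm_eA_le c q).trans hc
  have eQ : av (fun q => G (H + eA c q)) = av g + G H := by
    rw [← av_const (α := Fin K → Fin (N + 1)) (G H), ← av_add]
    simp [hg]
  have eA' : av (fun i : Fin K → Fin N => G (H + liftA (eA c i))) = avA N g + G H := by
    rw [avA, ← av_const (α := Fin K → Fin N) (G H), ← av_add]
    simp [hg, eA_castSucc]
  have eB : av (fun p : Fin K × (Fin K → Fin N) => G (H + liftB (eH c p))) = avH N g + G H := by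
    rw [avH, ← av_const (α := Fin K × (Fin K → Fin N)) (G H), ← av_add]
    simp [hg, eA_update]
  rw [eQ, eA', eB]
  have h1 := (av_split K g L hL hgb).2
  have hH : |avH N g| ≤ L := abs_av_le' hL fun p => hgb _
  obtain ⟨-, h2⟩ := pow_defect hxd hd0 hx0 K
  obtain ⟨⟨h3, h4⟩, -⟩ := pow_defect hxd hd0 hx0 (K - 1)
  have h5 : |1 - x ^ K - K * d * x ^ (K - 1)| ≤ 2 * ((K : ℝ) * d) ^ 2 := by
    rw [show 1 - x ^ K - K * d * x ^ (K - 1)
      = (1 - x ^ K - K * d) + K * d * (1 - x ^ (K - 1)) by ring]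
    refine (abs_add_le _ _).trans ?_
    rw [abs_of_nonneg (mul_nonneg (mul_nonneg (Nat.cast_nonneg K) hd0) h3)]
    have h6 : ((K - 1 : ℕ) : ℝ) ≤ K := by exact_mod_cast Nat.sub_le K 1
    have := mul_le_mul_of_nonneg_left (h4.trans (mul_le_mul_of_nonneg_right h6 hd0))
      (mul_nonneg (Nat.cast_nonneg K) hd0)
    linarith [sq ((K : ℝ) * d)]
  rw [show av g + G H - (x ^ K * (avA N g + G H) + (1 - x ^ K) * (avH N g + G H))
    = (av g - x ^ K * avA N g - K * d * x ^ (K - 1) * avH N g)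
      - (1 - x ^ K - K * d * x ^ (K - 1)) * avH N g by ring]
  refine (abs_sub _ _).trans ?_
  rw [abs_mul]
  have := mul_le_mul h5 hH (abs_nonneg _) (by positivity)
  have : 0 ≤ L * ((K : ℝ) * d) ^ 2 := by positivity
  linarith

lemma fsE_snoc (f : Fin N → ℝ) (y : ℝ) :
    fsE (Fin.snoc (α := fun _ => ℝ) f y) = liftA (fsE f) + liftB (eF (N := N) y ()) := by
  funext τ
  show fsE (Fin.snoc (α := fun _ => ℝ) f y) τ
    = (∑ x, f x * sg (τ x.castSucc)) + y * sg (τ (Fin.last N))
  simp [fsE, Fin.sum_univ_castSucc]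

omit [IsProbabilityMeasure μ] in
lemma integral_fields_succ (hρ : ∀ᵐ y ∂ρ, |y| ≤ L) (hL : 0 ≤ L)
    {X : ((Fin (N + 1) → Bool) → ℝ) → ℝ} (hX : Lip 1 X) :
    (∫ f : Fin (N + 1) → ℝ, X (fsE f) ∂Measure.pi (fun _ => ρ))
      = ∫ f : Fin N → ℝ,
          cstep ρ (fun y a => liftB (eF (N := N) y a)) X (liftA (fsE f)) ∂Measure.pi (fun _ => ρ) := by
  have mp := (measurePreserving_piFinSuccAbove (fun _ : Fin (N + 1) => ρ) (Fin.last N)).symm
  have hi := integrable_fields (N := N + 1) hρ hL zero_le_one hX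
  rw [← mp.integral_comp' (fun f : Fin (N + 1) → ℝ => X (fsE f))]
  have hi' : Integrable (fun p : ℝ × (Fin N → ℝ) =>
      X (fsE ((MeasurableEquiv.piFinSuccAbove (fun _ => ℝ) (Fin.last N)).symm p)))
      (ρ.prod (Measure.pi fun _ : Fin N => ρ)) :=
    (mp.integrable_comp_emb (MeasurableEquiv.measurableEmbedding _)).2 hi
  rw [integral_prod_symm _ hi']
  refine integral_congr_ae (Eventually.of_forall fun f => ?_)
  simp only [cstep]
  refine integral_congr_ae (Eventually.of_forall fun y => ?_)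
  simp only [MeasurableEquiv.piFinSuccAbove_symm_apply]
  show X (fsE (Fin.insertNth (Fin.last N) y f)) = _
  rw [Fin.insertNth_last', fsE_snoc]
  simp [av]

/-- the constant of the increment -/
noncomputable def cavC (K : ℕ) (L lam : ℝ) (R S : ℕ) (β : ι → Batch) : ℝ :=
  growC R S β + 7 * L * lam * (K : ℝ) ^ 2

/-- **(b)**: one more site costs the mean gain -/
theorem abs_pertA_succ_sub_le [NeZero K] (hμ : ∀ᵐ c ∂μ, tsumAbs c ≤ L)
    (hρ : ∀ᵐ y ∂ρ, |y| ≤ L) (hL : 0 ≤ L) (hlam : 0 ≤ lam) (hR : 2 ≤ R)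
    (hh : ∀ j, |h j| ≤ 1) (hu : ∀ j, |u j| ≤ 1) :
    |pertA (S := S) (β := β) μ ρ lam R (N + 1) h u - pertA (S := S) (β := β) μ ρ lam R N h u
      - (cavMean (S := S) (β := β) μ ρ lam R N h u - log 2)| ≤ cavC K L lam R S β / ((N : ℝ) + 1) := by
  have hR1 : 1 ≤ R := (show 1 ≤ 2 by norm_num).trans hR
  set x : ℝ := (N : ℝ) / (N + 1) with hx
  set d : ℝ := 1 / ((N : ℝ) + 1) with hd
  have hx0 : 0 ≤ x := by positivity
  have hd0 : 0 ≤ d := by positivity
  have hxd : x + d = 1 := by rw [hx, hd, ← add_div, div_self]; positivity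
  have hN1 : ((N : ℝ) + 1) * d = 1 := by rw [hd]; field_simp
  have hNx : ((N : ℝ) + 1) * x = N := by rw [hx]; field_simp
  obtain ⟨k, rfl⟩ : ∃ k, K = k + 1 := ⟨K - 1, by have := NeZero.ne K; omega⟩
  set r : ℝ := lam * ((N : ℝ) + 1) with hr
  have hr0 : 0 ≤ r := by positivity
  set a : ℝ := lam * ((N : ℝ) + 1) * x ^ (k + 1) with ha
  have ha0 : 0 ≤ a := by positivity
  set b : ℝ := r * (1 - x ^ (k + 1)) with hb
  obtain ⟨⟨hp0, hp1⟩, hp2⟩ := pow_defect hxd hd0 hx0 (k + 1)
  have hb0 : 0 ≤ b := mul_nonneg hr0 hp0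
  obtain ⟨⟨hq0, hq1⟩, hq2⟩ := pow_defect hxd hd0 hx0 k
  have hk1 : (0 : ℝ) ≤ k := Nat.cast_nonneg k
  have hKl : 0 ≤ ((k + 1 : ℕ) : ℝ) * lam := by positivity
  have hKl' : 0 ≤ (((k + 1 : ℕ) : ℝ) - 1) * lam := by push_cast; simp; positivity
  -- rates
  have hbK : |b - ((k + 1 : ℕ) : ℝ) * lam| ≤ lam * ((k + 1 : ℕ) : ℝ) ^ 2 * d := by
    have e : b - ((k + 1 : ℕ) : ℝ) * lam = r * (1 - x ^ (k + 1) - ((k + 1 : ℕ) : ℝ) * d) := by
      rw [hb, hr]
      linear_combination (lam * ((k + 1 : ℕ) : ℝ)) * hN1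
    rw [e, abs_mul, abs_of_nonneg hr0]
    refine (mul_le_mul_of_nonneg_left hp2 hr0).trans (le_of_eq ?_)
    rw [hr]
    linear_combination (lam * ((k + 1 : ℕ) : ℝ) ^ 2 * d) * hN1
  set e : ℝ := lam * N * (1 - x ^ k) with he
  have he0 : 0 ≤ e := mul_nonneg (mul_nonneg hlam (Nat.cast_nonneg N)) hq0
  have hae : lam * (N : ℝ) = a + e := by
    rw [ha, he, pow_succ]
    linear_combination (-lam * x ^ k) * hNx
  have heK : |e - (((k + 1 : ℕ) : ℝ) - 1) * lam| ≤ 2 * lam * ((k + 1 : ℕ) : ℝ) ^ 2 * d := by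
    have e1 : e - (((k + 1 : ℕ) : ℝ) - 1) * lam
        = lam * N * (1 - x ^ k - k * d) - lam * k * d := by
      push_cast
      rw [he]
      linear_combination (lam * (k : ℝ)) * hN1
    have hNd : (N : ℝ) * d ≤ 1 := by linarith
    rw [e1]
    refine (abs_sub _ _).trans ?_
    rw [abs_mul, abs_of_nonneg (mul_nonneg hlam (Nat.cast_nonneg N)),
      abs_of_nonneg (show 0 ≤ lam * k * d by positivity)]
    have h1 : lam * N * |1 - x ^ k - k * d| ≤ lam * (k : ℝ) ^ 2 * d := by
      refine (mul_le_mul_of_nonneg_left hq2 (by positivity)).trans ?_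
      have := mul_le_mul_of_nonneg_left hNd (show 0 ≤ lam * (k : ℝ) ^ 2 * d by positivity)
      linarith
    push_cast
    have : 0 ≤ lam * d := by positivity
    have : 0 ≤ lam * d * k := by positivity
    have : 0 ≤ lam * d * (k : ℝ) ^ 2 := by positivity
    linarith [show 2 * lam * ((k : ℝ) + 1) ^ 2 * d
      = 2 * (lam * d * (k : ℝ) ^ 2) + 4 * (lam * d * k) + 2 * (lam * d) by ring]
  -- steps
  have hjQ := jump_eA (K := k + 1) (N := N + 1) hμ hL
  have hjA := jump_liftA (K := k + 1) (N := N) hμ hL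
  have hjB := jump_liftH (K := k + 1) (N := N) hμ hL
  have hjF := jump_liftF (N := N) hρ hL
  have hje := jump_eA (K := k + 1) (N := N) hμ hL
  have hjH := jump_eH (K := k + 1) (N := N) hμ hL
  have hjf := jump_eF (N := N) hρ hL
  have hmixS := IsStep.mix hjA.isStep hjB.isStep (show 0 ≤ x ^ (k + 1) by positivity)
    (show x ^ (k + 1) ≤ 1 by linarith)
  set G1 : ((Fin (N + 1) → Bool) → ℝ) → ℝ := GN S β R h u with hG1
  have hG1l : Lip 1 G1 := lip_GN hR1
  have hGl : Lip 1 (GN (N := N) S β R h u) := lip_GN hR1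
  set TA := cstep μ (fun c i => liftA (eA (K := k + 1) (N := N) c i)) with hTA
  set TB := cstep μ (fun c p => liftB (eH (K := k + 1) (N := N) c p)) with hTB
  set TF := cstep ρ (fun y a => liftB (eF (N := N) y a)) with hTF
  set X := Phi TB b G1 with hX
  have hXl : Lip 1 X := hjB.isStep.lip_Phi zero_le_one hG1l hb0
  set Φ := Phi (cstep μ (eA (K := k + 1) (N := N + 1))) r G1 with hΦ
  have hΦl : Lip 1 Φ := hjQ.isStep.lip_Phi zero_le_one hG1l hr0
  -- drop the double hits and split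
  have hchange : ∀ H, |Φ H - Phi TA a X H| ≤ 4 * L * lam * ((k + 1 : ℕ) : ℝ) ^ 2 * d := by
    intro H
    have h1 := Phi_change hjQ.isStep hmixS zero_le_one
      (fun G hG H => step_split hμ hL hG H) hG1l hr0 H
    have h2 : Phi (fun G H => x ^ (k + 1) * TA G H + (1 - x ^ (k + 1)) * TB G H) r G1 H
        = Phi TA a X H := by
      rw [show r = a + b by rw [ha, hb, hr]; ring]
      exact Phi_Phi hmixS hjA.isStep hjB.isStep
        (fun G ⟨D, hD, hG⟩ => cstep_comm hjA hjB hD hG) ha0 hb0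
        (fun G _ H => by rw [ha, hb, hr]; ring) zero_le_one hG1l H
    rw [h2] at h1
    refine h1.trans (le_of_eq ?_)
    rw [hr, ← hd]
    linear_combination (4 * L * lam * ((k + 1 : ℕ) : ℝ) ^ 2 * d) * hN1
  -- the size `N + 1`
  set U := gainU (K := k + 1) (N := N) S β R h u μ ρ lam with hU
  have hUl : Lip 1 U := lip_gainU hμ hρ hL hR1 hlam
  have hup : ∀ x₀ : (Fin N → Bool) → ℝ, |TF Φ (liftA x₀) - Phi (cstep μ eA) a U x₀|
      ≤ 4 * L * lam * ((k + 1 : ℕ) : ℝ) ^ 2 * d
        + (growC R S β * d + L * (lam * ((k + 1 : ℕ) : ℝ) ^ 2 * d)) := by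
    intro x₀
    have hXA : Lip 1 (Phi TA a X) := hjA.isStep.lip_Phi zero_le_one hXl ha0
    have h1 : |TF Φ (liftA x₀) - TF (Phi TA a X) (liftA x₀)|
        ≤ 4 * L * lam * ((k + 1 : ℕ) : ℝ) ^ 2 * d :=
      hjF.isStep.abs_sub (hΦl.isLip zero_le_one) (hXA.isLip zero_le_one) hchange _
    have h2 : TF (Phi TA a X) (liftA x₀)
        = Phi (cstep μ eA) a (fun y => TF X (0 + liftA y)) x₀ := by
      have h := step_Phi_comm (A := TF) (B := TA) hjF.isStep hjA.isStep
        (fun G ⟨D, hD, hG⟩ => cstep_comm hjF hjA hD hG) zero_le_one hXl ha0 (liftA x₀)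
      rw [h, ← zero_add (liftA x₀), hTA]
      exact Phi_push _ _ _ _ _ _ _
    have h3 : Lip 1 fun y : (Fin N → Bool) → ℝ => TF X (0 + liftA y) := fun y y' => by
      refine (hjF.isStep.lip zero_le_one hXl _ _).trans (mul_le_mul_of_nonneg_left ?_ zero_le_one)
      rw [add_sub_add_left_eq_sub, ← map_sub]
      exact norm_liftA_le _
    have h4 : ∀ y, |TF X (0 + liftA y) - U y|
        ≤ growC R S β * d + L * (lam * ((k + 1 : ℕ) : ℝ) ^ 2 * d) := by
      intro y
      have e1 : TF X (0 + liftA y) = cstep ρ eF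
          (Phi (cstep μ eH) b fun z => G1 (liftA y + liftB z)) 0 := by
        rw [zero_add]
        have e2 := cstep_push ρ (eF (N := N)) liftB X (liftA y) 0
        rw [map_zero, add_zero] at e2
        rw [hTF, e2]
        congr 1
        funext z
        rw [hX, hTB, Phi_push]
      have hg1 : Lip 1 fun z : (Fin N → Bool) × Bool → ℝ => G1 (liftA y + liftB z) := fun z z' => by
        refine (hG1l _ _).trans (mul_le_mul_of_nonneg_left ?_ zero_le_one)
        rw [add_sub_add_left_eq_sub, ← map_sub]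
        exact norm_liftB_le _
      have hg2 := lip_shift_mrg zero_le_one hGl y
      rw [e1, hU, gainU]
      refine hjf.isStep.abs_sub ((hjH.isStep.lip_Phi zero_le_one hg1 hb0).isLip zero_le_one)
        ((hjH.isStep.lip_Phi zero_le_one hg2 hKl).isLip zero_le_one) (fun z => ?_) 0
      refine (abs_sub_le _ (Phi (cstep μ eH) b (fun z => GN S β R h u (y + mrg z)) z) _).trans ?_
      refine add_le_add (Phi_abs_sub hjH.isStep zero_le_one hg1 zero_le_one hg2 (fun z => ?_) hb0 z) ?_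
      · have hgrow := grow_bound (N := N) (S := S) (β := β) hR (W := fun σ => exp (y σ))
          (c := fun σ s => exp (z (σ, s))) (fun σ => exp_pos _) (fun σ s => exp_pos _) hh hu
        have eL : (fun τ : Fin (N + 1) → Bool => exp (y fun i => τ i.castSucc) *
            exp (z (fun i => τ i.castSucc, τ (Fin.last N))))
            = fun τ => exp ((liftA y + liftB z) τ) := by
          funext τ
          rw [← exp_add]
          rfl
        have eR : (fun s : Fin N → Bool => exp (y s) * avg fun t => exp (z (s, t)))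
            = fun s => exp ((y + mrg z) s) := by
          funext s
          rw [Pi.add_apply, exp_add, mrg, exp_log (avg_pos fun t => exp_pos _)]
        rw [eL, eR, div_eq_mul_one_div, ← hd] at hgrow
        exact hgrow
      · refine (Phi_rate hjH.isStep hb0 hKl zero_le_one hg2 z).trans ?_
        rw [one_mul]
        exact mul_le_mul_of_nonneg_left hbK hL
    refine (abs_sub_le _ (TF (Phi TA a X) (liftA x₀)) _).trans (add_le_add h1 ?_)
    rw [h2]
    exact Phi_abs_sub hje.isStep zero_le_one h3 zero_le_one hUl h4 ha0 x₀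
  -- the size `N`
  set V := gainV (K := k + 1) (N := N) S β R h u μ lam with hV
  have hVl : Lip 1 V := lip_gainV hμ hL hR1 hlam (Nat.succ_pos k)
  have hdown : ∀ x₀ : (Fin N → Bool) → ℝ,
      |Phi (cstep μ eA) (lam * N) (GN S β R h u) x₀ - Phi (cstep μ eA) a V x₀|
        ≤ L * (2 * lam * ((k + 1 : ℕ) : ℝ) ^ 2 * d) := by
    intro x₀
    rw [hae, Phi_add hje.isStep ha0 he0 zero_le_one hGl]
    refine Phi_abs_sub hje.isStep zero_le_one (hje.isStep.lip_Phi zero_le_one hGl he0) zero_le_one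
      hVl (fun y => (Phi_rate hje.isStep he0 hKl' zero_le_one hGl y).trans ?_) ha0 x₀
    rw [one_mul]
    exact mul_le_mul_of_nonneg_left heK hL
  -- integrate the fields
  have hPU : Lip 1 (Phi (cstep μ (eA (K := k + 1) (N := N))) a U) :=
    hje.isStep.lip_Phi zero_le_one hUl ha0
  have hPV : Lip 1 (Phi (cstep μ (eA (K := k + 1) (N := N))) a V) :=
    hje.isStep.lip_Phi zero_le_one hVl ha0
  have hTΦ : Lip 1 fun x₀ : (Fin N → Bool) → ℝ => TF Φ (liftA x₀) := fun y y' => by
    refine (hjF.isStep.lip zero_le_one hΦl _ _).trans (mul_le_mul_of_nonneg_left ?_ zero_le_one)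
    rw [← map_sub]
    exact norm_liftA_le _
  have hPG : Lip 1 (Phi (cstep μ (eA (K := k + 1) (N := N))) (lam * N) (GN S β R h u)) :=
    hje.isStep.lip_Phi zero_le_one hGl (by positivity)
  have A1 := abs_integral_sub_le (Q := Measure.pi fun _ : Fin N => ρ)
    (integrable_fields hρ hL zero_le_one hTΦ) (integrable_fields hρ hL zero_le_one hPU)
    fun f => hup (fsE f)
  have A2 := abs_integral_sub_le (Q := Measure.pi fun _ : Fin N => ρ)
    (integrable_fields hρ hL zero_le_one hPG) (integrable_fields hρ hL zero_le_one hPV)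
    fun f => hdown (fsE f)
  rw [pertA_eq hμ hL hR1, pertA_eq hμ hL hR1, cavMean_eq hμ hρ hL hR1 hlam, Nat.cast_add_one]
  rw [← ha, ← hr, ← hU, ← hV, ← hG1, ← hΦ, integral_fields_succ hρ hL hΦl, ← hTF]
  have hC : cavC (k + 1) L lam R S β / ((N : ℝ) + 1)
      = growC R S β * d + 7 * L * lam * ((k + 1 : ℕ) : ℝ) ^ 2 * d := by
    rw [cavC, hd]; ring
  rw [hC, abs_le]
  obtain ⟨a1, a2⟩ := abs_le.1 A1
  obtain ⟨b1, b2⟩ := abs_le.1 A2
  constructor <;> linarith

/-! ### (c) Stolz -/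

/-- **(c)**: mean gains bound the pressure from below -/
theorem eventually_le_pressureM [NeZero K] (hμ : ∀ᵐ c ∂μ, tsumAbs c ≤ L)
    (hρ : ∀ᵐ y ∂ρ, |y| ≤ L) (hL : 0 ≤ L) (hlam : 0 ≤ lam) (hR : 2 ≤ R)
    {G : Type} [Fintype G] [Nonempty G] (hs us : G → ι → ℝ) (hh : ∀ g j, |hs g j| ≤ 1)
    (hu : ∀ g j, |us g j| ≤ 1) {c : ℝ}
    (hc : ∀ᶠ n : ℕ in atTop, c ≤ avg fun g =>
      cavMean (S := S) (β := β) μ ρ lam R (n + 1) (hs g) (us g)) :
    ∀ ε > 0, ∀ᶠ n : ℕ in atTop, c - ε ≤ pressureM μ ρ lam n := by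
  intro ε hε
  obtain ⟨n₀, hn₀⟩ := eventually_atTop.1 hc
  set C := cavC K L lam R S β with hC
  set A : ℕ → ℝ := fun n => avg fun g => pertA (S := S) (β := β) μ ρ lam R (n + 1) (hs g) (us g)
    with hA
  have hcard : (0 : ℝ) < Fintype.card G := by exact_mod_cast Fintype.card_pos
  -- increments
  obtain ⟨n₁, hn₁⟩ := exists_nat_ge (2 * C / ε)
  set m₀ := max n₀ n₁ with hm₀
  have hinc : ∀ n, m₀ ≤ n → A n + (c - log 2 - ε / 2) ≤ A (n + 1) := by
    intro n hn
    have hn2 : C / (((n + 1 : ℕ) : ℝ) + 1) ≤ ε / 2 := by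
      rw [div_le_iff₀ (by positivity)]
      have h1 : (n₁ : ℝ) ≤ n := by exact_mod_cast le_of_max_le_right hn
      rw [div_le_iff₀ hε] at hn₁
      have := mul_le_mul_of_nonneg_right h1 hε.le
      push_cast
      linarith
    have h1 := hn₀ n (le_of_max_le_left hn)
    have h2 : A n + (avg fun g => cavMean (S := S) (β := β) μ ρ lam R (n + 1) (hs g) (us g))
        ≤ A (n + 1) + (log 2 + ε / 2) := by
      simp only [hA, avg]
      rw [← add_div, div_add' _ _ _ hcard.ne']
      refine div_le_div_of_nonneg_right ?_ hcard.le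
      rw [← Finset.sum_add_distrib]
      calc ∑ g, (pertA (S := S) (β := β) μ ρ lam R (n + 1) (hs g) (us g)
              + cavMean (S := S) (β := β) μ ρ lam R (n + 1) (hs g) (us g))
          ≤ ∑ g, (pertA (S := S) (β := β) μ ρ lam R (n + 1 + 1) (hs g) (us g) + (log 2 + ε / 2)) := by
            refine Finset.sum_le_sum fun g _ => ?_
            have h := abs_le.1 (abs_pertA_succ_sub_le (N := n + 1) (S := S) (β := β) hμ hρ hL hlam hR
              (hh g) (hu g))
            rw [← hC] at h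
            linarith [h.1]
        _ = _ := by simp [Finset.sum_add_distrib]; ring
    linarith
  have hlow : ∀ j, A m₀ + j * (c - log 2 - ε / 2) ≤ A (m₀ + j) := by
    intro j
    induction j with
    | zero => simp
    | succ j ih =>
        have := hinc (m₀ + j) (Nat.le_add_right _ _)
        rw [show m₀ + (j + 1) = m₀ + j + 1 by ring]
        push_cast
        linarith
  -- comparison with the pressure
  set D : ℝ := |A m₀| + ((m₀ : ℝ) + 1) * (|c - log 2 - ε / 2| + 0) + gainCap S β with hD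
  obtain ⟨n₂, hn₂⟩ := exists_nat_ge (2 * D / ε)
  refine eventually_atTop.2 ⟨max (m₀ + 1) (n₂ + 1), fun n hn => ?_⟩
  obtain ⟨j, hj⟩ : ∃ j, n = m₀ + j + 1 := ⟨n - m₀ - 1, by have := le_of_max_le_left hn; omega⟩
  have hup : A (m₀ + j) ≤ n * pressureM μ ρ lam n - n * log 2 + gainCap S β := by
    simp only [hA, avg]
    rw [div_le_iff₀ hcard]
    refine (Finset.sum_le_sum (g := fun _ =>
      (n : ℝ) * pressureM μ ρ lam n - n * log 2 + gainCap S β) fun g _ => ?_).trans (le_of_eq (by simp; ring))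
    have h := abs_le.1 (abs_pertA_sub_le (N := m₀ + j + 1) (S := S) (β := β) hμ hρ hL hlam
      ((show 1 ≤ 2 by norm_num).trans hR) (hh g) (hu g))
    subst hj
    linarith [h.2]
  have hn2 : (n₂ : ℝ) + 1 ≤ n := by exact_mod_cast le_of_max_le_right hn
  have hDn : D ≤ n * (ε / 2) := by
    rw [div_le_iff₀ hε] at hn₂
    have := mul_le_mul_of_nonneg_right hn2 hε.le
    linarith
  have hnj : (n : ℝ) = m₀ + j + 1 := by rw [hj]; push_cast; ring
  have hl := hlow j
  have hge : -(((m₀ : ℝ) + 1) * |c - log 2 - ε / 2|)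
      ≤ -(((m₀ : ℝ) + 1) * (c - log 2 - ε / 2)) := by
    have := mul_le_mul_of_nonneg_left (le_abs_self (c - log 2 - ε / 2))
      (show 0 ≤ (m₀ : ℝ) + 1 by positivity)
    linarith
  have hA0 := neg_abs_le (A m₀)
  have hnpos : (0 : ℝ) < n := by linarith [Nat.cast_nonneg (α := ℝ) n₂]
  refine le_of_mul_le_mul_left ?_ hnpos
  have e : (j : ℝ) * (c - log 2 - ε / 2)
      = n * (c - log 2 - ε / 2) - ((m₀ : ℝ) + 1) * (c - log 2 - ε / 2) := by rw [hnj]; ring
  rw [e] at hl
  linarith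

end Vale.Agent.P168.MP
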