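import Vale.Agent.P168.MP.Calc

/-! The derivative of replica expectations along a path of weights. -/

namespace Vale.Agent.P168.MP

open Finset

variable {Ω : Type*} [Fintype Ω] {R : ℕ} {m : ℕ → ℝ}

lemma att_valid {T : List (ℕ × ℕ)} (hT : Valid R T) {c : (ℕ × ℕ) × ℝ} (hc : c ∈ att R m T) :
    Valid R (c.1 :: T) := by
  obtain ⟨⟨p, v⟩, x⟩ := c
  exact valid_cons_of hT (att_mem hT _ hc).1 (att_mem hT _ hc).2

section
variable {w : List Ω → ℝ}

/-- extensions from two prefixes commute -/
lemma ext_comm {Λ : Type*} [Fintype Λ] {m' : ℕ → ℝ} {w' : List Λ → ℝ} (k k' : ℕ)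
    (pre : List Ω) (pre' : List Λ) (f : List Ω → List Λ → ℝ) :
    ext m w k pre (fun q => ext m' w' k' pre' (fun r => f q r)) =
      ext m' w' k' pre' (fun r => ext m w k pre (fun q => f q r)) := by
  induction k generalizing pre with
  | zero => simp
  | succ k ih => simp only [ext_succ, ih, ext_sum, ext_const_mul]

/-- a replica expectation commutes with an extension from a fixed prefix -/
lemma ET_ext_comm {Λ : Type*} [Fintype Λ] {m' : ℕ → ℝ} {w' : List Λ → ℝ}
    (T : List (ℕ × ℕ)) (k : ℕ) (pre : List Λ) (f : List (List Ω) → List Λ → ℝ) :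
    ET R m w T (fun ps => ext m' w' k pre (fun q => f ps q)) =
      ext m' w' k pre (fun q => ET R m w T (fun ps => f ps q)) := by
  induction k generalizing pre with
  | zero => simp
  | succ k ih => simp only [ext_succ, ET_sum, ET_const_mul, ih]

/-- two new replicas, both attached to old ones, may be exchanged -/
lemma ET_cons_cons {p v : ℕ} {T : List (ℕ × ℕ)} (hT : Valid R T) {p' v' : ℕ} (hp' : p' < T.length)
    (F : List (List Ω) → ℝ) :
    ET R m w ((p', v') :: (p, v) :: T) F =
      ET R m w T fun ps => ext m w (R - v') ((ps.getD p' []).take v') fun q' =>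
        ext m w (R - v) ((ps.getD p []).take v) fun q => F (ps ++ [q] ++ [q']) := by
  rw [ET_cons, ET_cons]
  refine ET_congr hT fun ps hs => ?_
  rw [← ext_comm]
  refine ext_congr fun suf _ => ?_
  simp only [List.getD_append _ _ _ _ (hs.1 ▸ hp')]

end

/-- logarithmic derivative of the transition law of a path below level `v` -/
noncomputable def kerD (R : ℕ) (m : ℕ → ℝ) (w : List Ω → ℝ) (g : List Ω → ℝ) (v k : ℕ)
    (q : List Ω) : ℝ :=
  ((List.range' (v + 1) k).map fun l => (m l - m (l + 1)) * ext m w (R - l) (q.take l) g).sum -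
    m (v + 1) * ext m w (R - v) (q.take v) g

variable [Nonempty Ω] {w : ℝ → List Ω → ℝ} {g : List Ω → ℝ} {s : ℝ}

lemma hasDerivAt_Z (hm : Ok R m (w s))
    (hd : ∀ p, HasDerivAt (fun t => w t p) (w s p * g p) s) :
    ∀ (k : ℕ) (pre : List Ω), pre.length + k ≤ R →
      HasDerivAt (fun t => Z m (w t) k pre) (Z m (w s) k pre * ext m (w s) k pre g) s
  | 0, pre, _ => by simpa [Z] using hd pre
  | k + 1, pre, hk => by
    set M := m (pre.length + 1)
    have hM : M ≠ 0 := (hm.pos _ (by omega) (by omega)).ne'
    have hZ : ∀ o, 0 < Z m (w s) k (pre ++ [o]) := fun o => Z_pos hm.wpos k _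
    have h1 : ∀ o, HasDerivAt (fun t => Z m (w t) k (pre ++ [o]) ^ M)
        (M * (Z m (w s) k (pre ++ [o]) ^ M * ext m (w s) k (pre ++ [o]) g)) s := fun o => by
      convert (hasDerivAt_Z hm hd k (pre ++ [o]) (by simp; omega)).rpow_const
        (p := M) (Or.inl (hZ o).ne') using 1
      rw [Real.rpow_sub_one (hZ o).ne']
      field_simp [(hZ o).ne']
    set S := avg fun o => Z m (w s) k (pre ++ [o]) ^ M
    have hS : 0 < S := avg_pos fun o => Real.rpow_pos_of_pos (hZ o) _
    have h2 := ((HasDerivAt.fun_sum (u := univ) fun o _ => h1 o).div_const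
      (Fintype.card Ω : ℝ)).rpow_const (p := 1 / M) (Or.inl hS.ne')
    refine h2.congr_deriv ?_
    have hc := card_pos_real (Ω := Ω)
    have hsum := trans_den_pos (m := m) hm.wpos k pre
    rw [ext_succ, Z]
    simp only [trans, div_mul_eq_mul_div, ← Finset.sum_div, ← mul_sum]
    have hS' : (∑ o, Z m (w s) k (pre ++ [o]) ^ M) / Fintype.card Ω ≠ 0 := hS.ne'
    simp only [avg, M] at hS' ⊢
    rw [Real.rpow_sub_one hS']
    have hM' : m (pre.length + 1) ≠ 0 := hM
    field_simp

lemma hasDerivAt_trans (hm : Ok R m (w s))
    (hd : ∀ p, HasDerivAt (fun t => w t p) (w s p * g p) s) {k : ℕ} {pre : List Ω}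
    (hk : pre.length + (k + 1) ≤ R) (o : Ω) :
    HasDerivAt (fun t => trans m (w t) k pre o)
      (trans m (w s) k pre o * (m (pre.length + 1) *
        (ext m (w s) k (pre ++ [o]) g - ext m (w s) (k + 1) pre g))) s := by
  set M := m (pre.length + 1)
  have hZ : ∀ o, 0 < Z m (w s) k (pre ++ [o]) := fun o => Z_pos hm.wpos k _
  have h1 : ∀ o, HasDerivAt (fun t => Z m (w t) k (pre ++ [o]) ^ M)
      (M * (Z m (w s) k (pre ++ [o]) ^ M * ext m (w s) k (pre ++ [o]) g)) s := fun o => by
    convert (hasDerivAt_Z hm hd k (pre ++ [o]) (by simp; omega)).rpow_const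
      (p := M) (Or.inl (hZ o).ne') using 1
    rw [Real.rpow_sub_one (hZ o).ne']
    field_simp [(hZ o).ne']
  have hsum := trans_den_pos (m := m) hm.wpos k pre
  refine ((h1 o).fun_div (HasDerivAt.fun_sum (u := univ) fun o _ => h1 o) hsum.ne').congr_deriv ?_
  rw [ext_succ]
  simp only [trans, div_mul_eq_mul_div, ← Finset.sum_div, ← mul_sum, M]
  field_simp

lemma hasDerivAt_logZ0 (hm : Ok R m (w s))
    (hd : ∀ p, HasDerivAt (fun t => w t p) (w s p * g p) s) :
    HasDerivAt (fun t => logZ0 R m (w t))
      (ET R m (w s) [(0, 0)] fun ps => g (ps.getD 0 [])) s := by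
  refine ((hasDerivAt_Z hm hd R [] (by simp)).log (Z_pos hm.wpos R []).ne').congr_deriv ?_
  rw [mul_div_cancel_left₀ _ (Z_pos hm.wpos R []).ne', ET_single]
  simp

lemma hasDerivAt_ext (hm : Ok R m (w s))
    (hd : ∀ p, HasDerivAt (fun t => w t p) (w s p * g p) s)
    {F : ℝ → List Ω → ℝ} {F' : List Ω → ℝ} :
    ∀ (k : ℕ) (pre : List Ω), pre.length + k = R →
      (∀ suf : List Ω, suf.length = k →
        HasDerivAt (fun t => F t (pre ++ suf)) (F' (pre ++ suf)) s) →
      HasDerivAt (fun t => ext m (w t) k pre (F t))
        (ext m (w s) k pre F' +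
          ext m (w s) k pre (fun q => F s q * kerD R m (w s) g pre.length k q)) s
  | 0, pre, hk, hF => by
    have hR : pre.length = R := by omega
    have := hF [] rfl
    simpa [kerD, hR, hm.last] using this
  | k + 1, pre, hk, hF => by
    have hstep : ∀ o, HasDerivAt (fun t => trans m (w t) k pre o * ext m (w t) k (pre ++ [o]) (F t))
        (trans m (w s) k pre o * (m (pre.length + 1) *
            (ext m (w s) k (pre ++ [o]) g - ext m (w s) (k + 1) pre g)) *
            ext m (w s) k (pre ++ [o]) (F s) +
          trans m (w s) k pre o * (ext m (w s) k (pre ++ [o]) F' + ext m (w s) k (pre ++ [o])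
            (fun q => F s q * kerD R m (w s) g (pre.length + 1) k q))) s := fun o => by
      refine (hasDerivAt_trans hm hd hk.le o).fun_mul ?_
      simpa using hasDerivAt_ext hm hd k (pre ++ [o]) (by simp; omega)
        (fun suf hs => by simpa using hF (o :: suf) (by simp [hs]))
    simp only [ext_succ] at hstep ⊢
    refine (HasDerivAt.fun_sum (u := univ) fun o _ => hstep o).congr_deriv ?_
    rw [← sum_add_distrib]
    refine sum_congr rfl fun o _ => ?_
    have key : ext m (w s) k (pre ++ [o]) (fun q => F s q * kerD R m (w s) g pre.length (k + 1) q) =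
        ext m (w s) k (pre ++ [o]) (fun q => F s q * kerD R m (w s) g (pre.length + 1) k q +
          (m (pre.length + 1) * (ext m (w s) k (pre ++ [o]) g - ext m (w s) (k + 1) pre g)) *
            F s q) := by
      refine ext_congr fun suf _ => ?_
      have e1 : (pre ++ [o] ++ suf).take (pre.length + 1) = pre ++ [o] :=
        List.take_left' (by simp)
      have e2 : (pre ++ [o] ++ suf).take pre.length = pre := by simp
      simp only [kerD, List.range'_succ, List.map_cons, List.sum_cons, e1, e2,
        show R - pre.length = k + 1 by omega, show R - (pre.length + 1) = k by omega]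
      ring
    simp only [ext_succ] at key ⊢
    rw [key, ext_add, ext_const_mul]
    ring

/-- the derivative of a replica expectation, with a varying test function -/
theorem hasDerivAt_ET (hm : Ok R m (w s))
    (hd : ∀ p, HasDerivAt (fun t => w t p) (w s p * g p) s)
    {T : List (ℕ × ℕ)} (hT : Valid R T) {F : ℝ → List (List Ω) → ℝ} {F' : List (List Ω) → ℝ}
    (hF : ∀ ps, Supp R T ps → HasDerivAt (fun t => F t ps) (F' ps) s) :
    HasDerivAt (fun t => ET R m (w t) T (F t))
      (((att R m T).map fun c => c.2 * ET R m (w s) (c.1 :: T)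
          fun ps => F s ps.dropLast * g (ps.getLastD [])).sum + ET R m (w s) T F') s := by
  induction T generalizing F F' with
  | nil => simpa [att] using hF [] ⟨rfl, by simp, by simp⟩
  | cons a T ih =>
    obtain ⟨p, v⟩ := a
    obtain ⟨hT', hv, hp⟩ := valid_split hT
    have hpre : ∀ ps : List (List Ω), Supp R T ps → ((ps.getD p []).take v).length = v := by
      intro ps hs
      rcases hp with ⟨-, -, rfl⟩ | hp
      · simp
      · rw [List.length_take, hs.2.1 p hp, min_eq_left hv]
    have h := ih hT' (F := fun t ps => ext m (w t) (R - v) ((ps.getD p []).take v)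
        fun q => F t (ps ++ [q]))
      (F' := fun ps => ext m (w s) (R - v) ((ps.getD p []).take v) (fun q => F' (ps ++ [q])) +
        ext m (w s) (R - v) ((ps.getD p []).take v)
          (fun q => F s (ps ++ [q]) * kerD R m (w s) g v (R - v) q))
      (fun ps hs => by
        have := hasDerivAt_ext hm hd (F := fun t q => F t (ps ++ [q]))
          (F' := fun q => F' (ps ++ [q])) (R - v) ((ps.getD p []).take v)
          (by rw [hpre ps hs]; omega) (fun suf hl => hF _ (supp_snoc hT hs hl))
        rwa [hpre ps hs] at this)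
    simp only [ET_cons]
    refine h.congr_deriv ?_
    rw [ET_add]
    set old := ((att R m T).map fun c => c.2 * ET R m (w s) (c.1 :: (p, v) :: T)
      fun ps => F s ps.dropLast * g (ps.getLastD [])).sum with hold
    -- old replicas
    have e1 : ((att R m T).map fun c => c.2 * ET R m (w s) (c.1 :: T) fun ps =>
        (ext m (w s) (R - v) ((ps.dropLast.getD p []).take v) fun q => F s (ps.dropLast ++ [q])) *
          g (ps.getLastD [])).sum = old := by
      refine congrArg List.sum (List.map_congr_left fun c hc => ?_)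
      obtain ⟨⟨p', v'⟩, x⟩ := c
      have hp' : p' < T.length := (att_mem hT' _ hc).1
      simp only [ET_cons_cons hT' hp', ET_cons, List.dropLast_concat, List.getLastD_concat,
        ext_mul_const]
    -- the new replica
    have hone : ∀ l, ET R m (w s) ((T.length, l) :: (p, v) :: T)
        (fun ps => F s ps.dropLast * g (ps.getLastD [])) =
        ET R m (w s) T fun ps => ext m (w s) (R - v) ((ps.getD p []).take v)
          fun q => F s (ps ++ [q]) * ext m (w s) (R - l) (q.take l) g := fun l => by
      rw [ET_cons, ET_cons]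
      refine ET_congr hT' fun ps hs => ext_congr fun suf _ => ?_
      simp only [List.dropLast_concat, List.getLastD_concat, ext_const_mul]
      rw [List.getD_append_right _ _ _ _ hs.1.le]
      simp [hs.1]
    have hsame : ET R m (w s) ((p, v) :: (p, v) :: T)
        (fun ps => F s ps.dropLast * g (ps.getLastD [])) =
        ET R m (w s) T fun ps => ext m (w s) (R - v) ((ps.getD p []).take v)
          fun q => F s (ps ++ [q]) * ext m (w s) (R - v) (q.take v) g := by
      rw [ET_cons, ET_cons]
      refine ET_congr hT' fun ps hs => ext_congr fun suf _ => ?_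
      simp only [List.dropLast_concat, List.getLastD_concat, ext_const_mul,
        List.take_left' (hpre ps hs)]
      congr 2
      rcases hp with ⟨-, -, rfl⟩ | hp
      · simp
      · rw [List.getD_append _ _ _ _ (hs.1 ▸ hp)]
    simp only [att, List.map_append, List.sum_append, List.map_map, Function.comp_def,
      List.map_cons, List.sum_cons]
    rw [e1, ← hold, hsame]
    simp only [hone]
    have hk : ET R m (w s) T (fun ps => ext m (w s) (R - v) ((ps.getD p []).take v)
          fun q => F s (ps ++ [q]) * kerD R m (w s) g v (R - v) q) =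
        ((List.range' (v + 1) (R - v)).map fun l => (m l - m (l + 1)) *
          ET R m (w s) T fun ps => ext m (w s) (R - v) ((ps.getD p []).take v)
            fun q => F s (ps ++ [q]) * ext m (w s) (R - l) (q.take l) g).sum -
        m (v + 1) * ET R m (w s) T fun ps => ext m (w s) (R - v) ((ps.getD p []).take v)
            fun q => F s (ps ++ [q]) * ext m (w s) (R - v) (q.take v) g := by
      simp only [← ET_const_mul, ← ext_const_mul, ← ET_list_sum, ← ext_list_sum, ← ET_sub,
        ← ext_sub]
      refine ET_congr hT' fun ps _ => ext_congr fun suf _ => ?_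
      simp only [kerD, mul_sub, ← List.sum_map_mul_left, ext_const_mul]
      simp only [mul_left_comm]
    rw [hk]
    ring
theorem hasDerivAt_ET_const (hm : Ok R m (w s))
    (hd : ∀ p, HasDerivAt (fun t => w t p) (w s p * g p) s)
    {T : List (ℕ × ℕ)} (hT : Valid R T) (F : List (List Ω) → ℝ) :
    HasDerivAt (fun t => ET R m (w t) T F)
      ((att R m T).map fun c => c.2 * ET R m (w s) (c.1 :: T)
          fun ps => F ps.dropLast * g (ps.getLastD [])).sum s := by
  have h := hasDerivAt_ET hm hd hT (F := fun _ => F) (F' := fun _ => 0)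
    (fun ps _ => hasDerivAt_const _ _)
  simpa [ET_const hm.wpos] using h

end Vale.Agent.P168.MP
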