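import Vale.Agent.P168.MP.TreeExp
import Vale.Agent.P168.MP.Defs

/-! The coarse nested functional of one path against independent paths in the slots: the difference
is controlled by the mean deviations of finitely many multi-overlaps. -/

namespace Vale.Agent.P168.MP

open Finset Real

variable {N : Type} {V : Type} [Fintype V]

/-- multi-overlap of the marked leaves -/
noncomputable def mov {n : ℕ} (val : V → N → ℝ) (x₀ : N) (b : Fin n → Bool) (ls : List N) : ℝ :=
  avg fun v => ∏ a : Fin n, if b a then val v (ls.getD a x₀) else 1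

/-- mean deviation of a multi-overlap under a tree expectation -/
noncomputable def movDev (E : ℕ → (N → ℝ) → N → ℝ) (l k : ℕ) (t : Tree) (val : V → N → ℝ) (x : N)
    (b : Fin (Tree.size k t) → Bool) : ℝ :=
  treeE E l k t (fun ls => |mov val x b ls - treeE E l k t (mov val x b) x|) x

lemma map_prod_getD {α : Type*} (f : α → ℝ) (d : α) :
    ∀ (n : ℕ) (ls : List α), ls.length = n → (ls.map f).prod = ∏ a : Fin n, f (ls.getD a d)
  | 0, ls, h => by simp [List.length_eq_zero_iff.1 h]
  | n + 1, [], h => by simp at h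
  | n + 1, a :: ls, h => by
    rw [Fin.prod_univ_succ, List.map_cons, List.prod_cons, map_prod_getD f d n ls (by simpa using h)]
    simp

lemma prod_expand {ι : Type} [Fintype ι] [DecidableEq ι] (c : Finset ι → ℝ) {n : ℕ}
    (z : ι → Fin n → ℝ) :
    ∏ a : Fin n, ∑ S : Finset ι, c S * ∏ i ∈ S, z i a
      = ∑ Sf : Fin n → Finset ι, (∏ a, c (Sf a)) * ∏ i, ∏ a, if i ∈ Sf a then z i a else 1 := by
  rw [Fintype.prod_sum fun a S => c S * ∏ i ∈ S, z i a]
  refine sum_congr rfl fun Sf _ => ?_
  rw [prod_mul_distrib]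
  congr 1
  rw [prod_comm]
  refine prod_congr rfl fun a _ => ?_
  rw [← prod_filter]
  simp

lemma avg_slots_prod {ι : Type} [Fintype ι] [DecidableEq ι] (g : ι → V → ℝ) :
    avg (fun v : ι → V => ∏ i, g i (v i)) = ∏ i, avg (g i) := by
  simp only [avg, prod_div_distrib, ← Fintype.prod_sum, prod_const, card_univ, Fintype.card_fun,
    Nat.cast_pow]

lemma IsExp.avg {α W : Type*} [Fintype W] {F : (α → ℝ) → ℝ} (hF : IsExp F) (f : W → α → ℝ) :
    F (fun y => MP.avg fun v => f v y) = MP.avg fun v => F (f v) := by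
  simp only [MP.avg, div_eq_mul_inv, hF.mul_right, hF.sum]

lemma abs_avg_le {W : Type*} [Fintype W] (f : W → ℝ) {c : ℝ} (hc : 0 ≤ c) (h : ∀ v, |f v| ≤ c) :
    |avg f| ≤ c := by
  rw [avg, abs_div, Nat.abs_cast]
  refine div_le_of_le_mul₀ (Nat.cast_nonneg _) hc ((abs_sum_le_sum_abs _ _).trans ?_)
  refine (sum_le_sum fun v _ => h v).trans ?_
  simp [mul_comm]

lemma avg_sub {W : Type*} [Fintype W] (f g : W → ℝ) :
    avg (fun v => f v - g v) = avg f - avg g := by
  simp only [avg, sum_sub_distrib, sub_div]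

lemma avg_sum' {W κ : Type*} [Fintype W] (s : Finset κ) (f : κ → W → ℝ) :
    avg (fun v => ∑ i ∈ s, f i v) = ∑ i ∈ s, avg (f i) := by
  simp only [avg, ← sum_div]
  rw [sum_comm]

lemma avg_const_mul' {W : Type*} [Fintype W] (c : ℝ) (f : W → ℝ) :
    avg (fun v => c * f v) = c * avg f := by
  simp only [avg, ← mul_sum, mul_div_assoc]

lemma IsExp.mov_le_one {n : ℕ} {val : V → N → ℝ} (hval : ∀ v y, |val v y| ≤ 1) (x : N)
    (b : Fin n → Bool) (ls : List N) : |mov val x b ls| ≤ 1 :=
  abs_avg_le _ zero_le_one fun v => by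
    rw [abs_prod]
    refine prod_le_one (fun _ _ => abs_nonneg _) fun a _ => ?_
    split_ifs
    · exact hval _ _
    · simp

variable {A : ℕ → Type} [∀ q, Fintype (A q)] {p : ∀ q, N → A q → ℝ} {nxt : ∀ q, N → A q → N}
  {ι : Type} [Fintype ι] [DecidableEq ι] {val : V → N → ℝ} {c : Finset ι → ℝ} {Y : (ι → ℝ) → ℝ}

/-- one tree moment -/
lemma mono_compare (h0 : ∀ q x a, 0 ≤ p q x a) (h1 : ∀ q x, ∑ a, p q x a = 1)
    (hval : ∀ v y, |val v y| ≤ 1) (hY : ∀ z, Y z = ∑ S, c S * ∏ i ∈ S, z i)
    (l k : ℕ) (t : Tree) (x : N) {η : ℝ}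
    (hη : ∀ b, movDev (fun q => kMean p nxt q) l k t val x b ≤ η) :
    |avg (fun v : ι → V => mono (fun q => kMean p nxt q) (fun y => Y fun i => val (v i) y) l k t x) -
      avg (fun v : ι → V => mono (fun q => piMean p nxt q)
        (fun ys : ι → N => Y fun i => val (v i) (ys i)) l k t (fun _ => x))|
      ≤ (∑ S, |c S|) ^ Tree.size k t * (Fintype.card ι * η) := by
  set n := Tree.size k t with hn
  set E := fun q => kMean p nxt q with hEd
  have hE : ∀ q, IsMean (E q) := fun q => isMean_kMean (h0 q) (h1 q)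
  have hP : ∀ q, IsMean (piMean (ι := ι) p nxt q) := fun q => isMean_piMean (h0 q) (h1 q)
  set F : (List N → ℝ) → ℝ := fun H => treeE E l k t H x with hFd
  have hF : IsExp F := isExp_treeE hE k l t x
  set bb : (Fin n → Finset ι) → ι → Fin n → Bool := fun Sf i a => decide (i ∈ Sf a) with hbb
  -- one path
  have e1 : avg (fun v : ι → V => mono E (fun y => Y fun i => val (v i) y) l k t x)
      = ∑ Sf : Fin n → Finset ι, (∏ a, c (Sf a)) * F (fun ls => ∏ i, mov val x (bb Sf i) ls) := by
    have : ∀ v : ι → V, mono E (fun y => Y fun i => val (v i) y) l k t x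
        = ∑ Sf : Fin n → Finset ι, (∏ a, c (Sf a)) *
            F (fun ls => ∏ i, ∏ a, if i ∈ Sf a then val (v i) (ls.getD a x) else 1) := fun v => by
      rw [mono_eq_treeE hE, treeE_congr k l t x _ (fun ls => ∑ Sf : Fin n → Finset ι,
        (∏ a, c (Sf a)) * ∏ i, ∏ a, if i ∈ Sf a then val (v i) (ls.getD a x) else 1)]
      · rw [show treeE E l k t (fun ls => ∑ Sf : Fin n → Finset ι, (∏ a, c (Sf a)) *
            ∏ i, ∏ a, if i ∈ Sf a then val (v i) (ls.getD a x) else 1) x = F _ from rfl, hF.sum]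
        exact sum_congr rfl fun Sf _ => hF.smul _ _
      · intro ls hls
        rw [map_prod_getD _ x n ls hls]
        simp only [hY]
        exact prod_expand c fun i a => val (v i) (ls.getD a x)
    simp only [this, avg_sum', avg_const_mul', ← hF.avg]
    refine sum_congr rfl fun Sf _ => ?_
    congr 2; funext ls
    rw [avg_slots_prod fun i v => ∏ a, if i ∈ Sf a then val v (ls.getD a x) else 1]
    simp [mov, bb]
  -- independent slots
  have e2 : avg (fun v : ι → V => mono (fun q => piMean p nxt q)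
        (fun ys : ι → N => Y fun i => val (v i) (ys i)) l k t (fun _ => x))
      = ∑ Sf : Fin n → Finset ι, (∏ a, c (Sf a)) * ∏ i, F (mov val x (bb Sf i)) := by
    have hG : IsExp fun H => treeE (fun q => piMean p nxt q) l k t H (fun _ : ι => x) :=
      isExp_treeE hP k l t _
    have : ∀ v : ι → V, mono (fun q => piMean p nxt q)
        (fun ys : ι → N => Y fun i => val (v i) (ys i)) l k t (fun _ => x)
        = ∑ Sf : Fin n → Finset ι, (∏ a, c (Sf a)) *
            ∏ i, F (fun ls => ∏ a, if i ∈ Sf a then val (v i) (ls.getD a x) else 1) := fun v => by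
      rw [mono_eq_treeE hP, treeE_congr k l t _ _ (fun ls : List (ι → N) =>
        ∑ Sf : Fin n → Finset ι, (∏ a, c (Sf a)) * ∏ i,
          (fun ls' : List N => ∏ a, if i ∈ Sf a then val (v i) (ls'.getD a x) else 1)
            (ls.map fun ys => ys i))]
      · refine (hG.sum _ _).trans (sum_congr rfl fun Sf _ => ?_)
        rw [hG.smul]
        congr 1
        exact treeE_pi k l t (fun _ : ι => x)
          (fun i ls' => ∏ a, if i ∈ Sf a then val (v i) (ls'.getD a x) else 1)
      · intro ls hls
        rw [map_prod_getD _ (fun _ : ι => x) n ls hls]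
        simp only [hY]
        rw [prod_expand c fun i a => val (v i) (ls.getD a (fun _ => x) i)]
        refine sum_congr rfl fun Sf _ => ?_
        congr 1
        refine prod_congr rfl fun i _ => prod_congr rfl fun a _ => ?_
        rw [show x = (fun ys : ι → N => ys i) (fun _ => x) from rfl, List.getD_map]
    simp only [this, avg_sum', avg_const_mul']
    refine sum_congr rfl fun Sf _ => ?_
    congr 1
    rw [avg_slots_prod fun i v => F fun ls => ∏ a, if i ∈ Sf a then val v (ls.getD a x) else 1]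
    refine prod_congr rfl fun i _ => ?_
    rw [← hF.avg]
    congr 1; funext ls
    simp [mov, bb]
  rw [e1, e2, ← sum_sub_distrib, Fintype.sum_pow, sum_mul]
  refine (abs_sum_le_sum_abs _ _).trans (sum_le_sum fun Sf _ => ?_)
  rw [← mul_sub, abs_mul, abs_prod]
  refine mul_le_mul_of_nonneg_left ((hF.prod_sub_le univ _ fun i _ ls =>
    IsExp.mov_le_one hval x _ ls).trans ?_) (prod_nonneg fun _ _ => abs_nonneg _)
  exact (sum_le_sum fun i _ => hη (bb Sf i)).trans (by simp)

/-- Coarse comparison: for `ε` finitely many trees such that small multi-overlap deviations on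
them make the one-path functional equal to the independent-path one up to `ε`. -/
theorem exists_coarse_compare {e : ℕ → ℝ} (he : ∀ q, 0 ≤ e q) (C B : ℝ) (hB : 0 ≤ B) (L : ℕ)
    {ε : ℝ} (hε : 0 < ε) :
    ∃ (P : List Tree) (η : ℝ), 0 < η ∧
      ∀ (N : Type) (A : ℕ → Type) [∀ q, Fintype (A q)] (p : ∀ q, N → A q → ℝ)
        (nxt : ∀ q, N → A q → N) (V : Type) [Fintype V] (val : V → N → ℝ) (Y : (ι → ℝ) → ℝ)
        (c : Finset ι → ℝ) (x : N),
      (∀ q x a, 0 ≤ p q x a) → (∀ q x, ∑ a, p q x a = 1) → (∀ v y, |val v y| ≤ 1) →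
      (∀ z, Y z = ∑ S, c S * ∏ i ∈ S, z i) → (∑ S, |c S|) ≤ B →
      (∀ z, (∀ i, |z i| ≤ 1) → exp (-C) ≤ Y z ∧ Y z ≤ exp C) →
      (∀ t ∈ P, ∀ b, movDev (fun q => kMean p nxt q) 0 L t val x b ≤ η) →
        |avg (fun v : ι → V => nestLog (fun q => kMean p nxt q) e
            (fun y => log (Y fun i => val (v i) y)) 0 L x) -
          avg (fun v : ι → V => nestLog (fun q => piMean p nxt q) e
            (fun ys : ι → N => log (Y fun i => val (v i) (ys i))) 0 L (fun _ => x))| ≤ ε := by
  obtain ⟨P, hP⟩ := exists_tree_moments he C 0 L (show 0 < ε / 3 by positivity)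
  set K := (P.map fun z => |z.1| * (B ^ Tree.size L z.2 * Fintype.card ι)).sum with hK
  have hK0 : 0 ≤ K := List.sum_nonneg fun w hw => by
    obtain ⟨z, -, rfl⟩ := List.mem_map.1 hw
    positivity
  refine ⟨P.map Prod.snd, ε / 3 / (K + 1), by positivity, ?_⟩
  intro N A _ p nxt V _ val Y c x h0 h1 hval hY hc hmem hη
  set E := fun q => kMean p nxt q
  set E' := fun q => piMean (ι := ι) p nxt q
  have hlog : ∀ z : ι → ℝ, (∀ i, |z i| ≤ 1) → |log (Y z)| ≤ C ∧ exp (log (Y z)) = Y z := fun z hz => by
    obtain ⟨a, b⟩ := hmem z hz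
    have hpos := (exp_pos _).trans_le a
    exact ⟨abs_le.2 ⟨(le_log_iff_exp_le hpos).2 a, (log_le_iff_le_exp hpos).2 b⟩, exp_log hpos⟩
  have a1 : |avg (fun v : ι → V => nestLog E e (fun y => log (Y fun i => val (v i) y)) 0 L x -
      comb E (fun y => Y fun i => val (v i) y) 0 L P x)| ≤ ε / 3 :=
    abs_avg_le _ (by positivity) fun v => by
      have := hP N E (fun q => isMean_kMean (h0 q) (h1 q)) (fun y => log (Y fun i => val (v i) y))
        (fun y => (hlog _ fun i => hval _ _).1) x
      rwa [funext fun y => (hlog (fun i => val (v i) y) fun i => hval _ _).2] at this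
  have a2 : |avg (fun v : ι → V => nestLog E' e
        (fun ys : ι → N => log (Y fun i => val (v i) (ys i))) 0 L (fun _ => x) -
      comb E' (fun ys : ι → N => Y fun i => val (v i) (ys i)) 0 L P (fun _ => x))| ≤ ε / 3 :=
    abs_avg_le _ (by positivity) fun v => by
      have := hP (ι → N) E' (fun q => isMean_piMean (h0 q) (h1 q))
        (fun ys => log (Y fun i => val (v i) (ys i))) (fun ys => (hlog _ fun i => hval _ _).1)
        (fun _ => x)
      rwa [funext fun ys : ι → N => (hlog (fun i => val (v i) (ys i)) fun i => hval _ _).2] at this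
  have a3 : |avg (fun v : ι → V => comb E (fun y => Y fun i => val (v i) y) 0 L P x) -
      avg (fun v : ι → V => comb E' (fun ys : ι → N => Y fun i => val (v i) (ys i)) 0 L P
        (fun _ => x))| ≤ K * (ε / 3 / (K + 1)) := by
    have hη0 : 0 ≤ ε / 3 / (K + 1) := by positivity
    generalize ε / 3 / (K + 1) = η at hη hη0 ⊢
    rw [hK]
    clear hP a1 a2 hK0 hK
    clear K
    induction P with
    | nil => simp [comb, avg]
    | cons z P ih =>
      have ha : ∀ {W : Type} [Fintype W] (f g : W → ℝ), avg (fun v => z.1 * f v + g v)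
          = z.1 * avg f + avg g := fun f g => by
        simp only [avg, sum_add_distrib, ← mul_sum]; ring
      simp only [comb, List.map_cons, List.sum_cons, ha, List.mem_cons, forall_eq_or_imp] at ih hη ⊢
      rw [add_sub_add_comm, ← mul_sub]
      refine (abs_add_le _ _).trans ((add_le_add ?_ (ih hη.2)).trans_eq (add_mul _ _ _).symm)
      · rw [abs_mul, mul_assoc]
        refine mul_le_mul_of_nonneg_left ((mono_compare h0 h1 hval hY 0 L z.2 x hη.1).trans ?_)
          (abs_nonneg _)
        rw [← mul_assoc]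
        gcongr
  have hKε : K * (ε / 3 / (K + 1)) ≤ ε / 3 := by
    rw [mul_div_assoc', div_le_iff₀ (by positivity)]
    nlinarith
  rw [avg_sub] at a1 a2
  have := abs_le.1 a1; have := abs_le.1 a2; have := abs_le.1 a3
  exact abs_le.2 ⟨by linarith, by linarith⟩

end Vale.Agent.P168.MP
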