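import Vale.Agent.P168.MP.Ident
import Vale.Agent.P168.MP.Grow

/-! Averaging the identities over a finite grid of strengths (no measures on the strengths). -/

namespace Vale.Agent.P168.MP

open Finset Real

section riemann

/-- a right Riemann sum of a Lipschitz function is at most the integral plus the mesh -/
lemma riemann_le {f : ℝ → ℝ} {L : ℝ} (hL : ∀ x y, |f x - f y| ≤ L * |x - y|) (hf : Continuous f)
    {ub : ℝ} (hub : 0 < ub) {M : ℕ} (hM : 0 < M) :
    avg (fun i : Fin M => f (ub * ((i : ℕ) + 1 : ℝ) / M)) ≤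
      (∫ x in (0:ℝ)..ub, f x) / ub + L * ub / M := by
  have hM' : (0:ℝ) < M := by exact_mod_cast hM
  set a : ℕ → ℝ := fun i => ub * i / M
  set d : ℝ := ub / M
  have hd : 0 ≤ d := by positivity
  have ha : ∀ i : ℕ, a (i + 1) - a i = d := fun i => by simp only [a, d]; push_cast; ring
  have hL0 : 0 ≤ L := by
    have := (abs_nonneg _).trans (hL 1 0); simpa using this
  have hstep : ∀ i ∈ range M, d * f (a (i + 1)) - L * d * d ≤ ∫ x in a i..a (i + 1), f x := by
    intro i _
    have hle : a i ≤ a (i + 1) := by linarith [ha i]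
    calc d * f (a (i + 1)) - L * d * d = ∫ _x in a i..a (i + 1), (f (a (i + 1)) - L * d) := by
          rw [intervalIntegral.integral_const, ha, smul_eq_mul]; ring
      _ ≤ _ := intervalIntegral.integral_mono_on hle intervalIntegrable_const
          (hf.intervalIntegrable _ _) fun x hx => by
            have h1 := (abs_le.1 (hL (a (i + 1)) x)).2
            have h2 : |a (i + 1) - x| ≤ d := by
              rw [abs_of_nonneg (by linarith [hx.2])]; linarith [hx.1, ha i]
            linarith [mul_le_mul_of_nonneg_left h2 hL0]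
  have hsum : ∑ i ∈ range M, (∫ x in a i..a (i + 1), f x) = ∫ x in (0:ℝ)..ub, f x := by
    rw [intervalIntegral.sum_integral_adjacent_intervals fun i _ => hf.intervalIntegrable _ _]
    simp [a, hM.ne']
  have h := (sum_le_sum hstep).trans_eq hsum
  rw [sum_sub_distrib, ← mul_sum, sum_const, card_range, nsmul_eq_mul] at h
  have e : avg (fun i : Fin M => f (ub * ((i : ℕ) + 1 : ℝ) / M)) = (∑ i ∈ range M, f (a (i + 1))) / M := by
    rw [avg, Fintype.card_fin]
    congr 1
    rw [Fin.sum_univ_eq_sum_range (fun i : ℕ => f (ub * ((i : ℝ) + 1) / M))]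
    simp only [a]; push_cast; rfl
  rw [e, show (∫ x in (0:ℝ)..ub, f x) / ub + L * ub / M =
    ((∫ x in (0:ℝ)..ub, f x) + M * (L * d * d)) / ub by simp only [d]; field_simp]
  rw [le_div_iff₀ hub, show (∑ i ∈ range M, f (a (i + 1))) / (M:ℝ) * ub =
    d * ∑ i ∈ range M, f (a (i + 1)) by simp only [d]; ring]
  linarith

end riemann

section lipschitz
variable {Ω : Type*} [Fintype Ω] [Nonempty Ω] {R : ℕ} {m : ℕ → ℝ} {w D : List Ω → ℝ}

lemma abs_mad_sub (hok : Ok R m w) {C : ℝ} (hD : ∀ p, |D p| ≤ C) (u v : ℝ) :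
    |mad R m (tilt w D u) D - mad R m (tilt w D v) D| ≤
      3 * seqBound R 1 1 * C ^ 2 * |u - v| := by
  have e : tilt w D u = tilt (tilt w D v) D (u - v) := by
    funext p; simp only [tilt, mul_assoc, ← exp_add]; ring_nf
  have hv := hok.tilt D v
  have hu := hok.tilt D u
  rw [e] at hu ⊢
  set c' := mean1 R m (tilt w D v) D with hc'
  set c := mean1 R m (tilt (tilt w D v) D (u - v)) D with hc
  have h1 : |c - c'| ≤ seqBound R 1 1 * (C * C) * |u - v| := by
    have := abs_ET_tilt_sub hv valid_single (H := fun ps => D (ps.getD 0 [])) (fun ps => hD _) hD (u - v)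
    simpa [hc, hc', mean1] using this
  have hc'b : |c'| ≤ C := abs_mean1_le hv hD
  have h2 : |ET R m (tilt (tilt w D v) D (u - v)) [(0, 0)] (fun ps => |D (ps.getD 0 []) - c'|) -
      mad R m (tilt w D v) D| ≤ seqBound R 1 1 * ((2 * C) * C) * |u - v| := by
    have := abs_ET_tilt_sub hv valid_single (H := fun ps => |D (ps.getD 0 []) - c'|)
      (CH := 2 * C) (fun ps => by
        rw [abs_abs]; exact (abs_sub _ _).trans (by linarith [hD (ps.getD 0 [])])) hD (u - v)
    simpa [mad, hc'] using this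
  have h3 : |mad R m (tilt (tilt w D v) D (u - v)) D -
      ET R m (tilt (tilt w D v) D (u - v)) [(0, 0)] (fun ps => |D (ps.getD 0 []) - c'|)| ≤ |c - c'| := by
    rw [mad, ← ET_sub]
    refine ET_bound hu.wpos fun ps => ?_
    refine (abs_abs_sub_abs_le_abs_sub _ _).trans ?_
    rw [← hc, sub_sub_sub_cancel_left, abs_sub_comm]
  refine (abs_sub_le _ _ _).trans ((add_le_add (h3.trans h1) h2).trans_eq ?_)
  ring

end lipschitz

variable {N S : ℕ} [NeZero N] {ι : Type} [Fintype ι] [DecidableEq ι] {β : ι → Batch}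
  {R : ℕ} {m : ℕ → ℝ}

/-- a grid point of strengths -/
noncomputable def gu (ub : ℝ) (M : ℕ) {ι : Type} (g : ι → Fin M) (i : ι) : ℝ :=
  ub * ((g i : ℕ) + 1 : ℝ) / M

omit [Fintype ι] [DecidableEq ι] in
lemma gu_mem {ub : ℝ} (hub : 0 < ub) {M : ℕ} (g : ι → Fin M) (i : ι) :
    0 < gu ub M g i ∧ gu ub M g i ≤ ub := by
  have hM : (0:ℝ) < M := by exact_mod_cast (g i).pos
  refine ⟨by unfold gu; positivity, ?_⟩
  rw [gu, div_le_iff₀ hM]
  exact mul_le_mul_of_nonneg_left (by exact_mod_cast (g i).isLt) hub.le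

/-- concentration on the grid -/
theorem grid_mad (hm : ∀ (w : List (Mark N S β) → ℝ), (∀ p, 0 < w p) → Ok R m w) (hR : 1 ≤ R)
    (hS : 0 < S) {W : (Fin N → Bool) → ℝ} (hW : ∀ σ, 0 < W σ) (h : ι → ℝ) (j : ι) {ub : ℝ}
    (hub : 0 < ub) {M : ℕ} (hM : 0 < M) :
    avg (fun g : ι → Fin M =>
        mad R m (pw (S := S) (β := β) R W h (gu ub M g)) (batchSum R j)) ≤
      √(2 * S * ub / m 1) / ub + 3 * seqBound R 1 1 * (S:ℝ) ^ 2 * ub / M := by
  have : NeZero M := ⟨hM.ne'⟩
  rw [← avg_equiv (Equiv.piSplitAt j fun _ : ι => Fin M).symm, avg_prod_eq]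
  have hcomm : ∀ (F : Fin M → ({c // c ≠ j} → Fin M) → ℝ),
      (avg fun a => avg fun r => F a r) = avg fun r => avg fun a => F a r := fun F => by
    simp only [avg, ← sum_div]
    rw [Finset.sum_comm, div_div, div_div, mul_comm]
  rw [hcomm]
  refine (avg_le_avg fun r => ?_).trans_eq (avg_const _)
  set u0 : ι → ℝ := Function.update
    (gu ub M ((Equiv.piSplitAt j fun _ : ι => Fin M).symm (⟨0, hM⟩, r))) j 0
  have hw : ∀ a : Fin M, pw (S := S) (β := β) R W h
      (gu ub M ((Equiv.piSplitAt j fun _ : ι => Fin M).symm (a, r))) =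
      tilt (pw R W h u0) (batchSum R j) (ub * ((a : ℕ) + 1 : ℝ) / M) := fun a => by
    rw [pw_tilt j]
    congr 1
    · congr 1
      funext c
      by_cases hc : c = j
      · subst hc; simp [u0]
      · simp [u0, gu, Equiv.piSplitAt, hc]
    · simp [gu, Equiv.piSplitAt]
  simp only [hw]
  have hok : Ok R m (pw (S := S) (β := β) R W h u0) := hm _ fun p => mul_pos (hW _) (exp_pos _)
  have hcont : Continuous fun x => mad R m (tilt (pw (S := S) (β := β) R W h u0) (batchSum R j) x)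
      (batchSum R j) :=
    (LipschitzWith.of_dist_le' fun x y => by
      simpa [Real.dist_eq] using abs_mad_sub hok (abs_batchSum_le R j) x y).continuous
  refine (riemann_le (fun x y => abs_mad_sub hok (abs_batchSum_le R j) x y) hcont hub hM).trans ?_
  refine add_le_add (div_le_div_of_nonneg_right ?_ hub.le) le_rfl
  exact concentration hok hR (abs_batchSum_le R j) (by exact_mod_cast hS) hub

/-- sum of the identity errors of all batches -/
noncomputable def errSum {kmax : ℕ} (R S : ℕ) (m : ℕ → ℝ) (W : (Fin N → Bool) → ℝ)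
    (h u : BIdx R kmax → ℝ) : ℝ :=
  ∑ i : BIdx R kmax, identConst R (i.1 : ℕ) (kmax + 1) *
    (mad R m (pw (S := S) (β := allBatch R kmax) R W h u) (batchSum R i) /
      (S * h i ^ (i.1 : ℕ)) + |u i| / h i ^ (i.1 : ℕ) + h i)

omit [DecidableEq ι] [Fintype ι] in
theorem ident_errSum {kmax : ℕ} {W : (Fin N → Bool) → ℝ} {h u : BIdx R kmax → ℝ}
    (hok : Ok R m (pw (S := S) (β := allBatch R kmax) R W h u)) (hS : 0 < S) (hR : 1 ≤ R)
    (hh : ∀ i, 0 < h i ∧ h i ≤ 1) :
    0 ≤ errSum R S m W h u ∧ Ident R m (pw (S := S) (β := allBatch R kmax) R W h u) (spinAt R) kmax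
      (errSum R S m W h u) := by
  have h0 : ∀ i : BIdx R kmax, 0 ≤ identConst R (i.1 : ℕ) (kmax + 1) *
      (mad R m (pw (S := S) (β := allBatch R kmax) R W h u) (batchSum R i) /
        (S * h i ^ (i.1 : ℕ)) + |u i| / h i ^ (i.1 : ℕ) + h i) := fun i => by
    have := mad_nonneg hok (batchSum R i)
    have := (hh i).1
    exact mul_nonneg (identConst_nonneg _ _ _) (by positivity)
  exact ⟨sum_nonneg fun i _ => h0 i, ident_of_err hok hS hR hh fun i =>
    single_le_sum (f := fun i => _) (fun i _ => h0 i) (mem_univ i)⟩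

lemma avg_affine {Ω : Type*} [Fintype Ω] [Nonempty Ω] (G : Ω → ℝ) (A B C : ℝ) :
    avg (fun g => A * (G g * B + C)) = A * (avg G * B + C) := by
  have hc := card_pos_real (Ω := Ω)
  simp only [avg, ← mul_sum, sum_add_distrib, ← sum_mul, sum_const, card_univ, nsmul_eq_mul]
  field_simp

omit [DecidableEq ι] [Fintype ι] in
lemma grid_term {kmax : ℕ} (hR : 1 ≤ R) {W : (Fin N → Bool) → ℝ} (hW : ∀ σ, 0 < W σ) {M : ℕ}
    (i : BIdx R kmax) {h ub q : ℝ} (hh : 0 < h) (hh1 : h ≤ 1) (hub : 0 < ub) (hq : 0 ≤ q)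
    (hS : 0 < S) (hM : 0 < M) (hubq : ub ≤ q * h ^ kmax) (hhq : h ≤ q)
    (hmad : avg (fun g : BIdx R kmax → Fin M =>
      mad R (lin R) (pw (S := S) (β := allBatch R kmax) R W (fun _ => h) (gu ub M g)) (batchSum R i)) ≤
        2 * (q * h ^ kmax) * S) :
    avg (fun g : BIdx R kmax → Fin M => identConst R (i.1 : ℕ) (kmax + 1) *
      (mad R (lin R) (pw (S := S) (β := allBatch R kmax) R W (fun _ => h) (gu ub M g)) (batchSum R i) /
        (S * h ^ (i.1 : ℕ)) + |gu ub M g i| / h ^ (i.1 : ℕ) + h)) ≤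
      identConst R (i.1 : ℕ) (kmax + 1) * (4 * q) := by
  have : NeZero M := ⟨hM.ne'⟩
  have hC := identConst_nonneg R (i.1 : ℕ) (kmax + 1)
  obtain ⟨k, hk⟩ : ∃ k, k = (i.1 : ℕ) := ⟨_, rfl⟩
  have hkm : k ≤ kmax := hk ▸ Nat.le_of_lt_succ i.1.isLt
  simp only [← hk] at hC ⊢
  have hHk : h ^ kmax ≤ h ^ k := pow_le_pow_of_le_one hh.le hh1 hkm
  have hH : 0 < h ^ kmax := pow_pos hh _
  have hS' : (0:ℝ) < S := Nat.cast_pos.2 hS
  refine (avg_le_avg (g := fun g : BIdx R kmax → Fin M => identConst R k (kmax + 1) *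
    (mad R (lin R) (pw (S := S) (β := allBatch R kmax) R W (fun _ => h) (gu ub M g)) (batchSum R i) *
      (1 / (S * h ^ kmax)) + (q + q))) fun g => ?_).trans ?_
  · refine mul_le_mul_of_nonneg_left ?_ hC
    have hmad0 := mad_nonneg (ok_lin hR (w := pw (S := S) (β := allBatch R kmax) R W (fun _ => h)
      (gu ub M g)) fun p => mul_pos (hW _) (exp_pos _)) (batchSum R i)
    rw [add_assoc, mul_one_div]
    refine add_le_add (div_le_div_of_nonneg_left hmad0 (by positivity)
      (mul_le_mul_of_nonneg_left hHk hS'.le)) (add_le_add ?_ hhq)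
    rw [abs_of_pos (gu_mem hub g i).1, div_le_iff₀ (pow_pos hh _)]
    exact ((gu_mem hub g i).2.trans hubq).trans (mul_le_mul_of_nonneg_left hHk hq)
  · rw [avg_affine]
    refine mul_le_mul_of_nonneg_left ?_ hC
    have := mul_le_mul_of_nonneg_right hmad (show (0:ℝ) ≤ 1 / (S * h ^ kmax) by positivity)
    have e : 2 * (q * h ^ kmax) * S * (1 / (S * h ^ kmax)) = 2 * q := by field_simp
    linarith

omit [DecidableEq ι] [Fintype ι] in
/-- the parameters: the mean error over the grid is small, uniformly in `N` and `W` -/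
theorem grid_params (R kmax : ℕ) (hR : 1 ≤ R) {ε : ℝ} (hε : 0 < ε) :
    ∃ (S M : ℕ) (h ub : ℝ), 0 < S ∧ 0 < M ∧ 0 < h ∧ h ≤ 1 ∧ 0 < ub ∧ ub ≤ 1 ∧
      ∀ (N : ℕ) [NeZero N] (W : (Fin N → Bool) → ℝ), (∀ σ, 0 < W σ) →
        avg (fun g : BIdx R kmax → Fin M =>
          errSum R S (lin R) W (fun _ => h) (gu ub M g)) ≤ ε := by
  set Ct : ℝ := ∑ i : BIdx R kmax, identConst R (i.1 : ℕ) (kmax + 1) + 1
  have hCt : 0 < Ct := add_pos_of_nonneg_of_pos (sum_nonneg fun i _ => identConst_nonneg _ _ _) one_pos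
  set q := ε / (4 * Ct)
  have hq : 0 < q := by positivity
  set h := min 1 q
  have hh : 0 < h := lt_min one_pos hq
  have hh1 : h ≤ 1 := min_le_left _ _
  set H := h ^ kmax
  have hH : 0 < H := pow_pos hh _
  set ub := min 1 (q * H)
  have hub : 0 < ub := lt_min one_pos (mul_pos hq hH)
  set δ := q * H
  have hδ : 0 < δ := mul_pos hq hH
  have hm1 : (0:ℝ) < lin R 1 := (ok_lin (Ω := ℕ) hR (w := fun _ => 1) fun _ => one_pos).pos 1 le_rfl hR
  obtain ⟨S, hS⟩ := exists_nat_gt (max 1 (2 / (δ ^ 2 * ub * lin R 1)))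
  have hS0 : (0:ℝ) < S := lt_of_le_of_lt (le_trans zero_le_one (le_max_left _ _)) hS
  obtain ⟨M, hM⟩ := exists_nat_gt (max 1 (3 * seqBound R 1 1 * (S:ℝ) * ub / δ))
  have hM0 : (0:ℝ) < M := lt_of_le_of_lt (le_trans zero_le_one (le_max_left _ _)) hM
  refine ⟨S, M, h, ub, Nat.cast_pos.1 hS0, Nat.cast_pos.1 hM0, hh, hh1, hub, min_le_left _ _,
    fun N _ W hW => ?_⟩
  have : NeZero M := ⟨(Nat.cast_pos.1 hM0).ne'⟩
  have hmad : ∀ i : BIdx R kmax, avg (fun g : BIdx R kmax → Fin M =>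
      mad R (lin R) (pw (S := S) (β := allBatch R kmax) R W (fun _ => h) (gu ub M g)) (batchSum R i)) ≤
        2 * δ * S := by
    intro i
    refine (grid_mad (fun w hw => ok_lin hR hw) hR (Nat.cast_pos.1 hS0) hW _ i hub
      (Nat.cast_pos.1 hM0)).trans ?_
    have h1 : √(2 * S * ub / lin R 1) / ub ≤ δ * S := by
      rw [div_le_iff₀ hub, sqrt_le_left (by positivity), div_le_iff₀ hm1]
      have := (le_max_right _ _).trans hS.le
      rw [div_le_iff₀ (by positivity)] at this
      calc 2 * S * ub ≤ (S * (δ ^ 2 * ub * lin R 1)) * S * ub := by gcongr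
        _ = _ := by ring
    have h2 : 3 * seqBound R 1 1 * (S:ℝ) ^ 2 * ub / M ≤ δ * S := by
      have := (le_max_right _ _).trans hM.le
      rw [div_le_iff₀ hδ] at this
      rw [div_le_iff₀ hM0]
      calc 3 * seqBound R 1 1 * (S:ℝ) ^ 2 * ub = 3 * seqBound R 1 1 * S * ub * S := by ring
        _ ≤ M * δ * S := by gcongr
        _ = _ := by ring
    linarith
  have hterm := fun i => grid_term (N := N) (S := S) (kmax := kmax) hR hW (M := M) i hh hh1 hub
    hq.le (Nat.cast_pos.1 hS0) (Nat.cast_pos.1 hM0) (min_le_right _ _) (min_le_right _ _) (hmad i)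
  calc avg (fun g : BIdx R kmax → Fin M => errSum R S (lin R) W (fun _ => h) (gu ub M g))
      = ∑ i : BIdx R kmax, avg (fun g : BIdx R kmax → Fin M => identConst R (i.1 : ℕ) (kmax + 1) *
        (mad R (lin R) (pw (S := S) (β := allBatch R kmax) R W (fun _ => h) (gu ub M g)) (batchSum R i) /
          (S * h ^ (i.1 : ℕ)) + |gu ub M g i| / h ^ (i.1 : ℕ) + h)) := by
        simp only [avg, errSum]; rw [Finset.sum_comm, sum_div]
    _ ≤ ∑ i : BIdx R kmax, identConst R (i.1 : ℕ) (kmax + 1) * (4 * q) := sum_le_sum fun i _ => hterm i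
    _ = (Ct - 1) * (4 * q) := by rw [← sum_mul]; simp [Ct]
    _ ≤ Ct * (4 * q) := by nlinarith
    _ = ε := by simp only [q]; field_simp

end Vale.Agent.P168.MP
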