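import Vale.Agent.P168.MP.CavDefs
import Vale.Agent.P168.MP.Grow

/-! Elementary properties of the nested value of a factor in the perturbed structure. -/

namespace Vale.Agent.P168.MP

open Finset Real

section generic
variable {Ω : Type*} [Fintype Ω] [Nonempty Ω] {R : ℕ} {m : ℕ → ℝ} {w Y Y' : List Ω → ℝ}

lemma nest_const_mul (hm : Ok R m w) (hY : ∀ p, 0 < Y p) {a : ℝ} (ha : 0 < a) :
    ∀ (k : ℕ) (pre : List Ω), pre.length + k = R →
      nest m w (fun p => a * Y p) k pre = a * nest m w Y k pre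
  | 0, pre, _ => by simp [nest]
  | k + 1, pre, hk => by
    have hM : 0 < m (pre.length + 1) := hm.pos _ (by omega) (by omega)
    have hN : ∀ o, 0 < nest m w Y k (pre ++ [o]) := fun o => nest_pos hm.wpos hY k _
    have e : ∀ o, nest m w (fun p => a * Y p) k (pre ++ [o]) = a * nest m w Y k (pre ++ [o]) :=
      fun o => nest_const_mul hm hY ha k _ (by simp; omega)
    rw [nest, nest]
    simp only [e, mul_rpow ha.le (hN _).le, mul_left_comm (trans _ _ _ _ _), ← mul_sum]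
    have hS : 0 ≤ ∑ o, trans m w k pre o * nest m w Y k (pre ++ [o]) ^ m (pre.length + 1) :=
      sum_nonneg fun o _ => mul_nonneg (trans_nonneg hm.wpos k pre o) (rpow_nonneg (hN o).le _)
    rw [mul_rpow (rpow_nonneg ha.le _) hS, one_div, rpow_rpow_inv ha.le hM.ne']

lemma nest_le_nest (hm : Ok R m w) (hY : ∀ p, 0 < Y p) (h : ∀ p, Y p ≤ Y' p) :
    ∀ (k : ℕ) (pre : List Ω), pre.length + k = R → nest m w Y k pre ≤ nest m w Y' k pre
  | 0, pre, _ => by simpa [nest] using h pre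
  | k + 1, pre, hk => by
    have hM : 0 < m (pre.length + 1) := hm.pos _ (by omega) (by omega)
    rw [nest, nest]
    refine rpow_le_rpow (sum_nonneg fun o _ => mul_nonneg (trans_nonneg hm.wpos k pre o)
      (rpow_nonneg (nest_pos hm.wpos hY k _).le _)) (sum_le_sum fun o _ => ?_) (by positivity)
    exact mul_le_mul_of_nonneg_left (rpow_le_rpow (nest_pos hm.wpos hY k _).le
      (nest_le_nest hm hY h k _ (by simp; omega)) hM.le) (trans_nonneg hm.wpos k pre o)

end generic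

variable {N S : ℕ} [NeZero N] {ι : Type} [Fintype ι] [DecidableEq ι] {β : ι → Batch}
  {R : ℕ} {W : (Fin N → Bool) → ℝ} {h u : ι → ℝ}

lemma ok_pw_lin (hR : 1 ≤ R) (hW : ∀ σ, 0 < W σ) :
    Ok R (lin R) (pw (S := S) (β := β) R W h u) :=
  ok_lin hR fun _ => mul_pos (hW _) (exp_pos _)

lemma logZ0_pw_mul (hW : ∀ σ, 0 < W σ) {Y : (Fin N → Bool) → ℝ} (hY : ∀ σ, 0 < Y σ) :
    logZ0 R (lin R) (pw (S := S) (β := β) R (fun σ => W σ * Y σ) h u) =
      logZ0 R (lin R) (pw (S := S) (β := β) R W h u) + nestC (S := S) (β := β) R W h u Y := by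
  have e : pw (S := S) (β := β) R (fun σ => W σ * Y σ) h u =
      fun p => pw (S := S) (β := β) R W h u p * Y (spinAt R p) := by
    funext p; simp only [pw]; ring
  rw [nestC, e, ← logZ0_mul (w := pw (S := S) (β := β) R W h u) (Y := fun p => Y (spinAt R p))
    (fun p => mul_pos (hW _) (exp_pos _)) fun p => hY _]
  ring

lemma nestC_mono (hR : 1 ≤ R) (hW : ∀ σ, 0 < W σ) {Y Y' : (Fin N → Bool) → ℝ} (hY : ∀ σ, 0 < Y σ)
    (hle : ∀ σ, Y σ ≤ Y' σ) :
    nestC (S := S) (β := β) R W h u Y ≤ nestC (S := S) (β := β) R W h u Y' :=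
  log_le_log (nest_pos (ok_pw_lin hR hW).wpos (fun _ => hY _) R [])
    (nest_le_nest (ok_pw_lin hR hW) (fun _ => hY _) (fun _ => hle _) R [] (by simp))

lemma nestC_const_mul (hR : 1 ≤ R) (hW : ∀ σ, 0 < W σ) {Y : (Fin N → Bool) → ℝ}
    (hY : ∀ σ, 0 < Y σ) {a : ℝ} (ha : 0 < a) :
    nestC (S := S) (β := β) R W h u (fun σ => a * Y σ) =
      log a + nestC (S := S) (β := β) R W h u Y := by
  rw [nestC, nestC, nest_const_mul (ok_pw_lin hR hW) (fun _ => hY _) ha R [] (by simp),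
    log_mul ha.ne' (nest_pos (ok_pw_lin hR hW).wpos (fun _ => hY _) R []).ne']

lemma nestC_one (hR : 1 ≤ R) (hW : ∀ σ, 0 < W σ) :
    nestC (S := S) (β := β) R W h u (fun _ => 1) = 0 := by
  obtain ⟨a, b⟩ := nest_mem (ok_pw_lin (S := S) (β := β) (h := h) (u := u) hR hW)
    (Y := fun _ => (1:ℝ)) one_pos (fun _ _ => ⟨le_rfl, le_rfl⟩) R [] (by simp)
  rw [nestC, le_antisymm b a, log_one]

lemma abs_nestC_sub_le (hR : 1 ≤ R) (hW : ∀ σ, 0 < W σ) {Y Y' : (Fin N → Bool) → ℝ}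
    (hY : ∀ σ, 0 < Y σ) (hY' : ∀ σ, 0 < Y' σ) {D : ℝ} (hD : ∀ σ, |log (Y σ) - log (Y' σ)| ≤ D) :
    |nestC (S := S) (β := β) R W h u Y - nestC (S := S) (β := β) R W h u Y'| ≤ D := by
  have key : ∀ {A B : (Fin N → Bool) → ℝ}, (∀ σ, 0 < A σ) → (∀ σ, 0 < B σ) →
      (∀ σ, log (A σ) - log (B σ) ≤ D) →
      nestC (S := S) (β := β) R W h u A - nestC (S := S) (β := β) R W h u B ≤ D := by
    intro A B hA hB hAB
    have h1 := nestC_mono (S := S) (β := β) (h := h) (u := u) hR hW hA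
      (Y' := fun σ => exp D * B σ) fun σ => by
        rw [← exp_log (hA σ)]
        calc exp (log (A σ)) ≤ exp (D + log (B σ)) := exp_le_exp.2 (by linarith [hAB σ])
          _ = _ := by rw [exp_add, exp_log (hB σ)]
    rw [nestC_const_mul hR hW hB (exp_pos D), log_exp] at h1
    linarith
  rw [abs_le]
  exact ⟨by linarith [key hY' hY fun σ => by linarith [(abs_le.1 (hD σ)).1]],
    key hY hY' fun σ => (abs_le.1 (hD σ)).2⟩

lemma abs_nestC_le (hR : 1 ≤ R) (hW : ∀ σ, 0 < W σ) {Y : (Fin N → Bool) → ℝ} (hY : ∀ σ, 0 < Y σ)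
    {C : ℝ} (hC : ∀ σ, |log (Y σ)| ≤ C) : |nestC (S := S) (β := β) R W h u Y| ≤ C := by
  have := abs_nestC_sub_le (S := S) (β := β) (h := h) (u := u) hR hW hY (Y' := fun _ => 1)
    (fun _ => one_pos) (D := C) (fun σ => by rw [log_one, sub_zero]; exact hC σ)
  rwa [nestC_one hR hW, sub_zero] at this

end Vale.Agent.P168.MP
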