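import Vale.Agent.P168.MP.Comb

/-! The law of selected replicas depends only on their overlaps (A3' of ROUTE.md).

`Lev` samples the selected replicas level by level: at level `l` the classes of `l ≤ d i j`
receive independent tilted marks. -/

namespace Vale.Agent.P168.MP

open Finset
open Classical

variable {Ω : Type*} [Fintype Ω] {R : ℕ} {m : ℕ → ℝ} {w : List Ω → ℝ}
variable {ι : Type*} [Fintype ι] {κ : Type*} [Fintype κ]

/-- product measures: marginal along an injection -/
theorem sum_prod_marginal {A B : Type*} [Fintype A] [Fintype B] [DecidableEq A] [DecidableEq B]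
    (e : A → B)
    (he : Function.Injective e) (μ : B → Ω → ℝ) (hμ : ∀ b, ∑ o, μ b o = 1)
    (H : (A → Ω) → ℝ) :
    ∑ f : B → Ω, (∏ b, μ b (f b)) * H (f ∘ e) = ∑ g : A → Ω, (∏ a, μ (e a) (g a)) * H g := by
  let P : B → Prop := fun b => ∃ a, e a = b
  let e' : A ≃ {b // P b} := Equiv.ofBijective (fun a => ⟨e a, a, rfl⟩)
    ⟨fun a a' h => he (congrArg Subtype.val h),
      fun ⟨b, a, ha⟩ => ⟨a, Subtype.ext ha⟩⟩
  calc ∑ f : B → Ω, (∏ b, μ b (f b)) * H (f ∘ e)
      = ∑ x : ({b // P b} → Ω) × ({b // ¬ P b} → Ω),
          ((∏ b, μ b.1 (x.1 b)) * ∏ b, μ b.1 (x.2 b)) * H (x.1 ∘ e') := by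
        refine Fintype.sum_equiv (Equiv.piEquivPiSubtypeProd P fun _ => Ω) _ _ fun f => ?_
        rw [← Fintype.prod_subtype_mul_prod_subtype P fun b => μ b (f b)]
        rfl
    _ = ∑ x : {b // P b} → Ω, (∏ b, μ b.1 (x b)) * H (x ∘ e') := by
        rw [Fintype.sum_prod_type]
        refine Finset.sum_congr rfl fun x _ => ?_
        calc _ = (∏ b, μ b.1 (x b)) * H (x ∘ e') *
              ∑ y : {b // ¬ P b} → Ω, ∏ b, μ b.1 (y b) := by
              rw [Finset.mul_sum]
              exact Finset.sum_congr rfl fun y _ => by ring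
          _ = _ := by rw [← Fintype.prod_sum]; simp [hμ]
    _ = _ := by
        refine Fintype.sum_equiv (Equiv.arrowCongr e'.symm (Equiv.refl Ω)) _ _ fun x => ?_
        rw [← Equiv.prod_comp e' fun b => μ b.1 (x b)]
        rfl

/-! ## Classes -/

/-- the class of `i` at level `l` -/
noncomputable def cls (d : ι → ι → ℕ) (l : ℕ) (i : ι) : Finset ι :=
  univ.filter fun j => l ≤ d i j

/-- all classes at level `l` -/
noncomputable def classes (d : ι → ι → ℕ) (l : ℕ) : Finset (Finset ι) := univ.image (cls d l)

/-- classes at level `l`, as a type -/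
def Cls (d : ι → ι → ℕ) (l : ℕ) : Type _ := {C : Finset ι // C ∈ classes d l}

noncomputable instance (d : ι → ι → ℕ) (l : ℕ) : Fintype (Cls d l) :=
  Finset.Subtype.fintype (classes d l)

noncomputable instance (d : ι → ι → ℕ) (l : ℕ) : DecidableEq (Cls d l) := Classical.decEq _

/-- the class of `i`, in the type of classes -/
noncomputable def cl (d : ι → ι → ℕ) (l : ℕ) (i : ι) : Cls d l :=
  ⟨cls d l i, mem_image_of_mem _ (mem_univ i)⟩

/-- a representative of a class -/
noncomputable def rep {d : ι → ι → ℕ} {l : ℕ} (q : Cls d l) : ι := (mem_image.1 q.2).choose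

theorem cl_rep {d : ι → ι → ℕ} {l : ℕ} (q : Cls d l) : cl d l (rep q) = q :=
  Subtype.ext (mem_image.1 q.2).choose_spec.2

/-- overlaps of a hierarchy of depth `R` -/
structure Ult (R : ℕ) (d : ι → ι → ℕ) : Prop where
  refl : ∀ i, R ≤ d i i
  symm : ∀ i j, d i j = d j i
  ultra : ∀ i j k, min (d i j) (d j k) ≤ d i k

omit [Fintype ι] in
theorem Ult.trans {d : ι → ι → ℕ} (hu : Ult R d) {l : ℕ} {i j k : ι} (h1 : l ≤ d i j)
    (h2 : l ≤ d j k) : l ≤ d i k := (le_min h1 h2).trans (hu.ultra i j k)

theorem Ult.cl_eq {d : ι → ι → ℕ} (hu : Ult R d) {l : ℕ} (hl : l ≤ R) {i j : ι} :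
    cl d l i = cl d l j ↔ l ≤ d i j := by
  constructor
  · intro h
    have h' : j ∈ cls d l i := by
      rw [show cls d l i = cls d l j from congrArg Subtype.val h]
      simpa [cls] using hl.trans (hu.refl j)
    simpa [cls] using h'
  · intro h
    refine Subtype.ext ?_
    ext k
    simp only [cl, cls, mem_filter, mem_univ, true_and]
    exact ⟨fun hk => hu.trans (by rwa [hu.symm]) hk, fun hk => hu.trans h hk⟩

theorem Ult.rep_cl {d : ι → ι → ℕ} (hu : Ult R d) {l : ℕ} (hl : l ≤ R) (i : ι) :
    l ≤ d (rep (cl d l i)) i := (hu.cl_eq hl).1 (cl_rep _)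

theorem Ult.mem_iff {d : ι → ι → ℕ} (hu : Ult R d) {l : ℕ} (hl : l ≤ R) (q : Cls d l) (i : ι) :
    i ∈ q.1 ↔ cl d l i = q := by
  conv_lhs => rw [← cl_rep q]
  conv_rhs => rw [← cl_rep q, hu.cl_eq hl, hu.symm]
  simp [cl, cls]

omit [Fintype ι] in
theorem ult_sp (R : ℕ) (T : List (ℕ × ℕ)) (s : ι → ℕ) :
    Ult R fun i j => sp R T (s i) (s j) :=
  ⟨fun i => (sp_self R T _).ge, fun i j => sp_comm R T _ _, fun i j k => sp_ultra R T _ _ _⟩

/-! ## The level-by-level functional -/

/-- the selected replicas sampled level by level, `k` levels remaining below `pre` -/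
noncomputable def Lev (R : ℕ) (m : ℕ → ℝ) (w : List Ω → ℝ) (d : ι → ι → ℕ) :
    ℕ → (ι → List Ω) → ((ι → List Ω) → ℝ) → ℝ
  | 0, pre, G => G pre
  | k + 1, pre, G =>
      ∑ f : Cls d (R - k) → Ω, (∏ q, trans m w k (pre (rep q)) (f q)) *
        Lev R m w d k (fun i => pre i ++ [f (cl d (R - k) i)]) G

/-- the prefixes of replicas sharing at least `l` marks are equal -/
def Compat (d : ι → ι → ℕ) (l : ℕ) (pre : ι → List Ω) : Prop :=
  ∀ i j, l ≤ d i j → pre i = pre j

omit [Fintype Ω] in
theorem Compat.step {d : ι → ι → ℕ} (hu : Ult R d) {k : ℕ} {pre : ι → List Ω}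
    (h : Compat d (R - (k + 1)) pre) (f : Cls d (R - k) → Ω) :
    Compat d (R - k) fun i => pre i ++ [f (cl d (R - k) i)] := fun i j hij => by
  dsimp only
  rw [h i j (by omega), (hu.cl_eq (Nat.sub_le _ _)).2 hij]

theorem Lev_congr (d : ι → ι → ℕ) : ∀ (k : ℕ) (pre : ι → List Ω) (G H : (ι → List Ω) → ℝ),
    (∀ P, (∀ i, pre i <+: P i ∧ (P i).length = (pre i).length + k) → G P = H P) →
      Lev R m w d k pre G = Lev R m w d k pre H := by
  intro k
  induction k with
  | zero => intro pre G H h; exact h pre fun i => ⟨List.prefix_refl _, rfl⟩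
  | succ k ih =>
      intro pre G H h
      refine Finset.sum_congr rfl fun f _ => congrArg _ (ih _ _ _ fun P hP => h P fun i => ?_)
      obtain ⟨h1, h2⟩ := hP i
      exact ⟨(List.prefix_append _ _).trans h1, by rw [h2, List.length_append]; simp; ring⟩

theorem Lev_sum {α : Type*} [Fintype α] (d : ι → ι → ℕ) (c : α → ℝ) :
    ∀ (k : ℕ) (pre : ι → List Ω) (G : α → (ι → List Ω) → ℝ),
      Lev R m w d k pre (fun P => ∑ a, c a * G a P) = ∑ a, c a * Lev R m w d k pre (G a) := by
  intro k
  induction k with
  | zero => intro pre G; rfl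
  | succ k ih =>
      intro pre G
      simp only [Lev, ih, Finset.mul_sum]
      rw [Finset.sum_comm]
      exact Finset.sum_congr rfl fun a _ => Finset.sum_congr rfl fun f _ => by ring

/-- marginal: forgetting slots, or repeating them -/
theorem Lev_map (hs : ∀ k pre, ∑ o, trans m w k pre o = 1) (s : ι → κ) {d : ι → ι → ℕ}
    {d' : κ → κ → ℕ} (hd : ∀ i j, d i j = d' (s i) (s j)) (hu : Ult R d') :
    ∀ k, k ≤ R → ∀ (pre : κ → List Ω), Compat d' (R - k) pre → ∀ G : (ι → List Ω) → ℝ,
      Lev R m w d' k pre (fun P => G (P ∘ s)) = Lev R m w d k (pre ∘ s) G := by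
  have hu0 : Ult R d := ⟨fun i => hd i i ▸ hu.refl _, fun i j => by rw [hd, hd, hu.symm],
    fun i j k => by rw [hd, hd, hd]; exact hu.ultra _ _ _⟩
  intro k
  induction k with
  | zero => intro _ pre _ G; rfl
  | succ k ih =>
      intro hk pre hc G
      have hl : R - k ≤ R := Nat.sub_le _ _
      set e : Cls d (R - k) → Cls d' (R - k) := fun q => cl d' (R - k) (s (rep q)) with he
      have hinj : Function.Injective e := fun q q' h => by
        rw [← cl_rep q, ← cl_rep q', hu0.cl_eq hl, hd]
        exact (hu.cl_eq hl).1 h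
      have hmk : ∀ i, e (cl d (R - k) i) = cl d' (R - k) (s i) := fun i =>
        (hu.cl_eq hl).2 (hd _ _ ▸ hu0.rep_cl hl i)
      have hpre : ∀ q, pre (rep (e q)) = pre (s (rep q)) := fun q =>
        hc _ _ (le_trans (by omega) (hu.rep_cl hl _))
      calc Lev R m w d' (k + 1) pre (fun P => G (P ∘ s))
          = ∑ f : Cls d' (R - k) → Ω, (∏ q, trans m w k (pre (rep q)) (f q)) *
              Lev R m w d k (fun i => pre (s i) ++ [(f ∘ e) (cl d (R - k) i)]) G := by
            refine Finset.sum_congr rfl fun f _ => congrArg _ ?_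
            rw [ih (by omega) _ (hc.step hu f) G]
            congr 1
            funext i
            simp only [Function.comp_apply, hmk]
        _ = _ := by
            rw [sum_prod_marginal e hinj (fun q => trans m w k (pre (rep q)))
              (fun q => hs k _) fun g =>
                Lev R m w d k (fun i => pre (s i) ++ [g (cl d (R - k) i)]) G]
            simp only [hpre]
            rfl

/-! ## Adding one replica -/

variable {n v : ℕ} {d : Fin n → Fin n → ℕ} {d' : Fin (n + 1) → Fin (n + 1) → ℕ}

/-- below the branching level the new replica is independent -/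
theorem fork_high (hs : ∀ k pre, ∑ o, trans m w k pre o = 1) (hu' : Ult R d')
    (hd : ∀ i j, d i j = d' i.castSucc j.castSucc)
    (hlast : ∀ j : Fin n, d' (Fin.last n) j.castSucc ≤ v) :
    ∀ k, k ≤ R - v → ∀ (pre : Fin n → List Ω) (preq : List Ω), Compat d (R - k) pre →
      ∀ G : (Fin (n + 1) → List Ω) → ℝ,
      Lev R m w d k pre (fun P => ext m w k preq fun q => G (Fin.snoc P q))
        = Lev R m w d' k (Fin.snoc pre preq) G := by
  have hu : Ult R d := ⟨fun i => hd i i ▸ hu'.refl _, fun i j => by rw [hd, hd, hu'.symm],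
    fun i j k => by rw [hd, hd, hd]; exact hu'.ultra _ _ _⟩
  intro k
  induction k with
  | zero => intro _ pre preq _ G; rfl
  | succ k ih =>
      intro hk pre preq hc G
      have hl : R - k ≤ R := Nat.sub_le _ _
      have hne : ∀ j : Fin n, cl d' (R - k) (Fin.last n) ≠ cl d' (R - k) j.castSucc := fun j h => by
        have := (hu'.cl_eq hl).1 h
        have := hlast j
        omega
      set e : Option (Cls d (R - k)) → Cls d' (R - k) := fun x =>
        x.elim (cl d' (R - k) (Fin.last n)) fun q => cl d' (R - k) (rep q).castSucc with he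
      have hinj : Function.Injective e := by
        intro x y h
        rcases x with _ | q <;> rcases y with _ | q' <;> simp only [he, Option.elim] at h
        · rfl
        · exact absurd h (hne _)
        · exact absurd h.symm (hne _)
        · rw [← cl_rep q, ← cl_rep q', Option.some_inj, hu.cl_eq hl, hd]
          exact (hu'.cl_eq hl).1 h
      have hmk : ∀ i : Fin n, e (some (cl d (R - k) i)) = cl d' (R - k) i.castSucc := fun i =>
        (hu'.cl_eq hl).2 (hd _ _ ▸ hu.rep_cl hl i)
      have hrn : rep (e none) = Fin.last n := by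
        have h := cl_rep (cl d' (R - k) (Fin.last n))
        show rep (cl d' (R - k) (Fin.last n)) = _
        induction hr : rep (cl d' (R - k) (Fin.last n)) using Fin.lastCases with
        | last => rfl
        | cast j => rw [hr] at h; exact absurd h.symm (hne j)
      have hrs : ∀ q : Cls d (R - k), Fin.snoc (α := fun _ => List Ω) pre preq (rep (e (some q)))
          = pre (rep q) := fun q => by
        have h := cl_rep (cl d' (R - k) (rep q).castSucc)
        show Fin.snoc (α := fun _ => List Ω) pre preq (rep (cl d' (R - k) (rep q).castSucc)) = _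
        induction hr : rep (cl d' (R - k) (rep q).castSucc) using Fin.lastCases with
        | last => rw [hr] at h; exact absurd h (hne _)
        | cast j =>
            rw [hr] at h
            rw [Fin.snoc_castSucc]
            have := (hu'.cl_eq hl).1 h
            rw [← hd] at this
            exact hc _ _ (by omega)
      have e1 : Lev R m w d (k + 1) pre (fun P => ext m w (k + 1) preq fun q => G (Fin.snoc P q))
          = ∑ f : Cls d (R - k) → Ω, ∑ o, (trans m w k preq o * ∏ q, trans m w k (pre (rep q)) (f q)) *
              Lev R m w d' k (Fin.snoc (fun i => pre i ++ [f (cl d (R - k) i)]) (preq ++ [o])) G := by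
        simp only [Lev, ext]
        refine Finset.sum_congr rfl fun f _ => ?_
        rw [Lev_sum, Finset.mul_sum]
        refine Finset.sum_congr rfl fun o _ => ?_
        rw [ih (by omega) _ _ (hc.step hu f)]
        ring
      have e2 : Lev R m w d' (k + 1) (Fin.snoc pre preq) G
          = ∑ g : Option (Cls d (R - k)) → Ω,
              (∏ x, trans m w k (Fin.snoc (α := fun _ => List Ω) pre preq (rep (e x))) (g x)) *
                Lev R m w d' k
                  (Fin.snoc (fun i => pre i ++ [g (some (cl d (R - k) i))]) (preq ++ [g none])) G := by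
        rw [← sum_prod_marginal e hinj
          (fun q => trans m w k (Fin.snoc (α := fun _ => List Ω) pre preq (rep q)))
          (fun q => hs k _) fun g : Option (Cls d (R - k)) → Ω => Lev R m w d' k
            (Fin.snoc (fun i => pre i ++ [g (some (cl d (R - k) i))]) (preq ++ [g none])) G]
        simp only [Lev]
        refine Finset.sum_congr rfl fun f _ => congrArg _ ?_
        congr 1
        funext i
        induction i using Fin.lastCases with
        | last => simp [he]
        | cast j => simp [hmk]
      rw [e1, e2, ← Fintype.sum_prod_type']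
      refine Fintype.sum_equiv ((Equiv.prodComm _ _).trans
        (Equiv.piOptionEquivProd (β := fun _ => Ω)).symm) _ _ fun x => ?_
      obtain ⟨f, o⟩ := x
      simp only [Fintype.prod_option, hrn, Fin.snoc_last, hrs]
      rfl

/-- above the branching level the new replica follows `p` -/
theorem fork_low (hs : ∀ k pre, ∑ o, trans m w k pre o = 1) (hu' : Ult R d')
    (hd : ∀ i j, d i j = d' i.castSucc j.castSucc)
    (hlast : ∀ j : Fin n, d' (Fin.last n) j.castSucc ≤ v) (hv : v ≤ R) (p : Fin n)
    (hp : v ≤ d' (Fin.last n) p.castSucc) :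
    ∀ k, R - v ≤ k → k ≤ R → ∀ pre : Fin n → List Ω, Compat d (R - k) pre →
      (∀ i, (pre i).length = R - k) → ∀ G : (Fin (n + 1) → List Ω) → ℝ,
      Lev R m w d k pre (fun P => ext m w (R - v) ((P p).take v) fun q => G (Fin.snoc P q))
        = Lev R m w d' k (Fin.snoc pre (pre p)) G := by
  have hu : Ult R d := ⟨fun i => hd i i ▸ hu'.refl _, fun i j => by rw [hd, hd, hu'.symm],
    fun i j k => by rw [hd, hd, hd]; exact hu'.ultra _ _ _⟩
  intro k hk0
  induction k, hk0 using Nat.le_induction with
  | base =>
      intro _ pre hc hlen G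
      rw [Lev_congr d _ _ _ (fun P => ext m w (R - v) (pre p) fun q => G (Fin.snoc P q))
        fun P hP => ?_]
      · exact fork_high hs hu' hd hlast _ le_rfl _ _ hc G
      · have hlp : (pre p).length = v := by rw [hlen]; omega
        rw [← hlp, ← List.prefix_iff_eq_take.1 (hP p).1]
  | succ k hk0 ih =>
      intro hk pre hc hlen G
      have hl : R - k ≤ R := Nat.sub_le _ _
      have hlp : cl d' (R - k) (Fin.last n) = cl d' (R - k) p.castSucc :=
        (hu'.cl_eq hl).2 (le_trans (by omega) hp)
      set e : Cls d (R - k) → Cls d' (R - k) := fun q => cl d' (R - k) (rep q).castSucc with he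
      have hinj : Function.Injective e := fun q q' h => by
        rw [← cl_rep q, ← cl_rep q', hu.cl_eq hl, hd]
        exact (hu'.cl_eq hl).1 h
      have hmk : ∀ i : Fin n, e (cl d (R - k) i) = cl d' (R - k) i.castSucc := fun i =>
        (hu'.cl_eq hl).2 (hd _ _ ▸ hu.rep_cl hl i)
      have hrs : ∀ q : Cls d (R - k), Fin.snoc (α := fun _ => List Ω) pre (pre p) (rep (e q))
          = pre (rep q) := fun q => by
        have h := cl_rep (cl d' (R - k) (rep q).castSucc)
        show Fin.snoc (α := fun _ => List Ω) pre (pre p) (rep (cl d' (R - k) (rep q).castSucc)) = _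
        induction hr : rep (cl d' (R - k) (rep q).castSucc) using Fin.lastCases with
        | last =>
            rw [hr, hlp] at h
            rw [Fin.snoc_last]
            have := (hu'.cl_eq hl).1 h
            rw [← hd] at this
            exact hc _ _ (by omega)
        | cast j =>
            rw [hr] at h
            rw [Fin.snoc_castSucc]
            have := (hu'.cl_eq hl).1 h
            rw [← hd] at this
            exact hc _ _ (by omega)
      have e2 : Lev R m w d' (k + 1) (Fin.snoc pre (pre p)) G
          = ∑ g : Cls d (R - k) → Ω,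
              (∏ q, trans m w k (Fin.snoc (α := fun _ => List Ω) pre (pre p) (rep (e q))) (g q)) *
                Lev R m w d' k (Fin.snoc (fun i => pre i ++ [g (cl d (R - k) i)])
                  (pre p ++ [g (cl d (R - k) p)])) G := by
        rw [← sum_prod_marginal e hinj
          (fun q => trans m w k (Fin.snoc (α := fun _ => List Ω) pre (pre p) (rep q)))
          (fun q => hs k _) fun g : Cls d (R - k) → Ω => Lev R m w d' k
            (Fin.snoc (fun i => pre i ++ [g (cl d (R - k) i)]) (pre p ++ [g (cl d (R - k) p)])) G]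
        simp only [Lev]
        refine Finset.sum_congr rfl fun f _ => congrArg _ ?_
        congr 1
        funext i
        induction i using Fin.lastCases with
        | last => simp [hmk, hlp]
        | cast j => simp [hmk]
      rw [e2]
      simp only [Lev]
      refine Finset.sum_congr rfl fun f _ => ?_
      rw [ih (by omega) _ (hc.step hu f) (fun i => by
        rw [List.length_append, hlen]; simp; omega) G]
      simp only [hrs]

/-! ## Replica expectations are level by level -/

theorem ET_eq_Lev (hs : ∀ k pre, ∑ o, trans m w k pre o = 1) {T : List (ℕ × ℕ)}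
    (hT : Valid R T) (F : List (List Ω) → ℝ) :
    ET R m w T F = Lev R m w (fun i j : Fin T.length => sp R T i j) R (fun _ => [])
      (fun P => F (List.ofFn P)) := by
  induction T generalizing F with
  | nil =>
      show F [] = _
      have h0 : ∀ k (pre : Fin 0 → List Ω), Lev R m w
          (fun i j : Fin 0 => sp R [] i j) k pre (fun P => F (List.ofFn P)) = F [] := by
        intro k
        induction k with
        | zero => intro pre; simp [Lev]
        | succ k ih =>
            intro pre
            have : IsEmpty (Cls (fun i j : Fin 0 => sp R [] i j) (R - k)) :=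
              ⟨fun q => (rep q).elim0⟩
            rw [Lev, Fintype.sum_unique, Fintype.prod_empty, one_mul, ih]
      exact (h0 R _).symm
  | cons x T ih =>
      obtain ⟨p, v⟩ := x
      set d : Fin T.length → Fin T.length → ℕ := fun i j => sp R T i j with hd0
      set d' : Fin (T.length + 1) → Fin (T.length + 1) → ℕ :=
        fun i j => sp R ((p, v) :: T) i j with hd'
      have hu' : Ult R d' := ult_sp R _ fun i : Fin (T.length + 1) => (i : ℕ)
      have hd : ∀ i j, d i j = d' i.castSucc j.castSucc := fun i j =>
        (sp_old R _ (ne_of_lt i.2) (ne_of_lt j.2)).symm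
      have hnew : ∀ j : Fin T.length,
          d' (Fin.last T.length) j.castSucc = min v (sp R T p j) := fun j =>
        sp_new R (p, v) (ne_of_lt j.2)
      have hlast : ∀ j : Fin T.length, d' (Fin.last T.length) j.castSucc ≤ v := fun j =>
        (hnew j).trans_le (min_le_left _ _)
      have hsnoc : ∀ (P : Fin T.length → List Ω) (q : List Ω),
          List.ofFn (Fin.snoc P q : Fin (T.length + 1) → List Ω) = List.ofFn P ++ [q] := by
        intro P q
        rw [List.ofFn_succ']
        simp
      rw [ET, ih (valid_tail hT)]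
      rcases eq_or_ne T [] with rfl | hne
      · obtain ⟨rfl, rfl⟩ : p = 0 ∧ v = 0 := by simpa [Valid] using hT
        have h := fork_high hs hu' hd hlast R (by omega) (fun _ => []) []
          (fun i j _ => rfl) (fun P => F (List.ofFn P))
        simp only [List.take_zero, Nat.sub_zero, ← hsnoc]
        refine h.trans ?_
        congr 1
      · obtain ⟨hp, hv, -⟩ := (valid_cons hne).1 hT
        have hvp : v ≤ d' (Fin.last T.length) (Fin.castSucc ⟨p, hp⟩) := by
          rw [hnew, sp_self]; omega
        have h := fork_low hs hu' hd hlast hv ⟨p, hp⟩ hvp R (Nat.sub_le _ _) le_rfl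
          (fun _ => []) (fun i j _ => rfl) (fun _ => by simp) (fun P => F (List.ofFn P))
        simp only [← hsnoc]
        refine Eq.trans ?_ (h.trans ?_)
        · refine Lev_congr d _ _ _ _ fun P _ => ?_
          rw [List.getD_eq_getElem _ _ (by simpa using hp), List.getElem_ofFn]
        · congr 1
          funext i
          induction i using Fin.lastCases with
          | last => simp
          | cast j => simp

/-- selected replicas are sampled level by level from their overlaps -/
theorem ET_sel (hs : ∀ k pre, ∑ o, trans m w k pre o = 1) {T : List (ℕ × ℕ)} (hT : Valid R T)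
    (s : ι → ℕ) (hsl : ∀ i, s i < T.length) (G : (ι → List Ω) → ℝ) :
    ET R m w T (fun ps => G fun i => ps.getD (s i) [])
      = Lev R m w (fun i j => sp R T (s i) (s j)) R (fun _ => []) G := by
  let s' : ι → Fin T.length := fun i => ⟨s i, hsl i⟩
  rw [ET_eq_Lev hs hT]
  refine Eq.trans (Lev_congr _ _ _ _ (fun P => G (P ∘ s')) fun P _ => congrArg G ?_) ?_
  · funext i
    rw [List.getD_eq_getElem _ _ (by simpa using hsl i), List.getElem_ofFn]
    rfl
  · exact Lev_map hs s' (fun i j => rfl) (ult_sp R T fun i : Fin T.length => (i : ℕ)) R le_rfl _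
      (fun i j _ => rfl) G

/-- **Restrict**: the law of selected replicas depends only on their overlaps -/
theorem ET_restrict (hs : ∀ k pre, ∑ o, trans m w k pre o = 1) {T T' : List (ℕ × ℕ)}
    (hT : Valid R T) (hT' : Valid R T') (s s' : ι → ℕ) (hsl : ∀ i, s i < T.length)
    (hsl' : ∀ i, s' i < T'.length) (h : ∀ i j, sp R T (s i) (s j) = sp R T' (s' i) (s' j))
    (G : (ι → List Ω) → ℝ) :
    ET R m w T (fun ps => G fun i => ps.getD (s i) [])
      = ET R m w T' (fun ps => G fun i => ps.getD (s' i) []) := by
  rw [ET_sel hs hT s hsl, ET_sel hs hT' s' hsl']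
  simp only [h]

/-! ## Characters under the flat weight -/

theorem Z_one [Nonempty Ω] (m : ℕ → ℝ) : ∀ (k : ℕ) (pre : List Ω),
    Z m (fun _ => 1) k pre = 1 := by
  intro k
  induction k with
  | zero => intro pre; rfl
  | succ k ih => intro pre; simp [Z, ih, avg, Fintype.card_ne_zero]

theorem trans_one [Nonempty Ω] (m : ℕ → ℝ) (k : ℕ) (pre : List Ω) (o : Ω) :
    trans m (fun _ => 1) k pre o = 1 / Fintype.card Ω := by
  simp [trans, Z_one]

theorem sum_trans_one [Nonempty Ω] (m : ℕ → ℝ) (k : ℕ) (pre : List Ω) :
    ∑ o : Ω, trans m (fun _ => 1) k pre o = 1 := by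
  simp [trans_one, Fintype.card_ne_zero]

end Vale.Agent.P168.MP
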