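import Vale.Agent.P168.MP.Deriv
import Vale.Agent.P168.MP.Pert

/-! Elementary bounds on attachments and a Taylor bound. -/

namespace Vale.Agent.P168.MP

open Finset Real

variable {R : ℕ} {m : ℕ → ℝ}

lemma valid_single : Valid R [(0, 0)] := ⟨rfl, rfl⟩

variable {Ω : Type*} [Fintype Ω] {w : List Ω → ℝ}

omit [Fintype Ω] in
lemma m_range (h : Ok R m w) {l : ℕ} (hl : 1 ≤ l) (hl' : l ≤ R + 1) : 0 ≤ m l ∧ m l ≤ 1 := by
  rcases Nat.lt_or_eq_of_le hl' with h2 | rfl
  · refine ⟨(h.pos l hl (by omega)).le, ?_⟩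
    have key : ∀ j, l + j ≤ R → m l ≤ m (l + j) := by
      intro j
      induction j with
      | zero => simp
      | succ j ih => intro hj; exact (ih (by omega)).trans (h.mono _ (by omega) (by omega))
    have := key (R - l) (by omega)
    rwa [show l + (R - l) = R by omega, h.top] at this
  · simp [h.last]

omit [Fintype Ω] in
lemma abs_att (h : Ok R m w) : ∀ {T : List (ℕ × ℕ)}, Valid R T →
    ((att R m T).map fun c => |c.2|).sum ≤ (R + 1 : ℝ) * T.length
  | [], _ => by simp [att]
  | (p, v) :: T, hT => by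
    have hTv : v ≤ R ∧ (T = [] ∨ Valid R T) := by
      cases T with
      | nil => exact ⟨by simp [hT.2], Or.inl rfl⟩
      | cons a T => exact ⟨hT.2.1, Or.inr hT.2.2⟩
    have h1 : ((att R m T).map fun c => |c.2|).sum ≤ (R + 1 : ℝ) * T.length := by
      rcases hTv.2 with rfl | hT'
      · simp [att]
      · exact abs_att h hT'
    have h2 : ((List.range' (v + 1) (R - v)).map fun l => |m l - m (l + 1)|).sum + |-m (v + 1)|
        ≤ (R + 1 : ℝ) := by
      have e : ((List.range' (v + 1) (R - v)).map fun l => |m l - m (l + 1)|).sum ≤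
          ((List.range' (v + 1) (R - v)).map fun _ => (1 : ℝ)).sum := by
        refine List.sum_le_sum fun l hl => ?_
        rw [List.mem_range'_1] at hl
        have a := m_range h (l := l) (by omega) (by omega)
        have b := m_range h (l := l + 1) (by omega) (by omega)
        rw [abs_le]; constructor <;> linarith
      have c := m_range h (l := v + 1) (by omega) (by omega)
      rw [abs_neg, abs_of_nonneg c.1]
      simp only [List.map_const', List.length_range', List.sum_replicate, nsmul_eq_mul, mul_one] at e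
      have : ((R - v : ℕ) : ℝ) ≤ R := by exact_mod_cast Nat.sub_le R v
      linarith [c.2]
    simp only [att, List.map_append, List.map_map, List.sum_append, List.map_cons, List.sum_cons,
      Function.comp_def, List.length_cons, Nat.cast_add, Nat.cast_one]
    linarith

/-- bound for the sequences of attachments -/
noncomputable def seqBound (R j n : ℕ) : ℝ := ((R + 1 : ℝ) * (n + j)) ^ j

lemma seqBound_nonneg (R j n : ℕ) : 0 ≤ seqBound R j n := by unfold seqBound; positivity

omit [Fintype Ω] in
lemma abs_attSeq (h : Ok R m w) : ∀ (j : ℕ) {T : List (ℕ × ℕ)}, Valid R T →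
    ((attSeq R m j T).map fun d => |d.2|).sum ≤ seqBound R j T.length
  | 0, T, _ => by simp [attSeq, seqBound]
  | j + 1, T, hT => by
    simp only [attSeq, List.map_flatMap, List.map_map, Function.comp_def, abs_mul]
    rw [List.flatMap_def, List.sum_flatten, List.map_map]
    simp only [Function.comp_def, List.sum_map_mul_left]
    calc ((att R m T).map fun c => |c.2| * ((attSeq R m j (c.1 :: T)).map fun d => |d.2|).sum).sum
        ≤ ((att R m T).map fun c => |c.2| * seqBound R j (T.length + 1)).sum := by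
          refine List.sum_le_sum fun c hc => mul_le_mul_of_nonneg_left ?_ (abs_nonneg _)
          simpa using abs_attSeq h j (att_valid hT hc)
      _ ≤ (R + 1 : ℝ) * T.length * seqBound R j (T.length + 1) := by
          rw [List.sum_map_mul_right]
          exact mul_le_mul_of_nonneg_right (abs_att h hT) (seqBound_nonneg _ _ _)
      _ ≤ _ := by
          unfold seqBound
          have e : ((R + 1 : ℝ) * ((T.length + 1 : ℕ) + j)) = (R + 1 : ℝ) * (T.length + (j + 1 : ℕ)) := by
            push_cast; ring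
          rw [e, pow_succ, mul_comm]
          refine mul_le_mul_of_nonneg_left (mul_le_mul_of_nonneg_left ?_ (by positivity)) (by positivity)
          simp only [le_add_iff_nonneg_right]; positivity

lemma attSeq_mem : ∀ (j : ℕ) {T : List (ℕ × ℕ)}, Valid R T → ∀ d ∈ attSeq R m j T,
    Valid R d.1 ∧ d.1.length = T.length + j
  | 0, T, hT, d, hd => by simp [attSeq] at hd; simp [hd, hT]
  | j + 1, T, hT, d, hd => by
    simp only [attSeq, List.mem_flatMap, List.mem_map] at hd
    obtain ⟨c, hc, d', hd', rfl⟩ := hd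
    obtain ⟨a, b⟩ := attSeq_mem j (att_valid hT hc) d' hd'
    exact ⟨a, by simp at b ⊢; omega⟩

lemma abs_sum_map_le {α : Type*} (l : List α) (f : α → ℝ) :
    |(l.map f).sum| ≤ (l.map fun a => |f a|).sum := by
  induction l with
  | nil => simp
  | cons a l ih =>
    simp only [List.map_cons, List.sum_cons]
    exact (abs_add_le _ _).trans (by linarith)

/-- mean value bound -/
lemma abs_sub_le_of_deriv {f f' : ℝ → ℝ} {B s : ℝ} (hs : 0 ≤ s)
    (hf : ∀ x ∈ Set.Icc (0:ℝ) s, HasDerivAt f (f' x) x) (hb : ∀ x ∈ Set.Icc (0:ℝ) s, |f' x| ≤ B) :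
    |f s - f 0| ≤ B * s := by
  have := (convex_Icc (0:ℝ) s).norm_image_sub_le_of_norm_hasDerivWithin_le
    (fun x hx => (hf x hx).hasDerivWithinAt) hb (Set.left_mem_Icc.2 hs) (Set.right_mem_Icc.2 hs)
  simpa [Real.norm_eq_abs, abs_of_nonneg hs] using this

/-- Taylor bound for a chain of derivatives vanishing below order `k` -/
lemma taylor_bound : ∀ (k : ℕ) (F : ℕ → ℝ → ℝ) {B t : ℝ}, 0 ≤ t →
    (∀ j ≤ k, ∀ x ∈ Set.Icc (0:ℝ) t, HasDerivAt (F j) (F (j + 1) x) x) →
    (∀ x ∈ Set.Icc (0:ℝ) t, |F (k + 1) x| ≤ B) → (∀ j < k, F j 0 = 0) →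
    |F 0 t - t ^ k / k.factorial * F k 0| ≤ B * t ^ (k + 1)
  | 0, F, B, t, ht, hd, hb, _ => by
    simpa using abs_sub_le_of_deriv ht (fun x hx => hd 0 le_rfl x hx) hb
  | k + 1, F, B, t, ht, hd, hb, hz => by
    have hB : 0 ≤ B := (abs_nonneg _).trans (hb 0 (Set.left_mem_Icc.2 ht))
    have hsub : ∀ x ∈ Set.Icc (0:ℝ) t, |F 1 x - x ^ k / k.factorial * F (k + 1) 0| ≤
        B * t ^ (k + 1) := by
      intro x hx
      have hI : ∀ y ∈ Set.Icc (0:ℝ) x, y ∈ Set.Icc (0:ℝ) t := fun y hy => ⟨hy.1, hy.2.trans hx.2⟩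
      refine (taylor_bound k (fun j => F (j + 1)) hx.1 (fun j hj y hy => hd (j + 1) (by omega) y (hI y hy))
        (fun y hy => hb y (hI y hy)) (fun j hj => hz (j + 1) (by omega))).trans ?_
      exact mul_le_mul_of_nonneg_left (pow_le_pow_left₀ hx.1 hx.2 _) hB
    have key := abs_sub_le_of_deriv (f := fun x => F 0 x - x ^ (k + 1) / (k + 1).factorial * F (k + 1) 0)
      (f' := fun x => F 1 x - x ^ k / k.factorial * F (k + 1) 0) ht (fun x hx => by
        refine (hd 0 (by omega) x hx).sub ?_
        have := ((hasDerivAt_pow (k + 1) x).div_const ((k + 1).factorial : ℝ)).mul_const (F (k + 1) 0)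
        refine this.congr_deriv ?_
        rw [Nat.factorial_succ]; simp only [Nat.add_sub_cancel]; push_cast
        have : ((k.factorial : ℕ) : ℝ) ≠ 0 := by exact_mod_cast k.factorial_ne_zero
        field_simp) hsub
    simp only [hz 0 (by omega), zero_pow (Nat.succ_ne_zero k), zero_div, zero_mul, sub_zero] at key
    calc _ ≤ B * t ^ (k + 1) * t := key
      _ = _ := by ring

end Vale.Agent.P168.MP
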