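import Vale.Agent.P168.MP.Deriv
import Vale.Agent.P168.MP.Restrict

/-! Products of mark types, relabelling of marks, change of the weight by a factor. -/

namespace Vale.Agent.P168.MP

open Finset

variable {Ω : Type*} [Fintype Ω] {R : ℕ} {m : ℕ → ℝ} {w w' : List Ω → ℝ}

/-! ### dependence on the weight and marginals -/

lemma Z_congr {k : ℕ} {pre : List Ω}
    (h : ∀ suf : List Ω, suf.length = k → w (pre ++ suf) = w' (pre ++ suf)) :
    Z m w k pre = Z m w' k pre := by
  induction k generalizing pre with
  | zero => simpa [Z] using h [] rfl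
  | succ k ih =>
    rw [Z, Z]
    congr 2
    funext o
    rw [ih fun suf hs => by simpa using h (o :: suf) (by simp [hs])]

lemma trans_congr {k : ℕ} {pre : List Ω}
    (h : ∀ suf : List Ω, suf.length = k + 1 → w (pre ++ suf) = w' (pre ++ suf)) (o : Ω) :
    trans m w k pre o = trans m w' k pre o := by
  have e : ∀ o, Z m w k (pre ++ [o]) = Z m w' k (pre ++ [o]) := fun o =>
    Z_congr fun suf hs => by simpa using h (o :: suf) (by simp [hs])
  simp only [trans, e]

lemma ext_congr_weight {k : ℕ} {pre : List Ω} {F : List Ω → ℝ}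
    (h : ∀ suf : List Ω, suf.length = k → w (pre ++ suf) = w' (pre ++ suf)) :
    ext m w k pre F = ext m w' k pre F := by
  induction k generalizing pre with
  | zero => simp
  | succ k ih =>
    simp only [ext_succ, trans_congr h]
    refine sum_congr rfl fun o _ => ?_
    rw [ih fun suf hs => by simpa using h (o :: suf) (by simp [hs])]

lemma ET_congr_weight {T : List (ℕ × ℕ)} (hT : Valid R T) {F : List (List Ω) → ℝ}
    (h : ∀ q : List Ω, q.length = R → w q = w' q) : ET R m w T F = ET R m w' T F := by
  induction T generalizing F with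
  | nil => simp
  | cons a T ih =>
    obtain ⟨p, v⟩ := a
    obtain ⟨hT', hv, hp⟩ := valid_split hT
    simp only [ET_cons, ih hT']
    refine ET_congr hT' fun ps hs => ext_congr_weight fun suf hl => h _ ?_
    have hpre : ((ps.getD p []).take v).length = v := by
      rcases hp with ⟨-, -, rfl⟩ | hp
      · simp
      · rw [List.length_take, hs.2.1 p hp, min_eq_left hv]
    rw [List.length_append, hpre, hl]; omega

lemma logZ0_congr (h : ∀ q : List Ω, q.length = R → w q = w' q) :
    logZ0 R m w = logZ0 R m w' := by
  rw [logZ0, logZ0, Z_congr fun suf hs => h _ (by simpa using hs)]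

/-- a function of the first `pre.length + a` marks only -/
lemma ext_take [Nonempty Ω] (hw : ∀ p, 0 < w p) (a b : ℕ) (pre : List Ω) (Φ : List Ω → ℝ) :
    ext m w (a + b) pre (fun q => Φ (q.take (pre.length + a))) =
      ext m (fun q => Z m w b q) a pre Φ := by
  rw [ext_tower]
  refine ext_congr fun suf hs => ?_
  refine Eq.trans (ext_congr fun suf' _ => ?_) (ext_const hw b _ _)
  rw [List.take_left' (by simp [hs])]

/-! ### relabelling of marks -/

section
variable {Λ : Type*} [Fintype Λ] (e : Ω ≃ Λ) {u : List Λ → ℝ}

lemma Z_equiv (k : ℕ) (pre : List Ω) :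
    Z m (fun p => u (p.map e)) k pre = Z m u k (pre.map e) := by
  induction k generalizing pre with
  | zero => simp [Z]
  | succ k ih =>
    simp only [Z, ih, List.map_append, List.map_cons, List.map_nil, List.length_map, avg,
      Fintype.card_congr e]
    rw [Equiv.sum_comp e fun o => Z m u k (pre.map e ++ [o]) ^ m (pre.length + 1)]

lemma trans_equiv (k : ℕ) (pre : List Ω) (o : Ω) :
    trans m (fun p => u (p.map e)) k pre o = trans m u k (pre.map e) (e o) := by
  simp only [trans, Z_equiv, List.map_append, List.map_cons, List.map_nil, List.length_map]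
  rw [Equiv.sum_comp e fun o => Z m u k (pre.map e ++ [o]) ^ m (pre.length + 1)]

lemma ext_equiv (k : ℕ) (pre : List Ω) (F : List Ω → ℝ) :
    ext m (fun p => u (p.map e)) k pre F =
      ext m u k (pre.map e) (fun q => F (q.map e.symm)) := by
  induction k generalizing pre with
  | zero => simp [List.map_map]
  | succ k ih =>
    simp only [ext_succ, ih, trans_equiv, List.map_append, List.map_cons, List.map_nil]
    exact Equiv.sum_comp e fun o => trans m u k (pre.map e) o *
      ext m u k (pre.map e ++ [o]) fun q => F (q.map e.symm)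

lemma ET_equiv (T : List (ℕ × ℕ)) (F : List (List Ω) → ℝ) :
    ET R m (fun p => u (p.map e)) T F =
      ET R m u T (fun ps => F (ps.map (List.map e.symm))) := by
  induction T generalizing F with
  | nil => simp
  | cons a T ih =>
    obtain ⟨p, v⟩ := a
    simp only [ET_cons, ih, ext_equiv, List.map_append, List.map_cons, List.map_nil]
    congr 1
    funext ps
    congr 1
    rw [show ([] : List Ω) = List.map e.symm [] from rfl, List.getD_map, List.map_take,
      List.map_map]
    simp

lemma logZ0_equiv : logZ0 R m (fun p => u (p.map e)) = logZ0 R m u := by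
  simp [logZ0, Z_equiv]

end

/-! ### products -/

section
variable {A B : Type*} [Fintype A] [Fintype B] [Nonempty B] {w₀ : List A → ℝ}

lemma Z_prod (k : ℕ) (pre : List (A × B)) :
    Z m (fun p => w₀ (p.map Prod.fst)) k pre = Z m w₀ k (pre.map Prod.fst) := by
  induction k generalizing pre with
  | zero => simp [Z]
  | succ k ih =>
    have hc : (Fintype.card B : ℝ) ≠ 0 := (card_pos_real (Ω := B)).ne'
    simp only [Z, ih, List.map_append, List.map_cons, List.map_nil, List.length_map, avg,
      Fintype.card_prod, Fintype.sum_prod_type, sum_const, card_univ, nsmul_eq_mul, ← mul_sum,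
      Nat.cast_mul]
    congr 1
    field_simp

lemma logZ0_prod : logZ0 R m (fun p : List (A × B) => w₀ (p.map Prod.fst)) = logZ0 R m w₀ := by
  simp [logZ0, Z_prod]

lemma trans_prod (k : ℕ) (pre : List (A × B)) (o : A × B) :
    trans m (fun p => w₀ (p.map Prod.fst)) k pre o =
      trans m w₀ k (pre.map Prod.fst) o.1 * (1 / Fintype.card B) := by
  simp only [trans, Z_prod, List.map_append, List.map_cons, List.map_nil, List.length_map,
    Fintype.sum_prod_type, sum_const, card_univ, nsmul_eq_mul, ← mul_sum]
  rw [div_mul_div_comm, mul_one, mul_comm (Fintype.card B : ℝ)]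

lemma ext_prod (k : ℕ) (pre : List (A × B)) (F : List (A × B) → ℝ) :
    ext m (fun p => w₀ (p.map Prod.fst)) k pre F =
      ext m w₀ k (pre.map Prod.fst) (fun a =>
        ext m (fun _ => 1) k (pre.map Prod.snd) fun b => F (a.zip b)) := by
  induction k generalizing pre with
  | zero =>
    simp only [ext_zero]
    exact congrArg F (List.zip_of_prod rfl rfl)
  | succ k ih =>
    simp only [ext_succ, ih, trans_prod, trans_one, List.map_append, List.map_cons, List.map_nil,
      ext_sum, ext_const_mul, mul_sum, Fintype.sum_prod_type, mul_assoc]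

omit [Fintype A] [Fintype B] [Nonempty B] in
lemma getD_zipWith_zip {as : List (List A)} {bs : List (List B)} (h : as.length = bs.length)
    (p : ℕ) : (List.zipWith List.zip as bs).getD p [] = (as.getD p []).zip (bs.getD p []) := by
  by_cases hp : p < as.length
  · rw [List.getD_eq_getElem _ _ (by simp [← h, hp]), List.getD_eq_getElem _ _ hp,
      List.getD_eq_getElem _ _ (h ▸ hp), List.getElem_zipWith]
  · push Not at hp
    rw [List.getD_eq_default _ _ (by simp [← h, hp]), List.getD_eq_default _ _ hp]
    simp

/-- independent product: the second coordinates are uniform and independent of the first -/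
theorem ET_prod {T : List (ℕ × ℕ)} (hT : Valid R T) (H : List (List (A × B)) → ℝ) :
    ET R m (fun p => w₀ (p.map Prod.fst)) T H =
      ET R m w₀ T (fun as => ET R m (fun _ => 1) T fun bs => H (List.zipWith List.zip as bs)) := by
  induction T generalizing H with
  | nil => simp
  | cons a T ih =>
    obtain ⟨p, v⟩ := a
    obtain ⟨hT', hv, hp⟩ := valid_split hT
    simp only [ET_cons, ih hT']
    refine ET_congr hT' fun as ha => ?_
    simp only [← ET_ext_comm (R := R) (m := m) (w := fun _ : List B => (1 : ℝ)) T (R - v)
      ((as.getD p []).take v)]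
    refine ET_congr hT' fun bs hb => ?_
    have hlen : as.length = bs.length := ha.1.trans hb.1.symm
    have hl : (as.getD p []).length = (bs.getD p []).length := by
      rcases hp with ⟨rfl, -, -⟩ | hp
      · simp [List.length_eq_zero_iff.1 ha.1, List.length_eq_zero_iff.1 hb.1]
      · rw [ha.2.1 p hp, hb.2.1 p hp]
    rw [ext_prod, getD_zipWith_zip hlen, List.map_take, List.map_take,
      List.map_fst_zip hl.le, List.map_snd_zip hl.ge]
    simp only [List.zipWith_append hlen, List.zipWith_cons_cons, List.zipWith_nil_left]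

end

/-! ### changing the weight by a factor -/

/-- nested power means of `Y` under the kernels tilted by `w` -/
noncomputable def nest (m : ℕ → ℝ) (w Y : List Ω → ℝ) : ℕ → List Ω → ℝ
  | 0, pre => Y pre
  | k + 1, pre => (∑ o, trans m w k pre o * nest m w Y k (pre ++ [o]) ^ m (pre.length + 1)) ^
      (1 / m (pre.length + 1))

variable [Nonempty Ω] {Y : List Ω → ℝ}

lemma nest_pos (hw : ∀ p, 0 < w p) (hY : ∀ p, 0 < Y p) : ∀ k pre, 0 < nest m w Y k pre
  | 0, pre => hY pre
  | k + 1, pre => Real.rpow_pos_of_pos (sum_pos (fun o _ => mul_pos (trans_pos hw k pre o)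
      (Real.rpow_pos_of_pos (nest_pos hw hY k _) _)) univ_nonempty) _

lemma Z_mul (hw : ∀ p, 0 < w p) (hY : ∀ p, 0 < Y p) (k : ℕ) (pre : List Ω) :
    Z m (fun p => w p * Y p) k pre = Z m w k pre * nest m w Y k pre := by
  induction k generalizing pre with
  | zero => simp [Z, nest]
  | succ k ih =>
    have hZ : ∀ o, 0 < Z m w k (pre ++ [o]) := fun o => Z_pos hw k _
    have hN : ∀ o, 0 < nest m w Y k (pre ++ [o]) := fun o => nest_pos hw hY k _
    have hS : (0:ℝ) < avg fun o => Z m w k (pre ++ [o]) ^ m (pre.length + 1) :=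
      avg_pos fun o => Real.rpow_pos_of_pos (hZ o) _
    have hT : 0 < ∑ o, trans m w k pre o * nest m w Y k (pre ++ [o]) ^ m (pre.length + 1) :=
      sum_pos (fun o _ => mul_pos (trans_pos hw k pre o) (Real.rpow_pos_of_pos (hN o) _))
        univ_nonempty
    rw [Z, Z, nest, ← Real.mul_rpow hS.le hT.le]
    congr 1
    have hc := card_pos_real (Ω := Ω)
    have hd := trans_den_pos (m := m) hw k pre
    simp only [ih, Real.mul_rpow (hZ _).le (hN _).le, avg, trans, div_mul_eq_mul_div,
      ← Finset.sum_div]
    field_simp

lemma logZ0_mul (hw : ∀ p, 0 < w p) (hY : ∀ p, 0 < Y p) :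
    logZ0 R m (fun p => w p * Y p) - logZ0 R m w = Real.log (nest m w Y R []) := by
  rw [logZ0, logZ0, Z_mul hw hY, Real.log_mul (Z_pos hw R []).ne' (nest_pos hw hY R []).ne']
  ring

lemma nest_mem (hm : Ok R m w) {a b : ℝ} (ha : 0 < a)
    (hY : ∀ q : List Ω, q.length = R → a ≤ Y q ∧ Y q ≤ b) :
    ∀ (k : ℕ) (pre : List Ω), pre.length + k = R →
      a ≤ nest m w Y k pre ∧ nest m w Y k pre ≤ b
  | 0, pre, hk => by simpa [nest] using hY pre (by omega)
  | k + 1, pre, hk => by
    set M := m (pre.length + 1)
    have hM : 0 < M := hm.pos _ (by omega) (by omega)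
    have h := fun o => nest_mem hm ha hY k (pre ++ [o]) (by simp; omega)
    have hb : 0 ≤ b := ha.le.trans ((h (Classical.arbitrary Ω)).1.trans (h _).2)
    have key : ∀ c : ℝ, 0 ≤ c → c = (∑ o, trans m w k pre o * c ^ M) ^ (1 / M) := fun c hc => by
      rw [← Finset.sum_mul, trans_sum hm.wpos, one_mul, one_div, Real.rpow_rpow_inv hc hM.ne']
    have hn : ∀ o, 0 ≤ trans m w k pre o := trans_nonneg hm.wpos k pre
    rw [nest]
    constructor
    · refine (key a ha.le).trans_le (Real.rpow_le_rpow (sum_nonneg fun o _ => ?_)
        (sum_le_sum fun o _ => mul_le_mul_of_nonneg_left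
          (Real.rpow_le_rpow ha.le (h o).1 hM.le) (hn o)) (by positivity))
      exact mul_nonneg (hn o) (Real.rpow_nonneg ha.le _)
    · refine (Real.rpow_le_rpow (sum_nonneg fun o _ => ?_)
        (sum_le_sum fun o _ => mul_le_mul_of_nonneg_left
          (Real.rpow_le_rpow (ha.le.trans (h o).1) (h o).2 hM.le) (hn o))
            (by positivity)).trans_eq (key b hb).symm
      exact mul_nonneg (hn o) (Real.rpow_nonneg (ha.le.trans (h o).1) _)

end Vale.Agent.P168.MP
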