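import Vale.Agent.P168.MP.Shape

/-! Random layer levels and the predicate `Small` of section C. -/

namespace Vale.Agent.P168.MP

open Finset

/-- a finite structure: marks, weight, and the configuration read on a path -/
structure Sys where
  /-- marks -/
  Ω : Type
  /-- marks are finite -/
  inst : Fintype Ω
  /-- marks exist -/
  ne : Nonempty Ω
  /-- number of spins -/
  N : ℕ
  /-- there is a spin -/
  hN : NeZero N
  /-- weight of a path -/
  w : List Ω → ℝ
  /-- the weight is positive -/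
  pos : ∀ p, 0 < w p
  /-- configuration read on a path -/
  rd : List Ω → Fin N → Bool

attribute [instance] Sys.inst Sys.ne Sys.hN

/-- all identities up to order `k` hold up to `E` -/
def Sys.Good (S : Sys) (R k : ℕ) (E : ℝ) : Prop :=
  0 ≤ E ∧ Ident R (lin R) S.w S.rd k E

/-- one window of levels `[lo q, lo q + len q)` for each of the `L` layers -/
structure Win (L : ℕ) where
  /-- first level -/
  lo : Fin L → ℕ
  /-- number of levels -/
  len : Fin L → ℕ

/-- windows of length at least `c R`, above level `c R`, separated, and below `R` -/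
structure Win.Ok {L : ℕ} (W : Win L) (c : ℝ) (R : ℕ) : Prop where
  low : ∀ q, c * R ≤ W.lo q
  long : ∀ q, c * R ≤ W.len q
  len_pos : ∀ q, 0 < W.len q
  lo_two : ∀ q, 2 ≤ W.lo q
  sep : ∀ q q', q < q' → W.lo q + W.len q + 2 ≤ W.lo q'
  high : ∀ q, W.lo q + W.len q + 3 ≤ R

variable {L : ℕ}

/-- the possible choices of the layer levels -/
def Win.set (W : Win L) : Finset (Fin L → ℕ) :=
  Fintype.piFinset fun q => Finset.Ico (W.lo q) (W.lo q + W.len q)

lemma Win.mem_set {W : Win L} {J : Fin L → ℕ} :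
    J ∈ W.set ↔ ∀ q, W.lo q ≤ J q ∧ J q < W.lo q + W.len q := by
  simp [Win.set, Fintype.mem_piFinset]

lemma Win.set_nonempty {W : Win L} {c : ℝ} {R : ℕ} (h : W.Ok c R) : W.set.Nonempty :=
  ⟨W.lo, Win.mem_set.2 fun q => ⟨le_rfl, by have := h.len_pos q; omega⟩⟩

lemma Win.Ok.lt {W : Win L} {c : ℝ} {R : ℕ} (h : W.Ok c R) {J : Fin L → ℕ} (hJ : J ∈ W.set)
    {q q' : Fin L} (hq : q < q') : J q + 3 ≤ J q' := by
  have := (Win.mem_set.1 hJ q).2; have := (Win.mem_set.1 hJ q').1; have := h.sep q q' hq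
  omega

lemma Win.Ok.range {W : Win L} {c : ℝ} {R : ℕ} (h : W.Ok c R) {J : Fin L → ℕ} (hJ : J ∈ W.set)
    (q : Fin L) : c * R ≤ J q ∧ 2 ≤ J q ∧ J q + 4 ≤ R := by
  obtain ⟨h1, h2⟩ := Win.mem_set.1 hJ q
  have := h.lo_two q; have := h.high q
  exact ⟨(h.low q).trans (by exact_mod_cast h1), by omega, by omega⟩

/-- average over the layer levels -/
noncomputable def Win.avgJ (W : Win L) (f : (Fin L → ℕ) → ℝ) : ℝ :=
  (∑ J ∈ W.set, f J) / W.set.card

lemma Win.avgJ_add (W : Win L) (f g : (Fin L → ℕ) → ℝ) :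
    W.avgJ (fun J => f J + g J) = W.avgJ f + W.avgJ g := by
  simp [Win.avgJ, sum_add_distrib, add_div]

lemma Win.avgJ_const_mul (W : Win L) (a : ℝ) (f : (Fin L → ℕ) → ℝ) :
    W.avgJ (fun J => a * f J) = a * W.avgJ f := by
  simp [Win.avgJ, ← mul_sum, mul_div_assoc]

lemma Win.avgJ_const {W : Win L} {c : ℝ} {R : ℕ} (h : W.Ok c R) (a : ℝ) :
    W.avgJ (fun _ => a) = a := by
  have := (Win.set_nonempty h).card_pos
  have h0 : (W.set.card : ℝ) ≠ 0 := Nat.cast_ne_zero.2 this.ne'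
  simp [Win.avgJ, h0]

lemma Win.avgJ_mono (W : Win L) {f g : (Fin L → ℕ) → ℝ} (h : ∀ J ∈ W.set, f J ≤ g J) :
    W.avgJ f ≤ W.avgJ g :=
  div_le_div_of_nonneg_right (sum_le_sum h) (Nat.cast_nonneg _)

/-- `Q` averages to at most `eps + C * E`, for every structure, as `R` grows -/
def Small (k : ℕ) (Q : ℕ → Sys → (Fin L → ℕ) → ℝ) : Prop :=
  ∀ c : ℝ, 0 < c → ∀ ε : ℝ, 0 < ε → ∃ R₀ : ℕ, ∀ R, R₀ ≤ R → ∃ C : ℝ,
    ∀ W : Win L, W.Ok c R → ∀ (S : Sys) (E : ℝ), S.Good R k E →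
      W.avgJ (Q R S) ≤ ε + C * E

variable {k : ℕ} {P Q : ℕ → Sys → (Fin L → ℕ) → ℝ}

lemma small_zero : Small (L := L) k fun _ _ _ => 0 := fun c _ ε hε =>
  ⟨0, fun R _ => ⟨0, fun W hW S E _ => by rw [Win.avgJ_const hW]; linarith⟩⟩

lemma Small.add (hP : Small k P) (hQ : Small k Q) :
    Small k fun R S J => P R S J + Q R S J := by
  intro c hc ε hε
  obtain ⟨R₁, h₁⟩ := hP c hc (ε / 2) (half_pos hε)
  obtain ⟨R₂, h₂⟩ := hQ c hc (ε / 2) (half_pos hε)
  refine ⟨max R₁ R₂, fun R hR => ?_⟩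
  obtain ⟨C₁, e₁⟩ := h₁ R (le_of_max_le_left hR)
  obtain ⟨C₂, e₂⟩ := h₂ R (le_of_max_le_right hR)
  refine ⟨C₁ + C₂, fun W hW S E hE => ?_⟩
  have := e₁ W hW S E hE; have := e₂ W hW S E hE
  rw [W.avgJ_add]
  nlinarith

lemma small_listSum {α : Type*} (l : List α) (F : α → ℕ → Sys → (Fin L → ℕ) → ℝ)
    (h : ∀ a ∈ l, Small k (F a)) : Small k fun R S J => (l.map fun a => F a R S J).sum := by
  induction l with
  | nil => simpa using small_zero
  | cons a l ih =>
    simpa using (h a (by simp)).add (ih fun b hb => h b (by simp [hb]))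

/-- domination up to `1/R` and a power of `R` times `E` -/
lemma Small.dom (hP : Small k P)
    (h : ∀ c : ℝ, 0 < c → ∃ (A : ℝ) (R₁ e : ℕ), 0 ≤ A ∧ ∀ R, R₁ ≤ R → ∀ W : Win L, W.Ok c R →
      ∀ (S : Sys) (E : ℝ), S.Good R k E → ∀ J ∈ W.set,
        Q R S J ≤ A * P R S J + A / R + A * (R : ℝ) ^ e * E) :
    Small k Q := by
  intro c hc ε hε
  obtain ⟨A, R₁, e, hA, hQ⟩ := h c hc
  obtain ⟨R₂, h₂⟩ := hP c hc (ε / (2 * (A + 1))) (by positivity)
  refine ⟨max (max R₁ R₂) (⌈2 * A / ε⌉₊ + 1), fun R hR => ?_⟩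
  simp only [max_le_iff] at hR
  obtain ⟨C, hC⟩ := h₂ R hR.1.2
  refine ⟨A * C + A * (R : ℝ) ^ e, fun W hW S E hE => ?_⟩
  have hR0 : (0 : ℝ) < R := by exact_mod_cast (show 0 < R by omega)
  have hAR : A / R ≤ ε / 2 := by
    rw [div_le_iff₀ hR0]
    have h1 : 2 * A / ε ≤ R :=
      (Nat.le_ceil _).trans (by exact_mod_cast (show ⌈2 * A / ε⌉₊ ≤ R by omega))
    rw [div_le_iff₀ hε] at h1
    linarith
  have h3 : A * (ε / (2 * (A + 1))) ≤ ε / 2 := by
    rw [mul_div_assoc', div_le_div_iff₀ (by positivity) two_pos]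
    nlinarith
  have h4 := mul_le_mul_of_nonneg_left (hC W hW S E hE) hA
  calc W.avgJ (Q R S) ≤ W.avgJ fun J => A * P R S J + (A / R + A * (R : ℝ) ^ e * E) :=
        W.avgJ_mono fun J hJ => by linarith [hQ R hR.1.1 W hW S E hE J hJ]
    _ ≤ ε + (A * C + A * (R : ℝ) ^ e) * E := by
        rw [W.avgJ_add, W.avgJ_const_mul, Win.avgJ_const hW]
        nlinarith

lemma Small.mono (hP : Small k P)
    (h : ∀ c : ℝ, 0 < c → ∀ R (W : Win L), W.Ok c R → ∀ (S : Sys) (E : ℝ), S.Good R k E →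
      ∀ J ∈ W.set, Q R S J ≤ P R S J) : Small k Q :=
  hP.dom fun c hc => ⟨1, 0, 0, zero_le_one, fun R _ W hW S E hE J hJ => by
    have := h c hc R W hW S E hE J hJ
    have h1 : (0 : ℝ) ≤ 1 / R := by positivity
    have := hE.1
    rw [pow_zero, one_mul, one_mul, one_mul]
    linarith⟩

lemma Small.const_mul (hP : Small k P) {a : ℝ} (ha : 0 ≤ a) :
    Small k fun R S J => a * P R S J :=
  hP.dom fun c _ => ⟨a, 0, 0, ha, fun R _ W _ S E hE J _ => by
    have h1 : (0 : ℝ) ≤ a / R := by positivity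
    have h2 := mul_nonneg ha hE.1
    rw [pow_zero, mul_one]
    linarith⟩

lemma rpow_quarter_le {x δ : ℝ} (hx : 0 ≤ x) (hδ : 0 < δ) :
    x ^ (1 / 4 : ℝ) ≤ δ + x / δ ^ 3 := by
  set y := x ^ (1 / 4 : ℝ) with hy
  have hy0 : 0 ≤ y := Real.rpow_nonneg hx _
  have hx4 : x = y ^ 4 := by
    rw [hy, ← Real.rpow_natCast, ← Real.rpow_mul hx]; norm_num
  rw [hx4]
  rcases le_total y δ with h | h
  · have : (0 : ℝ) ≤ y ^ 4 / δ ^ 3 := by positivity
    linarith
  · have h3 := pow_le_pow_left₀ hδ.le h 3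
    have : y ≤ y ^ 4 / δ ^ 3 := by
      rw [le_div_iff₀ (by positivity)]
      calc y * δ ^ 3 ≤ y * y ^ 3 := mul_le_mul_of_nonneg_left h3 hy0
        _ = y ^ 4 := by ring
    linarith

lemma Small.quarter (hP : Small k P)
    (h0 : ∀ R S J, 0 ≤ P R S J) : Small k fun R S J => P R S J ^ (1 / 4 : ℝ) := by
  intro c hc ε hε
  obtain ⟨R₀, h⟩ := (hP.const_mul (a := 1 / (ε / 2) ^ 3) (by positivity)) c hc (ε / 2) (half_pos hε)
  refine ⟨R₀, fun R hR => ?_⟩
  obtain ⟨C, hC⟩ := h R hR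
  refine ⟨C, fun W hW S E hE => ?_⟩
  calc W.avgJ (fun J => P R S J ^ (1 / 4 : ℝ))
      ≤ W.avgJ fun J => ε / 2 + 1 / (ε / 2) ^ 3 * P R S J :=
        W.avgJ_mono fun J _ => by
          have := rpow_quarter_le (h0 R S J) (half_pos hε)
          rw [one_div_mul_eq_div]; linarith
    _ = ε / 2 + W.avgJ (fun J => 1 / (ε / 2) ^ 3 * P R S J) := by
        rw [W.avgJ_add, Win.avgJ_const hW]
    _ ≤ ε + C * E := by linarith [hC W hW S E hE]

/-- averaging one layer level inside its window first -/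
lemma Win.avgJ_update (W : Win L) (q : Fin L) (f : (Fin L → ℕ) → ℝ) :
    (W.len q : ℝ) * W.avgJ f =
      W.avgJ fun J => ∑ l ∈ Finset.Ico (W.lo q) (W.lo q + W.len q), f (Function.update J q l) := by
  set I := Finset.Ico (W.lo q) (W.lo q + W.len q) with hI
  have hmem : ∀ J l, J ∈ W.set → l ∈ I → Function.update J q l ∈ W.set := by
    intro J l hJ hl
    refine Win.mem_set.2 fun q' => ?_
    rcases eq_or_ne q' q with rfl | hne
    · rw [Function.update_self]; simpa [hI] using hl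
    · rw [Function.update_of_ne hne]; exact Win.mem_set.1 hJ q'
  have key : ∑ J ∈ W.set, ∑ l ∈ I, f (Function.update J q l) = W.len q * ∑ J ∈ W.set, f J := by
    rw [← Finset.sum_product',
      show (W.len q : ℝ) * ∑ J ∈ W.set, f J = ∑ x ∈ W.set ×ˢ I, f x.1 by
        rw [Finset.sum_product, mul_sum]; simp [hI]]
    refine Finset.sum_nbij' (fun x => (Function.update x.1 q x.2, x.1 q))
      (fun x => (Function.update x.1 q x.2, x.1 q)) ?_ ?_ ?_ ?_ ?_
    · intro x hx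
      simp only [Finset.mem_product] at hx ⊢
      exact ⟨hmem _ _ hx.1 hx.2, by simpa [hI] using Win.mem_set.1 hx.1 q⟩
    · intro x hx
      simp only [Finset.mem_product] at hx ⊢
      exact ⟨hmem _ _ hx.1 hx.2, by simpa [hI] using Win.mem_set.1 hx.1 q⟩
    · intro x _; simp [Function.update_eq_self]
    · intro x _; simp [Function.update_eq_self]
    · intro x _; rfl
  simp only [Win.avgJ, key, mul_div_assoc]

/-- a one-level increment of a monotone function which ignores its own layer averages to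
`O(length^{-1/2})` -/
lemma small_increment (q : Fin L) (G : ℕ → Sys → (Fin L → ℕ) → ℕ → ℝ)
    (hup : ∀ R S J l i, G R S (Function.update J q i) l = G R S J l)
    (hmon : ∀ c : ℝ, 0 < c → ∀ R (W : Win L), W.Ok c R → ∀ S : Sys, ∀ J ∈ W.set,
      ∀ l, W.lo q ≤ l → l < W.lo q + W.len q → G R S J l ≤ G R S J (l + 1))
    (hbd : ∀ c : ℝ, 0 < c → ∀ R (W : Win L), W.Ok c R → ∀ S : Sys, ∀ J ∈ W.set,
      G R S J (W.lo q + W.len q) - G R S J (W.lo q) ≤ 1) :
    Small k fun R S J => √(G R S J (J q + 1) - G R S J (J q)) := by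
  intro c hc ε hε
  refine ⟨⌈1 / (c * ε ^ 2)⌉₊ + 1, fun R hR => ⟨0, fun W hW S E _ => ?_⟩⟩
  rw [zero_mul, add_zero]
  have hlen : 1 / ε ^ 2 ≤ (W.len q : ℝ) := by
    refine le_trans ?_ (hW.long q)
    have h1 : 1 / (c * ε ^ 2) ≤ R :=
      (Nat.le_ceil _).trans (by exact_mod_cast (show ⌈1 / (c * ε ^ 2)⌉₊ ≤ R by omega))
    rw [div_le_iff₀ (by positivity)] at h1 ⊢
    linarith
  have hpos : (0 : ℝ) < W.len q := lt_of_lt_of_le (by positivity) hlen
  have key : ∀ J ∈ W.set, ∑ l ∈ Finset.Ico (W.lo q) (W.lo q + W.len q),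
      √(G R S (Function.update J q l) (Function.update J q l q + 1) -
        G R S (Function.update J q l) (Function.update J q l q)) ≤ √(W.len q : ℝ) := by
    intro J hJ
    simp only [hup, Function.update_self]
    set I := Finset.Ico (W.lo q) (W.lo q + W.len q)
    have hnn : ∀ l ∈ I, 0 ≤ G R S J (l + 1) - G R S J l := fun l hl =>
      sub_nonneg.2 (hmon c hc R W hW S J hJ l (Finset.mem_Ico.1 hl).1 (Finset.mem_Ico.1 hl).2)
    calc ∑ l ∈ I, √(G R S J (l + 1) - G R S J l)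
        = ∑ l ∈ I, √(G R S J (l + 1) - G R S J l) * √(1 : ℝ) := by simp
      _ ≤ √(∑ l ∈ I, (G R S J (l + 1) - G R S J l)) * √(∑ _l ∈ I, (1 : ℝ)) := by
          refine (Real.sum_mul_le_sqrt_mul_sqrt I _ _).trans (le_of_eq ?_)
          congr 1
          · congr 1; exact Finset.sum_congr rfl fun l hl => Real.sq_sqrt (hnn l hl)
          · simp
      _ ≤ 1 * √(∑ _l ∈ I, (1 : ℝ)) := by
          gcongr
          rw [Real.sqrt_le_one, Finset.sum_Ico_eq_sum_range]
          have := Finset.sum_range_sub (fun l => G R S J (W.lo q + l)) (W.len q)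
          simp only [add_tsub_cancel_left, add_assoc, add_zero] at this ⊢
          linarith [hbd c hc R W hW S J hJ]
      _ = √(W.len q : ℝ) := by simp [I]
  have h := W.avgJ_mono key
  rw [← W.avgJ_update q (fun J => √(G R S J (J q + 1) - G R S J (J q))), Win.avgJ_const hW] at h
  set a := W.avgJ fun J => √(G R S J (J q + 1) - G R S J (J q))
  have hs : 1 ≤ ε * √(W.len q : ℝ) := by
    have : √(1 / ε ^ 2) ≤ √(W.len q : ℝ) := Real.sqrt_le_sqrt hlen
    rw [Real.sqrt_div zero_le_one, Real.sqrt_one, Real.sqrt_sq hε.le, div_le_iff₀ hε] at this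
    linarith
  nlinarith [Real.mul_self_sqrt hpos.le, Real.sqrt_nonneg (W.len q : ℝ)]

mutual
/-- relabel the levels of a tree -/
def LT.map (f : ℕ → ℕ) : LT → LT
  | .leaf => .leaf
  | .node l cs => .node (f l) (LT.maps f cs)
/-- relabel the levels of a forest -/
def LT.maps (f : ℕ → ℕ) : LF → LF
  | .nil => .nil
  | .cons c cs => .cons (c.map f) (LT.maps f cs)
end

/-- all levels raised by one -/
def LT.shift (t : LT) : LT := t.map (· + 1)

/-- a tree labelled by layer indices, with the levels given by `J` -/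
def LT.atJ (J : Fin L → ℕ) (t : LT) : LT :=
  t.map fun q => if h : q < L then J ⟨q, h⟩ else 0

end Vale.Agent.P168.MP
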