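import Vale.Agent.P168.MP.Shape
import Vale.Agent.P168.MP.Layers
import Vale.Agent.P168.MP.Prod

/-! Analytic properties of node values: bounds, martingale property, monotone squared norms,
stability under level shifts, and purities (section C of ROUTE.md). -/

namespace Vale.Agent.P168.MP

open Finset

/-! ### vectors over the sites -/

section vectors

variable {N : ℕ}

/-- the norm of `ip` -/
noncomputable def nrm (x : Fin N → ℝ) : ℝ := Real.sqrt (ip x x)

lemma nrm_def (x : Fin N → ℝ) : nrm x = Real.sqrt (ip x x) := rfl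

lemma ip_nonneg (x : Fin N → ℝ) : 0 ≤ ip x x :=
  div_nonneg (sum_nonneg fun _ _ => mul_self_nonneg _) (Nat.cast_nonneg _)

lemma nrm_nonneg (x : Fin N → ℝ) : 0 ≤ nrm x := Real.sqrt_nonneg _

lemma nrm_sq (x : Fin N → ℝ) : nrm x ^ 2 = ip x x := Real.sq_sqrt (ip_nonneg x)

lemma ip_comm (x y : Fin N → ℝ) : ip x y = ip y x := by simp only [ip, mul_comm]

lemma ip_add_left (x y z : Fin N → ℝ) : ip (x + y) z = ip x z + ip y z := by
  simp only [ip, avg, Pi.add_apply, add_mul, sum_add_distrib, add_div]

lemma ip_sub_left (x y z : Fin N → ℝ) : ip (x - y) z = ip x z - ip y z := by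
  simp only [ip, avg, Pi.sub_apply, sub_mul, sum_sub_distrib, sub_div]

lemma ip_add_right (x y z : Fin N → ℝ) : ip z (x + y) = ip z x + ip z y := by
  simp only [ip_comm z, ip_add_left]

lemma ip_sub_right (x y z : Fin N → ℝ) : ip z (x - y) = ip z x - ip z y := by
  simp only [ip_comm z, ip_sub_left]

lemma ip_smul_left (c : ℝ) (x y : Fin N → ℝ) : ip (fun v => c * x v) y = c * ip x y := by
  simp only [ip, avg, mul_assoc, ← mul_sum, mul_div_assoc]

lemma abs_ip_le {x y : Fin N → ℝ} {a b : ℝ} (ha : 0 ≤ a) (hb : 0 ≤ b) (hx : ∀ v, |x v| ≤ a)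
    (hy : ∀ v, |y v| ≤ b) : |ip x y| ≤ a * b := by
  rw [ip, avg, abs_div, Nat.abs_cast]
  refine div_le_of_le_mul₀ (Nat.cast_nonneg _) (mul_nonneg ha hb) ?_
  refine (abs_sum_le_sum_abs _ _).trans ?_
  calc ∑ v, |x v * y v| ≤ ∑ _v : Fin N, a * b :=
        sum_le_sum fun v _ => by
          rw [abs_mul]; exact mul_le_mul (hx v) (hy v) (abs_nonneg _) ha
    _ = _ := by simp; ring

lemma abs_ip_le_one {x y : Fin N → ℝ} (hx : ∀ v, |x v| ≤ 1) (hy : ∀ v, |y v| ≤ 1) :
    |ip x y| ≤ 1 := by simpa using abs_ip_le zero_le_one zero_le_one hx hy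

/-- Cauchy-Schwarz -/
lemma ip_sq_le (x y : Fin N → ℝ) : ip x y ^ 2 ≤ ip x x * ip y y := by
  simp only [ip, avg, div_pow, div_mul_div_comm, ← sq]
  exact div_le_div_of_nonneg_right (sum_mul_sq_le_sq_mul_sq _ _ _) (by positivity)

lemma abs_ip_le_nrm (x y : Fin N → ℝ) : |ip x y| ≤ nrm x * nrm y := by
  refine abs_le_of_sq_le_sq ?_ (mul_nonneg (nrm_nonneg x) (nrm_nonneg y))
  rw [mul_pow, nrm_sq, nrm_sq]
  exact ip_sq_le x y

lemma nrm_le_of_abs {x : Fin N → ℝ} {a : ℝ} (ha : 0 ≤ a) (hx : ∀ v, |x v| ≤ a) : nrm x ≤ a :=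
  Real.sqrt_le_iff.2 ⟨ha, by rw [sq]; exact (le_abs_self _).trans (abs_ip_le ha ha hx hx)⟩

lemma nrm_add_le (x y : Fin N → ℝ) : nrm (x + y) ≤ nrm x + nrm y := by
  refine Real.sqrt_le_iff.2 ⟨add_nonneg (nrm_nonneg x) (nrm_nonneg y), ?_⟩
  rw [ip_add_left, ip_add_right, ip_add_right, ip_comm y x, ← nrm_sq x, ← nrm_sq y]
  nlinarith [(le_abs_self _).trans (abs_ip_le_nrm x y)]

lemma nrm_mono {x y : Fin N → ℝ} (h : ∀ v, |x v| ≤ |y v|) : nrm x ≤ nrm y := by
  refine Real.sqrt_le_sqrt (div_le_div_of_nonneg_right ?_ (Nat.cast_nonneg _))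
  exact sum_le_sum fun v _ => by
    rw [← abs_mul_abs_self (x v), ← abs_mul_abs_self (y v)]
    exact mul_self_le_mul_self (abs_nonneg _) (h v)

lemma nrm_sub_le (x y : Fin N → ℝ) : nrm (x - y) ≤ nrm x + nrm y := by
  rw [sub_eq_add_neg]
  refine (nrm_add_le _ _).trans_eq ?_
  congr 1
  exact le_antisymm (nrm_mono fun v => by simp) (nrm_mono fun v => by simp)

end vectors

variable {Ω : Type*} [Fintype Ω] {R : ℕ} {m : ℕ → ℝ} {w : List Ω → ℝ}

/-! ### expectations of vectors -/

lemma ext_ip_left {N : ℕ} (k : ℕ) (pre : List Ω) (F : List Ω → Fin N → ℝ) (x : Fin N → ℝ) :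
    ip (fun v => ext m w k pre fun p => F p v) x = ext m w k pre fun p => ip (F p) x := by
  simp only [ip, avg, div_eq_mul_inv, ext_mul_const, ext_sum]

lemma ext_ip_right {N : ℕ} (k : ℕ) (pre : List Ω) (F : List Ω → Fin N → ℝ) (x : Fin N → ℝ) :
    ip x (fun v => ext m w k pre fun p => F p v) = ext m w k pre fun p => ip x (F p) := by
  simp only [ip_comm x, ext_ip_left]

section
variable [Nonempty Ω]

lemma ext_sqrt_le (hw : ∀ p, 0 < w p) (k : ℕ) (pre : List Ω) {F : List Ω → ℝ}
    (hF : ∀ q, 0 ≤ F q) :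
    ext m w k pre (fun q => Real.sqrt (F q)) ≤ Real.sqrt (ext m w k pre F) := by
  refine Real.le_sqrt_of_sq_le ((ext_sq_le hw k pre _).trans_eq ?_)
  simp only [Real.sq_sqrt (hF _)]

/-- the norm of an expectation is at most the expectation of the norm -/
lemma nrm_ext_le {N : ℕ} (hw : ∀ p, 0 < w p) (k : ℕ) (pre : List Ω) (F : List Ω → Fin N → ℝ) :
    nrm (fun v => ext m w k pre fun p => F p v) ≤ ext m w k pre fun p => nrm (F p) := by
  set y := fun v => ext m w k pre fun p => F p v with hy
  have h1 : nrm y ^ 2 ≤ (ext m w k pre fun p => nrm (F p)) * nrm y := by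
    rw [nrm_sq, ← ext_mul_const, ext_ip_left]
    exact ext_mono hw fun p => (le_abs_self _).trans (abs_ip_le_nrm _ _)
  rcases (nrm_nonneg y).eq_or_lt with h | h
  · rw [← h]; exact ext_nonneg hw fun _ => nrm_nonneg _
  · rw [sq] at h1; exact le_of_mul_le_mul_right h1 h

/-- second moment of a projection against the twin moment -/
lemma ext_ip_sq_le {N : ℕ} (hw : ∀ p, 0 < w p) (k : ℕ) (pre : List Ω) (d : List Ω → Fin N → ℝ)
    {B : Fin N → ℝ} (hB : ∀ v, |B v| ≤ 1) :
    ext m w k pre (fun a => ip (d a) B ^ 2) ≤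
      Real.sqrt (ext m w k pre fun a => ext m w k pre fun b => ip (d a) (d b) ^ 2) := by
  set X := ext m w k pre fun a => ip (d a) B ^ 2 with hX
  set D := ext m w k pre fun a => ext m w k pre fun b => ip (d a) (d b) ^ 2 with hD
  set F : List Ω → Fin N → ℝ := fun a v => ip (d a) B * d a v with hF
  set y : Fin N → ℝ := fun v => ext m w k pre fun a => F a v with hy
  have h1 : ip y B = X := by
    rw [hy, ext_ip_left, hX]
    simp only [hF, ip_smul_left, sq]
  have h2 : ip y y ≤ (X * X + D) / 2 := by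
    have e : ip y y = ext m w k pre fun a => ext m w k pre fun b =>
        ip (d a) B * ip (d b) B * ip (d a) (d b) := by
      rw [hy, ext_ip_left]
      refine congrArg _ (funext fun a => ?_)
      rw [ext_ip_right]
      refine congrArg _ (funext fun b => ?_)
      simp only [hF, ip_smul_left]
      rw [ip_comm (d a) fun v => ip (d b) B * d b v, ip_smul_left, ip_comm (d b) (d a)]
      ring
    have e2 : ext m w k pre (fun a => ext m w k pre fun b =>
        (ip (d a) B ^ 2 * ip (d b) B ^ 2 + ip (d a) (d b) ^ 2) * (1 / 2)) = (X * X + D) / 2 := by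
      simp only [ext_mul_const, ext_add, ext_const_mul, ← hX, ← hD]
      ring
    rw [e, ← e2]
    exact ext_mono hw fun a => ext_mono hw fun b => by
      nlinarith [sq_nonneg (ip (d a) B * ip (d b) B - ip (d a) (d b))]
  have h3 : X ^ 2 ≤ ip y y := by
    rw [← h1]
    refine (ip_sq_le y B).trans (mul_le_of_le_one_right (ip_nonneg y) ?_)
    exact (le_abs_self _).trans (abs_ip_le_one hB hB)
  exact Real.le_sqrt_of_sq_le (by nlinarith)

lemma ET_sqrt_le (hw : ∀ p, 0 < w p) (T : List (ℕ × ℕ)) {F : List (List Ω) → ℝ}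
    (hF : ∀ ps, 0 ≤ F ps) :
    ET R m w T (fun ps => Real.sqrt (F ps)) ≤ Real.sqrt (ET R m w T F) := by
  refine Real.le_sqrt_of_sq_le ((ET_sq_le hw T _).trans_eq ?_)
  simp only [Real.sq_sqrt (hF _)]

end

/-! ### the expectation `up` -/

section up

lemma up_add (l : ℕ) (pre : List Ω) (F G : List Ω → ℝ) :
    up R m w l pre (fun q => F q + G q) = up R m w l pre F + up R m w l pre G := ext_add _ _ _ _

lemma up_sub (l : ℕ) (pre : List Ω) (F G : List Ω → ℝ) :
    up R m w l pre (fun q => F q - G q) = up R m w l pre F - up R m w l pre G := ext_sub _ _ _ _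

lemma up_const_mul (l : ℕ) (pre : List Ω) (c : ℝ) (F : List Ω → ℝ) :
    up R m w l pre (fun q => c * F q) = c * up R m w l pre F := ext_const_mul _ _ _ _

lemma up_self {l : ℕ} {pre : List Ω} (h : pre.length = l) (F : List Ω → ℝ) :
    up R m w l pre F = F pre := by simp [up, h]

lemma up_congr {l : ℕ} {pre : List Ω} (hl : pre.length ≤ l) {F G : List Ω → ℝ}
    (h : ∀ q : List Ω, q.length = l → q.take pre.length = pre → F q = G q) :
    up R m w l pre F = up R m w l pre G :=
  ext_congr fun suf hs => h _ (by simp; omega) (by simp)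

lemma up_top (pre : List Ω) (F : List Ω → ℝ) :
    up R m w R pre F = ext m w (R - pre.length) pre F := by
  have e : Z m w (R - R) = w := by funext p; simp [Z]
  rw [up, e]

/-- tower property between the levels `a ≤ b` -/
lemma up_tower {a b : ℕ} {pre : List Ω} (ha : pre.length ≤ a) (hab : a ≤ b) (hb : b ≤ R)
    (F : List Ω → ℝ) :
    up R m w a pre (fun q => up R m w b q F) = up R m w b pre F := by
  unfold up
  rw [show b - pre.length = (a - pre.length) + (b - a) by omega, ext_tower]
  have e : (fun q => Z m (Z m w (R - b)) (b - a) q) = Z m w (R - a) := by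
    funext q
    rw [show R - a = (b - a) + (R - b) by omega]
    exact Z_Z _ _ q
  rw [e]
  refine ext_congr fun suf hs => ?_
  rw [show b - (pre ++ suf).length = b - a by simp; omega]

section
variable [Nonempty Ω]

lemma up_const (hw : ∀ p, 0 < w p) (l : ℕ) (pre : List Ω) (c : ℝ) :
    up R m w l pre (fun _ => c) = c := ext_const (Z_pos hw _) _ _ _

lemma up_mono (hw : ∀ p, 0 < w p) {l : ℕ} {pre : List Ω} {F G : List Ω → ℝ}
    (h : ∀ q, F q ≤ G q) : up R m w l pre F ≤ up R m w l pre G := ext_mono (Z_pos hw _) h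

lemma up_mono_on (hw : ∀ p, 0 < w p) {l : ℕ} {pre : List Ω} (hl : pre.length ≤ l)
    {F G : List Ω → ℝ} (h : ∀ q : List Ω, q.length = l → q.take pre.length = pre → F q ≤ G q) :
    up R m w l pre F ≤ up R m w l pre G :=
  ext_mono_on (Z_pos hw _) fun suf hs => h _ (by simp; omega) (by simp)

lemma up_nonneg (hw : ∀ p, 0 < w p) {l : ℕ} {pre : List Ω} {F : List Ω → ℝ}
    (h : ∀ q, 0 ≤ F q) : 0 ≤ up R m w l pre F := ext_nonneg (Z_pos hw _) h

lemma up_bound (hw : ∀ p, 0 < w p) {l : ℕ} {pre : List Ω} {F : List Ω → ℝ} {C : ℝ}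
    (h : ∀ q, |F q| ≤ C) : |up R m w l pre F| ≤ C := ext_bound (Z_pos hw _) h

/-- marginal: a function of the first `a` marks -/
lemma up_take (hw : ∀ p, 0 < w p) {a b : ℕ} {pre : List Ω} (ha : pre.length ≤ a) (hab : a ≤ b)
    (hb : b ≤ R) (F : List Ω → ℝ) :
    up R m w b pre (fun q => F (q.take a)) = up R m w a pre F := by
  rw [← up_tower ha hab hb]
  refine up_congr ha fun q hq _ => ?_
  refine (up_congr (hq ▸ hab) (G := fun _ => F q) fun r _ hr => ?_).trans (up_const hw _ _ _)
  rw [← hq, hr]

/-- the law of the first `l` marks of one replica -/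
lemma ET_path (hw : ∀ p, 0 < w p) {l : ℕ} (hl : l ≤ R) (F : List Ω → ℝ) :
    ET R m w [(0, 0)] (fun ps => F ((ps.getD 0 []).take l)) = up R m w l [] F := by
  have e : ET R m w [(0, 0)] (fun ps => F ((ps.getD 0 []).take l)) =
      up R m w R [] (fun q => F (q.take l)) := by
    rw [ET_single, up_top]; simp
  rw [e, up_take hw (Nat.zero_le _) hl le_rfl]

/-- the marginal law of any replica is that of one path -/
lemma ET_marginal (hw : ∀ p, 0 < w p) {T : List (ℕ × ℕ)} (hT : Valid R T) {p : ℕ}
    (hp : p < T.length) (F : List Ω → ℝ) :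
    ET R m w T (fun ps => F (ps.getD p [])) = up R m w R [] F := by
  induction T generalizing p F with
  | nil => simp at hp
  | cons x T ih =>
    obtain ⟨a, v⟩ := x
    obtain ⟨hT', hv, ha⟩ := valid_split hT
    rw [ET_cons]
    rcases Nat.lt_succ_iff_lt_or_eq.1 (List.length_cons ▸ hp) with hlt | rfl
    · rw [← ih hT' hlt F]
      refine ET_congr hT' fun ps hs => ?_
      simp only [List.getD_append _ _ _ _ (hs.1 ▸ hlt), ext_const hw]
    · have e : ∀ ps : List (List Ω), Supp R T ps →
          ext m w (R - v) ((ps.getD a []).take v) (fun q => F ((ps ++ [q]).getD T.length [])) =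
            ext m w (R - v) ((ps.getD a []).take v) F := fun ps hs => by
        refine congrArg _ (funext fun q => ?_)
        rw [List.getD_append_right _ _ _ _ hs.1.le]
        simp [hs.1]
      rw [ET_congr hT' e]
      rcases ha with ⟨rfl, rfl, rfl⟩ | ha
      · simp [up_top]
      · rw [ih hT' ha fun P => ext m w (R - v) (P.take v) F,
          up_take hw (Nat.zero_le v) hv le_rfl (fun P => ext m w (R - v) P F),
          ← up_tower (Nat.zero_le v) hv le_rfl]
        refine up_congr (Nat.zero_le v) fun q hq _ => ?_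
        rw [up_top, hq]

/-- two replicas branching at level `η`, seen at level `l` -/
lemma twin_law (hw : ∀ p, 0 < w p) {η l : ℕ} (hη : η ≤ l) (hl : l ≤ R)
    (F : List Ω → List Ω → List Ω → ℝ) :
    ET R m w [(0, η), (0, 0)] (fun ps =>
        F ((ps.getD 0 []).take η) ((ps.getD 0 []).take l) ((ps.getD 1 []).take l)) =
      up R m w η [] fun q => up R m w l q fun a => up R m w l q fun b => F q a b := by
  have e : ET R m w [(0, η), (0, 0)] (fun ps =>
      F ((ps.getD 0 []).take η) ((ps.getD 0 []).take l) ((ps.getD 1 []).take l)) =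
      up R m w R [] fun A => (fun a => up R m w l (a.take η) fun b => F (a.take η) a b)
        (A.take l) := by
    have e0 : ∀ G : List Ω → ℝ, ext m w R [] G = up R m w R [] G := fun G => by simp [up_top]
    rw [ET_cons, ET_single, e0]
    refine up_congr (Nat.zero_le R) fun A hA _ => ?_
    have hlen : (A.take η).length = η := by simp [hA]; omega
    simp only [List.getD_cons_zero, List.take_take, min_eq_left hη]
    rw [show R - η = R - (A.take η).length by rw [hlen], ← up_top,
      ← up_take hw (by omega) hl le_rfl (fun b => F (A.take η) (A.take l) b)]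
    simp
  rw [e, up_take hw (Nat.zero_le l) hl le_rfl
    (fun a => up R m w l (a.take η) fun b => F (a.take η) a b),
    ← up_tower (Nat.zero_le η) hη hl]
  refine up_congr (Nat.zero_le η) fun q hq _ => up_congr (hq ▸ hη) fun a _ ha => ?_
  rw [← hq, ha]

end
end up

/-! ### node values -/

section values

variable {N : ℕ} {rd : List Ω → Fin N → Bool}

lemma nv_leaf_self {p : List Ω} (h : p.length = R) (v : Fin N) :
    nv R m w rd .leaf p v = sg (rd p v) := by rw [nv, up_self h]

lemma nv_node_self {l : ℕ} {cs : LF} {p : List Ω} (h : p.length = l) (v : Fin N) :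
    nv R m w rd (.node l cs) p v = nvs R m w rd cs p v := by rw [nv, up_self h]

/-- martingale property of the node values -/
theorem nv_martingale {t : LT} {l : ℕ} {pre : List Ω} (ht : t.top R ≤ R) (hl : pre.length ≤ l)
    (hlt : l ≤ t.top R) (v : Fin N) :
    up R m w l pre (fun p => nv R m w rd t p v) = nv R m w rd t pre v := by
  cases t with
  | leaf => simp only [nv]; exact up_tower hl hlt le_rfl _
  | node l' cs => simp only [nv]; exact up_tower hl hlt ht _

variable [Nonempty Ω] (hw : ∀ p, 0 < w p)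
include hw

set_option linter.unusedSectionVars false in
mutual
/-- node values are bounded by one -/
theorem abs_nv_le : ∀ (t : LT) (pre : List Ω) (v : Fin N), |nv R m w rd t pre v| ≤ 1
  | .leaf, pre, v => by
    rw [nv]; exact up_bound hw fun q => by cases rd q v <;> simp [sg]
  | .node l cs, pre, v => by rw [nv]; exact up_bound hw fun q => abs_nvs_le cs q v
/-- products of node values are bounded by one -/
theorem abs_nvs_le : ∀ (cs : LF) (p : List Ω) (v : Fin N), |nvs R m w rd cs p v| ≤ 1
  | .nil, p, v => by rw [nvs]; simp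
  | .cons c cs, p, v => by
    rw [nvs, abs_mul]
    exact mul_le_one₀ (abs_nv_le c p v) (abs_nonneg _) (abs_nvs_le cs p v)
end

lemma abs_ip_nv_le (t t' : LT) (p q : List Ω) :
    |ip (nv R m w rd t p) (nv R m w rd t' q)| ≤ 1 :=
  abs_ip_le_one (abs_nv_le hw t p) (abs_nv_le hw t' q)

lemma Lam_mem (t : LT) (l : ℕ) : Lam R m w rd t l ∈ Set.Icc (0 : ℝ) 1 :=
  ⟨up_nonneg hw fun _ => ip_nonneg _,
    (le_abs_self _).trans (up_bound hw fun _ => abs_ip_nv_le hw t t _ _)⟩

/-- mean square of a martingale increment along a path -/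
theorem up_increment {t : LT} {l l' : ℕ} (ht : t.top R ≤ R) (hl : l ≤ l') (hl' : l' ≤ t.top R) :
    up R m w l' [] (fun p => ip (nv R m w rd t p - nv R m w rd t (p.take l))
      (nv R m w rd t p - nv R m w rd t (p.take l))) =
        Lam R m w rd t l' - Lam R m w rd t l := by
  have hR : l' ≤ R := hl'.trans ht
  have h1 : up R m w l' [] (fun p => ip (nv R m w rd t p) (nv R m w rd t (p.take l))) =
      Lam R m w rd t l := by
    rw [← up_tower (Nat.zero_le l) hl hR, Lam]
    refine up_congr (Nat.zero_le l) fun q hq _ => ?_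
    have e : ∀ r : List Ω, r.length = l' → r.take q.length = q →
        ip (nv R m w rd t r) (nv R m w rd t (r.take l)) =
          ip (nv R m w rd t r) (nv R m w rd t q) := fun r _ hr => by rw [← hq, hr]
    rw [up_congr (hq ▸ hl) e, up, ← ext_ip_left]
    congr 1
    funext v
    exact nv_martingale ht (hq ▸ hl) hl' v
  have h2 : up R m w l' [] (fun p => ip (nv R m w rd t (p.take l)) (nv R m w rd t (p.take l))) =
      Lam R m w rd t l := by
    rw [Lam]
    exact up_take hw (Nat.zero_le l) hl hR (fun q => ip (nv R m w rd t q) (nv R m w rd t q))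
  have e : ∀ x y : Fin N → ℝ, ip (x - y) (x - y) = ip x x - 2 * ip x y + ip y y := fun x y => by
    rw [ip_sub_left, ip_sub_right, ip_sub_right, ip_comm y x]; ring
  simp only [e, up_add, up_sub, up_const_mul, h1, h2]
  rw [← Lam]
  ring

theorem Lam_mono {t : LT} {l l' : ℕ} (ht : t.top R ≤ R) (hl : l ≤ l') (hl' : l' ≤ t.top R) :
    Lam R m w rd t l ≤ Lam R m w rd t l' := by
  have h : 0 ≤ Lam R m w rd t l' - Lam R m w rd t l :=
    up_increment (m := m) hw (rd := rd) ht hl hl' ▸ up_nonneg hw fun _ => ip_nonneg _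
  linarith

/-- the increment along a path, as a replica expectation -/
theorem ET_increment {t : LT} {l l' : ℕ} (ht : t.top R ≤ R) (hl : l ≤ l') (hl' : l' ≤ t.top R) :
    ET R m w [(0, 0)] (fun ps => ip
      (nv R m w rd t ((ps.getD 0 []).take l') - nv R m w rd t ((ps.getD 0 []).take l))
      (nv R m w rd t ((ps.getD 0 []).take l') - nv R m w rd t ((ps.getD 0 []).take l))) =
        Lam R m w rd t l' - Lam R m w rd t l := by
  rw [← up_increment hw ht hl hl', ← ET_path hw (hl'.trans ht)]
  refine congrArg _ (funext fun ps => ?_)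
  rw [List.take_take, min_eq_left hl]

end values

/-- square roots of the increments of a monotone function with values in the unit interval -/
theorem sum_sqrt_increment_le {g : ℕ → ℝ} {a b : ℕ}
    (hg : ∀ l, a ≤ l → l ≤ b → g l ∈ Set.Icc (0 : ℝ) 1)
    (hm : ∀ l, a ≤ l → l < b → g l ≤ g (l + 1)) :
    ∑ l ∈ Ico a b, Real.sqrt (g (l + 1) - g l) ≤ Real.sqrt ((b - a : ℕ) : ℝ) := by
  rcases le_or_gt b a with hab | hab
  · simp [Ico_eq_empty_of_le hab]
  refine Real.le_sqrt_of_sq_le (sq_sum_le_card_mul_sum_sq.trans ?_)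
  rw [Nat.card_Ico]
  refine mul_le_of_le_one_right (Nat.cast_nonneg _) ?_
  rw [sum_congr rfl fun l hl => Real.sq_sqrt (sub_nonneg.2
    (hm l (mem_Ico.1 hl).1 (mem_Ico.1 hl).2)), sum_Ico_sub (fun l => g l) hab.le]
  linarith [(hg b hab.le le_rfl).2, (hg a le_rfl hab.le).1]

/-! ### level shifts -/

mutual
/-- same shape, the levels of `t` at most those of `t'`, and each level of `t'` at most the levels
of the children in `t` -/
def LT.Below (R : ℕ) : LT → LT → Prop
  | .leaf, .leaf => True
  | .node l cs, .node l' cs' => l ≤ l' ∧ l' ≤ R ∧ LT.Belows R l' cs cs'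
  | _, _ => False
/-- `LT.Below` for forests under a node of level `l'` -/
def LT.Belows (R l' : ℕ) : LF → LF → Prop
  | .nil, .nil => True
  | .cons c cs, .cons c' cs' => l' ≤ c.top R ∧ LT.Below R c c' ∧ LT.Belows R l' cs cs'
  | _, _ => False
end

lemma LT.Below.top_le {R : ℕ} {t t' : LT} (h : LT.Below R t t') :
    t.top R ≤ t'.top R ∧ t'.top R ≤ R := by
  cases t <;> cases t' <;> simp only [LT.Below] at h
  · exact ⟨le_rfl, le_rfl⟩
  · exact ⟨h.1, h.2.1⟩

lemma LT.Wf.lt_top {R lo : ℕ} {t : LT} (h : LT.Wf R lo t) (hlo : lo < R) : lo < t.top R := by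
  cases t with
  | leaf => exact hlo
  | node l cs => rw [LT.Wf] at h; exact h.1

lemma LT.Wf.top_le {R lo : ℕ} {t : LT} (h : LT.Wf R lo t) : t.top R ≤ R := by
  cases t with
  | leaf => exact le_rfl
  | node l cs => rw [LT.Wf] at h; exact h.2.1.le

mutual
theorem LT.below_shift {R : ℕ} : ∀ {t : LT} {lo : ℕ}, LT.Wf R lo t → LT.Below R t t.shift
  | .leaf, _, _ => by simp [LT.shift, LT.map, LT.Below]
  | .node l cs, lo, h => by
    rw [LT.Wf] at h
    rw [LT.shift, LT.map, LT.Below]
    exact ⟨Nat.le_succ _, h.2.1, LT.belows_shift h.2.1 h.2.2.2⟩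
theorem LT.belows_shift {R : ℕ} : ∀ {cs : LF} {l : ℕ}, l < R → LT.Wfs R l cs →
    LT.Belows R (l + 1) cs (LT.maps (· + 1) cs)
  | .nil, _, _, _ => by simp [LT.maps, LT.Belows]
  | .cons c cs, l, hl, h => by
    rw [LT.Wfs] at h
    rw [LT.maps, LT.Belows]
    exact ⟨h.1.lt_top hl, LT.below_shift h.1, LT.belows_shift hl h.2⟩
end

mutual
/-- oscillation of node values between the levels of `t` and those of `t'` -/
noncomputable def osc {N : ℕ} (R : ℕ) (m : ℕ → ℝ) (w : List Ω → ℝ)
    (rd : List Ω → Fin N → Bool) : LT → LT → ℝ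
  | .node l cs, .node l' cs' => oscs R m w rd l l' cs cs'
  | _, _ => 0
/-- oscillation of a forest under a node moved from level `l` to level `l'` -/
noncomputable def oscs {N : ℕ} (R : ℕ) (m : ℕ → ℝ) (w : List Ω → ℝ)
    (rd : List Ω → Fin N → Bool) (l l' : ℕ) : LF → LF → ℝ
  | .cons c cs, .cons c' cs' =>
      Real.sqrt (Lam R m w rd c l' - Lam R m w rd c l) + osc R m w rd c c' +
        oscs R m w rd l l' cs cs'
  | _, _ => 0
end

section stability

variable {N : ℕ} {rd : List Ω → Fin N → Bool} [Nonempty Ω] (hw : ∀ p, 0 < w p)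
include hw

lemma level_le_top {t t' : LT} {η : ℕ} (h : t.top R ≤ t'.top R) (h' : t'.top R ≤ R)
    (hη : η ≤ t.top R) :
    up R m w η [] (fun q => nrm (nv R m w rd t' q - nv R m w rd t q)) ≤
      up R m w (t'.top R) []
        (fun p => nrm (nv R m w rd t' p - nv R m w rd t (p.take (t.top R)))) := by
  rw [← up_tower (Nat.zero_le η) (hη.trans h) h']
  refine up_mono_on hw (Nat.zero_le η) fun q hq _ => ?_
  have e : nv R m w rd t' q - nv R m w rd t q = fun v => ext m (Z m w (R - t'.top R))
      (t'.top R - q.length) q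
      fun p => (nv R m w rd t' p - nv R m w rd t (p.take (t.top R))) v := by
    funext v
    have a := nv_martingale (m := m) (w := w) (rd := rd) (pre := q) h' (hq ▸ hη.trans h) le_rfl v
    have b := nv_martingale (m := m) (w := w) (rd := rd) (pre := q) (h.trans h') (hq ▸ hη) le_rfl v
    rw [← up_take (R := R) (m := m) hw (b := t'.top R) (hq ▸ hη) h h'
      (fun p => nv R m w rd t p v)] at b
    simp only [Pi.sub_apply, ← a, ← b]
    exact (up_sub _ _ _ _).symm
  rw [e]
  exact nrm_ext_le (Z_pos hw _) _ _ _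

mutual
/-- stability of the top values under a level shift -/
theorem top_osc : ∀ t t' : LT, LT.Below R t t' →
    up R m w (t'.top R) []
      (fun p => nrm (nv R m w rd t' p - nv R m w rd t (p.take (t.top R)))) ≤ osc R m w rd t t'
  | .leaf, .leaf, _ => by
    simp only [osc, LT.top]
    refine (up_mono_on hw (Nat.zero_le R) (G := fun _ => 0) fun q hq _ => ?_).trans_eq
      (up_const hw _ _ _)
    rw [List.take_of_length_le hq.le, sub_self]
    exact nrm_le_of_abs le_rfl fun v => by simp
  | .node l cs, .node l' cs', h => by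
    simp only [LT.Below] at h
    simp only [osc, LT.top]
    refine le_of_eq_of_le (up_congr (Nat.zero_le l') fun q hq _ => ?_)
      (kids_osc l l' h.1 h.2.1 cs cs' h.2.2)
    refine congrArg nrm (funext fun v => ?_)
    simp only [Pi.sub_apply]
    rw [nv_node_self hq, nv_node_self (by simp [hq, h.1])]
  | .leaf, .node _ _, h => by simp [LT.Below] at h
  | .node _ _, .leaf, h => by simp [LT.Below] at h
/-- stability of the products under a level shift -/
theorem kids_osc (l l' : ℕ) (hl : l ≤ l') (hl' : l' ≤ R) : ∀ cs cs' : LF,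
    LT.Belows R l' cs cs' →
    up R m w l' [] (fun p => nrm (nvs R m w rd cs' p - nvs R m w rd cs (p.take l))) ≤
      oscs R m w rd l l' cs cs'
  | .nil, .nil, _ => by
    simp only [oscs]
    refine (up_mono hw (G := fun _ => 0) fun q => ?_).trans_eq (up_const hw _ _ _)
    exact nrm_le_of_abs le_rfl fun v => by simp [nvs]
  | .cons c cs, .cons c' cs', h => by
    simp only [LT.Belows] at h
    simp only [oscs]
    have htop := h.2.1.top_le
    have a := (level_le_top hw (rd := rd) (m := m) htop.1 htop.2 h.1).trans (top_osc c c' h.2.1)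
    have b : up R m w l' [] (fun p => nrm (nv R m w rd c p - nv R m w rd c (p.take l))) ≤
        Real.sqrt (Lam R m w rd c l' - Lam R m w rd c l) := by
      rw [← up_increment hw (htop.1.trans htop.2) hl h.1]
      exact ext_sqrt_le (Z_pos hw _) _ _ fun p => ip_nonneg _
    have d := kids_osc l l' hl hl' cs cs' h.2.2
    refine le_trans (up_mono hw (G := fun p =>
      nrm (nv R m w rd c p - nv R m w rd c (p.take l)) +
        nrm (nv R m w rd c' p - nv R m w rd c p) +
        nrm (nvs R m w rd cs' p - nvs R m w rd cs (p.take l))) fun p => ?_) ?_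
    · refine le_trans (le_trans (nrm_mono fun v => ?_) (nrm_add_le
        (fun v => |nv R m w rd c' p v - nv R m w rd c (p.take l) v|)
        (fun v => |nvs R m w rd cs' p v - nvs R m w rd cs (p.take l) v|))) ?_
      · simp only [Pi.sub_apply, Pi.add_apply, nvs]
        refine le_trans ?_ (le_abs_self _)
        set x := nv R m w rd c' p v
        set y := nv R m w rd c (p.take l) v
        set z := nvs R m w rd cs' p v
        set u := nvs R m w rd cs (p.take l) v
        calc |x * z - y * u| = |(x - y) * z + y * (z - u)| := by ring_nf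
          _ ≤ |(x - y) * z| + |y * (z - u)| := abs_add_le _ _
          _ ≤ |x - y| + |z - u| := by
            rw [abs_mul, abs_mul]
            exact add_le_add (mul_le_of_le_one_right (abs_nonneg _) (abs_nvs_le hw _ _ _))
              (mul_le_of_le_one_left (abs_nonneg _) (abs_nv_le hw _ _ _))
      · refine add_le_add ?_ (nrm_mono fun v => by simp)
        refine le_trans (le_trans (nrm_mono fun v => ?_) (nrm_add_le
          (nv R m w rd c' p - nv R m w rd c p) (nv R m w rd c p - nv R m w rd c (p.take l))))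
          (add_comm _ _).le
        simp
    · rw [up_add, up_add]
      exact add_le_add (add_le_add b a) d
  | .nil, .cons _ _, h => by simp [LT.Belows] at h
  | .cons _ _, .nil, h => by simp [LT.Belows] at h
end

/-- stability of the values at a level above both tops -/
theorem level_osc {t t' : LT} (h : LT.Below R t t') {η : ℕ} (hη : η ≤ t.top R) :
    up R m w η [] (fun q => nrm (nv R m w rd t' q - nv R m w rd t q)) ≤ osc R m w rd t t' :=
  (level_le_top hw h.top_le.1 h.top_le.2 hη).trans (top_osc hw t t' h)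

omit hw [Nonempty Ω] in
lemma osc_node (l l' : ℕ) (cs cs' : LF) :
    osc R m w rd (.node l cs) (.node l' cs') = oscs R m w rd l l' cs cs' := by rw [osc]

lemma osc_nonneg {t t' : LT} (h : LT.Below R t t') : 0 ≤ osc R m w rd t t' :=
  (up_nonneg hw fun _ => nrm_nonneg _).trans (top_osc hw t t' h)

/-- stability at level `η`, as a replica expectation -/
theorem ET_level_osc {t t' : LT} (h : LT.Below R t t') {η : ℕ} (hη : η ≤ t.top R) :
    ET R m w [(0, 0)] (fun ps =>
      nrm (nv R m w rd t' ((ps.getD 0 []).take η) - nv R m w rd t ((ps.getD 0 []).take η))) ≤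
        osc R m w rd t t' := by
  rw [ET_path hw ((hη.trans h.top_le.1).trans h.top_le.2)
    fun q => nrm (nv R m w rd t' q - nv R m w rd t q)]
  exact level_osc hw h hη

/-- stability at the tops, as a replica expectation -/
theorem ET_top_osc {t t' : LT} (h : LT.Below R t t') :
    ET R m w [(0, 0)] (fun ps => nrm (nv R m w rd t' ((ps.getD 0 []).take (t'.top R)) -
      nv R m w rd t ((ps.getD 0 []).take (t.top R)))) ≤ osc R m w rd t t' := by
  refine le_of_eq_of_le ?_ (top_osc hw t t' h)
  rw [← ET_path hw h.top_le.2]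
  refine congrArg _ (funext fun ps => ?_)
  rw [List.take_take, min_eq_left h.top_le.1]

/-! ### purities -/

lemma dev_le_two (t : LT) (η : ℕ) (p : List Ω) (v : Fin N) :
    |dev R m w rd t η p v| ≤ 2 := by
  rw [dev]
  exact (abs_sub _ _).trans (by
    linarith [abs_nv_le hw (R := R) (m := m) (rd := rd) t (p.take (t.top R)) v,
      abs_nv_le hw (R := R) (m := m) (rd := rd) t (p.take η) v])

theorem dtwin_nonneg (t : LT) (η : ℕ) : 0 ≤ dtwin R m w rd t η :=
  ET_nonneg hw fun _ => sq_nonneg _

/-- the purity as an iterated expectation -/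
theorem dtwin_eq {t : LT} (ht : t.top R ≤ R) {η : ℕ} (hη : η ≤ t.top R) :
    dtwin R m w rd t η = up R m w η [] fun q => up R m w (t.top R) q fun a =>
      up R m w (t.top R) q fun b =>
        ip (nv R m w rd t a - nv R m w rd t q) (nv R m w rd t b - nv R m w rd t q) ^ 2 := by
  rw [← twin_law hw hη ht]
  refine ET_congr (valid_cons_of (T := [(0, 0)]) (show Valid R [(0, 0)] from ⟨rfl, rfl⟩) (by simp)
    (hη.trans ht)) fun ps hs => ?_
  have e := hs.2.2 0 1 (by simp) (by simp)
  simp [sp, min_eq_left (hη.trans ht)] at e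
  show ip (fun v => dev R m w rd t η _ v) (fun v => dev R m w rd t η _ v) ^ 2 = _
  simp only [dev, List.getD_eq_getElem?_getD]
  rw [e]
  rfl

lemma centred {t : LT} (ht : t.top R ≤ R) {q : List Ω} (hq : q.length ≤ t.top R)
    (x : Fin N → ℝ) :
    up R m w (t.top R) q (fun b => ip x (nv R m w rd t b - nv R m w rd t q) ^ 2) =
      up R m w (t.top R) q (fun b => ip x (nv R m w rd t b) ^ 2) -
        ip x (nv R m w rd t q) ^ 2 := by
  have e : up R m w (t.top R) q (fun b => ip x (nv R m w rd t b)) =
      ip x (nv R m w rd t q) := by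
    rw [up, ← ext_ip_right]
    exact congrArg _ (funext fun v => nv_martingale ht hq le_rfl v)
  have f : ∀ a c : ℝ, (a - c) ^ 2 = a ^ 2 - 2 * c * a + c ^ 2 := fun a c => by ring
  simp only [ip_sub_right, f, up_add, up_sub, up_const_mul, e, up_const hw]
  ring

/-- the purity is at most the variance of the overlap given one replica -/
theorem dtwin_le {t : LT} (ht : t.top R ≤ R) {η : ℕ} (hη : η ≤ t.top R) :
    dtwin R m w rd t η ≤
      ET R m w [(0, η), (0, 0)] (fun ps => twinK R m w rd t (ps.getD 0 []) (ps.getD 1 []) ^ 2) -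
      ET R m w [(0, η), (0, 0)] (fun ps => ip (nv R m w rd t ((ps.getD 0 []).take (t.top R)))
        (nv R m w rd t ((ps.getD 0 []).take η)) ^ 2) := by
  unfold twinK
  rw [dtwin_eq hw ht hη,
    twin_law hw hη ht (fun _ a b => ip (nv R m w rd t a) (nv R m w rd t b) ^ 2),
    twin_law hw hη ht (fun q a _ => ip (nv R m w rd t a) (nv R m w rd t q) ^ 2), ← up_sub]
  refine up_mono_on hw (Nat.zero_le η) fun q hq _ => ?_
  have hql : q.length ≤ t.top R := hq ▸ hη
  simp only [up_const hw, ← up_sub, ← centred hw ht hql]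
  simp only [up]
  rw [ext_comm]
  conv_rhs => rw [ext_comm]
  refine ext_mono (Z_pos hw _) fun b => ?_
  set y := nv R m w rd t b - nv R m w rd t q
  simp only [ip_comm _ y]
  refine (centred hw ht hql y).trans_le ?_
  exact sub_le_self _ (sq_nonneg _)

/-- stability of the purity under a level shift -/
theorem dtwin_stable {t t' : LT} (h : LT.Below R t t') {η : ℕ} (hη : η ≤ t.top R) :
    |dtwin R m w rd t' η - dtwin R m w rd t η| ≤ 64 * osc R m w rd t t' := by
  have hR := h.top_le
  have hv : Valid R [(0, η), (0, 0)] := ⟨by simp, (hη.trans hR.1).trans hR.2, rfl, rfl⟩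
  set D : List Ω → ℝ := fun p =>
    nrm (nv R m w rd t' (p.take (t'.top R)) - nv R m w rd t (p.take (t.top R))) +
      nrm (nv R m w rd t' (p.take η) - nv R m w rd t (p.take η)) with hD
  have hDp : up R m w R [] D ≤ 2 * osc R m w rd t t' := by
    rw [← ET_marginal hw (T := [(0, 0)]) ⟨rfl, rfl⟩ (p := 0) (by simp) D]
    simp only [hD, ET_add]
    linarith [ET_top_osc hw (rd := rd) (m := m) h, ET_level_osc hw (rd := rd) (m := m) h hη]
  have hdev : ∀ p, nrm (dev R m w rd t' η p - dev R m w rd t η p) ≤ D p := fun p => by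
    refine le_trans (le_of_eq (congrArg nrm (funext fun v => ?_))) (nrm_sub_le _ _)
    simp only [dev, Pi.sub_apply]; ring
  rw [dtwin, dtwin, ← ET_sub]
  refine (ET_abs_le hw _ _).trans (le_trans (ET_mono hw (G := fun ps =>
    16 * D (ps.getD 0 []) + 16 * D (ps.getD 1 [])) fun ps => ?_) ?_)
  · set x := dev R m w rd t η (ps.getD 0 [])
    set x' := dev R m w rd t' η (ps.getD 0 [])
    set y := dev R m w rd t η (ps.getD 1 [])
    set y' := dev R m w rd t' η (ps.getD 1 [])
    have hx : ∀ v, |x v| ≤ 2 := dev_le_two hw _ _ _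
    have hx' : ∀ v, |x' v| ≤ 2 := dev_le_two hw _ _ _
    have hy : ∀ v, |y v| ≤ 2 := dev_le_two hw _ _ _
    have hy' : ∀ v, |y' v| ≤ 2 := dev_le_two hw _ _ _
    have d : ip x' y' - ip x y = ip (x' - x) y' + ip x (y' - y) := by
      rw [ip_sub_left, ip_sub_right]; ring
    have d1 : |ip (x' - x) y'| ≤ D (ps.getD 0 []) * 2 := (abs_ip_le_nrm _ _).trans
      (mul_le_mul (hdev _) (nrm_le_of_abs zero_le_two hy') (nrm_nonneg _)
        ((nrm_nonneg _).trans (hdev _)))
    have d2 : |ip x (y' - y)| ≤ 2 * D (ps.getD 1 []) := (abs_ip_le_nrm _ _).trans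
      (mul_le_mul (nrm_le_of_abs zero_le_two hx) (hdev _) (nrm_nonneg _) zero_le_two)
    calc |ip x' y' ^ 2 - ip x y ^ 2| = |ip x' y' - ip x y| * |ip x' y' + ip x y| := by
          rw [← abs_mul]; ring_nf
      _ ≤ (D (ps.getD 0 []) * 2 + 2 * D (ps.getD 1 [])) * (2 * 2 + 2 * 2) := by
          have n1 := (abs_nonneg _).trans d1
          have n2 := (abs_nonneg _).trans d2
          refine mul_le_mul ?_ ?_ (abs_nonneg _) (by linarith)
          · rw [d]; exact (abs_add_le _ _).trans (add_le_add d1 d2)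
          · exact (abs_add_le _ _).trans (add_le_add (abs_ip_le zero_le_two zero_le_two hx' hy')
              (abs_ip_le zero_le_two zero_le_two hx hy))
      _ = _ := by ring
  · rw [ET_add, ET_const_mul, ET_const_mul, ET_marginal hw hv (by simp) D,
      ET_marginal hw hv (by simp) D]
    linarith

/-- a bounded function of the older replicas is nearly orthogonal to the newest deviation -/
theorem ET_dev_ip_le {t : LT} (ht : t.top R ≤ R) {η : ℕ} (hη : η ≤ t.top R)
    {T : List (ℕ × ℕ)} (hT : Valid R T) {p : ℕ} (hp : p < T.length)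
    (B : List (List Ω) → Fin N → ℝ) (hB : ∀ ps v, |B ps v| ≤ 1) :
    ET R m w ((p, η) :: T) (fun ps =>
      ip (dev R m w rd t η (ps.getD T.length [])) (B ps.dropLast) ^ 2) ≤
        Real.sqrt (dtwin R m w rd t η) := by
  set D : List Ω → ℝ := fun q => up R m w (t.top R) q fun a => up R m w (t.top R) q fun b =>
    ip (nv R m w rd t a - nv R m w rd t q) (nv R m w rd t b - nv R m w rd t q) ^ 2 with hD
  have hD0 : ∀ q, 0 ≤ D q := fun q => up_nonneg hw fun _ => up_nonneg hw fun _ => sq_nonneg _
  have e : ET R m w T (fun ps => D ((ps.getD p []).take η)) = dtwin R m w rd t η := by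
    rw [dtwin_eq hw ht hη, ET_marginal hw hT hp fun q => D (q.take η),
      up_take hw (Nat.zero_le η) (hη.trans ht) le_rfl]
  rw [← e]
  refine le_trans ?_ (ET_sqrt_le hw T fun ps => hD0 _)
  rw [ET_cons]
  refine ET_mono_on hw hT fun ps hs => ?_
  set q := (ps.getD p []).take η
  have hq : q.length = η := by simp [q, -List.getD_eq_getElem?_getD, hs.2.1 p hp]; omega
  have hqt : q.length ≤ t.top R := hq ▸ hη
  refine le_of_eq_of_le ?_ (ext_ip_sq_le (m := m) (Z_pos hw (R - t.top R))
    (t.top R - q.length) q (fun a => nv R m w rd t a - nv R m w rd t q) (hB ps))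
  rw [show R - η = R - q.length by rw [hq], ← up_top]
  refine Eq.trans ?_ (up_take hw hqt ht le_rfl
    (fun a => ip (nv R m w rd t a - nv R m w rd t q) (B ps) ^ 2))
  refine up_congr (hqt.trans ht) fun a _ ha => ?_
  rw [List.dropLast_concat, List.getD_append_right _ _ _ _ hs.1.le, hs.1, Nat.sub_self]
  show ip (fun v => dev R m w rd t η _ v) _ ^ 2 = _
  simp only [dev, List.getD_cons_zero]
  rw [show a.take η = q by rw [← hq, ha]]
  rfl

/-- square roots of increments over a window of levels -/
theorem Lam_window {t : LT} (ht : t.top R ≤ R) {a b : ℕ} (hb : b ≤ t.top R) :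
    ∑ l ∈ Ico a b, Real.sqrt (Lam R m w rd t (l + 1) - Lam R m w rd t l) ≤
      Real.sqrt ((b - a : ℕ) : ℝ) :=
  sum_sqrt_increment_le (fun l _ _ => Lam_mem hw t l)
    fun l _ hl => Lam_mono hw ht (Nat.le_succ l) ((Nat.succ_le_of_lt hl).trans hb)

end stability

end Vale.Agent.P168.MP
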