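import Vale.Agent.P168.MP.Expo

/-! Finitely many tree moments approximate nested log power means, uniformly in the averages. -/

namespace Vale.Agent.P168.MP

open Real

/-- rooted tree, as first child and the rest -/
inductive Tree : Type
  | nil : Tree
  | cons : Tree → Tree → Tree

/-- children of the root -/
def Tree.children : Tree → List Tree
  | .nil => []
  | .cons c t => c :: t.children

/-- the tree with the given children -/
def Tree.node : List Tree → Tree
  | [] => .nil
  | c :: cs => .cons c (Tree.node cs)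

@[simp] lemma Tree.children_node (cs : List Tree) : (Tree.node cs).children = cs := by
  induction cs with
  | nil => rfl
  | cons c cs ih => simp [Tree.node, Tree.children, ih]

lemma Tree.node_children (t : Tree) : Tree.node t.children = t := by
  induction t with
  | nil => rfl
  | cons c t _ ih => simp [Tree.node, Tree.children, ih]

variable {N : Type*}

/-- Tree moment: a node at level `l` carries the product over its children of the average of the
child's moment; at depth zero it carries `Y ^ (number of children)`. -/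
noncomputable def mono (E : ℕ → (N → ℝ) → N → ℝ) (Y : N → ℝ) : ℕ → ℕ → Tree → N → ℝ
  | _, 0, t => fun x => Y x ^ t.children.length
  | l, k + 1, t => fun x => (t.children.map fun c => E l (mono E Y (l + 1) k c) x).prod

/-- linear combination of tree moments -/
noncomputable def comb (E : ℕ → (N → ℝ) → N → ℝ) (Y : N → ℝ) (l k : ℕ) (P : List (ℝ × Tree))
    (x : N) : ℝ :=
  (P.map fun p => p.1 * mono E Y l k p.2 x).sum

/-- functionals which are combinations of tree moments, uniformly in the averages -/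
def IsComb (l k : ℕ) (F : ∀ (N : Type), (ℕ → (N → ℝ) → N → ℝ) → (N → ℝ) → N → ℝ) : Prop :=
  ∃ P : List (ℝ × Tree), ∀ (N : Type) (E : ℕ → (N → ℝ) → N → ℝ), (∀ i, IsMean (E i)) →
    ∀ Y x, F N E Y x = comb E Y l k P x

/-- merge the roots -/
def Tree.mul (s t : Tree) : Tree := .node (s.children ++ t.children)

lemma mono_mul (E : ℕ → (N → ℝ) → N → ℝ) (Y : N → ℝ) (l : ℕ) :
    ∀ k (s t : Tree) x, mono E Y l k (s.mul t) x = mono E Y l k s x * mono E Y l k t x
  | 0, s, t, x => by simp [Tree.mul, mono, pow_add]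
  | k + 1, s, t, x => by simp [Tree.mul, mono]

lemma comb_append (E : ℕ → (N → ℝ) → N → ℝ) (Y : N → ℝ) (l k : ℕ) (P Q : List (ℝ × Tree)) (x : N) :
    comb E Y l k (P ++ Q) x = comb E Y l k P x + comb E Y l k Q x := by
  simp [comb]

lemma comb_smul (E : ℕ → (N → ℝ) → N → ℝ) (Y : N → ℝ) (l k : ℕ) (c : ℝ) (t : Tree)
    (P : List (ℝ × Tree)) (x : N) :
    comb E Y l k (P.map fun p => (c * p.1, t.mul p.2)) x
      = c * mono E Y l k t x * comb E Y l k P x := by
  induction P with
  | nil => simp [comb]
  | cons p P ih =>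
    simp only [comb, List.map_cons, List.sum_cons, mono_mul] at ih ⊢
    rw [ih]; ring

lemma isComb_const (l k : ℕ) (c : ℝ) : IsComb l k fun _ _ _ _ => c :=
  ⟨[(c, .node [])], fun N E _ Y x => by cases k <;> simp [comb, mono]⟩

lemma IsComb.add {l k : ℕ} {F G} (hF : IsComb l k F) (hG : IsComb l k G) :
    IsComb l k fun N E Y x => F N E Y x + G N E Y x := by
  obtain ⟨P, hP⟩ := hF; obtain ⟨Q, hQ⟩ := hG
  exact ⟨P ++ Q, fun N E hE Y x => by simp only [comb_append, hP N E hE, hQ N E hE]⟩

lemma IsComb.mul {l k : ℕ} {F G} (hF : IsComb l k F) (hG : IsComb l k G) :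
    IsComb l k fun N E Y x => F N E Y x * G N E Y x := by
  obtain ⟨P, hP⟩ := hF; obtain ⟨Q, hQ⟩ := hG
  refine ⟨P.flatMap fun p => Q.map fun q => (p.1 * q.1, p.2.mul q.2), fun N E hE Y x => ?_⟩
  simp only [hP N E hE, hQ N E hE]
  clear hP
  induction P with
  | nil => simp [comb]
  | cons p P ih =>
    rw [List.flatMap_cons, comb_append, comb_smul, ← ih,
      show comb E Y l k (p :: P) x = p.1 * mono E Y l k p.2 x + comb E Y l k P x by simp [comb]]
    ring

lemma IsComb.eval {l k : ℕ} {F} (hF : IsComb l k F) (p : Polynomial ℝ) :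
    IsComb l k fun N E Y x => p.eval (F N E Y x) := by
  induction p using Polynomial.induction_on' with
  | add p q hp hq => simpa using hp.add hq
  | monomial n a =>
    induction n with
    | zero => simpa using isComb_const l k a
    | succ n ih =>
      obtain ⟨P, hP⟩ := ih.mul hF
      refine ⟨P, fun N E hE Y x => ?_⟩
      rw [← hP N E hE]
      dsimp only
      simp [Polynomial.eval_monomial, pow_succ]; ring

lemma IsComb.mean {l k : ℕ} {F} (hF : IsComb (l + 1) k F) :
    IsComb l (k + 1) fun N E Y x => E l (F N E Y) x := by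
  obtain ⟨P, hP⟩ := hF
  refine ⟨P.map fun p => (p.1, .node [p.2]), fun N E hE Y x => ?_⟩
  simp only [show F N E Y = comb E Y (l + 1) k P from funext (hP N E hE Y)]
  clear hP
  induction P with
  | nil =>
    rw [show comb E Y (l + 1) k [] = fun _ => 0 from funext fun y => by simp [comb], (hE l).const]
    simp [comb]
  | cons p P ih =>
    rw [show comb E Y (l + 1) k (p :: P)
        = fun y => p.1 * mono E Y (l + 1) k p.2 y + comb E Y (l + 1) k P y from
      funext fun y => by simp [comb], (hE l).add, (hE l).smul, ih]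
    simp [comb, mono]

/-- Continuous functions of a nested log power mean are uniform limits of tree moments. -/
theorem exists_comb_near {e : ℕ → ℝ} (he : ∀ i, 0 ≤ e i) (C : ℝ) :
    ∀ (k l : ℕ) (φ : ℝ → ℝ), Continuous φ → ∀ ε > 0, ∃ P : List (ℝ × Tree),
      ∀ (N : Type) (E : ℕ → (N → ℝ) → N → ℝ), (∀ i, IsMean (E i)) → ∀ g : N → ℝ,
        (∀ y, |g y| ≤ C) → ∀ x,
          |φ (nestLog E e g l k x) - comb E (fun y => exp (g y)) l k P x| ≤ ε
  | 0, l, φ, hφ, ε, hε => by
    obtain ⟨p, hp⟩ := exists_polynomial_near_of_continuousOn (exp (-C)) (exp C) (fun z => φ (log z))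
      (hφ.comp_continuousOn (continuousOn_log.mono fun z hz =>
        (lt_of_lt_of_le (exp_pos _) hz.1).ne')) ε hε
    have hY : IsComb l 0 fun N E Y x => Y x := ⟨[(1, .node [.node []])], fun N E _ Y x => by
      simp [comb, mono]⟩
    obtain ⟨P, hP⟩ := hY.eval p
    refine ⟨P, fun N E hE g hg x => ?_⟩
    rw [← hP N E hE, abs_sub_comm]
    have := hp (exp (g x)) ⟨exp_le_exp.2 (abs_le.1 (hg x)).1, exp_le_exp.2 (abs_le.1 (hg x)).2⟩
    simp only [log_exp] at this
    exact this.le
  | k + 1, l, φ, hφ, ε, hε => by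
    -- `lmean` is `ψ` of the average of `χ`
    obtain ⟨χ, ψ, hχ, a, b, hψ, hrepr⟩ : ∃ (χ ψ : ℝ → ℝ), Continuous χ ∧ ∃ a b : ℝ,
        ContinuousOn ψ (Set.Icc a b) ∧ ∀ (N : Type) (E : (N → ℝ) → N → ℝ), IsMean E →
          ∀ g : N → ℝ, (∀ y, |g y| ≤ C) → ∀ x, φ (lmean E (e l) g x) = ψ (E (fun y => χ (g y)) x) ∧
            ∀ d, |d - E (fun y => χ (g y)) x| ≤ exp (-(e l * C)) / 2 → d ∈ Set.Icc a b := by
      rcases (he l).eq_or_lt with h | h
      · refine ⟨id, φ, continuous_id, -C - 1, C + 1, hφ.continuousOn, fun N E hE g hg x => ?_⟩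
        refine ⟨by simp [lmean, h.symm], fun d hd => ?_⟩
        simp [← h] at hd
        have := abs_le.1 (hE.abs_le g C x hg)
        have hd := abs_le.1 hd
        exact ⟨by linarith, by linarith⟩
      · refine ⟨fun z => exp (e l * z), fun z => φ (log z / e l), by fun_prop,
          exp (-(e l * C)) / 2, exp (e l * C) + exp (-(e l * C)) / 2,
          hφ.comp_continuousOn ((continuousOn_log.mono fun z hz =>
            (lt_of_lt_of_le (by positivity) hz.1).ne').div_const _), fun N E hE g hg x => ?_⟩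
        refine ⟨by simp [lmean, h.ne'], fun d hd => ?_⟩
        have h1 : exp (-(e l * C)) ≤ E (fun y => exp (e l * g y)) x :=
          hE.const_le _ _ x fun y => exp_le_exp.2 (by nlinarith [(abs_le.1 (hg y)).1])
        have h2 : E (fun y => exp (e l * g y)) x ≤ exp (e l * C) :=
          hE.le_const _ _ x fun y => exp_le_exp.2 (by nlinarith [(abs_le.1 (hg y)).2])
        have hd := abs_le.1 hd
        exact ⟨by linarith, by linarith⟩
    obtain ⟨q, hq⟩ := exists_polynomial_near_of_continuousOn a b ψ hψ (ε / 2) (half_pos hε)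
    obtain ⟨η, hη, hqc⟩ := Metric.uniformContinuousOn_iff.1
      (isCompact_Icc.uniformContinuousOn_of_continuous (q.continuous.continuousOn (s := Set.Icc a b)))
      (ε / 2) (half_pos hε)
    obtain ⟨P, hP⟩ := exists_comb_near he C k (l + 1) χ hχ
      (min (η / 2) (exp (-(e l * C)) / 2)) (lt_min (half_pos hη) (by positivity))
    obtain ⟨Q, hQ⟩ := (IsComb.mean (F := fun N E Y x => comb E Y (l + 1) k P x)
      ⟨P, fun _ _ _ _ _ => rfl⟩).eval q
    refine ⟨Q, fun N E hE g hg x => ?_⟩
    rw [← hQ N E hE]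
    simp only [nestLog]
    have m := nestLog_mem hE hg (e := e) k (l + 1) fun i _ _ => he i
    obtain ⟨hr, hmem⟩ := hrepr N (E l) (hE l) _ m x
    rw [hr]
    set d := E l (fun y => χ (nestLog E e g (l + 1) k y)) x
    set d' := E l (fun y => comb E (fun y => exp (g y)) (l + 1) k P y) x
    have hdd : |d - d'| ≤ min (η / 2) (exp (-(e l * C)) / 2) :=
      (hE l).dist_le _ _ _ x fun y => hP N E hE g hg y
    have hd : d ∈ Set.Icc a b := hmem d (by simp; positivity)
    have hd' : d' ∈ Set.Icc a b := hmem d' (by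
      rw [abs_sub_comm]; exact hdd.trans (min_le_right _ _))
    have e1 := hqc d hd d' hd' (by
      rw [Real.dist_eq]; exact (hdd.trans (min_le_left _ _)).trans_lt (half_lt_self hη))
    have e2 := hq d hd
    rw [Real.dist_eq] at e1
    calc |ψ d - q.eval d'| ≤ |ψ d - q.eval d| + |q.eval d - q.eval d'| := abs_sub_le _ _ _
      _ ≤ ε := by rw [abs_sub_comm (ψ d)]; linarith

/-- E2: finitely many trees and coefficients depending only on `(L, e, C, ε)`. -/
theorem exists_tree_moments {e : ℕ → ℝ} (he : ∀ i, 0 ≤ e i) (C : ℝ) (l L : ℕ) {ε : ℝ}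
    (hε : 0 < ε) :
    ∃ P : List (ℝ × Tree), ∀ (N : Type) (E : ℕ → (N → ℝ) → N → ℝ), (∀ i, IsMean (E i)) →
      ∀ g : N → ℝ, (∀ y, |g y| ≤ C) → ∀ x,
        |nestLog E e g l L x - comb E (fun y => exp (g y)) l L P x| ≤ ε :=
  exists_comb_near he C L l id continuous_id ε hε

end Vale.Agent.P168.MP
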