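import Vale.Agent.P168.MP.Shape
import Vale.Agent.P168.MP.Moments

/-! The averages of the coarse structure: true blocks, and independent slots for the trial.

`J : ℕ → ℕ` lists the layer levels with `J 0 = 0`; block `l` is the levels `J l + 1, …, J (l+1)`.
A trial slot carries a site and a prefix of its own; block `0` also draws the site. -/

namespace Vale.Agent.P168.MP

open Finset

variable {Ω : Type} [Fintype Ω] {N : ℕ}

/-- average over block `l` below a prefix -/
noncomputable def blockMean (R : ℕ) (m : ℕ → ℝ) (w : List Ω → ℝ) (J : ℕ → ℕ) (l : ℕ)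
    (f : List Ω → ℝ) (p : List Ω) : ℝ :=
  up R m w (J (l + 1)) p f

/-- block `0` for one trial slot: a uniform site, then the levels up to `J 1` -/
noncomputable def slotRoot (R : ℕ) (m : ℕ → ℝ) (w : List Ω → ℝ) (J : ℕ → ℕ)
    (f : Fin N × List Ω → ℝ) : ℝ :=
  avg fun v => blockMean R m w J 0 (fun p => f (v, p)) []

/-- independent blocks of the `Q` slots: the average over the slots in turn -/
noncomputable def slotsMean (R : ℕ) (m : ℕ → ℝ) (w : List Ω → ℝ) (J : ℕ → ℕ) (l : ℕ) :
    (Q : ℕ) → ((Fin Q → Fin N × List Ω) → ℝ) → (Fin Q → Fin N × List Ω) → ℝ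
  | 0, f, s => f s
  | Q + 1, f, s =>
      if l = 0 then
        slotRoot R m w J fun a =>
          slotsMean R m w J l Q (fun t => f (Fin.cons a t)) (Fin.tail s)
      else
        blockMean R m w J l (fun p =>
          slotsMean R m w J l Q (fun t => f (Fin.cons ((s 0).1, p) t)) (Fin.tail s)) (s 0).2

/-- spins of a table read at the sites `v` in the configuration of a leaf path -/
def readSlots {Q : ℕ} (rd : List Ω → Fin N → Bool) (v : Fin Q → Fin N) (p : List Ω) :
    Fin Q → Bool :=
  fun q => rd p (v q)

/-- true leaf value: the table averaged below the last layer -/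
noncomputable def trueLeaf {Q : ℕ} (R : ℕ) (m : ℕ → ℝ) (w : List Ω → ℝ) (rd : List Ω → Fin N → Bool)
    (Φ : (Fin Q → Bool) → ℝ) (v : Fin Q → Fin N) (p : List Ω) : ℝ :=
  up R m w R p fun q => Φ (readSlots rd v q)

/-- the trial message of a slot: magnetisation of its site below its prefix -/
noncomputable def message (R : ℕ) (m : ℕ → ℝ) (w : List Ω → ℝ) (rd : List Ω → Fin N → Bool)
    (a : Fin N × List Ω) : ℝ :=
  up R m w R a.2 fun q => sg (rd q a.1)

/-- trial leaf value: the table averaged over independent spins with means `message` -/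
noncomputable def trialLeaf {Q : ℕ} (R : ℕ) (m : ℕ → ℝ) (w : List Ω → ℝ)
    (rd : List Ω → Fin N → Bool) (Φ : (Fin Q → Bool) → ℝ) (s : Fin Q → Fin N × List Ω) : ℝ :=
  ∑ σ : Fin Q → Bool, (∏ q, (1 + message R m w rd (s q) * sg (σ q)) / 2) * Φ σ

end Vale.Agent.P168.MP
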