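import Vale.Agent.P168.MP.Prod
import Vale.Agent.P168.MP.Moments

/-! The tilted kernels of a finite structure as averaging operators. -/

namespace Vale.Agent.P168.MP

open Finset Real

variable {Ω : Type*} [Fintype Ω] {R : ℕ} {m : ℕ → ℝ} {w : List Ω → ℝ}

/-- the average over mark number `l + 1` of a path of length `R` -/
noncomputable def stepMean (R : ℕ) (m : ℕ → ℝ) (w : List Ω → ℝ) (l : ℕ) (f : List Ω → ℝ)
    (pre : List Ω) : ℝ :=
  ∑ o, trans m w (R - l - 1) pre o * f (pre ++ [o])

variable [Nonempty Ω]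

lemma isMean_stepMean (hw : ∀ p, 0 < w p) (l : ℕ) : IsMean (stepMean R m w l) where
  add f g x := by simp only [stepMean, mul_add, sum_add_distrib]
  smul c f x := by simp only [stepMean, mul_sum]; exact sum_congr rfl fun o _ => by ring
  mono f g x h := sum_le_sum fun o _ => mul_le_mul_of_nonneg_left (h _) (trans_nonneg hw _ _ _)
  one x := by simp [stepMean, trans_sum hw]

/-- the composition of steps is the marginal of a full extension -/
lemma compMean_step (hw : ∀ p, 0 < w p) (f : List Ω → ℝ) :
    ∀ (a l : ℕ) (pre : List Ω), pre.length = l → l + a ≤ R →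
      compMean (stepMean R m w) l a f pre = ext m w (R - l) pre fun q => f (q.take (l + a))
  | 0, l, pre, hl, _ => by
    rw [compMean, ext_congr (G := fun _ => f pre), ext_const hw]
    intro suf _
    rw [Nat.add_zero, List.take_left' hl]
  | a + 1, l, pre, hl, h => by
    rw [compMean, show R - l = (R - l - 1) + 1 by omega, ext_succ]
    simp only [stepMean]
    refine sum_congr rfl fun o _ => ?_
    rw [compMean_step hw f a (l + 1) (pre ++ [o]) (by simp [hl]) (by omega),
      show R - (l + 1) = R - l - 1 by omega, show l + 1 + a = l + (a + 1) by omega]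

/-- `nest` as a nested log power mean; level `l` has exponent `m (l + 1)` -/
theorem log_nest_eq (hm : Ok R m w) {C : ℝ} {Y : List Ω → ℝ} (hY : ∀ p, 0 < Y p)
    (hC : ∀ p, |log (Y p)| ≤ C) :
    ∀ (k l : ℕ) (pre : List Ω), pre.length = l → l + k = R →
      log (nest m w Y k pre)
        = nestLog (stepMean R m w) (fun i => m (i + 1)) (fun p => log (Y p)) l k pre
  | 0, l, pre, _, _ => rfl
  | k + 1, l, pre, hl, h => by
    have hpos : 0 < m (l + 1) := hm.pos _ (by omega) (by omega)
    have hS : 0 < ∑ o, trans m w k pre o * nest m w Y k (pre ++ [o]) ^ m (pre.length + 1) :=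
      sum_pos (fun o _ => mul_pos (trans_pos hm.wpos k pre o)
        (rpow_pos_of_pos (nest_pos hm.wpos hY k _) _)) univ_nonempty
    rw [nest, log_rpow hS, nestLog, lmean, if_neg hpos.ne', stepMean,
      show R - l - 1 = k by omega, hl, one_div, inv_mul_eq_div]
    congr 2
    refine sum_congr rfl fun o _ => ?_
    rw [← log_nest_eq hm hY hC k (l + 1) (pre ++ [o]) (by simp [hl]) (by omega),
      rpow_def_of_pos (nest_pos hm.wpos hY k _), mul_comm (m (l + 1))]

/-- E1 and coarse graining for a finite structure: exponents within `δ` of a block profile. -/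
theorem abs_log_nest_sub_coarse (hm : Ok R m w) {C δ : ℝ} (hδ : 0 ≤ δ) {Y : List Ω → ℝ}
    (hY : ∀ p, 0 < Y p) (hC : ∀ p, |log (Y p)| ≤ C) {L : ℕ} {J : ℕ → ℕ} (hJ : Monotone J)
    (hJ0 : J 0 = 0) (hJL : J L = R) {M : ℕ → ℝ} (hM0 : ∀ q, 0 ≤ M q) (hM1 : ∀ q, M q ≤ 1)
    (hMm : Monotone M)
    (hclose : ∀ q < L, ∀ i, J q ≤ i → i < J (q + 1) → |m (i + 1) - M q| ≤ δ) :
    |log (nest m w Y R []) -
      nestLog (fun q => compMean (stepMean R m w) (J q) (J (q + 1) - J q)) M
        (fun p => log (Y p)) 0 L []| ≤ expoA C * δ := by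
  classical
  -- the block of a level
  set blk : ℕ → ℕ := fun i => Nat.findGreatest (fun q => J q ≤ i) (L - 1) with hblk
  have hb : ∀ i, i < R → blk i < L ∧ J (blk i) ≤ i ∧ i < J (blk i + 1) := fun i hi => by
    have hL : 0 < L := by
      by_contra h
      obtain rfl : L = 0 := by omega
      omega
    have h1 : blk i ≤ L - 1 := Nat.findGreatest_le _
    refine ⟨by omega, Nat.findGreatest_spec (P := fun q => J q ≤ i) (Nat.zero_le _)
      (show J 0 ≤ i by omega), ?_⟩
    by_contra h
    push Not at h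
    rcases Nat.lt_or_ge (blk i + 1) L with h2 | h2
    · exact Nat.findGreatest_is_greatest (P := fun q => J q ≤ i) (Nat.lt_succ_self _)
        (by omega : blk i + 1 ≤ L - 1) h
    · have := hJ h2; omega
  have huniq : ∀ q < L, ∀ i, J q ≤ i → i < J (q + 1) → blk i = q := fun q hq i h1 h2 => by
    obtain ⟨-, b2, b3⟩ := hb i (by have := hJ (show q + 1 ≤ L by omega); omega)
    rcases Nat.lt_trichotomy (blk i) q with h | h | h
    · have := hJ (show blk i + 1 ≤ q by omega); omega
    · exact h
    · have := hJ (show q + 1 ≤ blk i by omega); omega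
  rw [log_nest_eq hm hY hC R 0 [] rfl (by simp)]
  have hblocks := nestLog_blocks (isMean_stepMean (R := R) (m := m) hm.wpos) (g := fun p => log (Y p))
    hC hJ hM0 L 0 (e := fun i => M (blk i)) fun p _ hp i h1 h2 => by
      rw [huniq p (by omega) i h1 h2]
  rw [Nat.zero_add, hJL, hJ0, Nat.sub_zero] at hblocks
  rw [← hblocks]
  have htop : ∀ i, i < R → m (i + 1) ≤ 1 := fun i hi => by
    rw [← hm.top]
    exact Nat.decreasingInduction' (P := fun j => m j ≤ m R) (fun j hj hj' ih =>
      (hm.mono j (by omega) hj).trans ih) (by omega : i + 1 ≤ R) le_rfl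
  refine abs_nestLog_sub_le (isMean_stepMean hm.wpos) hC hδ 0 R (fun i _ hi => ?_)
    (fun i j _ hij hj => ⟨?_, ?_⟩) []
  · obtain ⟨b1, b2, b3⟩ := hb i (by omega)
    exact ⟨⟨(hm.pos _ (by omega) (by omega)).le, htop i (by omega)⟩, ⟨hM0 _, hM1 _⟩,
      hclose _ b1 i b2 b3⟩
  · obtain ⟨d, rfl⟩ := Nat.exists_eq_add_of_le hij
    clear hij
    induction d with
    | zero => exact le_rfl
    | succ d ih => exact (ih (by omega)).trans (hm.mono _ (by omega) (by omega))
  · exact hMm (Nat.findGreatest_mono (fun q hq => le_trans hq hij) le_rfl)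

end Vale.Agent.P168.MP
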