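import Vale.Agent.P168.MP.Trial
import Vale.Agent.P168.MP.Pert
import Vale.Agent.P168.MP.Prod
import Vale.Agent.P168.MP.Shape

/-! The objects of the cavity computation (section D of ROUTE.md). -/

namespace Vale.Agent.P168.MP

open MeasureTheory Finset Real

/-- Poisson number `r` of independent clauses, each with a uniform label in `P` -/
noncomputable def cex {C P : Type*} [MeasurableSpace C] [Fintype P] (μ : Measure C) (r : ℝ)
    (f : List (C × P) → ℝ) : ℝ :=
  ∑' M : ℕ, pois r M * ∫ w : Fin M → C, av (fun i : Fin M → P => f (List.ofFn fun k => (w k, i k)))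
    ∂Measure.pi (fun _ => μ)

variable {K N S : ℕ} [NeZero N] {ι : Type} [Fintype ι] [DecidableEq ι] {β : ι → Batch}

/-- Boltzmann weight of fields and clauses -/
noncomputable def hamW (f : Fin N → ℝ) (l : List (Clause K × (Fin K → Fin N)))
    (σ : Fin N → Bool) : ℝ :=
  exp ((l.map fun c => theta c.1 fun j => σ (c.2 j)).sum + ∑ x, f x * sg (σ x))

/-- factor of a new spin `s`: its field and the clauses meeting it at slot `ℓ` -/
noncomputable def newFac (f₀ : ℝ) (l : List (Clause K × (Fin K × (Fin K → Fin N))))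
    (σ : Fin N → Bool) (s : Bool) : ℝ :=
  exp (f₀ * sg s + (l.map fun c => theta c.1 (Function.update (fun j => σ (c.2.2 j)) c.2.1 s)).sum)

/-- factor of the clauses among the old spins -/
noncomputable def oldFac (l : List (Clause K × (Fin K → Fin N))) (σ : Fin N → Bool) : ℝ :=
  exp (l.map fun c => theta c.1 fun j => σ (c.2 j)).sum

/-- `E log nest` of a factor of the configuration -/
noncomputable def nestC (R : ℕ) (W : (Fin N → Bool) → ℝ) (h u : ι → ℝ) (Y : (Fin N → Bool) → ℝ) :
    ℝ :=
  log (nest (lin R) (pw (S := S) (β := β) R W h u) (fun p => Y (spinAt R p)) R [])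

/-- the new site minus the clauses between old sites, in the perturbed structure of `W` -/
noncomputable def cavGain (μ : Measure (Clause K)) (ρ : Measure ℝ) (lam : ℝ) (R : ℕ)
    (W : (Fin N → Bool) → ℝ) (h u : ι → ℝ) : ℝ :=
  cex μ (K * lam) (fun l : List (Clause K × (Fin K × (Fin K → Fin N))) =>
      ∫ f₀, nestC (S := S) (β := β) R W h u (fun σ => ∑ s : Bool, newFac f₀ l σ s) ∂ρ) -
    cex μ (((K : ℝ) - 1) * lam) (fun l : List (Clause K × (Fin K → Fin N)) =>
      nestC (S := S) (β := β) R W h u (oldFac l))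

/-- mean perturbed log partition function at size `N` -/
noncomputable def pertA (μ : Measure (Clause K)) (ρ : Measure ℝ) (lam : ℝ) (R N S : ℕ) [NeZero N]
    (h u : ι → ℝ) : ℝ :=
  ∫ f : Fin N → ℝ, cex μ (lam * N) (fun l : List (Clause K × (Fin K → Fin N)) =>
      logZ0 R (lin R) (pw (N := N) (S := S) (β := β) R (hamW f l) h u))
    ∂Measure.pi (fun _ => ρ)

/-- mean gain at size `N`: the common part has the clauses avoiding the new site -/
noncomputable def cavMean (μ : Measure (Clause K)) (ρ : Measure ℝ) (lam : ℝ) (R N S : ℕ) [NeZero N]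
    (h u : ι → ℝ) : ℝ :=
  ∫ f : Fin N → ℝ, cex μ (lam * (N + 1) * ((N : ℝ) / (N + 1)) ^ K)
      (fun l : List (Clause K × (Fin K → Fin N)) =>
        cavGain (S := S) (β := β) μ ρ lam R (hamW f l) h u)
    ∂Measure.pi (fun _ => ρ)

end Vale.Agent.P168.MP
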