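import Vale.Agent.P168.Basic

/-! Poisson mixtures of iterates of averaging operators on Lipschitz functions of an energy
(used in section D of ROUTE.md). -/

open MeasureTheory Real Finset Filter

namespace Vale.Agent.P168.MP.Cav

variable {α : Type*} [Fintype α]

/-- `D`-Lipschitz for the sup norm -/
def Lip (D : ℝ) (G : (α → ℝ) → ℝ) : Prop := ∀ H H', |G H - G H'| ≤ D * ‖H - H'‖

/-- Lipschitz for some nonnegative constant -/
def IsLip (G : (α → ℝ) → ℝ) : Prop := ∃ D, 0 ≤ D ∧ Lip D G

lemma Lip.isLip {D : ℝ} {G : (α → ℝ) → ℝ} (h : Lip D G) (hD : 0 ≤ D) : IsLip G := ⟨D, hD, h⟩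

lemma Lip.continuous {D : ℝ} {G : (α → ℝ) → ℝ} (h : Lip D G) : Continuous G :=
  (LipschitzWith.of_dist_le_mul (K := D.toNNReal) fun H H' => by
    rw [dist_eq_norm, dist_eq_norm, Real.norm_eq_abs]
    exact (h H H').trans (mul_le_mul_of_nonneg_right (Real.le_coe_toNNReal D) (norm_nonneg _))).continuous

lemma IsLip.add {G G' : (α → ℝ) → ℝ} (h : IsLip G) (h' : IsLip G') (a b : ℝ) :
    IsLip fun H => a * G H + b * G' H := by
  obtain ⟨D, hD, h⟩ := h; obtain ⟨D', hD', h'⟩ := h'
  refine ⟨|a| * D + |b| * D', by positivity, fun H H' => ?_⟩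
  rw [show a * G H + b * G' H - (a * G H' + b * G' H') = a * (G H - G H') + b * (G' H - G' H') by ring,
    add_mul, mul_assoc, mul_assoc]
  refine (abs_add_le _ _).trans (add_le_add ?_ ?_) <;> rw [abs_mul]
  · exact mul_le_mul_of_nonneg_left (h H H') (abs_nonneg a)
  · exact mul_le_mul_of_nonneg_left (h' H H') (abs_nonneg b)

lemma Lip.const (c : ℝ) : Lip (α := α) 0 fun _ => c := fun H H' => by simp

/-- an averaging operator whose jumps have norm at most `L` -/
structure IsStep (L : ℝ) (T : ((α → ℝ) → ℝ) → (α → ℝ) → ℝ) : Prop where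
  nonneg : 0 ≤ L
  lip : ∀ {D : ℝ} {G}, 0 ≤ D → Lip D G → Lip D (T G)
  near : ∀ {D : ℝ} {G}, 0 ≤ D → Lip D G → ∀ H, |T G H - G H| ≤ D * L
  mono : ∀ {G G'}, IsLip G → IsLip G' → (∀ H, G H ≤ G' H) → ∀ H, T G H ≤ T G' H
  lin : ∀ {G G'}, IsLip G → IsLip G' → ∀ (a b : ℝ) H,
    T (fun H => a * G H + b * G' H) H = a * T G H + b * T G' H
  const : ∀ (c : ℝ) H, T (fun _ => c) H = c
  tsum : ∀ {D B : ℝ} {p : ℕ → ℝ} {g : ℕ → (α → ℝ) → ℝ}, 0 ≤ D → 0 ≤ B → (∀ j, 0 ≤ p j) →
    Summable p → Summable (fun j => p j * j) → (∀ j, Lip D (g j)) →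
    (∀ j H, |g j H - g 0 H| ≤ B * j) → ∀ H,
    T (fun H => ∑' j, p j * g j H) H = ∑' j, p j * T (g j) H

/-- `∑_M pois r M T^M` -/
noncomputable def Phi (T : ((α → ℝ) → ℝ) → (α → ℝ) → ℝ) (r : ℝ) (G : (α → ℝ) → ℝ) (H : α → ℝ) : ℝ :=
  ∑' M : ℕ, pois r M * T^[M] G H

variable {L D : ℝ} {T T' A B : ((α → ℝ) → ℝ) → (α → ℝ) → ℝ} {G G' : (α → ℝ) → ℝ}

namespace IsStep

lemma isLip (hT : IsStep L T) (hG : IsLip G) : IsLip (T G) := by
  obtain ⟨D, hD, h⟩ := hG; exact ⟨D, hD, hT.lip hD h⟩

lemma isLip_iterate (hT : IsStep L T) (hG : IsLip G) : ∀ M, IsLip (T^[M] G)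
  | 0 => hG
  | M + 1 => by rw [Function.iterate_succ_apply']; exact hT.isLip (hT.isLip_iterate hG M)

lemma lip_iterate (hT : IsStep L T) (hD : 0 ≤ D) (hG : Lip D G) : ∀ M, Lip D (T^[M] G)
  | 0 => hG
  | M + 1 => by rw [Function.iterate_succ_apply']; exact hT.lip hD (hT.lip_iterate hD hG M)

lemma near_iterate (hT : IsStep L T) (hD : 0 ≤ D) (hG : Lip D G) (H : α → ℝ) :
    ∀ M : ℕ, |T^[M] G H - G H| ≤ D * L * M
  | 0 => by simp
  | M + 1 => by
    rw [Function.iterate_succ_apply']
    have h1 := hT.near hD (hT.lip_iterate hD hG M) H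
    have h2 := hT.near_iterate hD hG H M
    refine (abs_sub_le _ (T^[M] G H) _).trans ?_
    push_cast; linarith

/-- comparison up to a constant -/
lemma abs_sub (hT : IsStep L T) (hG : IsLip G) (hG' : IsLip G') {c : ℝ} (h : ∀ H, |G H - G' H| ≤ c)
    (H : α → ℝ) : |T G H - T G' H| ≤ c := by
  have key : ∀ {G G'}, IsLip G → IsLip G' → (∀ H, G H ≤ G' H + c) → T G H ≤ T G' H + c := by
    intro G G' hG hG' h
    have h1 := hT.mono hG (hG'.add ((Lip.const c).isLip le_rfl) 1 1) (fun H => by simpa using h H) H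
    rw [hT.lin hG' ((Lip.const c).isLip le_rfl) 1 1, hT.const] at h1
    linarith
  rw [abs_sub_le_iff]
  constructor
  · have := key hG hG' fun H => by linarith [(abs_le.1 (h H)).2]
    linarith
  · have := key hG' hG fun H => by linarith [(abs_le.1 (h H)).1]
    linarith

lemma summable (hT : IsStep L T) (hD : 0 ≤ D) (hG : Lip D G) {r : ℝ} (hr : 0 ≤ r) (H : α → ℝ) :
    Summable fun M => pois r M * T^[M] G H := by
  refine summable_pois_mul hr (A := D * L) (B := |G H|) fun M => ?_
  have h1 := abs_sub_abs_le_abs_sub (T^[M] G H) (G H)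
  linarith [hT.near_iterate hD hG H M]

lemma lin_iterate (hT : IsStep L T) (hG : IsLip G) (hG' : IsLip G') (a b : ℝ) :
    ∀ (M : ℕ) (H : α → ℝ), T^[M] (fun H => a * G H + b * G' H) H = a * T^[M] G H + b * T^[M] G' H
  | 0, H => rfl
  | M + 1, H => by
    simp only [Function.iterate_succ_apply']
    rw [show T^[M] (fun H => a * G H + b * G' H) = fun H => a * T^[M] G H + b * T^[M] G' H from
      funext (hT.lin_iterate hG hG' a b M)]
    exact hT.lin (hT.isLip_iterate hG M) (hT.isLip_iterate hG' M) a b H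

lemma mono_iterate (hT : IsStep L T) (hG : IsLip G) (hG' : IsLip G') (h : ∀ H, G H ≤ G' H) :
    ∀ (M : ℕ) (H : α → ℝ), T^[M] G H ≤ T^[M] G' H
  | 0, H => h H
  | M + 1, H => by
    simp only [Function.iterate_succ_apply']
    exact hT.mono (hT.isLip_iterate hG M) (hT.isLip_iterate hG' M) (hT.mono_iterate hG hG' h M) H

lemma tsum_iterate (hT : IsStep L T) {B : ℝ} {p : ℕ → ℝ} {g : ℕ → (α → ℝ) → ℝ} (hD : 0 ≤ D)
    (hB : 0 ≤ B) (hp : ∀ j, 0 ≤ p j) (hs : Summable p) (hs1 : Summable fun j => p j * j)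
    (hg : ∀ j, Lip D (g j)) (hb : ∀ j H, |g j H - g 0 H| ≤ B * j) :
    ∀ (M : ℕ) (H : α → ℝ), T^[M] (fun H => ∑' j, p j * g j H) H = ∑' j, p j * T^[M] (g j) H
  | 0, H => rfl
  | M + 1, H => by
    simp only [Function.iterate_succ_apply']
    rw [show T^[M] (fun H => ∑' j, p j * g j H) = fun H => ∑' j, p j * T^[M] (g j) H from
      funext (hT.tsum_iterate hD hB hp hs hs1 hg hb M)]
    have hb' : ∀ (k j : ℕ) H, |T^[k] (g j) H - T^[k] (g 0) H| ≤ B * j := by
      intro k
      induction k with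
      | zero => exact hb
      | succ k ih =>
        intro j H
        simp only [Function.iterate_succ_apply']
        exact hT.abs_sub (hT.isLip_iterate ((hg j).isLip hD) k) (hT.isLip_iterate ((hg 0).isLip hD) k)
          (ih j) H
    exact hT.tsum hD hB hp hs hs1 (fun j => hT.lip_iterate hD (hg j) M) (hb' M) H

lemma lip_Phi (hT : IsStep L T) (hD : 0 ≤ D) (hG : Lip D G) {r : ℝ} (hr : 0 ≤ r) :
    Lip D (Phi T r G) := fun H H' => by
  rw [Phi, Phi, ← (hT.summable hD hG hr H).tsum_sub (hT.summable hD hG hr H'), ← Real.norm_eq_abs]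
  refine tsum_of_norm_bounded (g := fun M => pois r M * (D * ‖H - H'‖)) ?_ fun M => ?_
  · simpa using (hasSum_pois r).mul_right (D * ‖H - H'‖)
  · rw [Real.norm_eq_abs, ← mul_sub, abs_mul, abs_of_nonneg (pois_nonneg hr M)]
    exact mul_le_mul_of_nonneg_left (hT.lip_iterate hD hG M H H') (pois_nonneg hr M)

lemma Phi_near (hT : IsStep L T) (hD : 0 ≤ D) (hG : Lip D G) {r : ℝ} (hr : 0 ≤ r) (H : α → ℝ) :
    |Phi T r G H - G H| ≤ D * L * r := by
  have h := ((hT.summable hD hG hr H).hasSum.sub ((hasSum_pois r).mul_right (G H)))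
  rw [one_mul] at h
  change |∑' M, pois r M * T^[M] G H - G H| ≤ _
  rw [← h.tsum_eq, ← Real.norm_eq_abs]
  refine tsum_of_norm_bounded (g := fun M => D * L * (pois r M * (M : ℝ))) ?_ fun M => ?_
  · exact (hasSum_pois_id r).mul_left (D * L)
  · rw [Real.norm_eq_abs, ← mul_sub, abs_mul, abs_of_nonneg (pois_nonneg hr M)]
    calc pois r M * |T^[M] G H - G H| ≤ pois r M * (D * L * M) :=
          mul_le_mul_of_nonneg_left (hT.near_iterate hD hG H M) (pois_nonneg hr M)
      _ = _ := by ring

lemma Phi_mono (hT : IsStep L T) {D' : ℝ} (hD : 0 ≤ D) (hG : Lip D G) (hD' : 0 ≤ D') (hG' : Lip D' G')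
    (h : ∀ H, G H ≤ G' H) {r : ℝ} (hr : 0 ≤ r) (H : α → ℝ) : Phi T r G H ≤ Phi T r G' H :=
  (hT.summable hD hG hr H).tsum_le_tsum (fun M => mul_le_mul_of_nonneg_left
    (hT.mono_iterate (hG.isLip hD) (hG'.isLip hD') h M H) (pois_nonneg hr M)) (hT.summable hD' hG' hr H)

lemma Phi_add_const (hT : IsStep L T) (hD : 0 ≤ D) (hG : Lip D G) (c : ℝ) {r : ℝ} (hr : 0 ≤ r)
    (H : α → ℝ) : Phi T r (fun H => G H + c) H = Phi T r G H + c := by
  have e : ∀ M, T^[M] (fun H => G H + c) H = T^[M] G H + c := by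
    intro M
    have h := hT.lin_iterate (hG.isLip hD) ((Lip.const c).isLip le_rfl) 1 1 M H
    simp only [one_mul] at h
    rw [h]
    congr 1
    clear h
    induction M generalizing H with
    | zero => rfl
    | succ M ih =>
      rw [Function.iterate_succ_apply', show T^[M] (fun _ => c) = fun _ => c from funext ih]
      exact hT.const c H
  simp only [Phi, e, mul_add]
  rw [(hT.summable hD hG hr H).tsum_add ((hasSum_pois r).summable.mul_right c), tsum_mul_right,
    (hasSum_pois r).tsum_eq, one_mul]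

end IsStep

/-! ### superposition -/

lemma iterate_comm (hA : IsStep L A) (hB : IsStep L B) (hc : ∀ G, IsLip G → A (B G) = B (A G))
    (hG : IsLip G) : ∀ j : ℕ, A (B^[j] G) = B^[j] (A G)
  | 0 => rfl
  | j + 1 => by
    rw [Function.iterate_succ_apply', Function.iterate_succ_apply', hc _ (hB.isLip_iterate hG j),
      iterate_comm hA hB hc hG j]

/-- the binomial formula for the iterates of a mixture -/
lemma iterate_mix (hT : IsStep L T) (hA : IsStep L A) (hB : IsStep L B)
    (hc : ∀ G, IsLip G → A (B G) = B (A G)) {a b : ℝ}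
    (hmix : ∀ G, IsLip G → ∀ H, (a + b) * T G H = a * A G H + b * B G H) :
    ∀ (M : ℕ) (G : (α → ℝ) → ℝ), IsLip G → ∀ H, (a + b) ^ M * T^[M] G H =
      ∑ ij ∈ antidiagonal M, (M.choose ij.1 : ℝ) * (a ^ ij.1 * b ^ ij.2 * A^[ij.1] (B^[ij.2] G) H) := by
  intro M
  induction M with
  | zero => intro G _ H; simp
  | succ M ih =>
    intro G hG H
    have hsum : ∀ H, (a + b) * T G H = a * A G H + b * B G H := hmix G hG
    have e : (a + b) * T^[M] (T G) H = a * T^[M] (A G) H + b * T^[M] (B G) H := by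
      have h1 := hT.lin_iterate (hA.isLip hG) (hB.isLip hG) a b M H
      rw [← h1, show (fun H => a * A G H + b * B G H) = fun H => (a + b) * T G H + 0 * T G H from
        funext fun H => by rw [hsum H]; ring, hT.lin_iterate (hT.isLip hG) (hT.isLip hG) (a + b) 0 M H]
      ring
    rw [Function.iterate_succ_apply, pow_succ, mul_assoc, e, mul_add,
      ← mul_left_comm a, ← mul_left_comm b, ih _ (hA.isLip hG) H, ih _ (hB.isLip hG) H,
      sum_antidiagonal_choose_succ_mul (fun i j => a ^ i * b ^ j * A^[i] (B^[j] G) H), mul_sum, mul_sum,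
      add_comm]
    congr 1
    · refine sum_congr rfl fun ij _ => ?_
      rw [Function.iterate_succ_apply, pow_succ]; ring
    · refine sum_congr rfl fun ij hij => ?_
      rw [Function.iterate_succ_apply, iterate_comm hA hB hc hG, pow_succ,
        Nat.choose_symm_of_eq_add (mem_antidiagonal.1 hij).symm]
      ring

lemma pois_add_mul_choose (a b : ℝ) (i j : ℕ) :
    exp (-(a + b)) / ((i + j).factorial : ℝ) * ((i + j).choose i : ℝ) * (a ^ i * b ^ j) =
      pois a i * pois b j := by
  rw [Nat.cast_add_choose, neg_add, exp_add, pois, pois]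
  have := Nat.cast_ne_zero (R := ℝ).2 (i + j).factorial_ne_zero
  field_simp

/-- **superposition** -/
theorem Phi_Phi (hT : IsStep L T) (hA : IsStep L A) (hB : IsStep L B)
    (hc : ∀ G, IsLip G → A (B G) = B (A G)) {a b : ℝ} (ha : 0 ≤ a) (hb : 0 ≤ b)
    (hmix : ∀ G, IsLip G → ∀ H, (a + b) * T G H = a * A G H + b * B G H)
    (hD : 0 ≤ D) (hG : Lip D G) (H : α → ℝ) :
    Phi T (a + b) G H = Phi A a (Phi B b G) H := by
  set f : ℕ × ℕ → ℝ := fun p => pois a p.1 * pois b p.2 * A^[p.1] (B^[p.2] G) H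
  have hbd : ∀ p : ℕ × ℕ, ‖f p‖ ≤ pois a p.1 * (D * L * p.1 + |G H|) * pois b p.2 +
      pois a p.1 * (pois b p.2 * (D * L * p.2)) := fun p => by
    have h1 := hA.near_iterate hD (hB.lip_iterate hD hG p.2) H p.1
    have h2 := hB.near_iterate hD hG H p.2
    have h3 := abs_sub_abs_le_abs_sub (A^[p.1] (B^[p.2] G) H) (G H)
    have h4 := abs_sub_le (A^[p.1] (B^[p.2] G) H) (B^[p.2] G H) (G H)
    rw [Real.norm_eq_abs, abs_mul, abs_of_nonneg (mul_nonneg (pois_nonneg ha _) (pois_nonneg hb _))]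
    refine (mul_le_mul_of_nonneg_left (show |A^[p.1] (B^[p.2] G) H| ≤ (D * L * p.1 + |G H|) + D * L * p.2 by
      linarith) (mul_nonneg (pois_nonneg ha _) (pois_nonneg hb _))).trans (le_of_eq ?_)
    ring
  have hs : Summable f := by
    refine Summable.of_norm_bounded ?_ hbd
    refine Summable.add (Summable.mul_of_nonneg (f := fun i : ℕ => pois a i * (D * L * i + |G H|))
      (g := pois b) (hasSum_pois_affine a _ _).summable (hasSum_pois b).summable (fun i => ?_)
      fun j => pois_nonneg hb j) (Summable.mul_of_nonneg (f := pois a) (g := fun j : ℕ => pois b j * (D * L * j))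
      (hasSum_pois a).summable ?_ (fun i => pois_nonneg ha i) fun j => ?_)
    · exact mul_nonneg (pois_nonneg ha i) (by have := hT.nonneg; positivity)
    · simpa [mul_left_comm] using (hasSum_pois_id b).summable.mul_left (D * L)
    · exact mul_nonneg (pois_nonneg hb j) (by have := hT.nonneg; positivity)
  have hdiag : ∀ M, pois (a + b) M * T^[M] G H = ∑ p ∈ antidiagonal M, f p := fun M => by
    have h := iterate_mix hT hA hB hc hmix M G (hG.isLip hD) H
    calc pois (a + b) M * T^[M] G H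
        = exp (-(a + b)) / (M.factorial : ℝ) * ((a + b) ^ M * T^[M] G H) := by rw [pois]; ring
      _ = ∑ p ∈ antidiagonal M, f p := by
        rw [h, mul_sum]
        refine sum_congr rfl fun p hp => ?_
        rw [← (mem_antidiagonal.1 hp)]
        linear_combination (A^[p.1] (B^[p.2] G) H) * pois_add_mul_choose a b p.1 p.2
  have hsig : ∑' p : ℕ × ℕ, f p = ∑' M, ∑ p ∈ antidiagonal M, f p := by
    rw [← (HasAntidiagonal.sigmaAntidiagonalEquivProd (A := ℕ)).tsum_eq f]
    refine ((((HasAntidiagonal.sigmaAntidiagonalEquivProd (A := ℕ)).summable_iff.2 hs)).tsum_sigma'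
      (fun M => (hasSum_fintype _).summable)).trans ?_
    refine tsum_congr fun M => ?_
    rw [tsum_fintype]
    exact (Finset.sum_coe_sort (antidiagonal M) f)
  calc Phi T (a + b) G H = ∑' M, ∑ p ∈ antidiagonal M, f p := tsum_congr hdiag
    _ = ∑' p : ℕ × ℕ, f p := hsig.symm
    _ = ∑' i, ∑' j, f (i, j) := hs.tsum_prod
    _ = Phi A a (Phi B b G) H := by
      refine tsum_congr fun i => ?_
      simp only [f]
      rw [show A^[i] (Phi B b G) H = ∑' j, pois b j * A^[i] (B^[j] G) H from
        hA.tsum_iterate hD (mul_nonneg hD hB.nonneg) (pois_nonneg hb) (hasSum_pois b).summable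
          (hasSum_pois_id b).summable (hB.lip_iterate hD hG)
          (fun j H => by simpa using hB.near_iterate hD hG H j) i H, ← tsum_mul_left]
      exact tsum_congr fun j => by ring

/-- splitting a rate -/
lemma Phi_add (hT : IsStep L T) {a b : ℝ} (ha : 0 ≤ a) (hb : 0 ≤ b) (hD : 0 ≤ D) (hG : Lip D G)
    (H : α → ℝ) : Phi T (a + b) G H = Phi T a (Phi T b G) H :=
  Phi_Phi hT hT hT (fun _ _ => rfl) ha hb (fun G _ H => add_mul a b _) hD hG H

/-- dependence on the rate -/
lemma Phi_rate (hT : IsStep L T) {r s : ℝ} (hr : 0 ≤ r) (hs : 0 ≤ s) (hD : 0 ≤ D) (hG : Lip D G)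
    (H : α → ℝ) : |Phi T r G H - Phi T s G H| ≤ D * L * |r - s| := by
  have key : ∀ {r d : ℝ}, 0 ≤ r → 0 ≤ d → |Phi T (r + d) G H - Phi T r G H| ≤ D * L * d := by
    intro r d hr hd
    rw [Phi_add hT hr hd hD hG H, abs_sub_le_iff]
    have h1 := hT.Phi_mono hD (hT.lip_Phi hD hG hd) hD (G' := fun H => G H + D * L * d)
      (fun H H' => by simpa using hG H H')
      (fun H => by linarith [(abs_le.1 (hT.Phi_near hD hG hd H)).2]) hr H
    have h2 := hT.Phi_mono hD (G := fun H => G H + -(D * L * d)) (fun H H' => by simpa using hG H H')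
      hD (hT.lip_Phi hD hG hd)
      (fun H => by linarith [(abs_le.1 (hT.Phi_near hD hG hd H)).1]) hr H
    rw [hT.Phi_add_const hD hG _ hr] at h1 h2
    constructor <;> linarith
  rcases le_total r s with h | h
  · have := key hr (sub_nonneg.2 h)
    rwa [add_sub_cancel, abs_sub_comm, ← abs_of_nonneg (sub_nonneg.2 h), ← abs_neg (s - r), neg_sub] at this
  · have := key hs (sub_nonneg.2 h)
    rwa [add_sub_cancel, ← abs_of_nonneg (sub_nonneg.2 h)] at this

/-- replacing the operator by a nearby one -/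
lemma Phi_change (hT : IsStep L T) (hT' : IsStep L T') {c : ℝ} (hD : 0 ≤ D)
    (h : ∀ G, Lip D G → ∀ H, |T G H - T' G H| ≤ c) (hG : Lip D G) {r : ℝ} (hr : 0 ≤ r) (H : α → ℝ) :
    |Phi T r G H - Phi T' r G H| ≤ r * c := by
  have key : ∀ (M : ℕ) H, |T^[M] G H - T'^[M] G H| ≤ M * c := by
    intro M
    induction M with
    | zero => intro H; simp
    | succ M ih =>
      intro H
      simp only [Function.iterate_succ_apply']
      refine (abs_sub_le _ (T (T'^[M] G) H) _).trans ?_
      have h1 := hT.abs_sub (hT.isLip_iterate (hG.isLip hD) M) (hT'.isLip_iterate (hG.isLip hD) M) ih H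
      have h2 := h _ (hT'.lip_iterate hD hG M) H
      push_cast; linarith
  rw [Phi, Phi, ← (hT.summable hD hG hr H).tsum_sub (hT'.summable hD hG hr H), ← Real.norm_eq_abs]
  refine tsum_of_norm_bounded (g := fun M => pois r M * (M : ℝ) * c) ((hasSum_pois_id r).mul_right c)
    fun M => ?_
  rw [Real.norm_eq_abs, ← mul_sub, abs_mul, abs_of_nonneg (pois_nonneg hr M), mul_assoc]
  exact mul_le_mul_of_nonneg_left (key M H) (pois_nonneg hr M)

/-- mixtures of steps are steps -/
lemma IsStep.mix (hA : IsStep L A) (hB : IsStep L B) {q : ℝ} (hq : 0 ≤ q) (hq1 : q ≤ 1) :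
    IsStep L fun G H => q * A G H + (1 - q) * B G H where
  nonneg := hA.nonneg
  lip {D G} hD hG H H' := by
    have h1 := hA.lip hD hG H H'; have h2 := hB.lip hD hG H H'
    rw [abs_le] at h1 h2 ⊢
    constructor <;>
      linarith [mul_le_mul_of_nonneg_left h1.1 hq, mul_le_mul_of_nonneg_left h1.2 hq,
        mul_le_mul_of_nonneg_left h2.1 (sub_nonneg.2 hq1), mul_le_mul_of_nonneg_left h2.2 (sub_nonneg.2 hq1)]
  near {D G} hD hG H := by
    have h1 := hA.near hD hG H; have h2 := hB.near hD hG H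
    rw [abs_le] at h1 h2 ⊢
    constructor <;>
      linarith [mul_le_mul_of_nonneg_left h1.1 hq, mul_le_mul_of_nonneg_left h1.2 hq,
        mul_le_mul_of_nonneg_left h2.1 (sub_nonneg.2 hq1), mul_le_mul_of_nonneg_left h2.2 (sub_nonneg.2 hq1)]
  mono {G G'} hG hG' h H := by
    linarith [mul_le_mul_of_nonneg_left (hA.mono hG hG' h H) hq,
      mul_le_mul_of_nonneg_left (hB.mono hG hG' h H) (sub_nonneg.2 hq1)]
  lin {G G'} hG hG' a b H := by rw [hA.lin hG hG', hB.lin hG hG']; ring
  const c H := by rw [hA.const, hB.const]; ring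
  tsum {D B' p g} hD hB' hp hs hs1 hg hb H := by
    have hsum : ∀ {T : ((α → ℝ) → ℝ) → (α → ℝ) → ℝ}, IsStep L T → Summable fun j => p j * T (g j) H := by
      intro T hT
      refine Summable.of_norm_bounded ((hs1.mul_left B').add (hs.mul_left |T (g 0) H|)) fun j => ?_
      rw [Real.norm_eq_abs, abs_mul, abs_of_nonneg (hp j)]
      have := hT.abs_sub ((hg j).isLip hD) ((hg 0).isLip hD) (hb j) H
      have := abs_sub_abs_le_abs_sub (T (g j) H) (T (g 0) H)
      calc p j * |T (g j) H| ≤ p j * (B' * j + |T (g 0) H|) :=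
            mul_le_mul_of_nonneg_left (by linarith) (hp j)
        _ = _ := by ring
    rw [hA.tsum hD hB' hp hs hs1 hg hb H, hB.tsum hD hB' hp hs hs1 hg hb H, ← tsum_mul_left,
      ← tsum_mul_left, ← ((hsum hA).mul_left q).tsum_add ((hsum hB).mul_left (1 - q))]
    exact tsum_congr fun j => by ring

/-! ### one random jump -/

variable {C I : Type} [MeasurableSpace C] [Fintype I]

/-- average over `c` of law `μ` and uniform `i` of a jump by `e c i` -/
noncomputable def cstep (μ : Measure C) (e : C → I → α → ℝ) (G : (α → ℝ) → ℝ) (H : α → ℝ) : ℝ :=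
  ∫ c, av (fun i => G (H + e c i)) ∂μ

/-- jumps are measurable and bounded by `L` -/
structure Jump (μ : Measure C) (e : C → I → α → ℝ) (L : ℝ) : Prop where
  nonneg : 0 ≤ L
  meas : ∀ i, Measurable fun c => e c i
  bdd : ∀ᵐ c ∂μ, ∀ i, ‖e c i‖ ≤ L

variable [Nonempty I] {μ : Measure C} [IsProbabilityMeasure μ] {e : C → I → α → ℝ}

omit [IsProbabilityMeasure μ] [Nonempty I] in
lemma measurable_cav {G : (α → ℝ) → ℝ} (hG : Continuous G) (hm : ∀ i, Measurable fun c => e c i)
    (H : α → ℝ) : Measurable fun c => av fun i => G (H + e c i) := by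
  unfold av
  exact (Finset.measurable_sum _ fun i _ => hG.measurable.comp ((hm i).const_add H)).div_const _

omit [IsProbabilityMeasure μ] in
lemma Jump.cav_near (hj : Jump μ e L) (hD : 0 ≤ D) (hG : Lip D G) (H : α → ℝ) :
    ∀ᵐ c ∂μ, |av (fun i => G (H + e c i)) - G H| ≤ D * L := by
  filter_upwards [hj.bdd] with c hc
  have e1 : av (fun i => G (H + e c i)) - G H = av fun i => G (H + e c i) - G H := by
    simp only [av, Finset.sum_sub_distrib, sub_div, Finset.sum_const, card_univ, nsmul_eq_mul]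
    rw [mul_div_cancel_left₀]
    exact Nat.cast_ne_zero.2 Fintype.card_ne_zero
  rw [e1]
  refine abs_av_le fun i => (hG _ _).trans ?_
  rw [add_sub_cancel_left]
  exact mul_le_mul_of_nonneg_left (hc i) hD

lemma Jump.integrable (hj : Jump μ e L) (hD : 0 ≤ D) (hG : Lip D G) (H : α → ℝ) :
    Integrable (fun c => av fun i => G (H + e c i)) μ := by
  refine Integrable.of_bound (measurable_cav hG.continuous hj.meas H).aestronglyMeasurable
    (|G H| + D * L) ?_
  filter_upwards [hj.cav_near hD hG H] with c hc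
  rw [Real.norm_eq_abs]
  linarith [abs_sub_abs_le_abs_sub (av fun i => G (H + e c i)) (G H)]

theorem Jump.isStep (hj : Jump μ e L) : IsStep L (cstep μ e) where
  nonneg := hj.nonneg
  lip {D G} hD hG H H' := by
    rw [cstep, cstep, ← integral_sub (hj.integrable hD hG H) (hj.integrable hD hG H'), ← Real.norm_eq_abs]
    refine (norm_integral_le_of_norm_le_const (C := D * ‖H - H'‖) (Eventually.of_forall fun c => ?_)).trans
      (by simp)
    rw [Real.norm_eq_abs, show (av fun i => G (H + e c i)) - (av fun i => G (H' + e c i)) =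
      av fun i => G (H + e c i) - G (H' + e c i) by simp [av, Finset.sum_sub_distrib, sub_div]]
    exact abs_av_le fun i => (hG _ _).trans (by rw [add_sub_add_right_eq_sub])
  near {D G} hD hG H := by
    have e1 : cstep μ e G H - G H = ∫ c, (av (fun i => G (H + e c i)) - G H) ∂μ := by
      rw [integral_sub (hj.integrable hD hG H) (integrable_const _)]; simp [cstep]
    rw [e1, ← Real.norm_eq_abs]
    exact (norm_integral_le_of_norm_le_const (C := D * L)
      ((hj.cav_near hD hG H).mono fun c hc => by rwa [Real.norm_eq_abs])).trans (by simp)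
  mono {G G'} hG hG' h H := by
    obtain ⟨D, hD, hG⟩ := hG; obtain ⟨D', hD', hG'⟩ := hG'
    exact integral_mono (hj.integrable hD hG H) (hj.integrable hD' hG' H) fun c =>
      av_mono fun i => h _
  lin {G G'} hG hG' a b H := by
    obtain ⟨D, hD, hG⟩ := hG; obtain ⟨D', hD', hG'⟩ := hG'
    simp only [cstep, av_add, av_const_mul]
    rw [integral_add ((hj.integrable hD hG H).const_mul a) ((hj.integrable hD' hG' H).const_mul b),
      integral_const_mul, integral_const_mul]
  const c H := by simp [cstep, av_const]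
  tsum {D B p g} hD hB hp hs hs1 hg hb H := by
    have hav : ∀ᵐ c ∂μ, ∀ j : ℕ, |p j * av fun i => g j (H + e c i)| ≤
        p j * (|g 0 H| + D * L + B * j) := by
      refine ae_all_iff.2 fun j => ?_
      filter_upwards [hj.cav_near hD (hg j) H] with c hc
      rw [abs_mul, abs_of_nonneg (hp j)]
      refine mul_le_mul_of_nonneg_left ?_ (hp j)
      linarith [abs_sub_abs_le_abs_sub (av fun i => g j (H + e c i)) (g j H),
        abs_sub_abs_le_abs_sub (g j H) (g 0 H), hb j H]
    have hbs : Summable fun j : ℕ => p j * (|g 0 H| + D * L + B * j) := by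
      refine ((hs.mul_right (|g 0 H| + D * L)).add (hs1.mul_left B)).congr fun j => ?_
      ring
    have hpt : ∀ x, Summable fun j => p j * g j x := fun x => by
      refine Summable.of_norm_bounded ((hs.mul_right |g 0 x|).add (hs1.mul_left B)) fun j => ?_
      rw [Real.norm_eq_abs, abs_mul, abs_of_nonneg (hp j)]
      calc p j * |g j x| ≤ p j * (|g 0 x| + B * j) := mul_le_mul_of_nonneg_left
            (by linarith [abs_sub_abs_le_abs_sub (g j x) (g 0 x), hb j x]) (hp j)
        _ = _ := by ring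
    have e1 : ∀ c, av (fun i => ∑' j, p j * g j (H + e c i)) = ∑' j, p j * av fun i => g j (H + e c i) := by
      intro c
      simp only [av]
      rw [← Summable.tsum_finsetSum fun i _ => hpt _, ← tsum_div_const]
      exact tsum_congr fun j => by rw [← mul_sum, mul_div_assoc]
    simp only [cstep, e1]
    rw [← integral_tsum_of_summable_integral_norm
      (fun j => (hj.integrable hD (hg j) H).const_mul (p j))
      (Summable.of_nonneg_of_le (fun j => integral_nonneg fun c => norm_nonneg _)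
        (fun j => (integral_mono_ae ((hj.integrable hD (hg j) H).const_mul (p j)).norm (integrable_const _)
          (hav.mono fun c hc => (Real.norm_eq_abs _).trans_le (hc j))).trans (by simp)) hbs)]
    exact tsum_congr fun j => integral_const_mul _ _

end Vale.Agent.P168.MP.Cav
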