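import Vale.Agent.P168.MP.CavOps
import Vale.Agent.P168.MP.CavDefs
import Vale.Agent.P168.LogLower

/-! Complements to CavOps: linearity of the Poisson mixtures, change of variables along linear maps
of energies, commutation of steps, and the link with `cex`. -/

open MeasureTheory Real Finset Filter

namespace Vale.Agent.P168.MP.Cav

variable {α : Type*} [Fintype α] {L D D' : ℝ}

lemma Lip.le {G : (α → ℝ) → ℝ} (h : Lip D G) (hD : D ≤ D') : Lip D' G := fun H H' =>
  (h H H').trans (mul_le_mul_of_nonneg_right hD (norm_nonneg _))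

lemma Lip.lin {G G' : (α → ℝ) → ℝ} (h : Lip D G) (h' : Lip D' G') (a b : ℝ) :
    Lip (|a| * D + |b| * D') fun H => a * G H + b * G' H := fun H H' => by
  rw [show a * G H + b * G' H - (a * G H' + b * G' H') = a * (G H - G H') + b * (G' H - G' H') by ring,
    add_mul, mul_assoc, mul_assoc]
  refine (abs_add_le _ _).trans (add_le_add ?_ ?_) <;> rw [abs_mul]
  · exact mul_le_mul_of_nonneg_left (h H H') (abs_nonneg a)
  · exact mul_le_mul_of_nonneg_left (h' H H') (abs_nonneg b)

lemma Lip.abs_le {G : (α → ℝ) → ℝ} (h : Lip D G) (H : α → ℝ) : |G H| ≤ |G 0| + D * ‖H‖ := by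
  have h1 := h H 0
  rw [sub_zero] at h1
  linarith [abs_sub_abs_le_abs_sub (G H) (G 0)]

variable {T : ((α → ℝ) → ℝ) → (α → ℝ) → ℝ} {G G' : (α → ℝ) → ℝ}

/-- linearity -/
lemma Phi_lin (hT : IsStep L T) (hD : 0 ≤ D) (hG : Lip D G) (hD' : 0 ≤ D') (hG' : Lip D' G')
    (a b : ℝ) {r : ℝ} (hr : 0 ≤ r) (H : α → ℝ) :
    Phi T r (fun H => a * G H + b * G' H) H = a * Phi T r G H + b * Phi T r G' H := by
  simp only [Phi]
  rw [← tsum_mul_left, ← tsum_mul_left,
    ← ((hT.summable hD hG hr H).mul_left a).tsum_add ((hT.summable hD' hG' hr H).mul_left b)]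
  refine tsum_congr fun M => ?_
  rw [hT.lin_iterate (hG.isLip hD) (hG'.isLip hD') a b M H]
  ring

lemma Phi_sub (hT : IsStep L T) (hD : 0 ≤ D) (hG : Lip D G) (hD' : 0 ≤ D') (hG' : Lip D' G')
    {r : ℝ} (hr : 0 ≤ r) (H : α → ℝ) :
    Phi T r (fun H => G H - G' H) H = Phi T r G H - Phi T r G' H := by
  have h := Phi_lin hT hD hG hD' hG' 1 (-1) hr H
  simp only [one_mul, neg_one_mul, ← sub_eq_add_neg] at h
  exact h

/-- comparison up to a constant -/
lemma Phi_abs_sub (hT : IsStep L T) (hD : 0 ≤ D) (hG : Lip D G) (hD' : 0 ≤ D') (hG' : Lip D' G')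
    {c : ℝ} (h : ∀ H, |G H - G' H| ≤ c) {r : ℝ} (hr : 0 ≤ r) (H : α → ℝ) :
    |Phi T r G H - Phi T r G' H| ≤ c := by
  have key : ∀ {D D' : ℝ} {G G' : (α → ℝ) → ℝ}, 0 ≤ D → Lip D G → 0 ≤ D' → Lip D' G' →
      (∀ H, G H ≤ G' H + c) → Phi T r G H ≤ Phi T r G' H + c := by
    intro D D' G G' hD hG hD' hG' h
    rw [← hT.Phi_add_const hD' hG' c hr H]
    exact hT.Phi_mono hD hG hD' (fun H H' => by simpa using hG' H H') h hr H
  rw [abs_sub_le_iff]
  constructor
  · linarith [key hD hG hD' hG' fun H => by linarith [(abs_le.1 (h H)).2]]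
  · linarith [key hD' hG' hD hG fun H => by linarith [(abs_le.1 (h H)).1]]

/-- a constant -/
lemma Phi_const (hT : IsStep L T) (c : ℝ) {r : ℝ} (hr : 0 ≤ r) (H : α → ℝ) :
    Phi T r (fun _ => c) H = c := by
  have h := hT.Phi_near le_rfl (Lip.const c) hr H
  simp only [zero_mul] at h
  linarith [(abs_le.1 h).1, (abs_le.1 h).2]

/-- a step commutes with the mixture of a step commuting with it -/
lemma step_Phi_comm {A B : ((α → ℝ) → ℝ) → (α → ℝ) → ℝ} {LA LB : ℝ} (hA : IsStep LA A)
    (hB : IsStep LB B) (hc : ∀ G, IsLip G → A (B G) = B (A G)) (hD : 0 ≤ D) (hG : Lip D G) {r : ℝ}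
    (hr : 0 ≤ r) (H : α → ℝ) : A (Phi B r G) H = Phi B r (A G) H := by
  have e : ∀ j, A (B^[j] G) = B^[j] (A G) := by
    intro j
    induction j with
    | zero => rfl
    | succ j ih =>
        rw [Function.iterate_succ_apply', Function.iterate_succ_apply',
          hc _ (hB.isLip_iterate (hG.isLip hD) j), ih]
  calc A (Phi B r G) H = ∑' j, pois r j * A (B^[j] G) H :=
        hA.tsum hD (mul_nonneg hD hB.nonneg) (pois_nonneg hr) (hasSum_pois r).summable
          (hasSum_pois_id r).summable (hB.lip_iterate hD hG)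
          (fun j H => by simpa using hB.near_iterate hD hG H j) H
    _ = Phi B r (A G) H := tsum_congr fun j => by rw [e]

/-- a step with a finite average and a probability measure: change of variables -/
lemma cstep_push {γ : Type*} [Fintype γ] {C I : Type} [MeasurableSpace C] [Fintype I]
    (μ : Measure C) (e : C → I → α → ℝ) (P : (α → ℝ) →ₗ[ℝ] (γ → ℝ)) (F : (γ → ℝ) → ℝ)
    (H : γ → ℝ) (H₀ : α → ℝ) :
    cstep μ (fun c i => P (e c i)) F (H + P H₀) = cstep μ e (fun x => F (H + P x)) H₀ := by
  simp only [cstep, map_add, add_assoc]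

lemma Phi_push {γ : Type*} [Fintype γ] {C I : Type} [MeasurableSpace C] [Fintype I]
    (μ : Measure C) (e : C → I → α → ℝ) (P : (α → ℝ) →ₗ[ℝ] (γ → ℝ)) (F : (γ → ℝ) → ℝ)
    (H : γ → ℝ) (r : ℝ) (H₀ : α → ℝ) :
    Phi (cstep μ fun c i => P (e c i)) r F (H + P H₀)
      = Phi (cstep μ e) r (fun x => F (H + P x)) H₀ := by
  have key : ∀ M (x : α → ℝ), (cstep μ fun c i => P (e c i))^[M] F (H + P x)
      = (cstep μ e)^[M] (fun x => F (H + P x)) x := by
    intro M
    induction M with
    | zero => intro x; rfl
    | succ M ih =>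
        intro x
        rw [Function.iterate_succ_apply', Function.iterate_succ_apply', cstep_push]
        exact congrArg (fun f => cstep μ e f x) (funext ih)
  exact tsum_congr fun M => by rw [key]

/-! ### two random jumps commute -/

variable {C I C' I' : Type} [MeasurableSpace C] [Fintype I] [Nonempty I] [MeasurableSpace C']
  [Fintype I'] [Nonempty I'] {μ : Measure C} [IsProbabilityMeasure μ] {μ' : Measure C'}
  [IsProbabilityMeasure μ'] {e : C → I → α → ℝ} {e' : C' → I' → α → ℝ} {L' : ℝ}

theorem cstep_comm (hj : Jump μ e L) (hj' : Jump μ' e' L') (hD : 0 ≤ D) (hG : Lip D G) :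
    cstep μ e (cstep μ' e' G) = cstep μ' e' (cstep μ e G) := by
  funext H
  set f : C × C' → ℝ := fun p => av fun i => av fun j => G (H + e p.1 i + e' p.2 j) with hf
  have hmeas : Measurable f := by
    simp only [hf, av]
    refine (Finset.measurable_sum _ fun i _ => ?_).div_const _
    refine (Finset.measurable_sum _ fun j _ => ?_).div_const _
    exact hG.continuous.measurable.comp
      (((hj.meas i).comp measurable_fst).const_add H |>.add ((hj'.meas j).comp measurable_snd))
  have hint : Integrable f (μ.prod μ') := by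
    refine Integrable.of_bound hmeas.aestronglyMeasurable (|G H| + D * (L + L')) ?_
    have h1 : ∀ᵐ p ∂μ.prod μ', ∀ i, ‖e p.1 i‖ ≤ L := Measure.quasiMeasurePreserving_fst.ae hj.bdd
    have h2 : ∀ᵐ p ∂μ.prod μ', ∀ j, ‖e' p.2 j‖ ≤ L' := Measure.quasiMeasurePreserving_snd.ae hj'.bdd
    filter_upwards [h1, h2] with p hp hp'
    rw [Real.norm_eq_abs]
    refine abs_av_le fun i => abs_av_le fun j => ?_
    have h3 := hG (H + e p.1 i + e' p.2 j) H
    rw [add_assoc, add_sub_cancel_left] at h3
    have h4 := mul_le_mul_of_nonneg_left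
      ((norm_add_le _ _).trans (add_le_add (hp i) (hp' j))) hD
    rw [← add_assoc] at h3
    linarith [abs_sub_abs_le_abs_sub (G (H + e p.1 i + e' p.2 j)) (G H)]
  have e1 : cstep μ e (cstep μ' e' G) H = ∫ c, ∫ c', f (c, c') ∂μ' ∂μ := by
    refine integral_congr_ae (Eventually.of_forall fun c => ?_)
    simp only [cstep, hf, av]
    rw [integral_div, integral_finsetSum]
    intro i _
    exact (hj'.integrable hD hG (H + e c i))
  have e2 : cstep μ' e' (cstep μ e G) H = ∫ c', ∫ c, f (c, c') ∂μ ∂μ' := by
    refine integral_congr_ae (Eventually.of_forall fun c' => ?_)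
    have hsw : ∀ c, f (c, c') = av fun j => av fun i => G (H + e' c' j + e c i) := fun c => by
      simp only [hf, av, ← Finset.sum_div]
      rw [Finset.sum_comm, div_right_comm]
      simp only [add_right_comm]
    simp only [cstep, hsw, av]
    rw [integral_div, integral_finsetSum]
    intro j _
    exact (hj.integrable hD hG (H + e' c' j))
  rw [e1, e2]
  exact integral_integral_swap hint

/-! ### the link with `cex` -/

theorem cstep_iterate (hj : Jump μ e L) (hD : 0 ≤ D) (hG : Lip D G) : ∀ (M : ℕ) (H : α → ℝ),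
    (cstep μ e)^[M] G H = ∫ w : Fin M → C,
      av (fun i : Fin M → I => G (H + ∑ k, e (w k) (i k))) ∂Measure.pi (fun _ => μ) := by
  intro M
  induction M with
  | zero =>
      intro H
      simp [av]
  | succ M ih =>
      intro H
      rw [Function.iterate_succ_apply']
      set F : (Fin (M + 1) → C) → ℝ :=
        fun w => av (fun i : Fin (M + 1) → I => G (H + ∑ k, e (w k) (i k))) with hF
      have hFm : Measurable F := by
        simp only [hF, av]
        refine (Finset.measurable_sum _ fun i _ => ?_).div_const _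
        exact hG.continuous.measurable.comp
          ((Finset.measurable_sum _ fun k _ => (hj.meas (i k)).comp (measurable_pi_apply k)).const_add H)
      have hFi : Integrable F (Measure.pi fun _ : Fin (M + 1) => μ) := by
        refine Integrable.of_bound hFm.aestronglyMeasurable (|G H| + D * ((M + 1 : ℕ) * L)) ?_
        have hall : ∀ᵐ w ∂Measure.pi (fun _ : Fin (M + 1) => μ), ∀ k i, ‖e (w k) i‖ ≤ L :=
          ae_all_iff.2 fun k =>
            (Measure.tendsto_eval_ae_ae (μ := fun _ : Fin (M + 1) => μ) (i := k)).eventually hj.bdd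
        filter_upwards [hall] with w hw
        rw [Real.norm_eq_abs]
        refine abs_av_le fun i => ?_
        have h3 := hG (H + ∑ k, e (w k) (i k)) H
        rw [add_sub_cancel_left] at h3
        have h4 : ‖∑ k, e (w k) (i k)‖ ≤ (M + 1 : ℕ) * L :=
          (norm_sum_le _ _).trans ((Finset.sum_le_sum fun k _ => hw k (i k)).trans (by simp))
        linarith [abs_sub_abs_le_abs_sub (G (H + ∑ k, e (w k) (i k))) (G H),
          mul_le_mul_of_nonneg_left h4 hD]
      have mp := (measurePreserving_piFinSuccAbove (fun _ : Fin (M + 1) => μ) 0).symm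
      have e1 : ∀ (c : C) (w : Fin M → C),
          F ((MeasurableEquiv.piFinSuccAbove (fun _ => C) 0).symm (c, w))
            = av fun b : I => av fun i : Fin M → I => G (H + e c b + ∑ k, e (w k) (i k)) := by
        intro c w
        rw [MeasurableEquiv.piFinSuccAbove_symm_apply, Fin.insertNthEquiv_zero]
        simp only [hF, Fin.consEquiv_apply]
        rw [av_succ]
        simp only [Fin.sum_univ_succ, Fin.cons_zero, Fin.cons_succ, add_assoc, av,
          ← Finset.sum_div]
        rw [Finset.sum_comm, div_right_comm]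
      have hFi' : Integrable (fun p : C × (Fin M → C) =>
          F ((MeasurableEquiv.piFinSuccAbove (fun _ => C) 0).symm p))
          (μ.prod (Measure.pi fun _ : Fin M => μ)) :=
        (mp.integrable_comp_emb (MeasurableEquiv.measurableEmbedding _)).2 hFi
      change cstep μ e ((cstep μ e)^[M] G) H = ∫ w, F w ∂Measure.pi fun _ => μ
      rw [← mp.integral_comp' F, integral_prod _ hFi']
      refine integral_congr_ae (Eventually.of_forall fun c => ?_)
      simp only [e1]
      simp only [av]
      rw [integral_div, integral_finsetSum]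
      · simp only [ih, av]
      · intro b _
        refine Integrable.of_bound ?_ (|G (H + e c b)| + D * (M * L)) ?_
        · exact ((Finset.measurable_sum _ fun i _ => hG.continuous.measurable.comp
            ((Finset.measurable_sum _ fun k _ => (hj.meas (i k)).comp
              (measurable_pi_apply k)).const_add _)).div_const _).aestronglyMeasurable
        · have hall : ∀ᵐ w ∂Measure.pi (fun _ : Fin M => μ), ∀ k i, ‖e (w k) i‖ ≤ L :=
            ae_all_iff.2 fun k =>
              (Measure.tendsto_eval_ae_ae (μ := fun _ : Fin M => μ) (i := k)).eventually hj.bdd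
          filter_upwards [hall] with w hw
          rw [Real.norm_eq_abs]
          refine abs_av_le fun i => ?_
          have h3 := hG (H + e c b + ∑ k, e (w k) (i k)) (H + e c b)
          rw [add_sub_cancel_left] at h3
          have h4 : ‖∑ k, e (w k) (i k)‖ ≤ M * L :=
            (norm_sum_le _ _).trans ((Finset.sum_le_sum fun k _ => hw k (i k)).trans (by simp))
          linarith [abs_sub_abs_le_abs_sub (G (H + e c b + ∑ k, e (w k) (i k))) (G (H + e c b)),
            mul_le_mul_of_nonneg_left h4 hD]

/-- Poisson clauses as a mixture of iterated steps -/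
theorem cex_eq_Phi (hj : Jump μ e L) (hD : 0 ≤ D) (hG : Lip D G) (r : ℝ) (H : α → ℝ)
    {f : List (C × I) → ℝ} (hf : ∀ l, f l = G (H + (l.map fun x => e x.1 x.2).sum)) :
    cex μ r f = Phi (cstep μ e) r G H := by
  refine tsum_congr fun M => ?_
  rw [cstep_iterate hj hD hG M H]
  simp only [hf, List.map_ofFn, List.sum_ofFn, Function.comp_def]

end Vale.Agent.P168.MP.Cav
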