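import Vale.Agent.P168.MP.Monomial
import Vale.Agent.P168.MP.Coarse

/-! The coarse nested functional of the true blocks against the independent slots, up to the
variances of finitely many site averages (ROUTE D'). -/

namespace Vale.Agent.P168.MP

open Finset Real

variable {Ω : Type} [Fintype Ω] [Nonempty Ω] {N R Q : ℕ} {m : ℕ → ℝ} {w : List Ω → ℝ} {J : ℕ → ℕ}

lemma isMean_blockMean (hw : ∀ p, 0 < w p) (l : ℕ) : IsMean (blockMean R m w J l) where
  add f g x := up_add _ _ f g
  smul c f x := up_const_mul _ _ c f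
  mono _f _g _x h := up_mono hw h
  one x := up_const hw _ _ 1

lemma isMean_slotMean [NeZero N] (hw : ∀ p, 0 < w p) (l : ℕ) :
    IsMean (slotMean (N := N) R m w J l) where
  add f g x := slotMean_add l f g x
  smul c f x := slotMean_smul l c f x
  mono f g x h := by
    unfold slotMean
    split_ifs
    · exact div_le_div_of_nonneg_right (sum_le_sum fun v _ => up_mono hw fun q => h _)
        (Nat.cast_nonneg _)
    · exact up_mono hw fun q => h _
  one x := by
    unfold slotMean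
    split_ifs
    · simp [slotRoot, blockMean, up_const hw, avg, Nat.cast_ne_zero.2 (NeZero.ne N)]
    · exact up_const hw _ _ 1

lemma isMean_slotsMean [NeZero N] (hw : ∀ p, 0 < w p) (l : ℕ) :
    ∀ Q, IsMean (slotsMean (N := N) R m w J l Q)
  | 0 => ⟨fun _ _ _ => rfl, fun _ _ _ => rfl, fun _ _ _ h => h _, fun _ => rfl⟩
  | Q + 1 => by
    refine ⟨fun f g s => slotsMean_add l _ f g s, fun c f s => slotsMean_smul l c _ f s,
      fun f g s h => ?_, fun s => ?_⟩
    · rw [slotsMean_succ, slotsMean_succ]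
      exact (isMean_slotMean hw l).mono _ _ _ fun a => (isMean_slotsMean hw l Q).mono _ _ _ fun t => h _
    · rw [slotsMean_succ]
      simp only [(isMean_slotsMean hw l Q).one]
      exact (isMean_slotMean hw l).one _

lemma trueLeaf_mem (hw : ∀ p, 0 < w p) (rd : List Ω → Fin N → Bool) {Φ : (Fin Q → Bool) → ℝ}
    {a b : ℝ} (hΦ : ∀ σ, a ≤ Φ σ ∧ Φ σ ≤ b) (v : Fin Q → Fin N) (p : List Ω) :
    a ≤ trueLeaf R m w rd Φ v p ∧ trueLeaf R m w rd Φ v p ≤ b :=
  ⟨(up_const hw R p a).symm.trans_le (up_mono hw fun _ => (hΦ _).1),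
    (up_mono hw fun _ => (hΦ _).2).trans_eq (up_const hw R p b)⟩

lemma trialLeaf_mem (hw : ∀ p, 0 < w p) (rd : List Ω → Fin N → Bool) {Φ : (Fin Q → Bool) → ℝ}
    {a b : ℝ} (hΦ : ∀ σ, a ≤ Φ σ ∧ Φ σ ≤ b) (s : Fin Q → Fin N × List Ω) :
    a ≤ trialLeaf R m w rd Φ s ∧ trialLeaf R m w rd Φ s ≤ b := by
  have h0 : ∀ σ : Fin Q → Bool, 0 ≤ ∏ q, (1 + message R m w rd (s q) * sg (σ q)) / 2 := fun σ =>
    prod_nonneg fun q _ => by
      have h : |message R m w rd (s q)| ≤ 1 := up_bound hw fun r => (abs_sg _).le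
      obtain ⟨h1, h2⟩ := abs_le.1 h
      cases σ q <;> simp [sg] <;> linarith
  have h1 : ∑ σ : Fin Q → Bool, ∏ q, (1 + message R m w rd (s q) * sg (σ q)) / 2 = 1 := by
    rw [← Fintype.prod_sum fun q b => (1 + message R m w rd (s q) * sg b) / 2]
    exact prod_eq_one fun q _ => by simp [sg]; ring
  refine ⟨?_, ?_⟩
  · calc a = ∑ σ : Fin Q → Bool, (∏ q, (1 + message R m w rd (s q) * sg (σ q)) / 2) * a := by
          rw [← sum_mul, h1, one_mul]
      _ ≤ _ := sum_le_sum fun σ _ => mul_le_mul_of_nonneg_left (hΦ σ).1 (h0 σ)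
  · calc trialLeaf R m w rd Φ s ≤
          ∑ σ : Fin Q → Bool, (∏ q, (1 + message R m w rd (s q) * sg (σ q)) / 2) * b :=
          sum_le_sum fun σ _ => mul_le_mul_of_nonneg_left (hΦ σ).2 (h0 σ)
      _ = b := by rw [← sum_mul, h1, one_mul]

lemma mean_comb {X : Type*} {E : ℕ → (X → ℝ) → X → ℝ} (hE : ∀ l, IsMean (E l)) (Y : X → ℝ)
    (k : ℕ) (x : X) : ∀ P : List (ℝ × Tree),
      E 0 (comb E Y 1 k P) x = (P.map fun p => p.1 * E 0 (mono E Y 1 k p.2) x).sum
  | [] => by
    rw [show comb E Y 1 k [] = fun _ => (0 : ℝ) from funext fun y => by simp [comb], (hE 0).const]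
    simp
  | p :: P => by
    rw [show comb E Y 1 k (p :: P) = fun y => p.1 * mono E Y 1 k p.2 y + comb E Y 1 k P y from
      funext fun y => by simp [comb], (hE 0).add, (hE 0).smul, mean_comb hE Y k x P]
    simp

/-- **True against trial**: for bounded tables the coarse functional of the structure and that of
independent slots differ by at most `ε` plus the deviations of finitely many site averages. The
trees and the constant only depend on `C`, `Q`, the number of layers, the exponents and `ε`. -/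
theorem exists_compare {e : ℕ → ℝ} (he : ∀ i, 0 ≤ e i) (he0 : e 0 = 0) (C : ℝ) (Q k : ℕ) {ε : ℝ}
    (hε : 0 < ε) :
    ∃ (P : List Tree) (A : ℝ), 0 ≤ A ∧
      ∀ {Ω : Type} [Fintype Ω] [Nonempty Ω] {N R : ℕ} [NeZero N] {m : ℕ → ℝ} {w : List Ω → ℝ},
        (∀ p, 0 < w p) → ∀ {J : ℕ → ℕ}, J 0 = 0 → (∀ q ≤ k, J q ≤ J (q + 1)) → J (k + 1) ≤ R →
        ∀ (rd : List Ω → Fin N → Bool) {Φ : (Fin Q → Bool) → ℝ},
          (∀ σ, exp (-C) ≤ Φ σ ∧ Φ σ ≤ exp C) → ∀ s₀ : Fin Q → Fin N × List Ω,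
          |avg (fun v : Fin Q → Fin N => nestLog (blockMean R m w J) e
              (fun p => log (trueLeaf R m w rd Φ v p)) 0 (k + 1) []) -
            nestLog (fun l => slotsMean R m w J l Q) e
              (fun s => log (trialLeaf R m w rd Φ s)) 0 (k + 1) s₀| ≤
          ε + A * (P.map fun t => ∑ S ∈ (univ : Finset (Finset (Fin (Tree.size k t)))).erase ∅,
            √(varM R m w rd (lvT J k t) S)).sum := by
  obtain ⟨P, hP⟩ := exists_tree_moments he C 1 k (half_pos hε)
  set cf : ℝ × Tree → ℝ := fun z => |z.1| * (Q * (2 ^ Q * exp C) ^ Tree.size k z.2) with hcf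
  have hcf0 : ∀ z, 0 ≤ cf z := fun z => by positivity
  refine ⟨P.map Prod.snd, (P.map cf).sum,
    List.sum_nonneg fun y hy => by obtain ⟨z, -, rfl⟩ := List.mem_map.1 hy; exact hcf0 z, ?_⟩
  intro Ω _ _ N R _ m w hw J hJ0 hmono hR rd Φ hΦ s₀
  set E := blockMean R m w J
  set E' := fun l => slotsMean (N := N) R m w J l Q
  have hE : ∀ l, IsMean (E l) := isMean_blockMean hw
  have hE' : ∀ l, IsMean (E' l) := fun l => isMean_slotsMean hw l Q
  have hlog : ∀ z : ℝ, exp (-C) ≤ z ∧ z ≤ exp C → |log z| ≤ C ∧ exp (log z) = z := fun z hz => by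
    have hpos := (exp_pos _).trans_le hz.1
    exact ⟨abs_le.2 ⟨(le_log_iff_exp_le hpos).2 hz.1, (log_le_iff_le_exp hpos).2 hz.2⟩,
      exp_log hpos⟩
  have near : ∀ {X : Type} (F : ℕ → (X → ℝ) → X → ℝ), (∀ l, IsMean (F l)) → ∀ Y : X → ℝ,
      (∀ y, exp (-C) ≤ Y y ∧ Y y ≤ exp C) → ∀ x,
        |nestLog F e (fun y => log (Y y)) 0 (k + 1) x -
          (P.map fun z => z.1 * F 0 (mono F Y 1 k z.2) x).sum| ≤ ε / 2 := by
    intro X F hF Y hY x
    rw [← mean_comb hF Y k x P]
    simp only [nestLog, lmean, he0, if_pos, Nat.zero_add]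
    refine (hF 0).dist_le _ _ _ x fun y => ?_
    have := hP X F hF (fun y => log (Y y)) (fun y => (hlog _ (hY y)).1) y
    rwa [funext fun y => (hlog _ (hY y)).2] at this
  set T := fun z : ℝ × Tree =>
    avg fun v : Fin Q → Fin N => E 0 (mono E (trueLeaf R m w rd Φ v) 1 k z.2) []
  set T' := fun z : ℝ × Tree => E' 0 (mono E' (trialLeaf R m w rd Φ) 1 k z.2) s₀
  have a1 : |avg (fun v : Fin Q → Fin N => nestLog E e
      (fun p => log (trueLeaf R m w rd Φ v p)) 0 (k + 1) []) -
        (P.map fun z => z.1 * T z).sum| ≤ ε / 2 := by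
    have e1 : (P.map fun z => z.1 * T z).sum = avg fun v : Fin Q → Fin N =>
        (P.map fun z => z.1 * E 0 (mono E (trueLeaf R m w rd Φ v) 1 k z.2) []).sum := by
      simp only [T, avg]
      clear hP near
      induction P with
      | nil => simp
      | cons z P ih =>
        simp only [List.map_cons, List.sum_cons, sum_add_distrib, ← mul_sum, ih]
        ring
    rw [e1, ← avg_sub]
    exact abs_avg_le _ (by positivity) fun v => near E hE _ (trueLeaf_mem (R := R) (m := m) hw rd hΦ v) []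
  have a2 := near E' hE' _ (trialLeaf_mem (R := R) (m := m) hw rd hΦ) s₀
  set V := fun t : Tree => ∑ S ∈ (univ : Finset (Finset (Fin (Tree.size k t)))).erase ∅,
    √(varM R m w rd (lvT J k t) S)
  have hV : ∀ t, 0 ≤ V t := fun t => sum_nonneg fun S _ => Real.sqrt_nonneg _
  have hB : ∀ σ, |Φ σ| ≤ exp C := fun σ =>
    abs_le.2 ⟨by linarith [(hΦ σ).1, exp_pos (-C), exp_pos C], (hΦ σ).2⟩
  have a3 : |(P.map fun z => z.1 * T z).sum - (P.map fun z => z.1 * T' z).sum| ≤
      (P.map fun z => cf z * V z.2).sum := by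
    clear hP near a1 a2
    induction P with
    | nil => simp
    | cons z P ih =>
      simp only [List.map_cons, List.sum_cons]
      rw [add_sub_add_comm, ← mul_sub]
      refine (abs_add_le _ _).trans (add_le_add ?_ ih)
      rw [abs_mul, hcf, mul_assoc]
      exact mul_le_mul_of_nonneg_left (abs_tree_moment_sub hw hJ0 hmono hR rd Φ hB z.2 s₀)
        (abs_nonneg _)
  have a4 : (P.map fun z => cf z * V z.2).sum ≤ (P.map cf).sum * ((P.map Prod.snd).map V).sum := by
    rw [List.map_map, ← List.sum_map_mul_left]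
    refine List.sum_le_sum fun z hz => mul_le_mul_of_nonneg_right ?_ (hV _)
    exact List.single_le_sum (fun y hy => by
      obtain ⟨u, -, rfl⟩ := List.mem_map.1 hy; exact hcf0 u) _ (List.mem_map_of_mem hz)
  have := abs_le.1 a1; have := abs_le.1 a2; have := abs_le.1 a3
  exact abs_le.2 ⟨by linarith, by linarith⟩

end Vale.Agent.P168.MP
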