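import Vale.Agent.P168.MP.CoarseStep
import Vale.Agent.P168.MP.Layers
import Vale.Agent.P168.MP.Compare

/-! Linear exponents on random layers: the window of layer `q` lies just below level `q R / L`. -/

namespace Vale.Agent.P168.MP

open Real Finset

variable {L R : ℕ}

/-- layer levels as a function on `ℕ`: `0`, the levels, then `R` -/
def layerJ (R : ℕ) (J : Fin L → ℕ) (q : ℕ) : ℕ :=
  if q = 0 then 0 else if h : q - 1 < L then J ⟨q - 1, h⟩ else R

/-- the coarse exponents `q / L`, capped at `1` -/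
noncomputable def coarseExp (L q : ℕ) : ℝ := min ((q : ℝ) / L) 1

lemma coarseExp_nonneg (L q : ℕ) : 0 ≤ coarseExp L q := le_min (by positivity) zero_le_one

lemma coarseExp_le_one (L q : ℕ) : coarseExp L q ≤ 1 := min_le_right _ _

lemma coarseExp_zero (L : ℕ) : coarseExp L 0 = 0 := by simp [coarseExp]

lemma coarseExp_mono (L : ℕ) : Monotone (coarseExp L) := fun a b h =>
  min_le_min (by gcongr) le_rfl

lemma coarseExp_trial {r : ℕ} (j : Fin r) :
    coarseExp (r + 1) (j + 1) = ((j : ℝ) + 1) / (r + 1) := by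
  have : ((j : ℝ) + 1) / (r + 1) ≤ 1 := by
    rw [div_le_one (by positivity)]
    exact_mod_cast Nat.succ_le_succ j.2.le
  simp [coarseExp, this]

lemma coarseExp_trial_mem {r : ℕ} :
    StrictMono (fun j : Fin r => ((j : ℝ) + 1) / (r + 1)) ∧
      ∀ j : Fin r, ((j : ℝ) + 1) / (r + 1) ∈ Set.Ioo (0 : ℝ) 1 := by
  refine ⟨fun i j h => ?_, fun j => ⟨by positivity, ?_⟩⟩
  · have : ((i : ℕ) : ℝ) < (j : ℕ) := by exact_mod_cast Fin.lt_def.1 h
    show ((i : ℝ) + 1) / (r + 1) < ((j : ℝ) + 1) / (r + 1)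
    gcongr
  · rw [div_lt_one (by positivity)]
    exact_mod_cast Nat.succ_lt_succ j.2

/-- the standard windows: layer `q` in `[(q+1) R / L - 2 w, (q+1) R / L - w)` with `w = R / (4 L)` -/
def layerWin (L R : ℕ) : Win L where
  lo q := (q + 1) * R / L - 2 * (R / (4 * L))
  len _ := R / (4 * L)

lemma layer_base (q : Fin L) (hR : 16 * L ≤ R) :
    R ≤ L * ((q + 1) * R / L) + L ∧ (q + 1) * R / L ≤ R ∧
      4 * L * (R / (4 * L)) ≤ R ∧ 4 ≤ R / (4 * L) := by
  have hL : 0 < L := q.pos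
  refine ⟨?_, ?_, Nat.mul_div_le R _, (Nat.le_div_iff_mul_le (by omega)).2 (by linarith)⟩
  · have h1 := Nat.lt_mul_div_succ ((q + 1) * R) hL
    have h2 : R ≤ ((q : ℕ) + 1) * R := Nat.le_mul_of_pos_left _ (by omega)
    rw [mul_add, mul_one] at h1
    omega
  · exact Nat.div_le_of_le_mul (Nat.mul_le_mul_right R q.2)

theorem layerWin_ok (hR : 16 * L ≤ R) : (layerWin L R).Ok (1 / (8 * L : ℝ)) R := by
  have key : ∀ q : Fin L, R ≤ 4 * L * ((layerWin L R).lo q) ∧ 2 ≤ (layerWin L R).lo q ∧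
      R ≤ 8 * L * (R / (4 * L)) := fun q => by
    obtain ⟨h1, h2, h3, h4⟩ := layer_base q hR
    have h5 := Nat.lt_mul_div_succ R (show 0 < 4 * L by have := q.pos; omega)
    have hL := q.pos
    have hge : 2 * (R / (4 * L)) + 2 ≤ (q + 1) * R / L := by
      by_contra h
      push Not at h
      have := Nat.mul_le_mul_left L (Nat.lt_succ_iff.1 h)
      nlinarith
    refine ⟨?_, show 2 ≤ (q + 1) * R / L - 2 * (R / (4 * L)) by omega, ?_⟩
    · show R ≤ 4 * L * ((q + 1) * R / L - 2 * (R / (4 * L)))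
      rw [Nat.mul_sub, show 4 * L * (2 * (R / (4 * L))) = 2 * (4 * L * (R / (4 * L))) by ring,
        show 4 * L * ((q + 1) * R / L) = 4 * (L * ((q + 1) * R / L)) by ring]
      omega
    · rw [mul_add, mul_one] at h5
      rw [show 8 * L * (R / (4 * L)) = 2 * (4 * L * (R / (4 * L))) by ring]
      omega
  refine ⟨fun q => ?_, fun q => ?_, fun q => ?_, fun q => (key q).2.1, fun q q' hq => ?_, fun q => ?_⟩
  · have hL : (0 : ℝ) < L := by exact_mod_cast q.pos
    rw [one_div_mul_eq_div, div_le_iff₀ (by positivity)]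
    have : (R : ℝ) ≤ 4 * L * ((layerWin L R).lo q : ℕ) := by exact_mod_cast (key q).1
    nlinarith [mul_nonneg hL.le (Nat.cast_nonneg (α := ℝ) ((layerWin L R).lo q))]
  · have hL : (0 : ℝ) < L := by exact_mod_cast q.pos
    rw [one_div_mul_eq_div, div_le_iff₀ (by positivity)]
    show (R : ℝ) ≤ ((R / (4 * L) : ℕ) : ℝ) * (8 * L)
    have : (R : ℝ) ≤ 8 * L * ((R / (4 * L) : ℕ) : ℝ) := by exact_mod_cast (key q).2.2
    linarith
  · exact lt_of_lt_of_le (by norm_num) (layer_base q hR).2.2.2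
  · show (q + 1) * R / L - 2 * (R / (4 * L)) + R / (4 * L) + 2 ≤
      (q' + 1) * R / L - 2 * (R / (4 * L))
    obtain ⟨h1, -, h3, h4⟩ := layer_base q hR
    have hl := (key q).2.1
    simp only [layerWin] at hl
    have e : (q + 1) * R / L + R / (4 * L) + 2 ≤ (q' + 1) * R / L := by
      rw [Nat.le_div_iff_mul_le q.pos, add_mul, add_mul]
      have a1 := Nat.div_mul_le_self ((q + 1) * R) L
      have a2 : ((q : ℕ) + 2) * R ≤ (q' + 1) * R :=
        Nat.mul_le_mul_right R (by have := Fin.lt_def.1 hq; omega)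
      have a3 : R / (4 * L) * L ≤ R / 2 := by
        rw [Nat.le_div_iff_mul_le two_pos]
        calc R / (4 * L) * L * 2 ≤ R / (4 * L) * (4 * L) := by
              rw [mul_assoc]; exact Nat.mul_le_mul_left _ (by omega)
          _ ≤ R := Nat.div_mul_le_self _ _
      have a4 : ((q : ℕ) + 2) * R = (q + 1) * R + R := by ring
      omega
    omega
  · show (q + 1) * R / L - 2 * (R / (4 * L)) + R / (4 * L) + 3 ≤ R
    obtain ⟨-, h2, -, h4⟩ := layer_base q hR
    have hl := (key q).2.1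
    simp only [layerWin] at hl
    omega

lemma layerJ_zero (R : ℕ) (J : Fin L → ℕ) : layerJ R J 0 = 0 := rfl

lemma layerJ_succ (R : ℕ) (J : Fin L → ℕ) {q : ℕ} (h : q < L) : layerJ R J (q + 1) = J ⟨q, h⟩ := by
  simp [layerJ, h]

lemma layerJ_le (hR : 16 * L ≤ R) {J : Fin L → ℕ} (hJ : J ∈ (layerWin L R).set) (q : ℕ) :
    layerJ R J q ≤ R := by
  unfold layerJ
  split_ifs with h1 h2
  · exact Nat.zero_le _
  · have := (Win.mem_set.1 hJ ⟨q - 1, h2⟩).2; have := (layerWin_ok hR).high ⟨q - 1, h2⟩; omega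
  · exact le_rfl

lemma layerJ_mono (hR : 16 * L ≤ R) {J : Fin L → ℕ} (hJ : J ∈ (layerWin L R).set) :
    Monotone (layerJ R J) := monotone_nat_of_le_succ fun q => by
  rcases Nat.lt_or_ge q L with h | h
  · rcases q with _ | q
    · simp [layerJ_zero]
    · rw [layerJ_succ R J (by omega : q < L), layerJ_succ R J h]
      have := (layerWin_ok hR).lt hJ (show (⟨q, by omega⟩ : Fin L) < ⟨q + 1, h⟩ from Nat.lt_succ_self q)
      omega
  · have : layerJ R J (q + 1) = R := by simp [layerJ, show ¬ q < L by omega]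
    rw [this]
    exact layerJ_le hR hJ q

/-- position of a layer: `(q+1)/L - 1/L ≤ J q / R ≤ (q+1)/L` -/
lemma layer_pos (hR : 16 * L ≤ R) {J : Fin L → ℕ} (hJ : J ∈ (layerWin L R).set) (q : Fin L) :
    ((q : ℝ) / L) * R ≤ J q ∧ (J q : ℝ) ≤ ((q + 1 : ℝ) / L) * R := by
  obtain ⟨h1, h2⟩ := Win.mem_set.1 hJ q
  simp only [layerWin] at h1 h2
  have h0 := (layerWin_ok hR).lo_two q
  simp only [layerWin] at h0
  obtain ⟨-, -, h3, h4⟩ := layer_base q hR
  have hL : 0 < L := q.pos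
  have b1 := Nat.lt_mul_div_succ ((q + 1) * R) hL
  have b2 := Nat.mul_div_le ((q + 1) * R) L
  rw [mul_add, mul_one] at b1
  have e1 : (q : ℕ) * R ≤ L * J q := by
    have c1 : L * ((q + 1) * R / L) ≤ L * J q + L * (2 * (R / (4 * L))) := by
      rw [← mul_add]; exact Nat.mul_le_mul_left L (by omega)
    have c2 : 2 * (L * (2 * (R / (4 * L)))) ≤ R := by
      rw [show 2 * (L * (2 * (R / (4 * L)))) = 4 * L * (R / (4 * L)) by ring]; exact h3
    have c3 : ((q : ℕ) + 1) * R = q * R + R := by ring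
    omega
  have e2 : L * J q ≤ (q + 1) * R := le_trans (Nat.mul_le_mul_left L (by omega)) b2
  have hL' : (0 : ℝ) < L := by exact_mod_cast hL
  constructor
  · rw [div_mul_eq_mul_div, div_le_iff₀ hL']
    have : ((q : ℕ) : ℝ) * R ≤ L * (J q : ℝ) := by exact_mod_cast e1
    linarith
  · rw [div_mul_eq_mul_div, le_div_iff₀ hL']
    have : (L : ℝ) * J q ≤ ((q : ℕ) + 1 : ℝ) * R := by exact_mod_cast e2
    linarith

lemma layer_close (hL : 0 < L) (hR : 16 * L ≤ R) {J : Fin L → ℕ} (hJ : J ∈ (layerWin L R).set) :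
    (∀ q < L, ∀ i, layerJ R J q ≤ i → i < layerJ R J (q + 1) →
      |lin R (i + 1) - coarseExp L q| ≤ 2 / L) ∧
    ∀ i, layerJ R J L ≤ i → i < R → |lin R (i + 1) - 1| ≤ 2 / L := by
  have hR0 : (0 : ℝ) < R := by exact_mod_cast (show 0 < R by omega)
  have hL' : (0 : ℝ) < L := by exact_mod_cast hL
  constructor
  · intro q hq i h1 h2
    have h2' := (layer_pos hR hJ ⟨q, hq⟩).2
    rw [layerJ_succ R J hq] at h2
    have hiR : i < R := by
      have := layerJ_le hR hJ (q + 1); rw [layerJ_succ R J hq] at this; omega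
    have hup : ((i : ℝ) + 1) / R ≤ ((q : ℝ) + 1) / L := by
      rw [div_le_iff₀ hR0]
      exact le_trans (by exact_mod_cast h2) h2'
    have hlo : ((q : ℝ) - 1) / L ≤ ((i : ℝ) + 1) / R := by
      rw [le_div_iff₀ hR0]
      rcases q with _ | q
      · have : ((0 : ℕ) : ℝ) - 1 ≤ 0 := by norm_num
        nlinarith [div_nonpos_of_nonpos_of_nonneg this hL'.le]
      · rw [layerJ_succ R J (by omega : q < L)] at h1
        have hp := (layer_pos hR hJ ⟨q, by omega⟩).1
        simp only [Nat.cast_add, Nat.cast_one, add_sub_cancel_right] at hp ⊢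
        linarith [(show (J ⟨q, by omega⟩ : ℝ) ≤ i by exact_mod_cast h1)]
    rw [lin, if_pos (by omega), coarseExp, min_eq_left (by
      rw [div_le_one hL']; exact_mod_cast hq.le)]
    push_cast
    rw [sub_div] at hlo
    have hup' : ((i : ℝ) + 1) / R ≤ (q : ℝ) / L + 1 / L := by rwa [← add_div]
    have h2L : (2 : ℝ) / L = 2 * (1 / L) := by ring
    have : (0 : ℝ) ≤ 1 / L := by positivity
    rw [abs_le]
    constructor <;> linarith
  · intro i h1 hi
    obtain ⟨p, rfl⟩ : ∃ p, L = p + 1 := ⟨L - 1, by omega⟩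
    rw [layerJ_succ R J (Nat.lt_succ_self p)] at h1
    have hp := (layer_pos hR hJ ⟨p, Nat.lt_succ_self p⟩).1
    have hlo : (p : ℝ) / (p + 1 : ℕ) ≤ ((i : ℝ) + 1) / R := by
      rw [le_div_iff₀ hR0]
      simp only at hp
      linarith [(show (J ⟨p, Nat.lt_succ_self p⟩ : ℝ) ≤ i by exact_mod_cast h1)]
    have hup : ((i : ℝ) + 1) / R ≤ 1 := by rw [div_le_one hR0]; exact_mod_cast hi
    have e : (p : ℝ) / (p + 1 : ℕ) = 1 - 1 / (p + 1 : ℕ) := by
      field_simp; push_cast; ring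
    have : (0 : ℝ) ≤ 1 / (p + 1 : ℕ) := by positivity
    have h2L : (2 : ℝ) / (p + 1 : ℕ) = 2 * (1 / (p + 1 : ℕ)) := by ring
    rw [lin, if_pos (by omega), abs_le]
    push_cast at e hlo this h2L ⊢
    constructor <;> linarith

lemma ok_lin_coarse {Ω : Type} {w : List Ω → ℝ} (hR : 0 < R) (hw : ∀ p, 0 < w p) : Ok R (lin R) w where
  pos l h1 h2 := by
    have : (0 : ℝ) < l := by exact_mod_cast h1
    have : (0 : ℝ) < R := by exact_mod_cast hR
    rw [lin, if_pos h2]; positivity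
  mono l _ h := by
    rw [lin, lin, if_pos h.le, if_pos (Nat.succ_le_of_lt h)]
    gcongr
    exact_mod_cast Nat.le_succ l
  top := by
    have : (0 : ℝ) < R := by exact_mod_cast hR
    rw [lin, if_pos le_rfl, div_self this.ne']
  last := by rw [lin, if_neg (by omega)]
  wpos := hw

/-- the fine functional with linear exponents against `L` layers with exponents `q / L` -/
theorem abs_nest_sub_layers {Ω : Type} [Fintype Ω] [Nonempty Ω] {w : List Ω → ℝ}
    (hw : ∀ p, 0 < w p) {N Q : ℕ} (rd : List Ω → Fin N → Bool) {Φ : (Fin Q → Bool) → ℝ} {C : ℝ}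
    (hΦ : ∀ σ, exp (-C) ≤ Φ σ ∧ Φ σ ≤ exp C) (v : Fin Q → Fin N) (hL : 0 < L) (hR : 16 * L ≤ R)
    {J : Fin L → ℕ} (hJ : J ∈ (layerWin L R).set) :
    |log (nest (lin R) w (fun p => Φ (readSlots rd v p)) R []) -
      nestLog (blockMean R (lin R) w (layerJ R J)) (coarseExp L)
        (fun p => log (trueLeaf R (lin R) w rd Φ v p)) 0 L []| ≤ expoA C * (2 / L) :=
  abs_nest_sub_blocks (ok_lin_coarse (by omega) hw) rd (by positivity) hΦ v (layerJ_mono hR hJ) rfl
    (layerJ_le hR hJ L) (coarseExp_nonneg L) (coarseExp_le_one L) (coarseExp_mono L)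
    (layer_close hL hR hJ).1 (layer_close hL hR hJ).2

/-- the trial exponents `(j+1)/(r+1)` -/
noncomputable def trialExp (r : ℕ) (j : Fin r) : ℝ := ((j : ℝ) + 1) / (r + 1)

/-- `x` realises the layers `J` of a structure: for every bounded multilinear `Y` its `levels` are
the nested log power means over independent slots. -/
def IsLayerTrial {Ω : Type} [Fintype Ω] {N : ℕ} (R : ℕ) (w : List Ω → ℝ)
    (rd : List Ω → Fin N → Bool) {r : ℕ} (J : Fin (r + 1) → ℕ)
    (x : (Fin (r + 1) → ℝ) → ℝ) : Prop :=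
  ∀ {n K : ℕ} (Y : (Fin n → Fin K → ℝ) → ℝ), Measurable Y → ∀ C : ℝ,
    (∀ xs, (∀ a b, |xs a b| ≤ 1) → exp (-C) ≤ Y xs ∧ Y xs ≤ exp C) →
    (∀ xs, Y xs = ∑ τ : Fin n → Fin K → Bool,
      (∏ a, ∏ b, msgWeight (xs a b) (τ a b)) * Y fun a b => sg (τ a b)) →
    ∀ s₀, levels r (trialExp r) x Y =
      nestLog (fun l => slotsMean R (lin R) w (layerJ R J) l (n * K)) (coarseExp (r + 1))
        (fun s => log (trialLeaf R (lin R) w rd
          (fun σ => Y fun a b => sg (σ (finProdFinEquiv (a, b)))) s)) 0 (r + 1) s₀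

/-- every choice of layers gives an admissible trial: `(trialExp r, x)` -/
theorem exists_layer_trial {Ω : Type} [Fintype Ω] [Nonempty Ω] {N R r : ℕ} [NeZero N]
    {w : List Ω → ℝ} (hw : ∀ p, 0 < w p) (rd : List Ω → Fin N → Bool) (hR : 16 * (r + 1) ≤ R)
    {J : Fin (r + 1) → ℕ} (hJ : J ∈ (layerWin (r + 1) R).set) :
    ∃ x : (Fin (r + 1) → ℝ) → ℝ, Measurable x ∧ (∀ ω, |x ω| ≤ 1) ∧ IsLayerTrial R w rd J x := by
  obtain ⟨x, hx, hb, hlev⟩ := exists_coarse_trial (m := lin R) hw rd (layerJ_mono hR hJ) rfl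
    (layerJ_le hR hJ (r + 1))
  exact ⟨x, hx, hb, fun Y hY C hC hmul => hlev (trialExp r) (fun j => coarseExp_trial_mem.2 j |>.1)
    (coarseExp (r + 1)) (coarseExp_zero _) (fun j => coarseExp_trial j) Y hY C hC hmul⟩

/-- **Coarse graining.** The mean over the positions of `log nest Y` is the trial value of the
layers up to `expoA C * 2 / (r + 1) + ε` and the deviations of finitely many site averages; the
trees and the constant depend only on `(C, n, K, r, ε)`. -/
theorem exists_coarse_bound (C : ℝ) (n K r : ℕ) {ε : ℝ} (hε : 0 < ε) :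
    ∃ (P : List Tree) (A : ℝ), 0 ≤ A ∧
      ∀ {Ω : Type} [Fintype Ω] [Nonempty Ω] {N R : ℕ} [NeZero N] {w : List Ω → ℝ},
        (∀ p, 0 < w p) → 16 * (r + 1) ≤ R → ∀ {J : Fin (r + 1) → ℕ},
        J ∈ (layerWin (r + 1) R).set → ∀ {rd : List Ω → Fin N → Bool}
          {x : (Fin (r + 1) → ℝ) → ℝ}, IsLayerTrial R w rd J x →
        ∀ (Y : (Fin n → Fin K → ℝ) → ℝ), Measurable Y →
          (∀ xs, (∀ a b, |xs a b| ≤ 1) → exp (-C) ≤ Y xs ∧ Y xs ≤ exp C) →
          (∀ xs, Y xs = ∑ τ : Fin n → Fin K → Bool,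
            (∏ a, ∏ b, msgWeight (xs a b) (τ a b)) * Y fun a b => sg (τ a b)) →
          |av (fun i : Fin n → Fin K → Fin N =>
              log (nest (lin R) w (fun p => Y fun a b => sg (rd p (i a b))) R [])) -
            levels r (trialExp r) x Y| ≤ expoA C * (2 / (r + 1 : ℕ)) + ε +
              A * (P.map fun t => ∑ S ∈ (univ : Finset (Finset (Fin (Tree.size r t)))).erase ∅,
                √(varM R (lin R) w rd (lvT (layerJ R J) r t) S)).sum := by
  obtain ⟨P, A, hA, h⟩ := exists_compare (coarseExp_nonneg (r + 1)) (coarseExp_zero _) C (n * K) r hε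
  refine ⟨P, A, hA, ?_⟩
  intro Ω _ _ N R _ w hw hR J hJ rd x hx Y hY hC hmul
  set e : Fin n × Fin K ≃ Fin (n * K) := finProdFinEquiv
  set Φ : (Fin (n * K) → Bool) → ℝ := fun σ => Y fun a b => sg (σ (e (a, b))) with hΦdef
  have hΦ : ∀ σ, exp (-C) ≤ Φ σ ∧ Φ σ ≤ exp C := fun σ => hC _ fun a b => (abs_sg _).le
  have s₀ : Fin (n * K) → Fin N × List Ω := fun _ => (0, [])
  have hcmp := h (m := lin R) hw (J := layerJ R J) rfl
    (fun q _ => layerJ_mono hR hJ (Nat.le_succ q)) (layerJ_le hR hJ (r + 1)) rd hΦ s₀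
  rw [← hx Y hY C hC hmul s₀] at hcmp
  set f := fun v : Fin (n * K) → Fin N => log (nest (lin R) w (fun p => Φ (readSlots rd v p)) R [])
  have hav : av (fun i : Fin n → Fin K → Fin N =>
      log (nest (lin R) w (fun p => Y fun a b => sg (rd p (i a b))) R [])) = avg f := by
    simp only [av, avg]
    congr 1
    · refine Fintype.sum_equiv ((Equiv.curry (Fin n) (Fin K) (Fin N)).symm.trans
        (Equiv.arrowCongr e (Equiv.refl _))) _ _ fun i => ?_
      simp [f, Φ, readSlots, Equiv.arrowCongr, Equiv.curry, Function.uncurry]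
    · exact_mod_cast Fintype.card_congr ((Equiv.curry (Fin n) (Fin K) (Fin N)).symm.trans
        (Equiv.arrowCongr e (Equiv.refl _)))
  rw [hav]
  have hfine : |avg f - avg (fun v : Fin (n * K) → Fin N =>
      nestLog (blockMean R (lin R) w (layerJ R J)) (coarseExp (r + 1))
        (fun p => log (trueLeaf R (lin R) w rd Φ v p)) 0 (r + 1) [])| ≤
      expoA C * (2 / (r + 1 : ℕ)) := by
    rw [← avg_sub]
    refine abs_avg_le _ ?_ fun v => abs_nest_sub_layers hw rd hΦ v (Nat.succ_pos r) hR hJ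
    have hC0 : 0 ≤ C := by
      have h' := hC (fun _ _ => 0) fun _ _ => by simp
      linarith [exp_le_exp.1 (h'.1.trans h'.2)]
    unfold expoA expoK
    positivity
  exact (abs_sub_le _ _ _).trans ((add_le_add hfine hcmp).trans_eq (add_assoc _ _ _).symm)

end Vale.Agent.P168.MP
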