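import Vale.Agent.P168.MP.Mean

/-! Exponent stability of nested log power means, uniformly in the number of levels. -/

namespace Vale.Agent.P168.MP

open Real

variable {N : Type*}

/-- `nestLog E e g l k`: nested log power means over the levels `l, ..., l + k - 1`. -/
noncomputable def nestLog (E : ℕ → (N → ℝ) → N → ℝ) (e : ℕ → ℝ) (g : N → ℝ) : ℕ → ℕ → N → ℝ
  | _, 0 => g
  | l, k + 1 => lmean (E l) (e l) (nestLog E e g (l + 1) k)

/-- composition of the averages over the levels `l, ..., l + k - 1` -/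
def compMean (E : ℕ → (N → ℝ) → N → ℝ) : ℕ → ℕ → (N → ℝ) → N → ℝ
  | _, 0, f => f
  | l, k + 1, f => E l (compMean E (l + 1) k f)

variable {E : ℕ → (N → ℝ) → N → ℝ} {e e' : ℕ → ℝ} {g : N → ℝ} {C δ : ℝ}

lemma isMean_compMean (hE : ∀ l, IsMean (E l)) : ∀ l k, IsMean (compMean E l k)
  | l, 0 => ⟨fun _ _ _ => rfl, fun _ _ _ => rfl, fun _ _ x h => h x, fun _ => rfl⟩
  | l, k + 1 => by
    have ih := isMean_compMean hE (l + 1) k
    refine ⟨fun f f' x => ?_, fun c f x => ?_, fun f f' x h => ?_, fun x => ?_⟩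
    · simp only [compMean]
      rw [← (hE l).add]; congr 1; funext y; exact ih.add f f' y
    · simp only [compMean]
      rw [← (hE l).smul]; congr 1; funext y; exact ih.smul c f y
    · exact (hE l).mono _ _ x fun y => ih.mono f f' y h
    · simp only [compMean]
      rw [show compMean E (l + 1) k (fun _ => 1) = fun _ => 1 from funext ih.one]
      exact (hE l).one x

lemma nestLog_mem (hE : ∀ l, IsMean (E l)) (hg : ∀ x, |g x| ≤ C) :
    ∀ k l, (∀ i, l ≤ i → i < l + k → 0 ≤ e i) → ∀ x, |nestLog E e g l k x| ≤ C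
  | 0, _, _ => hg
  | k + 1, l, he => fun _ => lmean_mem (hE l) (he l le_rfl (by omega))
      (nestLog_mem hE hg k (l + 1) fun i h1 h2 => he i (by omega) (by omega))

lemma nestLog_mono (hE : ∀ l, IsMean (E l)) (hg : ∀ x, |g x| ≤ C) :
    ∀ k l, (∀ i, l ≤ i → i < l + k → 0 ≤ e i ∧ e i ≤ e' i) →
      ∀ x, nestLog E e g l k x ≤ nestLog E e' g l k x
  | 0, _, _ => fun _ => le_rfl
  | k + 1, l, he => fun x => by
    have h' := fun i (h1 : l + 1 ≤ i) (h2 : i < l + 1 + k) => he i (by omega) (by omega)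
    obtain ⟨h0, hle⟩ := he l le_rfl (by omega)
    have m1 := nestLog_mem hE hg (e := e) k (l + 1) fun i a b => (h' i a b).1
    exact (lmean_exp_mono (hE l) h0 hle m1).trans
      (lmean_mono (hE l) (h0.trans hle) m1
        (nestLog_mem hE hg k (l + 1) fun i a b => (h' i a b).1.trans (h' i a b).2)
        (nestLog_mono hE hg k (l + 1) h'))

lemma energy (hE : ∀ l, IsMean (E l)) (hg : ∀ x, |g x| ≤ C) :
    ∀ k l, (∀ i, l ≤ i → i < l + k → 0 ≤ e i ∧ e i ≤ 1) →
      ∀ x, exp (2 * nestLog E e g l k x) ≤ compMean E l k (fun y => exp (2 * g y)) x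
  | 0, _, _ => fun _ => le_rfl
  | k + 1, l, he => fun x => by
    have h' := fun i (h1 : l + 1 ≤ i) (h2 : i < l + 1 + k) => he i (by omega) (by omega)
    obtain ⟨h0, h1⟩ := he l le_rfl (by omega)
    have m := nestLog_mem hE hg (e := e) k (l + 1) fun i a b => (h' i a b).1
    have := lmean_energy (hE l) (x := x) h0 h1 m
    have h2 := (hE l).mono _ _ x (energy hE hg k (l + 1) h')
    have : 0 ≤ exp (-(2 * C)) * E l
        (fun y => (nestLog E e g (l + 1) k y - E l (nestLog E e g (l + 1) k) x) ^ 2) x :=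
      mul_nonneg (exp_pos _).le ((hE l).nonneg _ x fun y => sq_nonneg _)
    simp only [nestLog, compMean]
    linarith

/-- constant in the stability bound, before the tilt -/
noncomputable def expoK (C : ℝ) : ℝ := exp (2 * C) * (1 + 2 * C * exp (2 * C)) * exp (2 * C)

/-- constant in the stability bound -/
noncomputable def expoA (C : ℝ) : ℝ := expoK C * exp (4 * C)

lemma nestLog_sub_le_tilt (hE : ∀ l, IsMean (E l)) (hg : ∀ x, |g x| ≤ C) (hC : 0 ≤ C) (hδ : 0 ≤ δ) :
    ∀ k l, (∀ i, l ≤ i → i < l + k → 0 ≤ e i ∧ e i ≤ e' i ∧ e' i ≤ 1 ∧ e' i - e i ≤ δ) →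
      (∀ i j, l ≤ i → i ≤ j → j < l + k → e' i ≤ e' j) →
      ∀ x, nestLog E e' g l k x - nestLog E e g l k x ≤
        expoK C * δ * exp (-(e' l * nestLog E e' g l k x) + C * (2 - e' l)) *
          (compMean E l k (fun y => exp (2 * g y)) x - exp (2 * nestLog E e g l k x))
  | 0, _, _, _ => fun x => by simp [nestLog, compMean]
  | k + 1, l, he, hmono => fun x => by
    have h' := fun i (h1 : l + 1 ≤ i) (h2 : i < l + 1 + k) => he i (by omega) (by omega)
    obtain ⟨h0, hle, h1, hd⟩ := he l le_rfl (by omega)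
    have ht' : 0 ≤ e' l := h0.trans hle
    have m := nestLog_mem hE hg (e := e) k (l + 1) fun i a b => (h' i a b).1
    have m' := nestLog_mem hE hg (e := e') k (l + 1) fun i a b => (h' i a b).1.trans (h' i a b).2.1
    have hen := energy hE hg (e := e) k (l + 1) fun i a b =>
      ⟨(h' i a b).1, (h' i a b).2.1.trans (h' i a b).2.2.1⟩
    have ih := nestLog_sub_le_tilt hE hg hC hδ k (l + 1) h'
      fun i j a b c => hmono i j (by omega) b (by omega)
    have hK : 0 ≤ expoK C := by unfold expoK; positivity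
    simp only [nestLog, compMean]
    set G := nestLog E e g (l + 1) k
    set G' := nestLog E e' g (l + 1) k
    set S := compMean E (l + 1) k fun y => exp (2 * g y)
    set a := lmean (E l) (e l) G x with ha
    set a' := lmean (E l) (e' l) G' x with ha'
    set β := -(e' l * a') + C * (2 - e' l) with hβ
    have hb : 1 ≤ exp β := one_le_exp (by
      nlinarith [abs_le.1 (lmean_mem (hE l) (x := x) ht' m'), ha'])
    -- the tilt is absorbed in the potential
    have p : ∀ y, exp (e' l * (G' y - a')) * (G' y - G y)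
        ≤ expoK C * δ * exp β * (S y - exp (2 * G y)) := fun y => by
      rcases Nat.eq_zero_or_pos k with hk | hk
      · have : G' y = G y ∧ S y = exp (2 * G y) := by
          subst hk; exact ⟨rfl, rfl⟩
        simp [this.1, this.2]
      refine (mul_le_mul_of_nonneg_left (ih y) (exp_pos _).le).trans ?_
      have hm := hmono l (l + 1) le_rfl (by omega) (by omega)
      rw [← mul_assoc, ← mul_assoc (exp _), mul_comm (exp _) (expoK C * δ),
        mul_assoc (expoK C * δ) (exp _), ← exp_add]
      gcongr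
      · exact sub_nonneg.2 (hen y)
      · nlinarith [mul_nonneg (sub_nonneg.2 hm)
          (show (0:ℝ) ≤ C + G' y by linarith [(abs_le.1 (m' y)).1])]
    have t1 := lmean_sub_le (hE l) (x := x) ht' m m'
    have t1' := (hE l).mono _ _ x p
    rw [(hE l).smul, (hE l).sub] at t1'
    have t2 := lmean_exp_sub_le (hE l) (x := x) h0 hle h1 m
    have t3 := lmean_energy (hE l) (x := x) h0 (hle.trans h1) m
    have hD : 0 ≤ E l (fun y => (G y - E l G x) ^ 2) x := (hE l).nonneg _ x fun y => sq_nonneg _
    have hX : 0 ≤ E l (fun y => exp (2 * G y)) x - exp (2 * a) := by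
      linarith [mul_nonneg (exp_pos (-(2 * C))).le hD]
    have t4 : lmean (E l) (e' l) G x - a
        ≤ expoK C * δ * exp β * (E l (fun y => exp (2 * G y)) x - exp (2 * a)) := by
      have hD' : E l (fun y => (G y - E l G x) ^ 2) x
          ≤ exp (2 * C) * (E l (fun y => exp (2 * G y)) x - exp (2 * a)) := by
        have := mul_le_mul_of_nonneg_left
          (show exp (-(2 * C)) * E l (fun y => (G y - E l G x) ^ 2) x
              ≤ E l (fun y => exp (2 * G y)) x - exp (2 * a) by linarith) (exp_pos (2 * C)).le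
        rwa [← mul_assoc, ← exp_add, add_neg_cancel, exp_zero, one_mul] at this
      calc lmean (E l) (e' l) G x - a
          ≤ exp (2 * C) * (1 + 2 * C * exp (2 * C)) * (e' l - e l) * _ := t2
        _ ≤ exp (2 * C) * (1 + 2 * C * exp (2 * C)) * δ *
            (exp (2 * C) * (E l (fun y => exp (2 * G y)) x - exp (2 * a))) := by gcongr
        _ = expoK C * δ * 1 * (E l (fun y => exp (2 * G y)) x - exp (2 * a)) := by
            unfold expoK; ring
        _ ≤ _ := by gcongr
    nlinarith

/-- E1, ordered exponents: only the larger vector has to be monotone. -/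
theorem nestLog_sub_le (hE : ∀ l, IsMean (E l)) (hg : ∀ x, |g x| ≤ C) (hδ : 0 ≤ δ) (l k : ℕ)
    (he : ∀ i, l ≤ i → i < l + k → 0 ≤ e i ∧ e i ≤ e' i ∧ e' i ≤ 1 ∧ e' i - e i ≤ δ)
    (hmono : ∀ i j, l ≤ i → i ≤ j → j < l + k → e' i ≤ e' j) (x : N) :
    nestLog E e' g l k x - nestLog E e g l k x ≤ expoA C * δ := by
  have hC : 0 ≤ C := (abs_nonneg _).trans (hg x)
  have hK : 0 ≤ expoK C * δ := by unfold expoK; positivity
  rcases Nat.eq_zero_or_pos k with hk | hk
  · subst hk; simp [nestLog, expoA, expoK]; positivity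
  refine (nestLog_sub_le_tilt hE hg hC hδ k l he hmono x).trans ?_
  obtain ⟨h0, hle, h1, -⟩ := he l le_rfl (by omega)
  have m := abs_le.1 (nestLog_mem hE hg (e := e') k l
    (fun i a b => (he i a b).1.trans (he i a b).2.1) x)
  have hS : compMean E l k (fun y => exp (2 * g y)) x ≤ exp (2 * C) :=
    (isMean_compMean hE l k).le_const _ _ x fun y =>
      exp_le_exp.2 (by linarith [(abs_le.1 (hg y)).2])
  have hS0 := energy hE hg (e := e) k l
    (fun i a b => ⟨(he i a b).1, (he i a b).2.1.trans (he i a b).2.2.1⟩) x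
  rw [expoA, show exp (4 * C) = exp (2 * C) * exp (2 * C) by rw [← exp_add]; congr 1; ring,
    show expoK C * (exp (2 * C) * exp (2 * C)) * δ
      = expoK C * δ * exp (2 * C) * exp (2 * C) by ring]
  gcongr
  · nlinarith [mul_nonneg (h0.trans hle)
      (show (0:ℝ) ≤ C + nestLog E e' g l k x by linarith [m.1])]
  · linarith [exp_pos (2 * nestLog E e g l k x)]

/-- E1: two monotone exponent vectors in `[0,1]`. -/
theorem abs_nestLog_sub_le (hE : ∀ l, IsMean (E l)) (hg : ∀ x, |g x| ≤ C) (hδ : 0 ≤ δ) (l k : ℕ)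
    (he : ∀ i, l ≤ i → i < l + k → (0 ≤ e i ∧ e i ≤ 1) ∧ (0 ≤ e' i ∧ e' i ≤ 1) ∧ |e i - e' i| ≤ δ)
    (hmono : ∀ i j, l ≤ i → i ≤ j → j < l + k → e i ≤ e j ∧ e' i ≤ e' j) (x : N) :
    |nestLog E e g l k x - nestLog E e' g l k x| ≤ expoA C * δ := by
  set f := fun i => max (e i) (e' i) with hf
  have hfm : ∀ i j, l ≤ i → i ≤ j → j < l + k → f i ≤ f j := fun i j a b c =>
    max_le_max (hmono i j a b c).1 (hmono i j a b c).2
  have a1 := nestLog_sub_le hE hg hδ l k (e := e) (e' := f) (fun i a b => by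
    obtain ⟨⟨p1, p2⟩, ⟨p3, p4⟩, p5⟩ := he i a b
    refine ⟨p1, le_max_left _ _, max_le p2 p4, ?_⟩
    rw [sub_le_iff_le_add]
    exact max_le (by linarith) (by linarith [(abs_le.1 p5).1])) hfm x
  have a2 := nestLog_sub_le hE hg hδ l k (e := e') (e' := f) (fun i a b => by
    obtain ⟨⟨p1, p2⟩, ⟨p3, p4⟩, p5⟩ := he i a b
    refine ⟨p3, le_max_right _ _, max_le p2 p4, ?_⟩
    rw [sub_le_iff_le_add]
    exact max_le (by linarith [(abs_le.1 p5).2]) (by linarith)) hfm x
  have b1 := nestLog_mono hE hg (e := e) (e' := f) k l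
    (fun i a b => ⟨(he i a b).1.1, le_max_left _ _⟩) x
  have b2 := nestLog_mono hE hg (e := e') (e' := f) k l
    (fun i a b => ⟨(he i a b).2.1.1, le_max_right _ _⟩) x
  exact abs_le.2 ⟨by linarith, by linarith⟩

/-- splitting the levels -/
lemma nestLog_add : ∀ (a b l : ℕ),
    nestLog E e g l (a + b) = nestLog E e (nestLog E e g (l + a) b) l a
  | 0, b, l => by simp [nestLog]
  | a + 1, b, l => by
    rw [show a + 1 + b = (a + b) + 1 by omega]
    simp only [nestLog]
    rw [nestLog_add a b (l + 1), show l + 1 + a = l + (a + 1) by omega]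

/-- equal exponents on consecutive levels compose -/
lemma nestLog_const (hE : ∀ l, IsMean (E l)) (hg : ∀ x, |g x| ≤ C) {t : ℝ} (ht : 0 ≤ t) :
    ∀ k l, (∀ i, l ≤ i → i < l + k → e i = t) →
      ∀ x, nestLog E e g l k x = lmean (compMean E l k) t g x
  | 0, l, _ => fun x => by
    simp only [nestLog, lmean, compMean]
    split_ifs with h
    · rfl
    · rw [log_exp]; field_simp
  | k + 1, l, he => fun x => by
    have ih := nestLog_const hE hg ht k (l + 1) fun i a b => he i (by omega) (by omega)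
    simp only [nestLog, he l le_rfl (by omega)]
    rw [show nestLog E e g (l + 1) k = lmean (compMean E (l + 1) k) t g from funext ih]
    rcases ht.eq_or_lt with h | h
    · subst h
      simp only [compMean]
      simp only [lmean, if_true]
      congr 1; funext y; simp [lmean]
    · have hc := isMean_compMean hE (l + 1) k
      simp only [lmean, h.ne', if_false, compMean]
      congr 2
      congr 1; funext y
      rw [mul_div_cancel₀ _ h.ne', exp_log]
      refine hc.exp_pos _ (t * C) y fun z => ?_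
      rw [abs_mul, abs_of_pos h]
      exact mul_le_mul_of_nonneg_left (hg z) h.le

lemma nestLog_congr : ∀ (k l : ℕ), (∀ i, l ≤ i → i < l + k → e i = e' i) →
    nestLog E e g l k = nestLog E e' g l k
  | 0, _, _ => rfl
  | k + 1, l, he => by
    simp only [nestLog, he l le_rfl (by omega),
      nestLog_congr k (l + 1) fun i a b => he i (by omega) (by omega)]

/-- Coarse graining: exponents constant on the blocks `[J q, J (q+1))`. -/
theorem nestLog_blocks (hE : ∀ l, IsMean (E l)) (hg : ∀ x, |g x| ≤ C) {J : ℕ → ℕ} (hJ : Monotone J)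
    {M : ℕ → ℝ} (hM : ∀ q, 0 ≤ M q) :
    ∀ (L q : ℕ), (∀ p, q ≤ p → p < q + L → ∀ i, J p ≤ i → i < J (p + 1) → e i = M p) →
      nestLog E e g (J q) (J (q + L) - J q)
        = nestLog (fun p => compMean E (J p) (J (p + 1) - J p)) M g q L
  | 0, q, _ => by simp [nestLog]
  | L + 1, q, he => by
    have h1 : J q ≤ J (q + 1) := hJ (by omega)
    have h2 : J (q + 1) ≤ J (q + 1 + L) := hJ (by omega)
    rw [show q + (L + 1) = q + 1 + L by omega,
      show J (q + 1 + L) - J q = (J (q + 1) - J q) + (J (q + 1 + L) - J (q + 1)) by omega,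
      nestLog_add, show J q + (J (q + 1) - J q) = J (q + 1) by omega,
      nestLog_blocks hE hg hJ hM L (q + 1) fun p a b => he p (by omega) (by omega)]
    funext x
    simp only [nestLog]
    refine nestLog_const hE (C := C) ?_ (hM q) _ _ (fun i a b => he q le_rfl (by omega) i a (by omega)) x
    exact nestLog_mem (fun p => isMean_compMean hE _ _) hg L (q + 1) fun i _ _ => hM i

end Vale.Agent.P168.MP
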