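import Vale.Agent.P168.MP.TrialBound
import Vale.Agent.P168.MP.Expo

/-! Finite kernels give step trial functions: the trial functional of such an `x` is a finite nested
log power mean over product kernels. -/

open MeasureTheory Real Finset Filter

namespace Vale.Agent.P168.MP

variable {α : Type} [Fintype α]

/-- a step function realising a finite list of weights on an interval -/
lemma exists_quantile [Nonempty α] [MeasurableSpace α] [MeasurableSingletonClass α] (p : α → ℝ) (hp : ∀ o, 0 ≤ p o) :
    ∀ (s : Finset α) (a : ℝ), ∃ q : ℝ → α, Measurable q ∧ ∀ g : α → ℝ,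
      ∫ t in a..(a + ∑ o ∈ s, p o), g (q t) = ∑ o ∈ s, p o * g o := by
  classical
  intro s
  induction s using Finset.induction_on with
  | empty => exact fun a => ⟨fun _ => Classical.arbitrary α, measurable_const, fun g => by simp⟩
  | insert o s ho ih =>
    intro a
    obtain ⟨q, hq, hint⟩ := ih (a + p o)
    refine ⟨fun t => if t ≤ a + p o then o else q t,
      Measurable.ite measurableSet_Iic measurable_const hq, fun g => ?_⟩
    have hs : 0 ≤ ∑ o ∈ s, p o := sum_nonneg fun o _ => hp o
    set G := fun t => g (if t ≤ a + p o then o else q t)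
    have e1 : Set.EqOn G (fun _ => g o) (Set.uIoc a (a + p o)) := fun t ht => by
      rw [Set.uIoc_of_le (by linarith [hp o])] at ht
      simp [G, ht.2]
    have e2 : Set.EqOn G (fun t => g (q t)) (Set.uIoc (a + p o) (a + p o + ∑ o ∈ s, p o)) := fun t ht => by
      rw [Set.uIoc_of_le (by linarith)] at ht
      simp [G, not_le.2 ht.1]
    have hbd : ∀ x y : ℝ, IntervalIntegrable G volume x y := fun x y => by
      refine (intervalIntegrable_const (c := ∑ o, |g o|)).mono_fun' ?_ ?_
      · exact ((Measurable.of_discrete (f := g)).comp (Measurable.ite measurableSet_Iic measurable_const hq)).aestronglyMeasurable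
      · exact Eventually.of_forall fun t => by
          simpa [Real.norm_eq_abs, G] using
            single_le_sum (f := fun o => |g o|) (fun _ _ => abs_nonneg _) (mem_univ _)
    rw [sum_insert ho, sum_insert ho, ← add_assoc]
    rw [← intervalIntegral.integral_add_adjacent_intervals (hbd a (a + p o)) (hbd _ _),
      intervalIntegral.integral_congr_ae (Eventually.of_forall e1),
      intervalIntegral.integral_congr_ae (Eventually.of_forall e2), hint g]
    simp

lemma exists_quantile_unit [Nonempty α] [MeasurableSpace α] [MeasurableSingletonClass α] (p : α → ℝ)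
    (hp : ∀ o, 0 ≤ p o) (hp1 : ∑ o, p o = 1) :
    ∃ q : ℝ → α, Measurable q ∧ ∀ g : α → ℝ, ∫ t, g (q t) ∂unif01 = ∑ o, p o * g o := by
  obtain ⟨q, hq, h⟩ := exists_quantile p hp univ 0
  refine ⟨q, hq, fun g => ?_⟩
  have := h g
  rw [zero_add, hp1, intervalIntegral.integral_of_le zero_le_one] at this
  rw [unif01, integral_Icc_eq_integral_Ioc, this]

lemma integral_pi_quantile {ι : Type} [Fintype ι] [DecidableEq ι] [MeasurableSpace α] [MeasurableSingletonClass α]
    (q : ι → ℝ → α) (hq : ∀ i, Measurable (q i)) (p : ι → α → ℝ)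
    (h : ∀ i (g : α → ℝ), ∫ t, g (q i t) ∂unif01 = ∑ o, p i o * g o) (G : (ι → α) → ℝ) :
    ∫ ω : ι → ℝ, G (fun i => q i (ω i)) ∂Measure.pi (fun _ => unif01) =
      ∑ o : ι → α, (∏ i, p i (o i)) * G o := by
  classical
  have e : ∀ ω : ι → ℝ, G (fun i => q i (ω i)) =
      ∑ o : ι → α, (∏ i, if q i (ω i) = o i then (1 : ℝ) else 0) * G o := fun ω => by
    rw [Finset.sum_eq_single (fun i => q i (ω i))]
    · simp
    · intro o _ hne
      obtain ⟨i, hi⟩ := Function.ne_iff.1 hne
      rw [prod_eq_zero (mem_univ i) (by simp [Ne.symm hi]), zero_mul]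
    · simp
  have hi : ∀ i (a : α), Integrable (fun t => if q i t = a then (1 : ℝ) else 0) unif01 := fun i a =>
    Integrable.of_bound ((Measurable.of_discrete (f := fun b => if b = a then (1 : ℝ) else 0)).comp
      (hq i)).aestronglyMeasurable 1 (Eventually.of_forall fun t => by split_ifs <;> simp)
  simp only [e]
  rw [integral_finsetSum _ fun o _ => (Integrable.fintype_prod fun i => hi i (o i)).mul_const _]
  refine sum_congr rfl fun o _ => ?_
  rw [integral_mul_const, integral_fintype_prod_eq_prod (fun i t => if q i t = o i then (1 : ℝ) else 0)]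
  congr 1
  refine prod_congr rfl fun i _ => ?_
  rw [h i fun b => if b = o i then 1 else 0]
  simp

/-- the node reached from `pre` by quantile maps -/
def qpath (q : List α → ℝ → α) : (r : ℕ) → List α → (Fin r → ℝ) → List α
  | 0, pre, _ => pre
  | r + 1, pre, v => qpath q r (pre ++ [q pre (v 0)]) (Fin.tail v)

lemma measurable_qpath [MeasurableSpace α] [MeasurableSingletonClass α] {q : List α → ℝ → α}
    (hq : ∀ pre, Measurable (q pre)) (f : List α → ℝ) :
    ∀ (r : ℕ) (pre : List α), Measurable fun v => f (qpath q r pre v) := by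
  classical
  intro r
  induction r with
  | zero => intro pre; simp only [qpath]; exact measurable_const
  | succ r ih =>
    intro pre
    have e : (fun v : Fin (r + 1) → ℝ => f (qpath q (r + 1) pre v)) =
        fun v => ∑ o, (if q pre (v 0) = o then (1 : ℝ) else 0) * f (qpath q r (pre ++ [o]) (Fin.tail v)) := by
      funext v; simp [qpath]
    rw [e]
    refine Finset.measurable_sum _ fun o _ => Measurable.mul ?_ ?_
    · exact ((Measurable.of_discrete (f := fun b => if b = o then (1 : ℝ) else 0)).comp
        ((hq pre).comp (measurable_pi_apply 0)))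
    · exact (ih _).comp (measurable_pi_lambda _ fun i => measurable_pi_apply _)

/-- one step of independent kernels, one per message -/
noncomputable def prodStep {ι : Type} [Fintype ι] (k : List α → α → ℝ) (g : (ι → List α) → ℝ)
    (pre : ι → List α) : ℝ :=
  haveI := Classical.decEq ι
  ∑ o : ι → α, (∏ i, k (pre i) (o i)) * g fun i => pre i ++ [o i]

lemma isMean_prodStep {ι : Type} [Fintype ι] {k : List α → α → ℝ} (hk : ∀ pre o, 0 ≤ k pre o)
    (hk1 : ∀ pre, ∑ o, k pre o = 1) : IsMean (prodStep (ι := ι) k) := by
  classical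
  refine ⟨fun f g x => ?_, fun c f x => ?_, fun f g x h => ?_, fun x => ?_⟩ <;> simp only [prodStep]
  · rw [← sum_add_distrib]; exact sum_congr rfl fun o _ => by ring
  · rw [mul_sum]; exact sum_congr rfl fun o _ => by ring
  · exact sum_le_sum fun o _ => mul_le_mul_of_nonneg_left (h _) (prod_nonneg fun i _ => hk _ _)
  · simp only [mul_one]
    rw [← Fintype.prod_sum fun i o => k (x i) o]
    simp [hk1]

variable [MeasurableSpace α] [MeasurableSingletonClass α] {k : List α → α → ℝ} {q : List α → ℝ → α}
  {f : List α → ℝ} {ι : Type} [Fintype ι]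

lemma integral_step (hq : ∀ pre, Measurable (q pre))
    (h : ∀ pre (g : α → ℝ), ∫ t, g (q pre t) ∂unif01 = ∑ o, k pre o * g o) (G : (ι → List α) → ℝ)
    (pre : ι → List α) :
    ∫ ω : ι → ℝ, G (fun i => pre i ++ [q (pre i) (ω i)]) ∂Measure.pi (fun _ => unif01) =
      prodStep k G pre := by
  classical
  rw [integral_pi_quantile (fun i => q (pre i)) (fun i => hq _) (fun i => k (pre i)) (fun i => h _)
    (fun o => G fun i => pre i ++ [o i])]
  simp only [prodStep]

lemma log_inner_step (hq : ∀ pre, Measurable (q pre))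
    (h : ∀ pre (g : α → ℝ), ∫ t, g (q pre t) ∂unif01 = ∑ o, k pre o * g o) (hf : ∀ p, |f p| ≤ 1)
    {Y : (ι → ℝ) → ℝ} (hY : Measurable Y) {C : ℝ}
    (hb : ∀ xs, (∀ i, |xs i| ≤ 1) → exp (-C) ≤ Y xs ∧ Y xs ≤ exp C) :
    ∀ (r : ℕ) (m : Fin r → ℝ), (∀ j, 0 < m j) → ∀ (e : ℕ → ℝ) (l : ℕ), (∀ j : Fin r, e (l + j) = m j) →
      ∀ pre : ι → List α, log (inner r m (fun i v => f (qpath q r (pre i) v)) Y) =
        nestLog (fun _ => prodStep k) e (fun p => log (Y fun i => f (p i))) l r pre := by
  intro r
  induction r with
  | zero => intro m _ e l _ pre; rfl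
  | succ r ih =>
    intro m hm e l he pre
    have h0 : e l = m 0 := by simpa using he 0
    have ih' := ih (Fin.tail m) (fun j => hm _) e (l + 1) fun j => by
      rw [Fin.tail, ← he j.succ, Fin.val_succ]; congr 1; omega
    set G := fun p : ι → List α => inner r (Fin.tail m) (fun i v => f (qpath q r (p i) v)) Y
    have hpos : ∀ p, 0 < G p := fun p => (exp_pos _).trans_le
      (inner_mem hY hb r _ (fun j => hm _) _ (fun i => measurable_qpath hq f r (p i)) fun i v => hf _).1
    simp only [inner, qpath, Fin.cons_zero, Fin.tail_cons, nestLog, lmean, h0, if_neg (hm 0).ne']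
    rw [integral_step hq h (fun p => G p ^ m 0) pre]
    have hs : prodStep k (fun p => exp (m 0 * nestLog (fun _ => prodStep k) e
        (fun p => log (Y fun i => f (p i))) (l + 1) r p)) pre = prodStep k (fun p => G p ^ m 0) pre := by
      congr 1; funext p
      rw [← ih' p, rpow_def_of_pos (hpos p), mul_comm]
    rw [hs]
    have hk : 0 < prodStep k (fun p => G p ^ m 0) pre := by
      rw [← integral_step hq h]
      have hmem := fun ω : ι → ℝ => (inner_mem hY hb r (Fin.tail m) (fun j => hm _) _
        (fun i => measurable_qpath hq f r (pre i ++ [q (pre i) (ω i)])) fun i v => hf _)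
      refine (rpow_pos_of_pos (exp_pos (-C)) (m 0)).trans_le ?_
      have hi : Integrable (fun ω : ι → ℝ => G (fun i => pre i ++ [q (pre i) (ω i)]) ^ m 0)
          (Measure.pi fun _ => unif01) :=
        Integrable.of_bound ((measurable_inner_step m (X := fun i v => f (qpath q (r + 1) (pre i) v))
          (fun i => measurable_qpath hq f _ _) hY).pow_const _).aestronglyMeasurable (exp C ^ m 0)
          (Eventually.of_forall fun ω => by
            rw [Real.norm_eq_abs, abs_of_nonneg (rpow_nonneg (hpos _).le _)]
            exact rpow_le_rpow (hpos _).le (hmem ω).2 (hm 0).le)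
      simpa using integral_mono (integrable_const (exp (-C) ^ m 0)) hi fun ω =>
        rpow_le_rpow (exp_pos _).le (hmem ω).1 (hm 0).le
    rw [log_rpow hk]; ring

omit [MeasurableSpace α] [MeasurableSingletonClass α] in
/-- **Step trials.** Any finite kernels and any `[-1,1]`-valued function of the last node are realised by
a measurable trial `x`; its `levels` are the nested log power means over independent kernels with
exponent `0` at the root and `m` below. -/
theorem exists_step_trial [Nonempty α] {r : ℕ} (k : List α → α → ℝ) (hk : ∀ pre o, 0 ≤ k pre o)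
    (hk1 : ∀ pre, ∑ o, k pre o = 1) (f : List α → ℝ) (hf : ∀ p, |f p| ≤ 1) :
    ∃ x : (Fin (r + 1) → ℝ) → ℝ, Measurable x ∧ (∀ ω, |x ω| ≤ 1) ∧
      ∀ {n K : ℕ} (m : Fin r → ℝ), (∀ j, 0 < m j) → ∀ e : ℕ → ℝ, e 0 = 0 →
        (∀ j : Fin r, e (j + 1) = m j) → ∀ (Y : (Fin n → Fin K → ℝ) → ℝ), Measurable Y → ∀ C : ℝ,
        (∀ xs, (∀ a b, |xs a b| ≤ 1) → exp (-C) ≤ Y xs ∧ Y xs ≤ exp C) →
        levels r m x Y = nestLog (fun _ => prodStep k) e
          (fun p : Fin n × Fin K → List α => log (Y fun a b => f (p (a, b)))) 0 (r + 1) (fun _ => []) := by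
  classical
  let : MeasurableSpace α := ⊤
  have : MeasurableSingletonClass α := ⟨fun _ => trivial⟩
  choose q hq hint using fun pre => exists_quantile_unit (k pre) (hk pre) (hk1 pre)
  refine ⟨fun ω => f (qpath q (r + 1) [] ω), measurable_qpath hq f _ _, fun ω => hf _, ?_⟩
  intro n K m hm e he0 he Y hY C hb
  simp only [levels, qpath, Fin.cons_zero, Fin.tail_cons, nestLog, lmean, he0, if_true, List.nil_append]
  refine Eq.trans ?_ (integral_step hq hint
    (fun p : Fin n × Fin K → List α => nestLog (fun _ => prodStep k) e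
      (fun p => log (Y fun a b => f (p (a, b)))) (0 + 1) r p) fun _ => [])
  refine integral_congr_ae (Eventually.of_forall fun ω₀ => ?_)
  exact log_inner_step hq hint hf (measurable_flat hY) (fun xs hxs => hb _ fun a b => hxs (a, b)) r m hm e
    (0 + 1) (fun j => by rw [← he j]; congr 1; omega) fun i => [] ++ [q [] (ω₀ i)]

end Vale.Agent.P168.MP
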