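import Vale.Agent.P168.MP.Bridge
import Vale.Agent.P168.MP.Blocks
import Vale.Agent.P168.MP.TrialStep

/-! The coarse grained structure in block terms, and the step trial function it defines. -/

open MeasureTheory Real Finset

namespace Vale.Agent.P168.MP

variable {Ω : Type} [Fintype Ω] {N : ℕ} {R : ℕ} {m : ℕ → ℝ} {w : List Ω → ℝ} {J : ℕ → ℕ}

lemma blockMean_congr {l : ℕ} {f g : List Ω → ℝ} {p : List Ω} (hp : p.length ≤ J (l + 1))
    (h : ∀ q : List Ω, q.length = J (l + 1) → f q = g q) :
    blockMean R m w J l f p = blockMean R m w J l g p :=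
  ext_congr fun suf hs => h _ (by simp [hs]; omega)

variable [Nonempty Ω]

/-- a block is the marginal of a full extension -/
lemma blockMean_eq_ext (hw : ∀ p, 0 < w p) {l : ℕ} (f : List Ω → ℝ) {p : List Ω}
    (hp : p.length ≤ J (l + 1)) (hR : J (l + 1) ≤ R) :
    blockMean R m w J l f p = ext m w (R - p.length) p fun q => f (q.take (J (l + 1))) := by
  have := ext_take (m := m) hw (J (l + 1) - p.length) (R - J (l + 1)) p f
  rw [show p.length + (J (l + 1) - p.length) = J (l + 1) by omega,
    show J (l + 1) - p.length + (R - J (l + 1)) = R - p.length by omega] at this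
  rw [this, blockMean, up]

/-- E1 in block terms: exponents close to `M q` on block `q < L`, to `1` below the last layer. -/
theorem abs_nest_sub_blocks (hm : Ok R m w) {Q : ℕ} (rd : List Ω → Fin N → Bool)
    {Φ : (Fin Q → Bool) → ℝ} {C δ : ℝ} (hδ : 0 ≤ δ) (hΦ : ∀ σ, exp (-C) ≤ Φ σ ∧ Φ σ ≤ exp C)
    (v : Fin Q → Fin N) {L : ℕ} (hJ : Monotone J) (hJ0 : J 0 = 0) (hJR : J L ≤ R)
    {M : ℕ → ℝ} (hM0 : ∀ q, 0 ≤ M q) (hM1 : ∀ q, M q ≤ 1) (hMm : Monotone M)
    (hclose : ∀ q < L, ∀ i, J q ≤ i → i < J (q + 1) → |m (i + 1) - M q| ≤ δ)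
    (hlast : ∀ i, J L ≤ i → i < R → |m (i + 1) - 1| ≤ δ) :
    |log (nest m w (fun p => Φ (readSlots rd v p)) R []) -
      nestLog (blockMean R m w J) M (fun p => log (trueLeaf R m w rd Φ v p)) 0 L []|
      ≤ expoA C * δ := by
  have hpos : ∀ σ, 0 < Φ σ := fun σ => (exp_pos _).trans_le (hΦ σ).1
  have hlog : ∀ σ, |log (Φ σ)| ≤ C := fun σ => abs_le.2
    ⟨(le_log_iff_exp_le (hpos σ)).2 (hΦ σ).1, (log_le_iff_le_exp (hpos σ)).2 (hΦ σ).2⟩
  set J' := fun q => if q ≤ L then J q else R with hJ'
  set M' := fun q => if q < L then M q else 1 with hM'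
  have hmono' : Monotone J' := monotone_nat_of_le_succ fun q => by
    simp only [J']
    split_ifs with h1 h2 h2
    · exact hJ (Nat.le_succ q)
    · exact (hJ h1).trans hJR
    · omega
    · exact le_rfl
  have main := abs_log_nest_sub_coarse hm hδ (Y := fun p => Φ (readSlots rd v p)) (fun p => hpos _)
    (fun p => hlog _) hmono' (L := L + 1) (by simp [J', hJ0]) (by simp [J']) (M := M')
    (fun q => by simp only [M']; split_ifs <;> simp [hM0])
    (fun q => by simp only [M']; split_ifs <;> simp [hM1])
    (monotone_nat_of_le_succ fun q => by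
      simp only [M']
      split_ifs with h1 h2 h2
      · exact hMm (Nat.le_succ q)
      · exact hM1 q
      · omega
      · exact le_rfl)
    (fun q hq i h1 h2 => by
      rcases Nat.lt_or_ge q L with h | h
      · simp only [J', M', h, h.le, Nat.succ_le_of_lt h, if_true] at h1 h2 ⊢
        exact hclose q h i h1 h2
      · obtain rfl : q = L := by omega
        simp only [J', M', le_refl, if_true, lt_irrefl, if_false,
          show ¬ q + 1 ≤ q by omega] at h1 h2 ⊢
        exact hlast i h1 h2)
  refine le_of_eq_of_le ?_ main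
  congr 2
  rw [nestLog_add L 1 0, Nat.zero_add]
  set G := nestLog (fun q => compMean (stepMean R m w) (J' q) (J' (q + 1) - J' q)) M'
    (fun p => log (Φ (readSlots rd v p))) L 1 with hG
  -- the last segment
  have hlastG : ∀ p : List Ω, p.length = J L → G p = log (trueLeaf R m w rd Φ v p) := fun p hp => by
    simp only [hG, nestLog, lmean, M', lt_irrefl, if_false, one_ne_zero, one_mul, div_one]
    congr 1
    rw [compMean_step hm.wpos _ _ _ p (by simp [J', hp]) (by simp [J']; omega)]
    simp only [J', le_refl, if_true, show ¬ L + 1 ≤ L by omega, if_false, trueLeaf, up, hp,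
      show J L + (R - J L) = R by omega, Nat.sub_self]
    have hw0 : (fun q : List Ω => w q) = Z m w 0 := by funext q; rw [Z]
    rw [← hw0]
    refine ext_congr fun suf hs => ?_
    rw [List.take_of_length_le (by simp [hs, hp]; omega), exp_log (hpos _)]
  -- the layers
  have key : ∀ k l, l + k = L → ∀ p : List Ω, p.length = J l →
      nestLog (blockMean R m w J) M (fun p => log (trueLeaf R m w rd Φ v p)) l k p =
        nestLog (fun q => compMean (stepMean R m w) (J' q) (J' (q + 1) - J' q)) M' G l k p := by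
    intro k
    induction k with
    | zero => intro l hl p hp; obtain rfl : l = L := by omega
              exact (hlastG p hp).symm
    | succ k ih =>
      intro l hl p hp
      have h1 : J (l + 1) ≤ R := (hJ (by omega)).trans hJR
      have hop : ∀ f, compMean (stepMean R m w) (J' l) (J' (l + 1) - J' l) f p
          = blockMean R m w J l f p := fun f => by
        have : J l ≤ J (l + 1) := hJ (Nat.le_succ l)
        simp only [J', show l ≤ L by omega, show l + 1 ≤ L by omega, if_true]
        rw [compMean_step hm.wpos f _ _ p hp (by omega), blockMean_eq_ext hm.wpos f (by omega) h1,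
          hp, show J l + (J (l + 1) - J l) = J (l + 1) by omega]
      have hple : p.length ≤ J (l + 1) := hp ▸ hJ (Nat.le_succ l)
      simp only [nestLog, lmean, show M' l = M l by simp [M', show l < L by omega], hop]
      split_ifs
      · exact blockMean_congr hple fun q hq => ih (l + 1) (by omega) q hq
      · congr 2
        exact blockMean_congr hple fun q hq => by rw [ih (l + 1) (by omega) q hq]
  exact key L 0 (Nat.zero_add L) [] (by simp [hJ0])

/-! ### The step trial function -/

variable [NeZero N]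

omit [Fintype Ω] [Nonempty Ω] [NeZero N] in
lemma prodStep_eq {α ι : Type} [Fintype α] [Fintype ι] [d : DecidableEq ι] (k : List α → α → ℝ)
    (g : (ι → List α) → ℝ) (pre : ι → List α) :
    prodStep k g pre = ∑ o : ι → α, (∏ i, k (pre i) (o i)) * g fun i => pre i ++ [o i] := by
  obtain rfl : d = Classical.decEq ι := Subsingleton.elim _ _
  rfl

omit [Fintype Ω] [Nonempty Ω] in
/-- site and prefix of a slot; a step of the trial carries a site and a full path -/
def slotDec (R : ℕ) (J : ℕ → ℕ) (ls : List (Fin N × (Fin R → Ω))) : Fin N × List Ω :=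
  match ls.getLast? with
  | none => (0, [])
  | some a => (a.1, (List.ofFn a.2).take (J ls.length))

omit [Nonempty Ω] [NeZero N] in
/-- law of the full path through a prefix, as weights -/
noncomputable def pathWt (R : ℕ) (m : ℕ → ℝ) (w : List Ω → ℝ) (p : List Ω) (u : Fin R → Ω) : ℝ :=
  haveI := Classical.decEq Ω
  ext m w (R - p.length) p fun q => if q = List.ofFn u then 1 else 0

omit [Nonempty Ω] in
/-- the kernel of one slot of the trial -/
noncomputable def slotKer (R : ℕ) (m : ℕ → ℝ) (w : List Ω → ℝ) (J : ℕ → ℕ)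
    (ls : List (Fin N × (Fin R → Ω))) (a : Fin N × (Fin R → Ω)) : ℝ :=
  if ls = [] then pathWt R m w [] a.2 / N
  else if a.1 = (slotDec R J ls).1 then pathWt R m w (slotDec R J ls).2 a.2 else 0

omit [NeZero N] [Nonempty Ω] in
lemma sum_pathWt (p : List Ω) (hp : p.length ≤ R) (G : List Ω → ℝ) :
    ∑ u, pathWt R m w p u * G (List.ofFn u) = ext m w (R - p.length) p G := by
  classical
  simp only [pathWt, ← ext_mul_const, ← ext_sum]
  refine ext_congr fun suf hs => ?_
  have hl : (p ++ suf).length = R := by simp [hs]; omega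
  rw [Finset.sum_eq_single (fun i => (p ++ suf)[i.val]'(by rw [hl]; exact i.2))]
  · have : List.ofFn (fun i : Fin R => (p ++ suf)[i.val]'(by rw [hl]; exact i.2)) = p ++ suf :=
      List.ext_getElem (by simp [hl]) fun i h1 h2 => by simp
    simp [this]
  · intro u _ hu
    rw [if_neg, zero_mul]
    intro h
    apply hu
    funext i
    simp [h]
  · simp

omit [NeZero N] in
lemma pathWt_nonneg (hw : ∀ p, 0 < w p) (p : List Ω) (u : Fin R → Ω) : 0 ≤ pathWt R m w p u :=
  ext_nonneg hw fun q => by split_ifs <;> simp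

omit [Fintype Ω] [Nonempty Ω] in
lemma slotDec_len (ls : List (Fin N × (Fin R → Ω))) : (slotDec R J ls).2.length ≤ R := by
  unfold slotDec
  split <;> simp

omit [Fintype Ω] [Nonempty Ω] in
lemma slotDec_len_eq (hJ0 : J 0 = 0) {ls : List (Fin N × (Fin R → Ω))} (h : J ls.length ≤ R) :
    (slotDec R J ls).2.length = J ls.length := by
  unfold slotDec
  rcases List.eq_nil_or_concat ls with rfl | ⟨l', a, rfl⟩
  · simp [hJ0]
  · simp only [List.concat_eq_append, List.getLast?_concat] at h ⊢
    simp only [List.length_take, List.length_ofFn, List.length_append, List.length_singleton] at h ⊢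
    omega

lemma slotKer_nonneg (hw : ∀ p, 0 < w p) (ls : List (Fin N × (Fin R → Ω))) (a : Fin N × (Fin R → Ω)) :
    0 ≤ slotKer R m w J ls a := by
  unfold slotKer
  split_ifs
  · exact div_nonneg (pathWt_nonneg hw _ _) (Nat.cast_nonneg _)
  · exact pathWt_nonneg hw _ _
  · exact le_rfl

omit [Nonempty Ω] in
/-- one step of one slot -/
lemma sum_slotKer (ls : List (Fin N × (Fin R → Ω)))
    (G : Fin N → List Ω → ℝ) :
    ∑ a, slotKer R m w J ls a * G a.1 (List.ofFn a.2) =
      if ls = [] then avg fun v => ext m w R [] (G v)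
      else ext m w (R - (slotDec R J ls).2.length) (slotDec R J ls).2 (G (slotDec R J ls).1) := by
  rw [Fintype.sum_prod_type]
  split_ifs with h
  · simp only [slotKer, if_pos h, avg, Fintype.card_fin, Finset.sum_div]
    refine sum_congr rfl fun v _ => ?_
    rw [show ext m w R [] (G v) = ext m w (R - ([] : List Ω).length) [] (G v) from rfl,
      ← sum_pathWt (R := R) [] (Nat.zero_le _) (G v), Finset.sum_div]
    exact sum_congr rfl fun u _ => (div_mul_eq_mul_div _ _ _)
  · rw [Finset.sum_eq_single (slotDec R J ls).1]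
    · simp only [slotKer, if_neg h, if_true]
      exact sum_pathWt _ (slotDec_len ls) _
    · intro v _ hv; simp [slotKer, h, hv]
    · simp

lemma slotKer_sum (hw : ∀ p, 0 < w p) (ls : List (Fin N × (Fin R → Ω))) :
    ∑ a, slotKer R m w J ls a = 1 := by
  have h := sum_slotKer (m := m) (w := w) (J := J) ls (fun _ _ => 1)
  simp only [mul_one, ext_const hw] at h
  rw [h]
  split_ifs
  · exact avg_const 1
  · rfl

omit [Nonempty Ω] [NeZero N] in
lemma slotsMean_congr_root : ∀ (Q : ℕ) (f : (Fin Q → Fin N × List Ω) → ℝ) (s s' : Fin Q → Fin N × List Ω),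
    slotsMean R m w J 0 Q f s = slotsMean R m w J 0 Q f s'
  | 0, f, s, s' => by rw [Subsingleton.elim s s']
  | Q + 1, f, s, s' => by
    simp only [slotsMean, if_true]
    congr 1; funext a
    exact slotsMean_congr_root Q _ _ _

/-- one step of all slots -/
lemma prodStep_slotKer (hw : ∀ p, 0 < w p) (hJ : Monotone J) (hJ0 : J 0 = 0) {l : ℕ}
    (hR : J (l + 1) ≤ R) :
    ∀ (Q : ℕ) (F : (Fin Q → Fin N × List Ω) → ℝ) (pre : Fin Q → List (Fin N × (Fin R → Ω))),
      (∀ i, (pre i).length = l) →
      prodStep (slotKer R m w J) (fun p => F fun i => slotDec R J (p i)) pre =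
        slotsMean R m w J l Q F fun i => slotDec R J (pre i) := by
  intro Q
  induction Q with
  | zero =>
    intro F pre _
    simp only [prodStep_eq, slotsMean]
    simp only [univ_eq_empty, prod_empty, one_mul, Fintype.sum_unique]
    congr 1; funext i; exact i.elim0
  | succ Q ih =>
    intro F pre hpre
    have split : prodStep (slotKer R m w J) (fun p => F fun i => slotDec R J (p i)) pre =
        ∑ a, slotKer R m w J (pre 0) a * prodStep (slotKer R m w J)
          (fun p => F (Fin.cons (slotDec R J (pre 0 ++ [a])) fun i => slotDec R J (p i)))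
          (Fin.tail pre) := by
      simp only [prodStep_eq, mul_sum]
      rw [← Fintype.sum_prod_type']
      refine (Fintype.sum_equiv (Fin.consEquiv fun _ => Fin N × (Fin R → Ω)) _ _ fun z => ?_).symm
      obtain ⟨a, o⟩ := z
      simp only [Fin.consEquiv_apply, Fin.prod_univ_succ, Fin.cons_zero, Fin.cons_succ, Fin.tail, mul_assoc]
      congr 3
      funext i
      cases i using Fin.cases <;> simp
    rw [split]
    simp only [fun a => ih (fun t => F (Fin.cons (slotDec R J (pre 0 ++ [a])) t)) (Fin.tail pre)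
      fun i => hpre _]
    have hdec : ∀ a, slotDec R J (pre 0 ++ [a]) = (a.1, (List.ofFn a.2).take (J (l + 1))) := fun a => by
      simp [slotDec, hpre 0]
    simp only [hdec]
    rw [sum_slotKer (pre 0) (fun v q => slotsMean R m w J l Q
      (fun t => F (Fin.cons (v, q.take (J (l + 1))) t)) fun i => slotDec R J (Fin.tail pre i))]
    simp only [slotsMean]
    have hlen : (slotDec R J (pre 0)).2.length = J l := by
      rw [slotDec_len_eq hJ0 (by rw [hpre 0]; exact (hJ (Nat.le_succ l)).trans hR), hpre 0]
    rcases Nat.eq_zero_or_pos l with h | h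
    · subst h
      rw [if_pos (List.length_eq_zero_iff.1 (hpre 0)), if_pos rfl, slotRoot]
      refine congrArg avg (funext fun v => ?_)
      rw [blockMean_eq_ext hw _ (Nat.zero_le _) hR]
      rfl
    · have hne : pre 0 ≠ [] := fun e => by
        have := hpre 0
        rw [e, List.length_nil] at this
        omega
      rw [if_neg hne, if_neg h.ne', blockMean_eq_ext hw _ (hlen ▸ hJ (Nat.le_succ l)) hR]
      rfl

/-- **The coarse trial.** The structure and the layers define a step trial function whose `levels`,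
for every multilinear `Y`, are the nested log power means over independent slots. -/
theorem exists_coarse_trial (hw : ∀ p, 0 < w p) (rd : List Ω → Fin N → Bool) (hJ : Monotone J)
    (hJ0 : J 0 = 0) {r : ℕ} (hJR : J (r + 1) ≤ R) :
    ∃ x : (Fin (r + 1) → ℝ) → ℝ, Measurable x ∧ (∀ ω, |x ω| ≤ 1) ∧
      ∀ {n K : ℕ} (μ : Fin r → ℝ), (∀ j, 0 < μ j) → ∀ M : ℕ → ℝ, M 0 = 0 →
        (∀ j : Fin r, M (j + 1) = μ j) → ∀ (Y : (Fin n → Fin K → ℝ) → ℝ), Measurable Y → ∀ C : ℝ,
        (∀ xs, (∀ a b, |xs a b| ≤ 1) → exp (-C) ≤ Y xs ∧ Y xs ≤ exp C) →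
        (∀ xs, Y xs = ∑ τ : Fin n → Fin K → Bool,
          (∏ a, ∏ b, msgWeight (xs a b) (τ a b)) * Y fun a b => sg (τ a b)) →
        ∀ s₀, levels r μ x Y = nestLog (fun l => slotsMean R m w J l (n * K)) M
          (fun s => log (trialLeaf R m w rd
            (fun σ => Y fun a b => sg (σ (finProdFinEquiv (a, b)))) s)) 0 (r + 1) s₀ := by
  have hmsg : ∀ a : Fin N × List Ω, |message R m w rd a| ≤ 1 := fun a =>
    ext_bound (fun p => Z_pos hw _ p) fun q => by unfold sg; split_ifs <;> simp
  obtain ⟨x, hxm, hx, hlev⟩ := exists_step_trial (r := r) (slotKer R m w J) (slotKer_nonneg hw)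
    (slotKer_sum hw) (fun ls => message R m w rd (slotDec R J ls)) fun ls => hmsg _
  refine ⟨x, hxm, hx, ?_⟩
  intro n K μ hμ M hM0 hM Y hY C hb hmul s₀
  rw [hlev μ hμ M hM0 hM Y hY C hb]
  set e := (finProdFinEquiv : Fin n × Fin K ≃ Fin (n * K))
  set g := fun s : Fin (n * K) → Fin N × List Ω => log (trialLeaf R m w rd
    (fun σ => Y fun a b => sg (σ (e (a, b)))) s)
  have leaf : ∀ p : Fin n × Fin K → List (Fin N × (Fin R → Ω)),
      log (Y fun a b => message R m w rd (slotDec R J (p (a, b)))) =
        g fun j => slotDec R J (p (e.symm j)) := fun p => by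
    simp only [g, trialLeaf]
    congr 1
    rw [hmul]
    refine Fintype.sum_equiv ((Equiv.curry _ _ _).symm.trans (Equiv.arrowCongr e (Equiv.refl Bool))) _ _
      fun τ => ?_
    congr 1
    · rw [← e.prod_comp, Fintype.prod_prod_type]
      simp [msgWeight, Equiv.arrowCongr, Equiv.curry, Function.uncurry]
    · simp [Equiv.arrowCongr, Equiv.curry, Function.uncurry]
  have key : ∀ k l, l + k = r + 1 → ∀ p : Fin n × Fin K → List (Fin N × (Fin R → Ω)),
      (∀ i, (p i).length = l) →
      nestLog (fun _ => prodStep (slotKer R m w J)) M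
        (fun p => log (Y fun a b => message R m w rd (slotDec R J (p (a, b))))) l k p =
      nestLog (fun l => slotsMean R m w J l (n * K)) M g l k fun j => slotDec R J (p (e.symm j)) := by
    intro k
    induction k with
    | zero => intro l _ p _; exact leaf p
    | succ k ih =>
      intro l hl p hp
      have step : ∀ F : (Fin (n * K) → Fin N × List Ω) → ℝ,
          ∀ H : (Fin n × Fin K → List (Fin N × (Fin R → Ω))) → ℝ,
          (∀ q, (∀ i, (q i).length = l + 1) → H q = F fun j => slotDec R J (q (e.symm j))) →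
          prodStep (slotKer R m w J) H p =
            slotsMean R m w J l (n * K) F fun j => slotDec R J (p (e.symm j)) := fun F H hH => by
        rw [← prodStep_slotKer hw hJ hJ0 ((hJ (show l + 1 ≤ r + 1 by omega)).trans hJR) _ F
          (fun j => p (e.symm j)) fun j => hp _]
        simp only [prodStep_eq]
        refine Fintype.sum_equiv (Equiv.arrowCongr e (Equiv.refl _)) _ _ fun o => ?_
        rw [hH _ fun i => by simp [hp i]]
        congr 1
        · rw [← e.prod_comp]; simp [Equiv.arrowCongr]

      simp only [nestLog, lmean]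
      split_ifs
      · exact step _ _ fun q hq => ih (l + 1) (by omega) q hq
      · congr 2
        exact step _ _ fun q hq => by rw [ih (l + 1) (by omega) q hq]
  rw [key (r + 1) 0 (Nat.zero_add _) _ fun _ => rfl]
  simp only [nestLog, lmean, hM0, if_true]
  exact slotsMean_congr_root _ _ _ _

variable {n K : ℕ}

lemma sum_msgWeight_sg (x : ℝ) (s : Bool) : ∑ t : Bool, msgWeight x t * msgWeight (sg t) s = msgWeight x s := by
  cases s <;> simp [msgWeight, sg]

lemma clauseU_multi (c : Clause K) (ℓ : Fin K) (s : Bool) (xs : Fin K → ℝ) :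
    clauseU c ℓ s xs = ∑ τ : Fin K → Bool, (∏ j, msgWeight (xs j) (τ j)) *
      clauseU c ℓ s fun j => sg (τ j) := by
  simp only [clauseU, mul_sum, mul_ite, mul_zero]
  rw [sum_comm]
  refine sum_congr rfl fun σ _ => ?_
  split_ifs with h
  · simp only [mul_left_comm (∏ j, msgWeight _ _), ← mul_sum]
    congr 1
    have e : ∀ τ : Fin K → Bool, (∏ j, msgWeight (xs j) (τ j)) *
        ∏ j ∈ univ.erase ℓ, msgWeight (sg (τ j)) (σ j)
        = ∏ j, msgWeight (xs j) (τ j) * if j = ℓ then 1 else msgWeight (sg (τ j)) (σ j) := fun τ => by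
      rw [prod_mul_distrib, ← mul_prod_erase univ
        (fun j => if j = ℓ then 1 else msgWeight (sg (τ j)) (σ j)) (mem_univ ℓ)]
      simp only [if_true, one_mul]
      congr 1
      exact prod_congr rfl fun j hj => (if_neg (ne_of_mem_erase hj)).symm
    simp only [e]
    rw [← Fintype.prod_sum fun j t => msgWeight (xs j) t * if j = ℓ then 1 else msgWeight (sg t) (σ j),
      ← mul_prod_erase univ _ (mem_univ ℓ)]
    simp only [if_true, mul_one, sum_msgWeight, one_mul]
    exact prod_congr rfl fun j hj => by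
      simp only [if_neg (ne_of_mem_erase hj), sum_msgWeight_sg]
  · simp

lemma clauseV_multi (c : Clause K) (xs : Fin K → ℝ) :
    clauseV c xs = ∑ τ : Fin K → Bool, (∏ j, msgWeight (xs j) (τ j)) * clauseV c fun j => sg (τ j) := by
  simp only [clauseV, mul_sum]
  rw [sum_comm]
  refine sum_congr rfl fun σ _ => ?_
  simp only [mul_left_comm (∏ j, msgWeight _ _), ← mul_sum, ← prod_mul_distrib]
  rw [← Fintype.prod_sum fun j t => msgWeight (xs j) t * msgWeight (sg t) (σ j)]
  simp only [sum_msgWeight_sg]

lemma cavU_multi (h : ℝ) (w : Fin n → Clause K) (ℓ : Fin n → Fin K) (xs : Fin n → Fin K → ℝ) :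
    cavU h w ℓ xs = ∑ τ : Fin n → Fin K → Bool, (∏ a, ∏ b, msgWeight (xs a b) (τ a b)) *
      cavU h w ℓ fun a b => sg (τ a b) := by
  simp only [cavU_eq, mul_sum]
  rw [sum_comm]
  refine sum_congr rfl fun s _ => ?_
  simp only [mul_left_comm (∏ a, ∏ b, msgWeight _ _), ← mul_sum, ← prod_mul_distrib]
  rw [← Fintype.prod_sum fun a (τ : Fin K → Bool) => (∏ b, msgWeight (xs a b) (τ b)) * clauseU (w a) (ℓ a) s fun b => sg (τ b)]
  simp only [← clauseU_multi]

lemma cavV_multi (w : Fin n → Clause K) (xs : Fin n → Fin K → ℝ) :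
    cavV w xs = ∑ τ : Fin n → Fin K → Bool, (∏ a, ∏ b, msgWeight (xs a b) (τ a b)) *
      cavV w fun a b => sg (τ a b) := by
  simp only [cavV_eq, ← prod_mul_distrib]
  rw [← Fintype.prod_sum fun a (τ : Fin K → Bool) => (∏ b, msgWeight (xs a b) (τ b)) * clauseV (w a) fun b => sg (τ b)]
  simp only [← clauseV_multi]

end Vale.Agent.P168.MP
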