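import Vale.Agent.P168.MP.Defs

/-! Combinatorics of attachment lists: the overlap `sp` is a symmetric ultrametric and the
coefficients of `att` have explicit total weights on every node (section A' of ROUTE.md). -/

namespace Vale.Agent.P168.MP

open Finset

variable {R : ℕ} {m : ℕ → ℝ} {T : List (ℕ × ℕ)}

/-! ## The overlap -/

theorem sp_self (R : ℕ) (T : List (ℕ × ℕ)) (a : ℕ) : sp R T a a = R := by
  cases T with
  | nil => rfl
  | cons x T => obtain ⟨p, v⟩ := x; simp [sp]

theorem sp_le (R : ℕ) (T : List (ℕ × ℕ)) (a b : ℕ) : sp R T a b ≤ R := by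
  induction T generalizing a b with
  | nil => exact le_rfl
  | cons x T ih =>
      obtain ⟨p, v⟩ := x
      rw [sp]
      split_ifs
      · exact le_rfl
      · exact (min_le_right _ _).trans (ih _ _)
      · exact (min_le_right _ _).trans (ih _ _)
      · exact ih _ _

theorem sp_old (R : ℕ) {T : List (ℕ × ℕ)} (x : ℕ × ℕ) {a b : ℕ} (ha : a ≠ T.length)
    (hb : b ≠ T.length) : sp R (x :: T) a b = sp R T a b := by
  obtain ⟨p, v⟩ := x
  rw [sp]
  split_ifs with h
  · rw [h, sp_self]
  · rfl

theorem sp_comm (R : ℕ) (T : List (ℕ × ℕ)) (a b : ℕ) : sp R T a b = sp R T b a := by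
  induction T generalizing a b with
  | nil => rfl
  | cons x T ih =>
      obtain ⟨p, v⟩ := x
      rcases eq_or_ne a b with rfl | hab
      · rfl
      rw [sp, sp, if_neg hab, if_neg hab.symm]
      split_ifs with h1 h2
      · exact absurd (h1.trans h2.symm) hab
      · rw [ih]
      · rw [ih]
      · rw [ih]

theorem sp_new (R : ℕ) {T : List (ℕ × ℕ)} (x : ℕ × ℕ) {q : ℕ} (hq : q ≠ T.length) :
    sp R (x :: T) T.length q = min x.2 (sp R T x.1 q) := by
  obtain ⟨p, v⟩ := x
  rw [sp, if_neg hq.symm, if_pos rfl]

theorem sp_new' (R : ℕ) {T : List (ℕ × ℕ)} (x : ℕ × ℕ) {q : ℕ} (hq : q ≠ T.length) :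
    sp R (x :: T) q T.length = min x.2 (sp R T q x.1) := by
  rw [sp_comm, sp_new R x hq, sp_comm R T x.1]

theorem sp_ultra (R : ℕ) (T : List (ℕ × ℕ)) (a b c : ℕ) :
    min (sp R T a b) (sp R T b c) ≤ sp R T a c := by
  induction T generalizing a b c with
  | nil => simp [sp]
  | cons x T ih =>
      rcases eq_or_ne a c with rfl | hac
      · rw [sp_self]; exact (min_le_left _ _).trans (sp_le _ _ _ _)
      rcases eq_or_ne a b with rfl | hab
      · exact min_le_right _ _
      rcases eq_or_ne b c with rfl | hbc
      · exact min_le_left _ _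
      by_cases ha : a = T.length
      · subst ha
        rw [sp_new R x hab.symm, sp_new R x hac.symm, sp_old R x hab.symm hac.symm]
        have := ih x.1 b c
        omega
      by_cases hb : b = T.length
      · subst hb
        rw [sp_new' R x hab, sp_new R x hbc.symm, sp_old R x ha hbc.symm]
        have := ih a x.1 c
        omega
      by_cases hc : c = T.length
      · subst hc
        rw [sp_new' R x ha, sp_new' R x hb, sp_old R x ha hb]
        have := ih a b x.1
        omega
      rw [sp_old R x ha hb, sp_old R x hb hc, sp_old R x ha hc]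
      exact ih a b c

/-- sharing at least `l` marks is transitive -/
theorem sp_trans {l a b c : ℕ} (h1 : l ≤ sp R T a b) (h2 : l ≤ sp R T b c) : l ≤ sp R T a c :=
  (le_min h1 h2).trans (sp_ultra R T a b c)

/-! ## Valid lists and attachment points -/

theorem valid_cons {p v : ℕ} (hT : T ≠ []) :
    Valid R ((p, v) :: T) ↔ p < T.length ∧ v ≤ R ∧ Valid R T := by
  cases T with
  | nil => exact absurd rfl hT
  | cons y T => rw [Valid]; simp

theorem valid_tail {x : ℕ × ℕ} (h : Valid R (x :: T)) : Valid R T := by
  cases T with
  | nil => trivial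
  | cons y T => exact ((valid_cons (by simp)).1 h).2.2

/-- induction on valid lists -/
theorem valid_induction {P : List (ℕ × ℕ) → Prop} (h0 : P []) (h1 : P [(0, 0)])
    (step : ∀ p v T, T ≠ [] → Valid R T → p < T.length → v ≤ R → P T → P ((p, v) :: T)) :
    ∀ T, Valid R T → P T := by
  intro T
  induction T with
  | nil => exact fun _ => h0
  | cons x T ih =>
      obtain ⟨p, v⟩ := x
      intro h
      rcases eq_or_ne T [] with rfl | hT
      · obtain ⟨rfl, rfl⟩ : p = 0 ∧ v = 0 := by simpa [Valid] using h
        exact h1
      · obtain ⟨hp, hv, hTv⟩ := (valid_cons hT).1 h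
        exact step p v T hT hTv hp hv (ih hTv)

theorem att_mem : ∀ {T : List (ℕ × ℕ)}, Valid R T → ∀ c ∈ att R m T,
    c.1.1 < T.length ∧ c.1.2 ≤ R := by
  intro T hT
  induction T with
  | nil => simp [att]
  | cons x T ih =>
      obtain ⟨p, v⟩ := x
      intro c hc
      simp only [att, List.mem_append, List.mem_map, List.mem_range'_1, List.mem_cons] at hc
      simp only [List.length_cons]
      rcases hc with ⟨l, hl, rfl⟩ | rfl | hc
      · exact ⟨by simp, by dsimp only; omega⟩
      · rcases eq_or_ne T [] with rfl | hT'
        · obtain ⟨rfl, rfl⟩ : p = 0 ∧ v = 0 := by simpa [Valid] using hT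
          simp
        · obtain ⟨hp, hv, -⟩ := (valid_cons hT').1 hT
          exact ⟨hp.trans (Nat.lt_succ_self _), hv⟩
      · obtain ⟨h1, h2⟩ := ih (valid_tail hT) c hc
        exact ⟨h1.trans (Nat.lt_succ_self _), h2⟩

theorem valid_att {c : (ℕ × ℕ) × ℝ} (hT : Valid R T) (hc : c ∈ att R m T) :
    Valid R (c.1 :: T) := by
  obtain ⟨h1, h2⟩ := att_mem hT c hc
  rcases eq_or_ne T [] with rfl | hne
  · simp [att] at hc
  · exact (valid_cons hne).2 ⟨h1, h2, hT⟩

theorem list_sum_map_sub {α : Type*} (L : List α) (f g : α → ℝ) :
    (L.map fun a => f a - g a).sum = (L.map f).sum - (L.map g).sum := by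
  induction L with
  | nil => simp
  | cons a L ih => simp [ih]; ring

theorem list_sum_map_finset_sum {α β : Type*} (L : List α) (s : Finset β) (f : α → β → ℝ) :
    (L.map fun a => ∑ b ∈ s, f a b).sum = ∑ b ∈ s, (L.map fun a => f a b).sum := by
  induction L with
  | nil => simp
  | cons a L ih => simp [ih, Finset.sum_add_distrib]

theorem range'_sum_ge (m : ℕ → ℝ) (j : ℕ) : ∀ k a, j ≤ a + k →
    ((List.range' a k).map fun l => (m l - m (l + 1)) * if j ≤ l then 1 else 0).sum
      = m (max a j) - m (a + k) := by
  intro k
  induction k with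
  | zero => intro a h; simp [max_eq_left (show j ≤ a by omega)]
  | succ k ih =>
      intro a h
      rw [List.range'_succ, List.map_cons, List.sum_cons, ih (a + 1) (by omega)]
      rw [show a + 1 + k = a + (k + 1) by omega]
      split_ifs with hj
      · rw [max_eq_left (show j ≤ a + 1 by omega), max_eq_left hj]; ring
      · rw [max_eq_right (show a + 1 ≤ j by omega), max_eq_right (show a ≤ j by omega)]; ring

theorem range'_sum (m : ℕ → ℝ) (k a : ℕ) :
    ((List.range' a k).map fun l => m l - m (l + 1)).sum = m a - m (a + k) := by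
  simpa using range'_sum_ge m 0 k a (Nat.zero_le _)

theorem att_total (hm : m (R + 1) = 0) :
    ∀ {T : List (ℕ × ℕ)}, Valid R T → ((att R m T).map fun c => c.2).sum = 0 := by
  intro T hT
  induction T with
  | nil => simp [att]
  | cons x T ih =>
      obtain ⟨p, v⟩ := x
      have hv : v ≤ R := (att_mem (m := m) hT ((p, v), -m (v + 1)) (by simp [att])).2
      simp only [att, List.map_append, List.map_map, List.map_cons, List.sum_append,
        List.sum_cons, ih (valid_tail hT), Function.comp_def]
      rw [range'_sum, show v + 1 + (R - v) = R + 1 by omega, hm]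
      ring

/-- the attachments sharing at least `j` marks with a given replica have total weight `m j` -/
theorem att_ge (hm : m (R + 1) = 0) :
    ∀ {T : List (ℕ × ℕ)}, Valid R T → ∀ {q j : ℕ}, q < T.length → 1 ≤ j → j ≤ R →
      ((att R m T).map fun c =>
        c.2 * if j ≤ sp R (c.1 :: T) T.length q then 1 else 0).sum = m j := by
  suffices key : ∀ T, Valid R T → ∀ q j, q < T.length → 1 ≤ j → j ≤ R →
      ((att R m T).map fun c =>
        c.2 * if j ≤ min c.1.2 (sp R T c.1.1 q) then 1 else 0).sum = m j by
    intro T hT q j hq h1 hR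
    rw [← key T hT q j hq h1 hR]
    simp only [sp_new R _ (ne_of_lt hq)]
  intro T hT
  induction T with
  | nil => simp
  | cons x T ih =>
      obtain ⟨p, v⟩ := x
      intro q j hq h1 hR
      have hv : v ≤ R := (att_mem (m := m) hT ((p, v), -m (v + 1)) (by simp [att])).2
      have hTv := valid_tail hT
      have hpb : p < T.length ∨ (T = [] ∧ p = 0 ∧ v = 0) := by
        rcases eq_or_ne T [] with rfl | hT'
        · exact Or.inr ⟨rfl, by simpa [Valid] using hT⟩
        · exact Or.inl ((valid_cons hT').1 hT).1
      simp only [att, List.map_append, List.map_map, List.map_cons, List.sum_append,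
        List.sum_cons, Function.comp_def]
      rcases lt_or_eq_of_le (Nat.lt_succ_iff.1 hq) with hqn | rfl
      · -- the branch of the newest replica cancels
        have hp : p < T.length := hpb.resolve_right fun h => by simp [h.1] at hqn
        have e1 : ((List.range' (v + 1) (R - v)).map fun l => (m l - m (l + 1)) *
            if j ≤ min l (sp R ((p, v) :: T) T.length q) then (1 : ℝ) else 0).sum
            = m (v + 1) * if j ≤ min v (sp R T p q) then 1 else 0 := by
          rw [sp_new R _ hqn.ne]
          have : ∀ l ∈ List.range' (v + 1) (R - v), ((m l - m (l + 1)) *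
              if j ≤ min l (min v (sp R T p q)) then (1 : ℝ) else 0)
              = (m l - m (l + 1)) * if j ≤ min v (sp R T p q) then 1 else 0 := by
            intro l hl
            rw [List.mem_range'_1] at hl
            rw [show min l (min v (sp R T p q)) = min v (sp R T p q) by omega]
          rw [List.map_congr_left this, List.sum_map_mul_right, range'_sum,
            show v + 1 + (R - v) = R + 1 by omega, hm, sub_zero]
        have e3 : ((att R m T).map fun c => c.2 *
            if j ≤ min c.1.2 (sp R ((p, v) :: T) c.1.1 q) then (1 : ℝ) else 0).sum = m j := by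
          rw [← ih hTv q j hqn h1 hR]
          refine congrArg List.sum (List.map_congr_left fun c hc => ?_)
          rw [sp_old R _ (att_mem hTv c hc).1.ne hqn.ne]
        rw [e1, e3, sp_old R _ hp.ne hqn.ne]
        ring
      · -- attachments seen from the newest replica
        have e1 : ((List.range' (v + 1) (R - v)).map fun l => (m l - m (l + 1)) *
            if j ≤ min l (sp R ((p, v) :: T) T.length T.length) then (1 : ℝ) else 0).sum
            = m (max (v + 1) j) := by
          have : ∀ l ∈ List.range' (v + 1) (R - v), ((m l - m (l + 1)) *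
              if j ≤ min l (sp R ((p, v) :: T) T.length T.length) then (1 : ℝ) else 0)
              = (m l - m (l + 1)) * if j ≤ l then 1 else 0 := by
            intro l hl
            rw [List.mem_range'_1] at hl
            rw [sp_self, show min l R = l by omega]
          rw [List.map_congr_left this, range'_sum_ge m j _ _ (by omega),
            show v + 1 + (R - v) = R + 1 by omega, hm, sub_zero]
        rcases hpb with hp | ⟨rfl, rfl, rfl⟩
        · have e3 : ((att R m T).map fun c => c.2 *
              if j ≤ min c.1.2 (sp R ((p, v) :: T) c.1.1 T.length) then (1 : ℝ) else 0).sum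
              = if j ≤ v then m j else 0 := by
            have h' : ∀ c ∈ att R m T, sp R ((p, v) :: T) c.1.1 T.length
                = min v (sp R T c.1.1 p) := fun c hc => sp_new' R _ (att_mem hTv c hc).1.ne
            split_ifs with hj
            · rw [← ih hTv p j hp h1 hR]
              refine congrArg List.sum (List.map_congr_left fun c hc => ?_)
              rw [h' c hc]
              congr 2
              exact propext ⟨fun h => by omega, fun h => by omega⟩
            · refine List.sum_eq_zero fun z hz => ?_
              obtain ⟨c, hc, rfl⟩ := List.mem_map.1 hz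
              rw [h' c hc, if_neg (by omega), mul_zero]
          rw [e1, e3, sp_new' R _ hp.ne, sp_self, show min v (min v R) = v by omega]
          split_ifs with hj
          · rw [max_eq_left (by omega)]; ring
          · rw [max_eq_right (by omega)]; ring
        · simp only [att, List.map_nil, List.sum_nil, add_zero]
          rw [e1, if_neg (by omega), max_eq_right (by omega)]
          ring

/-- weight of the attachments sharing exactly `l` marks with a given replica, `1 ≤ l < R` -/
theorem att_eq (hm : m (R + 1) = 0) (hT : Valid R T) {q l : ℕ} (hq : q < T.length)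
    (h1 : 1 ≤ l) (hR : l < R) :
    ((att R m T).map fun c => c.2 * if sp R (c.1 :: T) T.length q = l then 1 else 0).sum
      = m l - m (l + 1) := by
  rw [← att_ge hm hT hq h1 hR.le, ← att_ge hm hT hq (show 1 ≤ l + 1 by omega) hR,
    ← list_sum_map_sub]
  refine congrArg List.sum (List.map_congr_left fun c _ => ?_)
  rw [← mul_sub]
  congr 1
  split_ifs <;> first | (norm_num; done) | (exfalso; omega)

open Classical in
/-- Node weights: the attachments inside the level-`l` node of the replicas `q i`, `i ∈ s`, and
outside their (pairwise different) children at level `l + 1`. -/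
theorem att_node (hm : m (R + 1) = 0) (hT : Valid R T) {ι : Type*} (s : Finset ι) (q : ι → ℕ)
    {i₀ : ι} (hi₀ : i₀ ∈ s) {l : ℕ} (h1 : 1 ≤ l) (hR : l ≤ R) (hq : ∀ i ∈ s, q i < T.length)
    (hin : ∀ i ∈ s, l ≤ sp R T (q i₀) (q i))
    (hsep : ∀ i ∈ s, ∀ k ∈ s, i ≠ k → sp R T (q i) (q k) < l + 1) :
    ((att R m T).map fun c => c.2 *
      if l ≤ sp R (c.1 :: T) T.length (q i₀) ∧
        ∀ i ∈ s, ¬ (l + 1 ≤ sp R (c.1 :: T) T.length (q i)) then (1 : ℝ) else 0).sum
      = m l - s.card * m (l + 1) := by
  have hchild : ∀ i ∈ s, ((att R m T).map fun c => c.2 *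
      if l + 1 ≤ sp R (c.1 :: T) T.length (q i) then (1 : ℝ) else 0).sum = m (l + 1) := by
    intro i hi
    rcases lt_or_eq_of_le hR with hlR | rfl
    · exact att_ge hm hT (hq i hi) (by omega) hlR
    · rw [hm]
      refine List.sum_eq_zero fun z hz => ?_
      obtain ⟨c, -, rfl⟩ := List.mem_map.1 hz
      rw [if_neg (fun h => absurd (h.trans (sp_le _ _ _ _)) (by omega)), mul_zero]
  have hswap : ((att R m T).map fun c => ∑ i ∈ s, c.2 *
      if l + 1 ≤ sp R (c.1 :: T) T.length (q i) then (1 : ℝ) else 0).sum
      = s.card * m (l + 1) := by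
    rw [list_sum_map_finset_sum, Finset.sum_congr rfl hchild, Finset.sum_const,
      nsmul_eq_mul]
  rw [← att_ge hm hT (hq i₀ hi₀) h1 hR, ← hswap, ← list_sum_map_sub]
  refine congrArg List.sum (List.map_congr_left fun c _ => ?_)
  rw [← Finset.mul_sum, ← mul_sub]
  congr 1
  have old : ∀ i ∈ s, ∀ k ∈ s, sp R (c.1 :: T) (q i) (q k) = sp R T (q i) (q k) :=
    fun i hi k hk => sp_old R _ (hq i hi).ne (hq k hk).ne
  by_cases hB : ∃ i ∈ s, l + 1 ≤ sp R (c.1 :: T) T.length (q i)
  · obtain ⟨i, hi, hiB⟩ := hB
    have hA : l ≤ sp R (c.1 :: T) T.length (q i₀) := sp_trans (b := q i) (by omega)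
      (by rw [old i hi i₀ hi₀, sp_comm]; exact hin i hi)
    rw [if_neg (fun h => h.2 i hi hiB), if_pos hA, Finset.sum_eq_single_of_mem i hi,
      if_pos hiB, sub_self]
    intro k hk hki
    refine if_neg fun hkB => ?_
    have := sp_trans (show l + 1 ≤ sp R (c.1 :: T) (q i) T.length by rw [sp_comm]; exact hiB) hkB
    rw [old i hi k hk] at this
    exact absurd this (not_le.2 (hsep i hi k hk hki.symm))
  · push Not at hB
    rw [Finset.sum_eq_zero fun k hk => if_neg (not_le.2 (hB k hk)), sub_zero]
    by_cases hA : l ≤ sp R (c.1 :: T) T.length (q i₀)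
    · rw [if_pos hA, if_pos ⟨hA, fun i hi => not_le.2 (hB i hi)⟩]
    · rw [if_neg hA, if_neg fun h => hA h.1]


/-- the `l`-exact predicate of a node, unfolded: the indicator of the node minus those of the children -/
theorem att_node_diff (hm : m (R + 1) = 0) (hT : Valid R T) {ι : Type*} (s : Finset ι)
    (q : ι → ℕ) {q₀ l : ℕ} (hq₀ : q₀ < T.length) (h1 : 1 ≤ l) (hR : l ≤ R)
    (hq : ∀ i ∈ s, q i < T.length) :
    ((att R m T).map fun c => c.2 * ((if l ≤ sp R (c.1 :: T) T.length q₀ then (1 : ℝ) else 0) -
      ∑ i ∈ s, if l + 1 ≤ sp R (c.1 :: T) T.length (q i) then (1 : ℝ) else 0)).sum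
      = m l - s.card * m (l + 1) := by
  have hchild : ∀ i ∈ s, ((att R m T).map fun c => c.2 *
      if l + 1 ≤ sp R (c.1 :: T) T.length (q i) then (1 : ℝ) else 0).sum = m (l + 1) := by
    intro i hi
    rcases lt_or_eq_of_le hR with hlR | rfl
    · exact att_ge hm hT (hq i hi) (by omega) hlR
    · rw [hm]
      refine List.sum_eq_zero fun z hz => ?_
      obtain ⟨c, -, rfl⟩ := List.mem_map.1 hz
      rw [if_neg (fun h => absurd (h.trans (sp_le _ _ _ _)) (by omega)), mul_zero]
  simp only [mul_sub, Finset.mul_sum]
  rw [list_sum_map_sub, att_ge hm hT hq₀ h1 hR, list_sum_map_finset_sum,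
    Finset.sum_congr rfl hchild, Finset.sum_const, nsmul_eq_mul]

/-- an attachment that is not a copy has a nonpositive coefficient -/
theorem att_nonpos {Ω : Type*} {w : List Ω → ℝ} (h : Ok R m w) (hT : Valid R T)
    {c : (ℕ × ℕ) × ℝ} (hc : c ∈ att R m T) (hne : c.1.2 ≠ R) : c.2 ≤ 0 := by
  induction T with
  | nil => simp [att] at hc
  | cons x T ih =>
      obtain ⟨p, v⟩ := x
      have hv : v ≤ R := (att_mem (m := m) hT ((p, v), -m (v + 1)) (by simp [att])).2
      simp only [att, List.mem_append, List.mem_map, List.mem_range'_1, List.mem_cons] at hc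
      rcases hc with ⟨l, hl, rfl⟩ | rfl | hc
      · dsimp only at hne ⊢
        linarith [h.mono l (by omega) (by omega)]
      · dsimp only at hne ⊢
        linarith [h.pos (v + 1) (by omega) (by omega)]
      · exact ih (valid_tail hT) hc

/-- with no copy among the old replicas, all coefficients are nonpositive -/
theorem att_nonpos_of_lt {Ω : Type*} {w : List Ω → ℝ} (h : Ok R m w) (hT : Valid R T)
    {c : (ℕ × ℕ) × ℝ} (hc : c ∈ att R m T)
    (hlt : sp R (c.1 :: T) T.length c.1.1 < R) : c.2 ≤ 0 := by
  refine att_nonpos h hT hc fun he => ?_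
  rw [sp_new R _ (att_mem hT c hc).1.ne, sp_self, he, min_self] at hlt
  exact lt_irrefl _ hlt

theorem range'_abs {Ω : Type*} {w : List Ω → ℝ} (h : Ok R m w) : ∀ k a, 1 ≤ a → a + k = R →
    ((List.range' a (k + 1)).map fun l => |m l - m (l + 1)|).sum = 2 - m a := by
  intro k
  induction k with
  | zero =>
      intro a _ ha
      rw [show a = R by omega]
      norm_num [h.last, h.top]
  | succ k ih =>
      intro a h1 ha
      rw [List.range'_succ, List.map_cons, List.sum_cons, ih (a + 1) (by omega) (by omega),
        abs_of_nonpos (by linarith [h.mono a h1 (by omega)])]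
      ring

/-- the total variation of the coefficients -/
theorem att_abs_le {Ω : Type*} {w : List Ω → ℝ} (h : Ok R m w) (hT : Valid R T) :
    ((att R m T).map fun c => |c.2|).sum ≤ 2 * T.length := by
  induction T with
  | nil => simp [att]
  | cons x T ih =>
      obtain ⟨p, v⟩ := x
      have hv : v ≤ R := (att_mem (m := m) hT ((p, v), -m (v + 1)) (by simp [att])).2
      have hih := ih (valid_tail hT)
      simp only [att, List.map_append, List.map_map, List.map_cons, List.sum_append,
        List.sum_cons, Function.comp_def, List.length_cons, Nat.cast_succ]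
      rcases lt_or_eq_of_le hv with hv' | rfl
      · obtain ⟨k, hk⟩ : ∃ k, R - v = k + 1 := ⟨R - v - 1, by omega⟩
        rw [hk, range'_abs h k (v + 1) (by omega) (by omega), abs_neg,
          abs_of_pos (h.pos (v + 1) (by omega) (by omega))]
        linarith
      · simp only [Nat.sub_self, List.range'_zero, List.map_nil, List.sum_nil, zero_add, h.last,
          neg_zero, abs_zero]
        linarith

end Vale.Agent.P168.MP
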