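import Vale.Agent.P168.MP.Cavity

/-! A lower bound for every fixed weight passes to the mean cavity gain. -/

open MeasureTheory Real Finset Filter
open Vale.Agent.P168.MP.Cav

namespace Vale.Agent.P168.MP

variable {α : Type*} [Fintype α]

/-- finite sums of Lipschitz functionals -/
lemma lip_finset_sum {G : Type*} (s : Finset G) {F : G → (α → ℝ) → ℝ} {D : ℝ}
    (hF : ∀ g ∈ s, Lip D (F g)) : Lip (s.card * D) fun H => ∑ g ∈ s, F g H := fun H H' => by
  rw [← Finset.sum_sub_distrib, mul_assoc]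
  refine (Finset.abs_sum_le_sum_abs _ _).trans ((Finset.sum_le_sum fun g hg => hF g hg H H').trans ?_)
  simp

lemma Phi_finset_sum {L D : ℝ} {T : ((α → ℝ) → ℝ) → (α → ℝ) → ℝ} (hT : IsStep L T) {G : Type*}
    (s : Finset G) {F : G → (α → ℝ) → ℝ} (hD : 0 ≤ D) (hF : ∀ g ∈ s, Lip D (F g)) {r : ℝ}
    (hr : 0 ≤ r) (H : α → ℝ) :
    Phi T r (fun H => ∑ g ∈ s, F g H) H = ∑ g ∈ s, Phi T r (F g) H := by
  classical
  induction s using Finset.induction with
  | empty => simpa using Phi_const hT 0 hr H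
  | insert a s ha ih =>
      simp only [Finset.sum_insert ha]
      have hs : ∀ g ∈ s, Lip D (F g) := fun g hg => hF g (Finset.mem_insert_of_mem hg)
      have h := Phi_lin hT hD (hF a (Finset.mem_insert_self a s))
        (mul_nonneg (Nat.cast_nonneg s.card) hD) (lip_finset_sum s hs) 1 1 hr H
      simp only [one_mul] at h
      rw [h, ih hs]

variable {K S : ℕ} {ι : Type} [Fintype ι] [DecidableEq ι] {β : ι → Batch} {R : ℕ}
  {μ : Measure (Clause K)} {ρ : Measure ℝ} {L lam : ℝ}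
  [IsProbabilityMeasure μ] [IsProbabilityMeasure ρ]

/-- a bound on the averaged gain, uniform in the weight, bounds the averaged mean gain -/
theorem avg_cavMean_ge [NeZero K] (hμ : ∀ᵐ c ∂μ, tsumAbs c ≤ L) (hρ : ∀ᵐ y ∂ρ, |y| ≤ L)
    (hL : 0 ≤ L) (hlam : 0 ≤ lam) (hR : 1 ≤ R) {G : Type} [Fintype G] [Nonempty G]
    (hs us : G → ι → ℝ) {c : ℝ}
    (hg : ∀ (N : ℕ) [NeZero N] (W : (Fin N → Bool) → ℝ), (∀ s, 0 < W s) →
      c ≤ avg fun g => cavGain (S := S) (β := β) μ ρ lam R W (hs g) (us g)) :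
    ∀ n : ℕ, c ≤ avg fun g => cavMean (S := S) (β := β) μ ρ lam R (n + 1) (hs g) (us g) := by
  intro n
  have hcard : (0 : ℝ) < Fintype.card G := by exact_mod_cast Fintype.card_pos
  have hj := jump_eA (K := K) (N := n + 1) hμ hL
  have hK : 1 ≤ K := Nat.one_le_iff_ne_zero.2 (NeZero.ne K)
  set a : ℝ := lam * (((n + 1 : ℕ) : ℝ) + 1) * (((n + 1 : ℕ) : ℝ) / (((n + 1 : ℕ) : ℝ) + 1)) ^ K with ha
  have ha0 : 0 ≤ a := by positivity
  set F : G → ((Fin (n + 1) → Bool) → ℝ) → ℝ := fun g H =>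
    cavGain (S := S) (β := β) μ ρ lam R (fun σ => exp (H σ)) (hs g) (us g) with hF
  have hFl : ∀ g, Lip 2 (F g) := fun g H H' => by
    simp only [hF, cavGain_eq hμ hρ hL hR hlam]
    have h1 := abs_le.1 (lip_gainU (S := S) (β := β) (h := hs g) (u := us g) hμ hρ hL hR hlam H H')
    have h2 := abs_le.1 (lip_gainV (S := S) (β := β) (h := hs g) (u := us g) hμ hL hR hlam hK H H')
    rw [abs_le]
    constructor <;> linarith
  have he : ∀ g, cavMean (S := S) (β := β) μ ρ lam R (n + 1) (hs g) (us g)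
      = ∫ f : Fin (n + 1) → ℝ, Phi (cstep μ eA) a (F g) (fsE f) ∂Measure.pi (fun _ => ρ) := fun g => by
    refine integral_congr_ae (Eventually.of_forall fun f => ?_)
    exact cex_eq_Phi hj zero_le_two (hFl g) _ _ fun l => by rw [hamW_eq]
  have hi : ∀ g, Integrable (fun f : Fin (n + 1) → ℝ => Phi (cstep μ eA) a (F g) (fsE f))
      (Measure.pi fun _ => ρ) := fun g =>
    integrable_fields hρ hL zero_le_two (hj.isStep.lip_Phi zero_le_two (hFl g) ha0)
  simp only [avg, he]
  rw [le_div_iff₀ hcard, ← integral_finsetSum _ fun g _ => hi g]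
  have hbound : ∀ f : Fin (n + 1) → ℝ,
      c * Fintype.card G ≤ ∑ g, Phi (cstep μ eA) a (F g) (fsE f) := fun f => by
    rw [← Phi_finset_sum hj.isStep univ zero_le_two (fun g _ => hFl g) ha0,
      ← Phi_const hj.isStep (c * Fintype.card G) ha0 (fsE f)]
    refine hj.isStep.Phi_mono le_rfl (Lip.const _) (by positivity) (lip_finset_sum univ fun g _ => hFl g)
      (fun H => ?_) ha0 _
    have h := hg (n + 1) (fun σ => exp (H σ)) fun σ => exp_pos _
    simp only [avg] at h
    rwa [le_div_iff₀ hcard] at h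
  calc c * Fintype.card G = ∫ _f : Fin (n + 1) → ℝ, c * Fintype.card G ∂Measure.pi (fun _ => ρ) := by
        simp
    _ ≤ _ := integral_mono (integrable_const _) (integrable_finsetSum _ fun g _ => hi g) hbound

end Vale.Agent.P168.MP
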