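import Vale.Agent.P168.MP.Trial
import Vale.Agent.P168.Trial

/-! Bounds, measurability and summability for the trial functional of every depth: the set `mpValues`
is nonempty and bounded, under integrability of every `θ(·,σ)` and of the field. -/

open MeasureTheory Real Finset Filter

namespace Vale.Agent.P168.MP

/-! ### one clause -/

/-- majorant of a clause: `∑_σ |θ(c,σ)|` -/
noncomputable def tsumAbs {K : ℕ} (c : Clause K) : ℝ := ∑ σ : Fin K → Bool, |theta c σ|

lemma tsumAbs_nonneg {K : ℕ} (c : Clause K) : 0 ≤ tsumAbs c := sum_nonneg fun _ _ => abs_nonneg _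

lemma abs_theta_le_tsumAbs {K : ℕ} (c : Clause K) (σ : Fin K → Bool) : |theta c σ| ≤ tsumAbs c :=
  single_le_sum (f := fun σ => |theta c σ|) (fun _ _ => abs_nonneg _) (mem_univ σ)

lemma integrable_tsumAbs {K : ℕ} {μ : Measure (Clause K)}
    (hθ : ∀ σ : Fin K → Bool, Integrable (fun c : Clause K => theta c σ) μ) :
    Integrable (tsumAbs (K := K)) μ :=
  integrable_finsetSum _ fun σ _ => (hθ σ).abs

lemma clauseU_mem_abs {K : ℕ} (c : Clause K) (ℓ : Fin K) (s : Bool) {xs : Fin K → ℝ}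
    (hx : ∀ j, |xs j| ≤ 1) :
    exp (-tsumAbs c) ≤ clauseU c ℓ s xs ∧ clauseU c ℓ s xs ≤ exp (tsumAbs c) := by
  have h1 := sum_fix ℓ s (fun j b => msgWeight (xs j) b)
  simp only [sum_msgWeight, prod_const_one] at h1
  constructor
  · calc exp (-tsumAbs c) = exp (-tsumAbs c) * 1 := (mul_one _).symm
      _ = _ := by rw [← h1, mul_sum]
      _ ≤ clauseU c ℓ s xs := sum_le_sum fun σ _ => by
        split_ifs
        · exact mul_le_mul_of_nonneg_right (exp_le_exp.2 (abs_le.1 (abs_theta_le_tsumAbs c σ)).1)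
            (prod_nonneg fun j _ => abs_le_one_iff_msg (hx j) _)
        · simp
  · calc clauseU c ℓ s xs ≤ _ := sum_le_sum fun σ _ => show _ ≤ exp (tsumAbs c) *
          (if σ ℓ = s then ∏ j ∈ univ.erase ℓ, msgWeight (xs j) (σ j) else 0) by
          split_ifs
          · exact mul_le_mul_of_nonneg_right (exp_le_exp.2 (abs_le.1 (abs_theta_le_tsumAbs c σ)).2)
              (prod_nonneg fun j _ => abs_le_one_iff_msg (hx j) _)
          · simp
      _ = exp (tsumAbs c) := by rw [← mul_sum, h1, mul_one]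

lemma clauseV_mem_abs {K : ℕ} (c : Clause K) {xs : Fin K → ℝ} (hx : ∀ j, |xs j| ≤ 1) :
    exp (-tsumAbs c) ≤ clauseV c xs ∧ clauseV c xs ≤ exp (tsumAbs c) := by
  have h1 : ∑ σ : Fin K → Bool, ∏ j, msgWeight (xs j) (σ j) = 1 := by
    rw [← Fintype.prod_sum (fun j b => msgWeight (xs j) b)]; simp only [sum_msgWeight, prod_const_one]
  constructor
  · calc exp (-tsumAbs c) = ∑ σ : Fin K → Bool, exp (-tsumAbs c) * ∏ j, msgWeight (xs j) (σ j) := by
          rw [← mul_sum, h1, mul_one]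
      _ ≤ _ := sum_le_sum fun σ _ => mul_le_mul_of_nonneg_right
        (exp_le_exp.2 (abs_le.1 (abs_theta_le_tsumAbs c σ)).1) (prod_nonneg fun j _ => abs_le_one_iff_msg (hx j) _)
  · calc clauseV c xs ≤ ∑ σ : Fin K → Bool, exp (tsumAbs c) * ∏ j, msgWeight (xs j) (σ j) :=
          sum_le_sum fun σ _ => mul_le_mul_of_nonneg_right (exp_le_exp.2 (abs_le.1 (abs_theta_le_tsumAbs c σ)).2)
            (prod_nonneg fun j _ => abs_le_one_iff_msg (hx j) _)
      _ = exp (tsumAbs c) := by rw [← mul_sum, h1, mul_one]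

variable {n K : ℕ}

lemma cavV_mem_abs (w : Fin n → Clause K) {xs : Fin n → Fin K → ℝ} (hx : ∀ k j, |xs k j| ≤ 1) :
    exp (-∑ k, tsumAbs (w k)) ≤ cavV w xs ∧ cavV w xs ≤ exp (∑ k, tsumAbs (w k)) := by
  rw [cavV_eq]
  constructor
  · rw [← sum_neg_distrib, exp_sum]
    exact prod_le_prod (fun k _ => (exp_pos _).le) fun k _ => (clauseV_mem_abs (w k) (hx k)).1
  · rw [exp_sum]
    exact prod_le_prod (fun k _ => (exp_pos _).le.trans (clauseV_mem_abs (w k) (hx k)).1)
      fun k _ => (clauseV_mem_abs (w k) (hx k)).2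

lemma cavU_mem_abs (h : ℝ) (w : Fin n → Clause K) (ℓ : Fin n → Fin K)
    {xs : Fin n → Fin K → ℝ} (hx : ∀ k j, |xs k j| ≤ 1) :
    exp (-(|h| + log 2 + ∑ k, tsumAbs (w k))) ≤ cavU h w ℓ xs ∧
      cavU h w ℓ xs ≤ exp (|h| + log 2 + ∑ k, tsumAbs (w k)) := by
  rw [cavU_eq]
  have hp : ∀ s, exp (-∑ k, tsumAbs (w k)) ≤ ∏ k, clauseU (w k) (ℓ k) s (xs k) ∧
      ∏ k, clauseU (w k) (ℓ k) s (xs k) ≤ exp (∑ k, tsumAbs (w k)) := fun s => by
    constructor
    · rw [← sum_neg_distrib, exp_sum]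
      exact prod_le_prod (fun k _ => (exp_pos _).le) fun k _ => (clauseU_mem_abs (w k) _ _ (hx k)).1
    · rw [exp_sum]
      exact prod_le_prod (fun k _ => (exp_pos _).le.trans (clauseU_mem_abs (w k) _ _ (hx k)).1)
        fun k _ => (clauseU_mem_abs (w k) _ _ (hx k)).2
  constructor
  · have hle : exp (-(|h| + log 2 + ∑ k, tsumAbs (w k))) ≤ exp (-|h| + -∑ k, tsumAbs (w k)) :=
      exp_le_exp.2 (by linarith [log_nonneg (one_le_two : (1:ℝ) ≤ 2)])
    refine hle.trans ?_
    rw [exp_add]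
    refine le_trans ?_ (single_le_sum (fun s _ => ?_) (mem_univ true))
    · exact mul_le_mul (exp_le_exp.2 (by simpa [sg] using neg_abs_le h)) (hp true).1 (exp_pos _).le (exp_pos _).le
    · exact mul_nonneg (exp_pos _).le ((exp_pos _).le.trans (hp s).1)
  · rw [add_right_comm, exp_add, exp_log (by norm_num : (0:ℝ) < 2), exp_add]
    refine (sum_le_sum (g := fun _ => exp |h| * exp (∑ k, tsumAbs (w k))) fun s _ => ?_).trans (le_of_eq ?_)
    · refine mul_le_mul (exp_le_exp.2 ?_) (hp s).2 ((exp_pos _).le.trans (hp s).1) (exp_pos _).le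
      exact (le_abs_self _).trans (by simp [abs_mul])
    · simp; ring

/-! ### `inner` at every depth -/

variable {ι : Type} [Fintype ι]

lemma measurable_cons {P : Type} [MeasurableSpace P] {r : ℕ} {f : P → ℝ} (hf : Measurable f)
    {g : P → Fin r → ℝ} (hg : Measurable g) :
    Measurable fun p => (Fin.cons (f p) (g p) : Fin (r + 1) → ℝ) := by
  refine measurable_pi_lambda _ fun i => ?_
  refine Fin.cases ?_ (fun j => ?_) i
  · simpa using hf
  · simp only [Fin.cons_succ]; exact (measurable_pi_apply j).comp hg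

lemma measurable_inner : ∀ {P : Type} [MeasurableSpace P] (r : ℕ) (m : Fin r → ℝ)
    (X : P → ι → (Fin r → ℝ) → ℝ) (Y : P → (ι → ℝ) → ℝ),
    (∀ i, Measurable fun q : P × (Fin r → ℝ) => X q.1 i q.2) → Measurable (Function.uncurry Y) →
    Measurable fun p => inner r m (X p) (Y p) := by
  intro P _ r
  induction r generalizing P with
  | zero =>
    intro m X Y hX hY
    exact hY.comp (measurable_id.prodMk (measurable_pi_lambda _ fun i =>
      (hX i).comp (measurable_id.prodMk measurable_const)))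
  | succ r ih =>
    intro m X Y hX hY
    have h := ih (P := P × (ι → ℝ)) (Fin.tail m) (fun q i v => X q.1 i (Fin.cons (q.2 i) v))
      (fun q => Y q.1)
      (fun i => (hX i).comp ((measurable_fst.comp measurable_fst).prodMk
        (measurable_cons ((measurable_pi_apply i).comp (measurable_snd.comp measurable_fst)) measurable_snd)))
      (hY.comp ((measurable_fst.comp measurable_fst).prodMk measurable_snd))
    exact ((h.pow_const (m 0)).stronglyMeasurable.integral_prod_right').measurable.pow_const _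

lemma measurable_inner_step {r : ℕ} (m : Fin (r + 1) → ℝ) {X : ι → (Fin (r + 1) → ℝ) → ℝ}
    (hX : ∀ i, Measurable (X i)) {Y : (ι → ℝ) → ℝ} (hY : Measurable Y) :
    Measurable fun ω : ι → ℝ => inner r (Fin.tail m) (fun i v => X i (Fin.cons (ω i) v)) Y :=
  measurable_inner r (Fin.tail m) (fun (ω : ι → ℝ) i v => X i (Fin.cons (ω i) v)) (fun _ => Y)
    (fun i => (hX i).comp (measurable_cons ((measurable_pi_apply i).comp measurable_fst) measurable_snd))
    (hY.comp measurable_snd)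

lemma inner_mem {Y : (ι → ℝ) → ℝ} (hY : Measurable Y) {C : ℝ}
    (hb : ∀ xs, (∀ i, |xs i| ≤ 1) → exp (-C) ≤ Y xs ∧ Y xs ≤ exp C) :
    ∀ (r : ℕ) (m : Fin r → ℝ), (∀ l, 0 < m l) → ∀ X : ι → (Fin r → ℝ) → ℝ, (∀ i, Measurable (X i)) →
      (∀ i v, |X i v| ≤ 1) → exp (-C) ≤ inner r m X Y ∧ inner r m X Y ≤ exp C := by
  intro r
  induction r with
  | zero => intro m _ X _ hx; exact hb _ fun i => hx i _
  | succ r ih =>
    intro m hm X hXm hx
    have hp : ∀ ω : ι → ℝ,
        exp (-C) ^ m 0 ≤ inner r (Fin.tail m) (fun i v => X i (Fin.cons (ω i) v)) Y ^ m 0 ∧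
        inner r (Fin.tail m) (fun i v => X i (Fin.cons (ω i) v)) Y ^ m 0 ≤ exp C ^ m 0 := fun ω => by
      obtain ⟨a, b⟩ := ih (Fin.tail m) (fun l => hm _) (fun i v => X i (Fin.cons (ω i) v))
        (fun i => (hXm i).comp (measurable_cons measurable_const measurable_id)) fun i v => hx i _
      exact ⟨rpow_le_rpow (exp_pos _).le a (hm 0).le, rpow_le_rpow ((exp_pos _).le.trans a) b (hm 0).le⟩
    have hi : Integrable (fun ω : ι → ℝ => inner r (Fin.tail m) (fun i v => X i (Fin.cons (ω i) v)) Y ^ m 0)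
        (Measure.pi fun _ : ι => unif01) :=
      Integrable.of_bound ((measurable_inner_step m hXm hY).pow_const _).aestronglyMeasurable (exp C ^ m 0)
        (Eventually.of_forall fun ω => by
          rw [Real.norm_eq_abs, abs_of_nonneg ((rpow_nonneg (exp_pos _).le _).trans (hp ω).1)]
          exact (hp ω).2)
    have h1 := integral_mono (integrable_const (exp (-C) ^ m 0)) hi fun ω => (hp ω).1
    have h2 := integral_mono hi (integrable_const (exp C ^ m 0)) fun ω => (hp ω).2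
    simp only [integral_const, probReal_univ, one_smul] at h1 h2
    have hm0 : 0 ≤ 1 / m 0 := (one_div_pos.2 (hm 0)).le
    have e : ∀ t : ℝ, (exp t ^ m 0) ^ (1 / m 0) = exp t := fun t => by
      rw [one_div, rpow_rpow_inv (exp_pos _).le (hm 0).ne']
    simp only [inner]
    exact ⟨(e (-C)).ge.trans (rpow_le_rpow (rpow_nonneg (exp_pos _).le _) h1 hm0),
      (rpow_le_rpow ((rpow_nonneg (exp_pos _).le _).trans h1) h2 hm0).trans (e C).le⟩

/-- comparison of two variables, uniformly in the trial parameters -/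
lemma inner_le_mul {Y Y' : (ι → ℝ) → ℝ} (hY : Measurable Y) (hY' : Measurable Y') {C C' δ : ℝ}
    (hb : ∀ xs, (∀ i, |xs i| ≤ 1) → exp (-C) ≤ Y xs ∧ Y xs ≤ exp C)
    (hb' : ∀ xs, (∀ i, |xs i| ≤ 1) → exp (-C') ≤ Y' xs ∧ Y' xs ≤ exp C')
    (hle : ∀ xs, (∀ i, |xs i| ≤ 1) → Y xs ≤ exp δ * Y' xs) :
    ∀ (r : ℕ) (m : Fin r → ℝ), (∀ l, 0 < m l) → ∀ X : ι → (Fin r → ℝ) → ℝ, (∀ i, Measurable (X i)) →
      (∀ i v, |X i v| ≤ 1) → inner r m X Y ≤ exp δ * inner r m X Y' := by
  intro r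
  induction r with
  | zero => intro m _ X _ hx; exact hle _ fun i => hx i _
  | succ r ih =>
    intro m hm X hXm hx
    have hXm' : ∀ (ω : ι → ℝ) i, Measurable fun v => X i (Fin.cons (ω i) v) := fun ω i =>
      (hXm i).comp (measurable_cons measurable_const measurable_id)
    have hint : ∀ {Z : (ι → ℝ) → ℝ}, Measurable Z → ∀ {D : ℝ},
        (∀ xs, (∀ i, |xs i| ≤ 1) → exp (-D) ≤ Z xs ∧ Z xs ≤ exp D) →
        Integrable (fun ω : ι → ℝ => inner r (Fin.tail m) (fun i v => X i (Fin.cons (ω i) v)) Z ^ m 0)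
          (Measure.pi fun _ : ι => unif01) ∧
        ∀ ω : ι → ℝ, 0 < inner r (Fin.tail m) (fun i v => X i (Fin.cons (ω i) v)) Z := by
      intro Z hZ D hD
      have h := fun ω => inner_mem hZ hD r (Fin.tail m) (fun l => hm _) _ (hXm' ω) fun i v => hx i _
      refine ⟨Integrable.of_bound ((measurable_inner_step m hXm hZ).pow_const _).aestronglyMeasurable
        (exp D ^ m 0) (Eventually.of_forall fun ω => ?_), fun ω => (exp_pos _).trans_le (h ω).1⟩
      rw [Real.norm_eq_abs, abs_of_nonneg (rpow_nonneg ((exp_pos _).le.trans (h ω).1) _)]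
      exact rpow_le_rpow ((exp_pos _).le.trans (h ω).1) (h ω).2 (hm 0).le
    obtain ⟨i1, p1⟩ := hint hY hb
    obtain ⟨i2, p2⟩ := hint hY' hb'
    have h1 : ∫ ω : ι → ℝ, inner r (Fin.tail m) (fun i v => X i (Fin.cons (ω i) v)) Y ^ m 0
          ∂Measure.pi (fun _ => unif01) ≤
        exp δ ^ m 0 * ∫ ω : ι → ℝ, inner r (Fin.tail m) (fun i v => X i (Fin.cons (ω i) v)) Y' ^ m 0
          ∂Measure.pi (fun _ => unif01) := by
      rw [← integral_const_mul]
      refine integral_mono i1 (i2.const_mul _) fun ω => ?_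
      rw [← mul_rpow (exp_pos _).le (p2 ω).le]
      exact rpow_le_rpow (p1 ω).le (ih _ (fun l => hm _) _ (hXm' ω) fun i v => hx i _) (hm 0).le
    have h0 : ∀ {Z : (ι → ℝ) → ℝ}, (∀ ω : ι → ℝ, 0 < inner r (Fin.tail m) (fun i v => X i (Fin.cons (ω i) v)) Z) →
        0 ≤ ∫ ω : ι → ℝ, inner r (Fin.tail m) (fun i v => X i (Fin.cons (ω i) v)) Z ^ m 0
          ∂Measure.pi (fun _ => unif01) := fun p => integral_nonneg fun ω => rpow_nonneg (p ω).le _
    simp only [inner]
    refine (rpow_le_rpow (h0 p1) h1 (one_div_pos.2 (hm 0)).le).trans (le_of_eq ?_)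
    rw [mul_rpow (rpow_nonneg (exp_pos _).le _) (h0 p2), one_div, rpow_rpow_inv (exp_pos _).le (hm 0).ne']

/-- messages that do not depend on the levels -/
lemma inner_const {Y : (ι → ℝ) → ℝ} (c : ι → ℝ) (hc : 0 < Y c) :
    ∀ (r : ℕ) (m : Fin r → ℝ), (∀ l, 0 < m l) → inner r m (fun i _ => c i) Y = Y c := by
  intro r
  induction r with
  | zero => intro m _; rfl
  | succ r ih =>
    intro m hm
    simp only [inner, ih (Fin.tail m) (fun l => hm _), integral_const, probReal_univ, one_smul,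
      one_div, rpow_rpow_inv hc.le (hm 0).ne']

/-! ### `levels` -/

variable {r : ℕ} {m : Fin r → ℝ} {x : (Fin (r + 1) → ℝ) → ℝ}

lemma measurable_levels {P : Type} [MeasurableSpace P] (hx : Measurable x)
    {Y : P → (Fin n → Fin K → ℝ) → ℝ} (hY : Measurable (Function.uncurry Y)) :
    Measurable fun p => levels r m x (Y p) := by
  have h := measurable_inner (P := P × (Fin n × Fin K → ℝ)) r m
    (fun q i v => x (Fin.cons (q.2 i) v)) (fun q xs => Y q.1 fun k j => xs (k, j))
    (fun i => hx.comp (measurable_cons ((measurable_pi_apply i).comp (measurable_snd.comp measurable_fst))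
      measurable_snd))
    (hY.comp ((measurable_fst.comp measurable_fst).prodMk (measurable_pi_lambda _ fun k =>
      measurable_pi_lambda _ fun j => (measurable_pi_apply (k, j)).comp measurable_snd)))
  exact (Real.measurable_log.comp h).stronglyMeasurable.integral_prod_right'.measurable

lemma measurable_flat {Y : (Fin n → Fin K → ℝ) → ℝ} (hY : Measurable Y) :
    Measurable fun xs : Fin n × Fin K → ℝ => Y fun k j => xs (k, j) :=
  hY.comp (measurable_pi_lambda _ fun k => measurable_pi_lambda _ fun j => measurable_pi_apply (k, j))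

lemma abs_log_inner_le (hm : ∀ l, 0 < m l) (hx : Measurable x) (hx1 : ∀ ω, |x ω| ≤ 1)
    {Y : (Fin n → Fin K → ℝ) → ℝ} (hY : Measurable Y) {C : ℝ}
    (hb : ∀ xs, (∀ k j, |xs k j| ≤ 1) → exp (-C) ≤ Y xs ∧ Y xs ≤ exp C) (ω₀ : Fin n × Fin K → ℝ) :
    |log (inner r m (fun i v => x (Fin.cons (ω₀ i) v)) fun xs => Y fun k j => xs (k, j))| ≤ C := by
  obtain ⟨a, b⟩ := inner_mem (measurable_flat hY) (fun xs hxs => hb _ fun k j => hxs (k, j)) r m hm
    (fun (i : Fin n × Fin K) v => x (Fin.cons (ω₀ i) v))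
    (fun i => hx.comp (measurable_cons measurable_const measurable_id)) fun i v => hx1 _
  have h0 := (exp_pos (-C)).trans_le a
  exact abs_le.2 ⟨(le_log_iff_exp_le h0).2 a, (log_le_iff_le_exp h0).2 b⟩

lemma integrable_log_inner (hm : ∀ l, 0 < m l) (hx : Measurable x) (hx1 : ∀ ω, |x ω| ≤ 1)
    {Y : (Fin n → Fin K → ℝ) → ℝ} (hY : Measurable Y) {C : ℝ}
    (hb : ∀ xs, (∀ k j, |xs k j| ≤ 1) → exp (-C) ≤ Y xs ∧ Y xs ≤ exp C) :
    Integrable (fun ω₀ : Fin n × Fin K → ℝ =>
      log (inner r m (fun i v => x (Fin.cons (ω₀ i) v)) fun xs => Y fun k j => xs (k, j)))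
      (Measure.pi fun _ => unif01) := by
  refine Integrable.of_bound (Real.measurable_log.comp ?_).aestronglyMeasurable C
    (Eventually.of_forall fun ω₀ => by simpa [Real.norm_eq_abs] using abs_log_inner_le hm hx hx1 hY hb ω₀)
  exact measurable_inner (P := Fin n × Fin K → ℝ) r m (fun ω₀ i v => x (Fin.cons (ω₀ i) v))
    (fun _ xs => Y fun k j => xs (k, j))
    (fun i => hx.comp (measurable_cons ((measurable_pi_apply i).comp measurable_fst) measurable_snd))
    ((measurable_flat hY).comp measurable_snd)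

lemma abs_levels_le (hm : ∀ l, 0 < m l) (hx : Measurable x) (hx1 : ∀ ω, |x ω| ≤ 1)
    {Y : (Fin n → Fin K → ℝ) → ℝ} (hY : Measurable Y) {C : ℝ}
    (hb : ∀ xs, (∀ k j, |xs k j| ≤ 1) → exp (-C) ≤ Y xs ∧ Y xs ≤ exp C) :
    |levels r m x Y| ≤ C := by
  have := norm_integral_le_of_norm_le_const (μ := Measure.pi fun _ : Fin n × Fin K => unif01)
    (f := fun ω₀ => log (inner r m (fun i v => x (Fin.cons (ω₀ i) v)) fun xs => Y fun k j => xs (k, j)))
    (C := C) (Eventually.of_forall fun ω₀ => by simpa [Real.norm_eq_abs] using abs_log_inner_le hm hx hx1 hY hb ω₀)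
  simpa [levels, Real.norm_eq_abs] using this

/-- `levels` is 1-Lipschitz in `log Y` for the uniform norm, uniformly in the trial parameters -/
lemma abs_levels_sub_le (hm : ∀ l, 0 < m l) (hx : Measurable x) (hx1 : ∀ ω, |x ω| ≤ 1)
    {Y Y' : (Fin n → Fin K → ℝ) → ℝ} (hY : Measurable Y) (hY' : Measurable Y') {C C' δ : ℝ}
    (hb : ∀ xs, (∀ k j, |xs k j| ≤ 1) → exp (-C) ≤ Y xs ∧ Y xs ≤ exp C)
    (hb' : ∀ xs, (∀ k j, |xs k j| ≤ 1) → exp (-C') ≤ Y' xs ∧ Y' xs ≤ exp C')
    (hd : ∀ xs, (∀ k j, |xs k j| ≤ 1) → |log (Y xs) - log (Y' xs)| ≤ δ) :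
    |levels r m x Y - levels r m x Y'| ≤ δ := by
  have key : ∀ {U U' : (Fin n → Fin K → ℝ) → ℝ}, Measurable U → Measurable U' → ∀ {D D' : ℝ},
      (∀ xs, (∀ k j, |xs k j| ≤ 1) → exp (-D) ≤ U xs ∧ U xs ≤ exp D) →
      (∀ xs, (∀ k j, |xs k j| ≤ 1) → exp (-D') ≤ U' xs ∧ U' xs ≤ exp D') →
      (∀ xs, (∀ k j, |xs k j| ≤ 1) → log (U xs) - log (U' xs) ≤ δ) →
      levels r m x U - levels r m x U' ≤ δ := by
    intro U U' hU hU' D D' hD hD' hdd
    have hXm : ∀ (ω₀ : Fin n × Fin K → ℝ) i, Measurable fun v : Fin r → ℝ => x (Fin.cons (ω₀ i) v) :=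
      fun ω₀ i => hx.comp (measurable_cons measurable_const measurable_id)
    rw [levels, levels, ← integral_sub (integrable_log_inner hm hx hx1 hU hD)
      (integrable_log_inner hm hx hx1 hU' hD')]
    refine (integral_mono ((integrable_log_inner hm hx hx1 hU hD).sub (integrable_log_inner hm hx hx1 hU' hD'))
      (integrable_const δ) fun ω₀ => ?_).trans (by simp)
    have hp := (exp_pos _).trans_le (inner_mem (measurable_flat hU) (fun xs hxs => hD _ fun k j => hxs (k, j))
      r m hm _ (hXm ω₀) fun i v => hx1 _).1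
    have hp' := (exp_pos _).trans_le (inner_mem (measurable_flat hU') (fun xs hxs => hD' _ fun k j => hxs (k, j))
      r m hm _ (hXm ω₀) fun i v => hx1 _).1
    have hle := inner_le_mul (δ := δ) (measurable_flat hU) (measurable_flat hU')
      (fun xs hxs => hD _ fun k j => hxs (k, j)) (fun xs hxs => hD' _ fun k j => hxs (k, j))
      (fun xs hxs => ?_) r m hm _ (hXm ω₀) fun i v => hx1 _
    · have := log_le_log hp hle
      rw [log_mul (exp_pos _).ne' hp'.ne', log_exp] at this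
      simp only [Pi.sub_apply]
      linarith
    have hpos := (exp_pos _).trans_le (hD _ fun k j => hxs (k, j)).1
    have hpos' := (exp_pos _).trans_le (hD' _ fun k j => hxs (k, j)).1
    rw [← log_le_log_iff hpos (mul_pos (exp_pos _) hpos'), log_mul (exp_pos _).ne' hpos'.ne', log_exp]
    linarith [hdd _ fun k j => hxs (k, j)]
  exact abs_sub_le_iff.2 ⟨key hY hY' hb hb' fun xs h => (abs_sub_le_iff.1 (hd xs h)).1,
    key hY' hY hb' hb fun xs h => (abs_sub_le_iff.1 (hd xs h)).2⟩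

lemma measurable_cavU_slice (h : ℝ) (w : Fin n → Clause K) (ℓ : Fin n → Fin K) :
    Measurable (cavU h w ℓ) := by
  have e := (measurable_cavU ℓ).comp (f := fun xs : Fin n → Fin K → ℝ => ((h, w), xs))
    (measurable_const.prodMk measurable_id)
  simpa only [Function.comp_def] using e

lemma measurable_cavV_slice (w : Fin n → Clause K) : Measurable (cavV w) := by
  have e := measurable_cavV.comp (f := fun xs : Fin n → Fin K → ℝ => (w, xs))
    (measurable_const.prodMk measurable_id)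
  simpa only [Function.comp_def] using e

lemma abs_levels_cavU_le (hm : ∀ l, 0 < m l) (hx : Measurable x) (hx1 : ∀ ω, |x ω| ≤ 1)
    (h : ℝ) (w : Fin n → Clause K) (ℓ : Fin n → Fin K) :
    |levels r m x (cavU h w ℓ)| ≤ |h| + log 2 + ∑ k, tsumAbs (w k) :=
  abs_levels_le hm hx hx1 (Y := cavU h w ℓ) (measurable_cavU_slice h w ℓ)
    (fun _ hxs => cavU_mem_abs h w ℓ hxs)

lemma abs_levels_cavV_le (hm : ∀ l, 0 < m l) (hx : Measurable x) (hx1 : ∀ ω, |x ω| ≤ 1)
    (w : Fin n → Clause K) : |levels r m x (cavV w)| ≤ ∑ k, tsumAbs (w k) :=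
  abs_levels_le hm hx hx1 (Y := cavV w) (measurable_cavV_slice w) (fun _ hxs => cavV_mem_abs w hxs)

/-! ### `TU`, `TV` -/

variable {μ : Measure (Clause K)} {ρ : Measure ℝ} [IsProbabilityMeasure μ]

lemma integrable_avU (hθ : ∀ σ : Fin K → Bool, Integrable (fun c : Clause K => theta c σ) μ)
    [IsProbabilityMeasure ρ] (hh : Integrable (fun y : ℝ => y) ρ)
    (hm : ∀ l, 0 < m l) (hx : Measurable x) (hx1 : ∀ ω, |x ω| ≤ 1) [NeZero K] :
    Integrable (fun q : ℝ × (Fin n → Clause K) => av fun ℓ : Fin n → Fin K => levels r m x (cavU q.1 q.2 ℓ))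
      (ρ.prod (Measure.pi fun _ => μ)) := by
  have hs := (integral_sum_eval μ (integrable_tsumAbs hθ) n).1
  refine (((hh.abs.comp_fst _).add (integrable_const (log 2))).add (hs.comp_snd ρ)).mono' ?_
    (Eventually.of_forall fun q => ?_)
  · simp only [av]
    exact ((Finset.measurable_sum _ fun ℓ _ => measurable_levels hx
      (Y := fun q : ℝ × (Fin n → Clause K) => cavU q.1 q.2 ℓ) (measurable_cavU ℓ)).div_const _).aestronglyMeasurable
  · simp only [Pi.add_apply, Real.norm_eq_abs]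
    exact abs_av_le fun ℓ => abs_levels_cavU_le hm hx hx1 q.1 q.2 ℓ

lemma integrable_levelsV (hθ : ∀ σ : Fin K → Bool, Integrable (fun c : Clause K => theta c σ) μ)
    (hm : ∀ l, 0 < m l) (hx : Measurable x) (hx1 : ∀ ω, |x ω| ≤ 1) :
    Integrable (fun w : Fin n → Clause K => levels r m x (cavV w)) (Measure.pi fun _ => μ) :=
  (integral_sum_eval μ (integrable_tsumAbs hθ) n).1.mono'
    (measurable_levels hx (Y := fun w : Fin n → Clause K => cavV w) measurable_cavV).aestronglyMeasurable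
    (Eventually.of_forall fun w => by simpa [Real.norm_eq_abs] using abs_levels_cavV_le hm hx hx1 w)

variable {lam : ℝ}

lemma TU_bound [IsProbabilityMeasure ρ] [NeZero K]
    (hθ : ∀ σ : Fin K → Bool, Integrable (fun c : Clause K => theta c σ) μ)
    (hh : Integrable (fun y : ℝ => y) ρ) (hlam : 0 ≤ lam)
    (hm : ∀ l, 0 < m l) (hx : Measurable x) (hx1 : ∀ ω, |x ω| ≤ 1) :
    Summable (fun n : ℕ => pois (K * lam) n *
      ∫ h₀, ∫ w : Fin n → Clause K, av (fun ℓ : Fin n → Fin K => levels r m x (cavU h₀ w ℓ))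
        ∂Measure.pi (fun _ => μ) ∂ρ) ∧
    |TU μ ρ lam r m x| ≤
      (∫ c, tsumAbs c ∂μ) * (K * lam) + (∫ y, |y| ∂ρ + log 2) := by
  set A := ∫ c, tsumAbs c ∂μ
  have key : ∀ n : ℕ, |∫ h₀, ∫ w : Fin n → Clause K,
      av (fun ℓ : Fin n → Fin K => levels r m x (cavU h₀ w ℓ))
        ∂Measure.pi (fun _ => μ) ∂ρ| ≤ A * n + (∫ y, |y| ∂ρ + log 2) := fun n => by
    have hs := integral_sum_eval μ (integrable_tsumAbs hθ) n
    have h1 : ∀ h₀ : ℝ, ‖∫ w : Fin n → Clause K, av (fun ℓ : Fin n → Fin K => levels r m x (cavU h₀ w ℓ))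
        ∂Measure.pi (fun _ => μ)‖ ≤ |h₀| + (log 2 + A * n) := fun h₀ => by
      refine (norm_integral_le_of_norm_le ((integrable_const (|h₀| + log 2)).add hs.1)
        (Eventually.of_forall fun w => ?_)).trans (le_of_eq ?_)
      · simp only [Pi.add_apply, Real.norm_eq_abs]
        exact abs_av_le fun ℓ => abs_levels_cavU_le hm hx hx1 h₀ w ℓ
      · simp only [Pi.add_apply]
        rw [integral_add (integrable_const _) hs.1, hs.2]; simp [A]; ring
    rw [← Real.norm_eq_abs]
    refine (norm_integral_le_of_norm_le (hh.abs.add (integrable_const (log 2 + A * n)))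
      (Eventually.of_forall h1)).trans (le_of_eq ?_)
    simp only [Pi.add_apply]
    rw [integral_add hh.abs (integrable_const _)]; simp; ring
  have hr : 0 ≤ (K : ℝ) * lam := by positivity
  refine ⟨summable_pois_mul hr key, ?_⟩
  rw [TU, ← Real.norm_eq_abs]
  refine tsum_of_norm_bounded (hasSum_pois_affine _ A _) fun n => ?_
  rw [Real.norm_eq_abs, abs_mul, abs_of_nonneg (pois_nonneg hr n)]
  exact mul_le_mul_of_nonneg_left (key n) (pois_nonneg hr n)

lemma TV_bound (hK : 1 ≤ K)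
    (hθ : ∀ σ : Fin K → Bool, Integrable (fun c : Clause K => theta c σ) μ)
    (hlam : 0 ≤ lam) (hm : ∀ l, 0 < m l) (hx : Measurable x) (hx1 : ∀ ω, |x ω| ≤ 1) :
    Summable (fun n : ℕ => pois (((K : ℝ) - 1) * lam) n *
      ∫ w : Fin n → Clause K, levels r m x (cavV w) ∂Measure.pi (fun _ => μ)) ∧
    |TV μ lam r m x| ≤ (∫ c, tsumAbs c ∂μ) * (((K : ℝ) - 1) * lam) := by
  set A := ∫ c, tsumAbs c ∂μ
  have key : ∀ n : ℕ, |∫ w : Fin n → Clause K, levels r m x (cavV w)
      ∂Measure.pi (fun _ => μ)| ≤ A * n + 0 := fun n => by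
    have hs := integral_sum_eval μ (integrable_tsumAbs hθ) n
    rw [← Real.norm_eq_abs]
    refine (norm_integral_le_of_norm_le hs.1 (Eventually.of_forall fun w => ?_)).trans (le_of_eq ?_)
    · simpa [Real.norm_eq_abs] using abs_levels_cavV_le hm hx hx1 w
    · rw [hs.2]; ring
  have hK' : (1 : ℝ) ≤ K := by exact_mod_cast hK
  have hr : 0 ≤ ((K : ℝ) - 1) * lam := mul_nonneg (by linarith) hlam
  refine ⟨summable_pois_mul hr key, ?_⟩
  rw [TV, ← Real.norm_eq_abs]
  refine (tsum_of_norm_bounded (hasSum_pois_affine _ A 0) fun n => ?_).trans (le_of_eq (add_zero _))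
  rw [Real.norm_eq_abs, abs_mul, abs_of_nonneg (pois_nonneg hr n)]
  exact mul_le_mul_of_nonneg_left (key n) (pois_nonneg hr n)

lemma mpValues_nonempty {K : ℕ} (μ : Measure (Clause K)) (ρ : Measure ℝ) (lam : ℝ) :
    (mpValues μ ρ lam).Nonempty :=
  ⟨_, 0, ![], fun _ => 0, fun i => i.elim0, fun i => i.elim0, measurable_const, by simp, rfl⟩

lemma mpValues_abs_le [IsProbabilityMeasure ρ] [NeZero K]
    (hθ : ∀ σ : Fin K → Bool, Integrable (fun c : Clause K => theta c σ) μ)
    (hh : Integrable (fun y : ℝ => y) ρ) (hlam : 0 ≤ lam) {v : ℝ} (hv : v ∈ mpValues μ ρ lam) :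
    |v| ≤ (∫ c, tsumAbs c ∂μ) * (2 * K * lam) + (∫ y, |y| ∂ρ + log 2) := by
  obtain ⟨r, m, x, -, hm, hx, hx1, rfl⟩ := hv
  have h1 := (TU_bound hθ hh hlam (fun l => (hm l).1) hx hx1).2
  have h2 := (TV_bound NeZero.one_le hθ hlam (fun l => (hm l).1) hx hx1).2
  have h3 := abs_sub (TU μ ρ lam r m x) (TV μ lam r m x)
  have h4 : 0 ≤ (∫ c, tsumAbs c ∂μ) * lam :=
    mul_nonneg (integral_nonneg tsumAbs_nonneg) hlam
  linarith

lemma bddBelow_mpValues [IsProbabilityMeasure ρ] [NeZero K]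
    (hθ : ∀ σ : Fin K → Bool, Integrable (fun c : Clause K => theta c σ) μ)
    (hh : Integrable (fun y : ℝ => y) ρ) (hlam : 0 ≤ lam) : BddBelow (mpValues μ ρ lam) :=
  ⟨_, fun _ hv => (abs_le.1 (mpValues_abs_le hθ hh hlam hv)).1⟩

/-- squeeze used for the final statement: eventual bounds by every member, and from below by some member -/
lemma tendsto_sInf {S : Set ℝ} (hne : S.Nonempty) (hbd : BddBelow S) {p : ℕ → ℝ}
    (hU : ∀ v ∈ S, ∀ ε > 0, ∀ᶠ N in atTop, p N ≤ v + ε)
    (hL : ∀ ε > 0, ∀ᶠ N in atTop, ∃ v ∈ S, v - ε ≤ p N) :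
    Tendsto p atTop (nhds (sInf S)) := by
  rw [Metric.tendsto_nhds]
  intro ε hε
  obtain ⟨v, hv, hlt⟩ := exists_lt_of_csInf_lt hne (show sInf S < sInf S + ε / 2 by linarith)
  filter_upwards [hU v hv (ε / 3) (by linarith), hL (ε / 2) (half_pos hε)] with N h1 h2
  obtain ⟨u, hu, h3⟩ := h2
  have := csInf_le hbd hu
  rw [Real.dist_eq, abs_lt]
  constructor <;> linarith

end Vale.Agent.P168.MP
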