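import Vale.Agent.P168.MP.VarSmall
import Vale.Agent.P168.MP.GridConc
import Vale.Agent.P168.MP.MeanLower
import Vale.Agent.P168.MP.NestC
import Vale.Agent.P168.MP.TrialBound
import Vale.Agent.P168.MP.Trunc

/-! The lower bound for bounded disorder (section F of ROUTE.md). -/

namespace Vale.Agent.P168.MP

open MeasureTheory Filter Finset Real

lemma small_finsetSum {L k : ℕ} {α : Type*} [DecidableEq α] (s : Finset α)
    (F : α → ℕ → Sys → (Fin L → ℕ) → ℝ) (h : ∀ a ∈ s, Small k (F a)) :
    Small k fun R S J => ∑ a ∈ s, F a R S J := by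
  induction s using Finset.induction_on with
  | empty => simpa using small_zero (L := L) (k := k)
  | insert a s ha ih =>
    simpa [Finset.sum_insert ha] using
      (h a (mem_insert_self a s)).add (ih fun b hb => h b (mem_insert_of_mem hb))

/-- the error of the comparison with the trial of the layers -/
noncomputable def cmpErr {Ω : Type} [Fintype Ω] {N : ℕ} (R : ℕ) (w : List Ω → ℝ)
    (rd : List Ω → Fin N → Bool) (r : ℕ) (P : List Tree) (J : Fin (r + 1) → ℕ) : ℝ :=
  (P.map fun t => ∑ S ∈ (univ : Finset (Finset (Fin (Tree.size r t)))).erase ∅,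
    √(varM R (lin R) w rd (lvT (layerJ R J) r t) S)).sum

lemma small_cmpErr {r k : ℕ} (P : List Tree) (hk : ∀ t ∈ P, 2 * Tree.size r t ≤ k) :
    Small (L := r + 1) k fun R S J => cmpErr R S.w S.rd r P J :=
  small_listSum P (fun t R S J => ∑ X ∈ (univ : Finset (Finset (Fin (Tree.size r t)))).erase ∅,
      √(varM R (lin R) S.w S.rd (lvT (layerJ R J) r t) X)) fun t ht =>
    small_finsetSum _ (fun X R (S : Sys) J => √(varM R (lin R) S.w S.rd (lvT (layerJ R J) r t) X))
      fun X hX => (small_varM t (hk t ht) (Finset.nonempty_iff_ne_empty.2 (ne_of_mem_erase hX))).sqrt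
        fun R S J => varM_nonneg S.pos _ _ _

variable {K : ℕ} [NeZero K] {lam L : ℝ}

/-- the comparison statement which the lower bound uses -/
def GainBound (K : ℕ) (lam L : ℝ) : Prop :=
  ∀ ε : ℝ, 0 < ε → ∃ (r : ℕ) (P : List Tree) (A : ℝ), 0 ≤ A ∧
    ∀ (μ : Measure (Clause K)) (ρ : Measure ℝ), IsProbabilityMeasure μ → IsProbabilityMeasure ρ →
      (∀ᵐ c ∂μ, tsumAbs c ≤ L) → (∀ᵐ y ∂ρ, |y| ≤ L) →
      ∀ (ι : Type) [Fintype ι] [DecidableEq ι] (β : ι → Batch) (S N : ℕ) [NeZero N] (R : ℕ),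
        16 * (r + 1) ≤ R → ∀ (W : (Fin N → Bool) → ℝ), (∀ s, 0 < W s) → ∀ (h u : ι → ℝ),
        ∀ J ∈ (layerWin (r + 1) R).set, ∃ v ∈ mpValues μ ρ lam,
          |cavGain (S := S) (β := β) μ ρ lam R W h u - v| ≤
            ε + A * cmpErr R (pw (S := S) (β := β) R W h u) (spinAt R) r P J

/-- **Lower bound** for bounded disorder. -/
theorem bounded_lower (GB : GainBound K lam L) {μ : Measure (Clause K)} {ρ : Measure ℝ}
    [IsProbabilityMeasure μ] [IsProbabilityMeasure ρ] (hμ : ∀ᵐ c ∂μ, tsumAbs c ≤ L)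
    (hρ : ∀ᵐ y ∂ρ, |y| ≤ L) (hL : 0 ≤ L) (hlam : 0 ≤ lam) :
    ∀ ε > 0, ∀ᶠ n : ℕ in atTop, ∃ v ∈ mpValues μ ρ lam, v - ε ≤ pressureM μ ρ lam n := by
  intro ε hε
  have hθ : ∀ σ : Fin K → Bool, Integrable (fun c : Clause K => theta c σ) μ := fun σ =>
    Integrable.of_bound (measurable_theta σ).aestronglyMeasurable L
      (hμ.mono fun c hc => by rw [Real.norm_eq_abs]; exact (abs_theta_le_tsumAbs c σ).trans hc)
  have hh : Integrable (fun y : ℝ => y) ρ := Integrable.of_bound measurable_id.aestronglyMeasurable L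
    (hρ.mono fun y hy => by rw [Real.norm_eq_abs]; exact hy)
  have hne := mpValues_nonempty μ ρ lam
  have hbd : BddBelow (mpValues μ ρ lam) := bddBelow_mpValues hθ hh hlam
  set s := sInf (mpValues μ ρ lam)
  set δ := ε / 8 with hδ'
  have hδ : 0 < δ := by positivity
  obtain ⟨r, P, A, hA, hGB⟩ := GB δ hδ
  set kmax := 2 * (P.map fun t => Tree.size r t).sum with hkmax
  have hk : ∀ t ∈ P, 2 * Tree.size r t ≤ kmax := fun t ht =>
    Nat.mul_le_mul_left 2 (List.le_sum_of_mem (List.mem_map.2 ⟨t, ht, rfl⟩))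
  obtain ⟨R₀, hR₀⟩ := ((small_cmpErr P hk).const_mul hA) (1 / (8 * ((r + 1 : ℕ) : ℝ)))
    (by positivity) δ hδ
  set R := max R₀ (16 * (r + 1)) with hR'
  obtain ⟨C, hC⟩ := hR₀ R (le_max_left _ _)
  have hR16 : 16 * (r + 1) ≤ R := le_max_right _ _
  have hR2 : 2 ≤ R := by omega
  obtain ⟨S, M, hp, ub, hS, hM, hp0, hp1, hub, hub1, hgrid⟩ :=
    grid_params R kmax (show 1 ≤ R by omega) (ε := δ / (|C| + 1)) (by positivity)
  have : NeZero M := ⟨hM.ne'⟩
  have hmain : ∀ (N : ℕ) [NeZero N] (W : (Fin N → Bool) → ℝ), (∀ σ, 0 < W σ) →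
      s - 3 * δ ≤ avg fun g : BIdx R kmax → Fin M =>
        cavGain (S := S) (β := allBatch R kmax) μ ρ lam R W (fun _ => hp) (gu ub M g) := by
    intro N _ W hW
    have hg : ∀ g : BIdx R kmax → Fin M, s - 2 * δ -
        |C| * errSum R S (lin R) W (fun _ => hp) (gu ub M g) ≤
          cavGain (S := S) (β := allBatch R kmax) μ ρ lam R W (fun _ => hp) (gu ub M g) := by
      intro g
      set w := pw (S := S) (β := allBatch R kmax) R W (fun _ => hp) (gu ub M g) with hwdef
      have hok : Ok R (lin R) w := ok_pw_lin (show 1 ≤ R by omega) hW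
      obtain ⟨hE0, hId⟩ := ident_errSum hok hS (show 1 ≤ R by omega) (fun _ => ⟨hp0, hp1⟩)
      let Sy : Sys :=
        { Ω := Mark N S (allBatch R kmax)
          inst := inferInstance
          ne := inferInstance
          N := N
          hN := inferInstance
          w := w
          pos := hok.wpos
          rd := spinAt R }
      have hgood : Sy.Good R kmax (errSum R S (lin R) W (fun _ => hp) (gu ub M g)) := ⟨hE0, hId⟩
      have hsmall := hC (layerWin (r + 1) R) (layerWin_ok hR16) Sy _ hgood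
      have havg := (layerWin (r + 1) R).avgJ_mono (f := fun _ => s - δ -
          cavGain (S := S) (β := allBatch R kmax) μ ρ lam R W (fun _ => hp) (gu ub M g))
        (g := fun J => A * cmpErr R Sy.w Sy.rd r P J) fun J hJ => by
          obtain ⟨v, hv, hle⟩ := hGB μ ρ inferInstance inferInstance hμ hρ (BIdx R kmax)
            (allBatch R kmax) S N R hR16 W hW (fun _ => hp) (gu ub M g) J hJ
          have := csInf_le hbd hv
          have := (abs_le.1 hle).1
          show s - δ - _ ≤ A * cmpErr R w (spinAt R) r P J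
          linarith
      rw [Win.avgJ_const (layerWin_ok hR16)] at havg
      have := mul_le_mul_of_nonneg_right (le_abs_self C) hE0
      linarith
    have h1 := hgrid N W hW
    have hcard : (0 : ℝ) < Fintype.card (BIdx R kmax → Fin M) := by exact_mod_cast Fintype.card_pos
    simp only [avg] at h1 ⊢
    rw [le_div_iff₀ hcard]
    rw [div_le_iff₀ hcard] at h1
    have h2 := Finset.sum_le_sum (s := univ) fun g _ => hg g
    rw [Finset.sum_sub_distrib, Finset.sum_const, card_univ, nsmul_eq_mul, ← Finset.mul_sum] at h2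
    have h3 : |C| * (δ / (|C| + 1)) ≤ δ := by
      rw [mul_div_assoc', div_le_iff₀ (by positivity)]
      nlinarith [abs_nonneg C]
    have h4 := mul_le_mul_of_nonneg_left h1 (abs_nonneg C)
    have h5 := mul_le_mul_of_nonneg_right h3 hcard.le
    nlinarith
  have hub' : ∀ (g : BIdx R kmax → Fin M) j, |gu ub M g j| ≤ 1 := fun g j => by
    have := gu_mem hub g j
    rw [abs_le]; constructor <;> linarith [this.1, this.2]
  have hev := eventually_le_pressureM (S := S) (β := allBatch R kmax) hμ hρ hL hlam hR2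
    (fun (_ : BIdx R kmax → Fin M) _ => hp) (fun g => gu ub M g)
    (fun _ _ => by rw [abs_of_pos hp0]; exact hp1) hub'
    (Eventually.of_forall (avg_cavMean_ge hμ hρ hL hlam (show 1 ≤ R by omega) _ _ hmain)) δ hδ
  obtain ⟨v, hv, hlt⟩ := exists_lt_of_csInf_lt hne (show s < s + δ by linarith)
  filter_upwards [hev] with n hn
  exact ⟨v, hv, by linarith⟩

end Vale.Agent.P168.MP
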