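import Vale.Agent.P168.MP.Core
import Vale.Agent.P168.MP.Upper.Setup

/-! The cavity gain of a structure is a trial value up to the comparison error (end of section D'). -/

namespace Vale.Agent.P168.MP

open MeasureTheory Filter Finset Real

variable {K n : ℕ}

/-- at spins the inner factor of `U` is the exponential of the interaction -/
lemma clauseU_spin (c : Clause K) (ℓ : Fin K) (s : Bool) (τ : Fin K → Bool) :
    clauseU c ℓ s (fun j => sg (τ j)) = exp (theta c (Function.update τ ℓ s)) := by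
  rw [clauseU, Finset.sum_eq_single (Function.update τ ℓ s)]
  · rw [if_pos (Function.update_self _ _ _)]
    refine (mul_eq_left₀ (exp_pos _).ne').2 (prod_eq_one fun j hj => ?_)
    rw [Function.update_of_ne (ne_of_mem_erase hj)]
    cases τ j <;> simp [msgWeight, sg]
  · intro σ _ hne
    split_ifs with h
    · refine mul_eq_zero_of_right _ ?_
      obtain ⟨j, hj⟩ := Function.ne_iff.1 hne
      have hjℓ : j ≠ ℓ := fun e => hj (by rw [e, Function.update_self, h])
      refine prod_eq_zero (mem_erase.2 ⟨hjℓ, mem_univ j⟩) ?_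
      rw [Function.update_of_ne hjℓ] at hj
      revert hj
      cases τ j <;> cases σ j <;> simp [msgWeight, sg]
    · rfl
  · simp

/-- at spins the inner factor of `V` is the exponential of the interaction -/
lemma clauseV_spin (c : Clause K) (τ : Fin K → Bool) :
    clauseV c (fun j => sg (τ j)) = exp (theta c τ) := by
  rw [clauseV, Finset.sum_eq_single τ]
  · refine (mul_eq_left₀ (exp_pos _).ne').2 (prod_eq_one fun j _ => ?_)
    cases τ j <;> simp [msgWeight, sg]
  · intro σ _ hne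
    refine mul_eq_zero_of_right _ ?_
    obtain ⟨j, hj⟩ := Function.ne_iff.1 hne
    refine prod_eq_zero (mem_univ j) ?_
    revert hj
    cases τ j <;> cases σ j <;> simp [msgWeight, sg]
  · simp

variable {N : ℕ} [NeZero N]

lemma newFac_eq (f₀ : ℝ) (w : Fin n → Clause K) (q : Fin n → Fin K × (Fin K → Fin N))
    (σ : Fin N → Bool) :
    ∑ s : Bool, newFac f₀ (List.ofFn fun k => (w k, q k)) σ s =
      cavU f₀ w (fun k => (q k).1) fun k j => sg (σ ((q k).2 j)) := by
  rw [cavU_eq]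
  refine sum_congr rfl fun s _ => ?_
  simp only [newFac, List.map_ofFn, List.sum_ofFn, exp_add, exp_sum, Function.comp_apply,
    clauseU_spin]

lemma oldFac_eq (w : Fin n → Clause K) (q : Fin n → Fin K → Fin N) (σ : Fin N → Bool) :
    oldFac (List.ofFn fun k => (w k, q k)) σ = cavV w fun k j => sg (σ (q k j)) := by
  simp only [cavV_eq, oldFac, List.map_ofFn, List.sum_ofFn, exp_sum, Function.comp_apply,
    clauseV_spin]

/-- pairs of slot and position functions -/
lemma av_labels {A B : Type*} [Fintype A] [Fintype B] (F : (Fin n → A) → (Fin n → B) → ℝ) :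
    av (fun q : Fin n → A × B => F (fun k => (q k).1) fun k => (q k).2) =
      av fun a => av fun b => F a b := by
  let E : (Fin n → A × B) ≃ (Fin n → A) × (Fin n → B) :=
    Equiv.arrowProdEquivProdArrow (Fin n) (fun _ => A) (fun _ => B)
  simp only [av, ← Finset.sum_div, div_div]
  rw [← Nat.cast_mul, Nat.mul_comm, ← Fintype.card_prod, ← Fintype.card_congr E,
    ← Fintype.sum_prod_type']
  congr 1
  exact E.sum_comp fun x => F x.1 x.2

lemma av_sub_abs {α : Type*} [Fintype α] [Nonempty α] {f g : α → ℝ} {D : ℝ}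
    (h : ∀ a, |f a - g a| ≤ D) : |av f - av g| ≤ D := abs_av_sub_le h

variable {S : ℕ} {ι : Type} [Fintype ι] [DecidableEq ι] {β : ι → Batch} {R : ℕ}
  {W : (Fin N → Bool) → ℝ} {h u : ι → ℝ}

/-- measurability of `E log nest` in a parameter of the factor -/
lemma measurable_nestC {T : Type*} [MeasurableSpace T] (hW : ∀ σ, 0 < W σ)
    (Y : T → (Fin N → Bool) → ℝ) (hY : ∀ t σ, 0 < Y t σ) (hm : ∀ σ, Measurable fun t => Y t σ) :
    Measurable fun t => nestC (S := S) (β := β) R W h u (Y t) := by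
  have e : ∀ t, nestC (S := S) (β := β) R W h u (Y t) =
      logZ0 R (lin R) (pw (S := S) (β := β) R (fun σ => W σ * Y t σ) h u) -
        logZ0 R (lin R) (pw (S := S) (β := β) R W h u) := fun t => by
    rw [logZ0_pw_mul hW (hY t)]; ring
  simp only [e, logZ0]
  refine (Measurable.log (Upper.measurable_Z (fun p => ?_) R [])).sub_const _
  simp only [pw]
  exact ((hm _).const_mul _).mul_const _

variable [NeZero K] {lam L : ℝ}

omit [NeZero K] in
lemma abs_log_le_of_mem {y C : ℝ} (h : exp (-C) ≤ y ∧ y ≤ exp C) : |log y| ≤ C := by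
  have hy : 0 < y := (exp_pos _).trans_le h.1
  exact abs_le.2 ⟨(le_log_iff_exp_le hy).2 h.1, (log_le_iff_le_exp hy).2 h.2⟩

omit [NeZero K] in
lemma sum_tsumAbs_le (w : Fin n → Clause K) (hw : ∀ k, tsumAbs (w k) ≤ L) :
    ∑ k, tsumAbs (w k) ≤ L * n := by
  refine (sum_le_sum fun k _ => hw k).trans ?_
  simp [mul_comm]

omit [NeZero K] in
lemma cmpErr_nonneg {Ω : Type} [Fintype Ω] {N R r : ℕ} {w : List Ω → ℝ}
    {rd : List Ω → Fin N → Bool} {P : List Tree} {J : Fin (r + 1) → ℕ} :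
    0 ≤ cmpErr R w rd r P J :=
  List.sum_nonneg fun x hx => by
    obtain ⟨t, -, rfl⟩ := List.mem_map.1 hx
    exact sum_nonneg fun _ _ => Real.sqrt_nonneg _

omit [NeZero K] in
lemma cmpErr_le_flatMap {Ω : Type} [Fintype Ω] {N R r : ℕ} {w : List Ω → ℝ}
    {rd : List Ω → Fin N → Bool} {J : Fin (r + 1) → ℕ} (P : ℕ → List Tree) :
    ∀ (l : List ℕ) {a : ℕ}, a ∈ l → cmpErr R w rd r (P a) J ≤ cmpErr R w rd r (l.flatMap P) J
  | [], a, ha => by simp at ha
  | b :: l, a, ha => by
    have hb := cmpErr_nonneg (R := R) (w := w) (rd := rd) (P := P b) (J := J)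
    have hl := cmpErr_nonneg (R := R) (w := w) (rd := rd) (P := l.flatMap P) (J := J)
    have e : cmpErr R w rd r ((b :: l).flatMap P) J =
        cmpErr R w rd r (P b) J + cmpErr R w rd r (l.flatMap P) J := by
      simp [cmpErr, List.flatMap_cons]
    rw [e]
    rcases List.mem_cons.1 ha with rfl | ha
    · linarith
    · linarith [cmpErr_le_flatMap P l ha (R := R) (w := w) (rd := rd) (J := J)]

omit [NeZero K] in
/-- Poisson tails -/
lemma exists_pois_tail {r : ℝ} (hr : 0 ≤ r) (A B : ℝ) {ε : ℝ} (hε : 0 < ε) :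
    ∃ nm : ℕ, ∀ m, nm ≤ m →
      ∑' k : ℕ, (if m < k then pois r k * (A * k + B) else 0) ≤ ε := by
  set f : ℕ → ℝ := fun k => pois r k * (A * k + B)
  have hf : Summable f := (hasSum_pois_affine r A B).summable
  have h := (hf.hasSum.tendsto_sum_nat.comp (tendsto_add_atTop_nat 1)).const_sub (∑' k, f k)
  rw [sub_self] at h
  obtain ⟨nm, hnm⟩ := eventually_atTop.1 (h.eventually_le_const hε)
  refine ⟨nm, fun m hm => le_of_eq_of_le ?_ (hnm m hm)⟩
  have e : (fun k => if m < k then f k else 0) = fun k => f k - if k ∈ range (m + 1) then f k else 0 := by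
    funext k
    by_cases hk : m < k
    · simp [hk, show ¬ k < m + 1 by omega]
    · simp [hk, show k < m + 1 by omega]
  have hfin : HasSum (fun k => if k ∈ range (m + 1) then f k else 0) (∑ k ∈ range (m + 1), f k) := by
    have := hasSum_sum_of_ne_finset_zero (L := SummationFilter.unconditional ℕ) (s := range (m + 1))
      (f := fun k => if k ∈ range (m + 1) then f k else 0) fun k hk => if_neg hk
    rwa [sum_congr rfl fun k hk => if_pos hk] at this
  show ∑' k, (if m < k then f k else 0) = _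
  rw [e, (hf.hasSum.sub hfin).tsum_eq]
  rfl

omit [NeZero K] in
/-- two Poisson sums agreeing up to `e` below `nm` -/
lemma abs_tsum_pois_sub_le {r e A B : ℝ} (hr : 0 ≤ r) (he : 0 ≤ e) {nm : ℕ} {F G : ℕ → ℝ}
    (hF : ∀ k, |F k| ≤ A * k + B) (hG : ∀ k, |G k| ≤ A * k + B)
    (hd : ∀ k, k ≤ nm → |F k - G k| ≤ e) :
    |∑' k, pois r k * F k - ∑' k, pois r k * G k| ≤
      e + 2 * ∑' k : ℕ, (if nm < k then pois r k * (A * k + B) else 0) := by
  have sF := summable_pois_mul hr hF
  have sG := summable_pois_mul hr hG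
  have sH : Summable fun k => if nm < k then pois r k * (A * k + B) else 0 :=
    Summable.of_norm_bounded (g := fun k => |pois r k * (A * k + B)|)
      (hasSum_pois_affine r A B).summable.abs fun k => by
      rw [Real.norm_eq_abs]; split_ifs <;> simp <;> positivity
  rw [← sF.tsum_sub sG, ← Real.norm_eq_abs]
  refine tsum_of_norm_bounded (g := fun k => pois r k * e + 2 *
    (if nm < k then pois r k * (A * k + B) else 0)) ?_ fun k => ?_
  · have := ((hasSum_pois r).mul_right e).add (sH.hasSum.mul_left 2)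
    rwa [one_mul] at this
  · have hp := pois_nonneg hr k
    rw [Real.norm_eq_abs, ← mul_sub, abs_mul, abs_of_nonneg hp]
    split_ifs with hk
    · have := mul_le_mul_of_nonneg_left ((abs_sub _ _).trans (add_le_add (hF k) (hG k))) hp
      nlinarith [mul_nonneg hp he]
    · rw [mul_zero, add_zero]
      exact mul_le_mul_of_nonneg_left (hd k (by omega)) hp

/-- comparison of averaged nests with trial levels, for tables of at most `nm` clauses -/
def TableCmp (K S : ℕ) {N : ℕ} [NeZero N] {ι : Type} [Fintype ι] [DecidableEq ι] (β : ι → Batch) (R : ℕ)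
    (W : (Fin N → Bool) → ℝ) (h u : ι → ℝ) (r : ℕ) (x : (Fin (r + 1) → ℝ) → ℝ) (nm : ℕ)
    (C e : ℝ) : Prop :=
  ∀ k, k ≤ nm → ∀ Y : (Fin k → Fin K → ℝ) → ℝ, Measurable Y →
    (∀ xs, (∀ a b, |xs a b| ≤ 1) → exp (-C) ≤ Y xs ∧ Y xs ≤ exp C) →
    (∀ xs, Y xs = ∑ τ : Fin k → Fin K → Bool,
      (∏ a, ∏ b, msgWeight (xs a b) (τ a b)) * Y fun a b => sg (τ a b)) →
    |av (fun i : Fin k → Fin K → Fin N =>
        nestC (S := S) (β := β) R W h u fun σ => Y fun a b => sg (σ (i a b))) -
      levels r (trialExp r) x Y| ≤ e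

omit [NeZero K] in
lemma trialExp_pos {r : ℕ} (l : Fin r) : 0 < trialExp r l := (coarseExp_trial_mem.2 l).1

/-- the part of `U` -/
lemma gain_U {μ : Measure (Clause K)} {ρ : Measure ℝ} [IsProbabilityMeasure μ]
    [IsProbabilityMeasure ρ] (hlam : 0 ≤ lam) (hL : 0 ≤ L) (hμ : ∀ᵐ c ∂μ, tsumAbs c ≤ L)
    (hρ : ∀ᵐ y ∂ρ, |y| ≤ L) (hR1 : 1 ≤ R) (hW : ∀ σ, 0 < W σ) {r nm : ℕ}
    {x : (Fin (r + 1) → ℝ) → ℝ} (hx : Measurable x) (hx1 : ∀ v, |x v| ≤ 1) {e δ : ℝ} (he0 : 0 ≤ e)
    (hT : TableCmp K S β R W h u r x nm (L * nm + (L + log 2)) e)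
    (hn₁ : ∑' k : ℕ, (if nm < k then pois (K * lam) k * (L * k + (L + log 2)) else 0) ≤ δ) :
    |cex μ (K * lam) (fun l : List (Clause K × (Fin K × (Fin K → Fin N))) =>
      ∫ f₀, nestC (S := S) (β := β) R W h u (fun σ => ∑ s : Bool, newFac f₀ l σ s) ∂ρ) -
      TU μ ρ lam r (trialExp r) x| ≤ e + 2 * δ := by
  have hrU : 0 ≤ (K : ℝ) * lam := by positivity
  set B := L + log 2 with hB
  set C := L * nm + B with hC
  have hm0 : ∀ l : Fin r, 0 < trialExp r l := trialExp_pos
  have hθ : ∀ σ : Fin K → Bool, Integrable (fun c : Clause K => theta c σ) μ := fun σ =>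
    Integrable.of_bound (measurable_theta σ).aestronglyMeasurable L
      (hμ.mono fun c hc => by rw [Real.norm_eq_abs]; exact (abs_theta_le_tsumAbs c σ).trans hc)
  have hh : Integrable (fun y : ℝ => y) ρ := Integrable.of_bound measurable_id.aestronglyMeasurable L
    (hρ.mono fun y hy => by rw [Real.norm_eq_abs]; exact hy)
  have hae : ∀ k, ∀ᵐ v : ℝ × (Fin k → Clause K) ∂ρ.prod (Measure.pi fun _ => μ),
      |v.1| ≤ L ∧ ∀ a, tsumAbs (v.2 a) ≤ L := fun k => by
    refine ((Measure.quasiMeasurePreserving_fst (μ := ρ)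
      (ν := Measure.pi fun _ : Fin k => μ)).ae hρ).and ?_
    refine (Measure.quasiMeasurePreserving_snd (μ := ρ)
      (ν := Measure.pi fun _ : Fin k => μ)).ae (p := fun v => ∀ a, tsumAbs (v a) ≤ L) ?_
    exact ae_all_iff.2 fun a => (Measure.quasiMeasurePreserving_eval
      (fun _ : Fin k => μ) a).ae hμ
  have hsg : ∀ {k : ℕ} (σ : Fin N → Bool) (i : Fin k → Fin K → Fin N) a b,
      |sg (σ (i a b))| ≤ 1 := fun σ i a b => (abs_sg _).le
  set g : ∀ k, ℝ × (Fin k → Clause K) → (Fin k → Fin K) → ℝ := fun k v l =>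
    av fun i : Fin k → Fin K → Fin N =>
      nestC (S := S) (β := β) R W h u fun σ => cavU v.1 v.2 l fun a b => sg (σ (i a b))
  set G₁ : ∀ k, ℝ × (Fin k → Clause K) → ℝ := fun k v => av (g k v)
  set G₂ : ∀ k, ℝ × (Fin k → Clause K) → ℝ := fun k v =>
    av fun l => levels r (trialExp r) x (cavU v.1 v.2 l)
  have hG₁b : ∀ k v, (|v.1| ≤ L ∧ ∀ a, tsumAbs (v.2 a) ≤ L) → |G₁ k v| ≤ L * k + B :=
    fun k v hv => abs_av_le fun l => abs_av_le fun i => abs_nestC_le hR1 hW
      (fun σ => (exp_pos _).trans_le (cavU_mem_abs v.1 v.2 l (hsg σ i)).1)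
      fun σ => (abs_log_le_of_mem (cavU_mem_abs v.1 v.2 l (hsg σ i))).trans
        (by linarith [hv.1, sum_tsumAbs_le v.2 hv.2])
  have hG₂b : ∀ k v, (|v.1| ≤ L ∧ ∀ a, tsumAbs (v.2 a) ≤ L) → |G₂ k v| ≤ L * k + B :=
    fun k v hv => abs_av_le fun l => (abs_levels_cavU_le hm0 hx hx1 v.1 v.2 l).trans
      (by linarith [hv.1, sum_tsumAbs_le v.2 hv.2])
  have hmeas : ∀ k (q : Fin k → Fin K × (Fin K → Fin N)), Measurable fun v : ℝ × (Fin k → Clause K) =>
      nestC (S := S) (β := β) R W h u fun σ =>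
        cavU v.1 v.2 (fun a => (q a).1) fun a b => sg (σ ((q a).2 b)) := fun k q => by
    refine measurable_nestC hW _ (fun v σ => (exp_pos _).trans_le
      (cavU_mem_abs v.1 v.2 _ (hsg σ fun a => (q a).2)).1) fun σ => ?_
    simp only [cavU_eq, clauseU]
    refine Finset.measurable_sum _ fun s _ => (measurable_fst.mul_const _).exp.mul
      (Finset.measurable_prod _ fun a _ => Finset.measurable_sum _ fun τ _ => ?_)
    split_ifs
    · exact (((measurable_theta τ).comp ((measurable_pi_apply a).comp measurable_snd)).exp).mul_const _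
    · exact measurable_const
  have hint : ∀ k (q : Fin k → Fin K × (Fin K → Fin N)), Integrable
      (fun v : ℝ × (Fin k → Clause K) => nestC (S := S) (β := β) R W h u fun σ =>
        cavU v.1 v.2 (fun a => (q a).1) fun a b => sg (σ ((q a).2 b)))
      (ρ.prod (Measure.pi fun _ => μ)) := fun k q => by
    refine Integrable.of_bound (hmeas k q).aestronglyMeasurable (L * k + B) ((hae k).mono fun v hv => ?_)
    rw [Real.norm_eq_abs]
    exact abs_nestC_le hR1 hW
      (fun σ => (exp_pos _).trans_le (cavU_mem_abs v.1 v.2 _ (hsg σ fun a => (q a).2)).1)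
      fun σ => (abs_log_le_of_mem (cavU_mem_abs v.1 v.2 _ (hsg σ fun a => (q a).2))).trans
        (by linarith [hv.1, sum_tsumAbs_le v.2 hv.2])
  have hG₁i : ∀ k, Integrable (G₁ k) (ρ.prod (Measure.pi fun _ => μ)) := fun k => by
    have e : G₁ k = fun v => av fun q : Fin k → Fin K × (Fin K → Fin N) =>
        nestC (S := S) (β := β) R W h u fun σ =>
          cavU v.1 v.2 (fun a => (q a).1) fun a b => sg (σ ((q a).2 b)) := funext fun v =>
      (av_labels fun (l : Fin k → Fin K) (i : Fin k → Fin K → Fin N) => nestC (S := S) (β := β) R W h u fun σ =>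
        cavU v.1 v.2 l fun a b => sg (σ (i a b))).symm
    rw [e]
    simp only [av]
    exact (integrable_finset_sum _ fun q _ => hint k q).div_const _
  have hG₂i : ∀ k, Integrable (G₂ k) (ρ.prod (Measure.pi fun _ => μ)) := fun k =>
    integrable_avU hθ hh hm0 hx hx1
  have e₁ : cex μ (K * lam) (fun l : List (Clause K × (Fin K × (Fin K → Fin N))) =>
      ∫ f₀, nestC (S := S) (β := β) R W h u (fun σ => ∑ s : Bool, newFac f₀ l σ s) ∂ρ) =
      ∑' k, pois (K * lam) k * ∫ v, G₁ k v ∂ρ.prod (Measure.pi fun _ => μ) := by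
    refine tsum_congr fun k => ?_
    congr 1
    rw [integral_prod_symm _ (hG₁i k)]
    refine integral_congr_ae ?_
    filter_upwards [ae_all_iff.2 fun q => (hint k q).prod_left_ae] with v hv
    have e : ∀ f₀ : ℝ, G₁ k (f₀, v) = av fun q : Fin k → Fin K × (Fin K → Fin N) =>
        nestC (S := S) (β := β) R W h u fun σ =>
          cavU f₀ v (fun a => (q a).1) fun a b => sg (σ ((q a).2 b)) := fun f₀ =>
      (av_labels fun (l : Fin k → Fin K) (i : Fin k → Fin K → Fin N) => nestC (S := S) (β := β) R W h u fun σ =>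
        cavU f₀ v l fun a b => sg (σ (i a b))).symm
    simp only [e, newFac_eq, av]
    rw [integral_div, integral_finset_sum _ fun q _ => hv q]
  have e₂ : TU μ ρ lam r (trialExp r) x =
      ∑' k, pois (K * lam) k * ∫ v, G₂ k v ∂ρ.prod (Measure.pi fun _ => μ) := by
    refine tsum_congr fun k => ?_
    congr 1
    rw [integral_prod _ (hG₂i k)]
  have hnorm : ∀ k (G : ℝ × (Fin k → Clause K) → ℝ) (D : ℝ),
      (∀ v, (|v.1| ≤ L ∧ ∀ a, tsumAbs (v.2 a) ≤ L) → |G v| ≤ D) →
      |∫ v, G v ∂ρ.prod (Measure.pi fun _ => μ)| ≤ D := fun k G D hD => by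
    have := norm_integral_le_of_norm_le_const (C := D) (f := G)
      ((hae k).mono fun v hv => by rw [Real.norm_eq_abs]; exact hD v hv)
    simpa using this
  rw [e₁, e₂]
  refine (abs_tsum_pois_sub_le hrU he0 (nm := nm) (fun k => hnorm k _ _ (hG₁b k))
    (fun k => hnorm k _ _ (hG₂b k)) fun k hk => ?_).trans
    (add_le_add le_rfl (mul_le_mul_of_nonneg_left hn₁ zero_le_two))
  rw [← integral_sub (hG₁i k) (hG₂i k)]
  refine hnorm k _ e fun v hv => abs_av_sub_le fun l => ?_
  refine hT k hk (cavU v.1 v.2 l) (measurable_cavU_slice _ _ _) (fun xs hxs => ?_) (cavU_multi _ _ _)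
  have hb : |v.1| + log 2 + ∑ a, tsumAbs (v.2 a) ≤ C := by
    have := sum_tsumAbs_le v.2 hv.2
    have hk' : L * k ≤ L * nm := mul_le_mul_of_nonneg_left (by exact_mod_cast hk) hL
    linarith [hv.1]
  obtain ⟨a, b⟩ := cavU_mem_abs v.1 v.2 l hxs
  exact ⟨(exp_le_exp.2 (by linarith)).trans a, b.trans (exp_le_exp.2 hb)⟩

/-- the part of `V` -/
lemma gain_V {μ : Measure (Clause K)} [IsProbabilityMeasure μ] (hlam : 0 ≤ lam) (hL : 0 ≤ L)
    (hμ : ∀ᵐ c ∂μ, tsumAbs c ≤ L) (hR1 : 1 ≤ R) (hW : ∀ σ, 0 < W σ) {r nm : ℕ}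
    {x : (Fin (r + 1) → ℝ) → ℝ} (hx : Measurable x) (hx1 : ∀ v, |x v| ≤ 1) {e δ : ℝ} (he0 : 0 ≤ e)
    (hT : TableCmp K S β R W h u r x nm (L * nm + (L + log 2)) e)
    (hn₂ : ∑' k : ℕ, (if nm < k then pois (((K : ℝ) - 1) * lam) k * (L * k + (L + log 2)) else 0) ≤ δ) :
    |cex μ (((K : ℝ) - 1) * lam) (fun l : List (Clause K × (Fin K → Fin N)) =>
      nestC (S := S) (β := β) R W h u (oldFac l)) - TV μ lam r (trialExp r) x| ≤ e + 2 * δ := by
  have hK : (1 : ℝ) ≤ K := by exact_mod_cast NeZero.one_le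
  have hrV : 0 ≤ ((K : ℝ) - 1) * lam := mul_nonneg (by linarith) hlam
  have hlog : 0 ≤ log 2 := log_nonneg one_le_two
  set B := L + log 2 with hB
  set C := L * nm + B with hC
  have hB0 : 0 ≤ B := add_nonneg hL hlog
  have hm0 : ∀ l : Fin r, 0 < trialExp r l := trialExp_pos
  have hθ : ∀ σ : Fin K → Bool, Integrable (fun c : Clause K => theta c σ) μ := fun σ =>
    Integrable.of_bound (measurable_theta σ).aestronglyMeasurable L
      (hμ.mono fun c hc => by rw [Real.norm_eq_abs]; exact (abs_theta_le_tsumAbs c σ).trans hc)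
  have hae' : ∀ k, ∀ᵐ v : Fin k → Clause K ∂Measure.pi (fun _ => μ), ∀ a, tsumAbs (v a) ≤ L :=
    fun k => ae_all_iff.2 fun a => (Measure.quasiMeasurePreserving_eval (fun _ : Fin k => μ) a).ae hμ
  have hsg : ∀ {k : ℕ} (σ : Fin N → Bool) (i : Fin k → Fin K → Fin N) a b,
      |sg (σ (i a b))| ≤ 1 := fun σ i a b => (abs_sg _).le
  set G₁ : ∀ k, (Fin k → Clause K) → ℝ := fun k v => av fun i : Fin k → Fin K → Fin N =>
    nestC (S := S) (β := β) R W h u fun σ => cavV v fun a b => sg (σ (i a b))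
  set G₂ : ∀ k, (Fin k → Clause K) → ℝ := fun k v => levels r (trialExp r) x (cavV v)
  have hG₁b : ∀ k v, (∀ a, tsumAbs (v a) ≤ L) → |G₁ k v| ≤ L * k + B := fun k v hv =>
    abs_av_le fun i => abs_nestC_le hR1 hW
      (fun σ => (exp_pos _).trans_le (cavV_mem_abs v (hsg σ i)).1)
      fun σ => (abs_log_le_of_mem (cavV_mem_abs v (hsg σ i))).trans
        (by linarith [sum_tsumAbs_le v hv])
  have hG₂b : ∀ k v, (∀ a, tsumAbs (v a) ≤ L) → |G₂ k v| ≤ L * k + B := fun k v hv =>
    (abs_levels_cavV_le hm0 hx hx1 v).trans (by linarith [sum_tsumAbs_le v hv])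
  have hG₁i : ∀ k, Integrable (G₁ k) (Measure.pi fun _ => μ) := fun k => by
    refine Integrable.of_bound ?_ (L * k + B) ((hae' k).mono fun v hv => by
      rw [Real.norm_eq_abs]; exact hG₁b k v hv)
    refine (Measurable.div_const (Finset.measurable_sum _ fun i _ => ?_) _).aestronglyMeasurable
    refine measurable_nestC hW _ (fun v σ => (exp_pos _).trans_le (cavV_mem_abs v (hsg σ i)).1)
      fun σ => ?_
    simp only [cavV_eq, clauseV]
    exact Finset.measurable_prod _ fun a _ => Finset.measurable_sum _ fun τ _ =>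
      ((measurable_theta τ).comp (measurable_pi_apply a)).exp.mul_const _
  have hG₂i : ∀ k, Integrable (G₂ k) (Measure.pi fun _ => μ) := fun k =>
    integrable_levelsV hθ hm0 hx hx1
  have e₁ : cex μ (((K : ℝ) - 1) * lam) (fun l : List (Clause K × (Fin K → Fin N)) =>
      nestC (S := S) (β := β) R W h u (oldFac l)) =
      ∑' k, pois (((K : ℝ) - 1) * lam) k * ∫ v, G₁ k v ∂Measure.pi (fun _ => μ) := by
    refine tsum_congr fun k => ?_
    congr 1
    refine integral_congr_ae (Eventually.of_forall fun v => ?_)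
    simp only [G₁]
    refine congrArg av (funext fun i => congrArg _ (funext fun σ => oldFac_eq v i σ))
  have hnorm : ∀ k (G : (Fin k → Clause K) → ℝ) (D : ℝ),
      (∀ v, (∀ a, tsumAbs (v a) ≤ L) → |G v| ≤ D) →
      |∫ v, G v ∂Measure.pi (fun _ => μ)| ≤ D := fun k G D hD => by
    have := norm_integral_le_of_norm_le_const (C := D) (f := G)
      ((hae' k).mono fun v hv => by rw [Real.norm_eq_abs]; exact hD v hv)
    simpa using this
  rw [e₁, TV]
  refine (abs_tsum_pois_sub_le hrV he0 (nm := nm) (fun k => hnorm k _ _ (hG₁b k))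
    (fun k => hnorm k _ _ (hG₂b k)) fun k hk => ?_).trans
    (add_le_add le_rfl (mul_le_mul_of_nonneg_left hn₂ zero_le_two))
  rw [← integral_sub (hG₁i k) (hG₂i k)]
  refine hnorm k _ e fun v hv => ?_
  refine hT k hk (cavV v) (measurable_cavV_slice v) (fun xs hxs => ?_) (cavV_multi v)
  have hb : ∑ a, tsumAbs (v a) ≤ C := by
    have := sum_tsumAbs_le v hv
    have hk' : L * k ≤ L * nm := mul_le_mul_of_nonneg_left (by exact_mod_cast hk) hL
    linarith
  obtain ⟨a, b⟩ := cavV_mem_abs v hxs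
  exact ⟨(exp_le_exp.2 (by linarith)).trans a, b.trans (exp_le_exp.2 hb)⟩

/-- **Gain bound.** -/
theorem gain_bound (hlam : 0 ≤ lam) (hL : 0 ≤ L) : GainBound K lam L := by
  intro ε hε
  have hK : (1 : ℝ) ≤ K := by exact_mod_cast NeZero.one_le
  have hrU : 0 ≤ (K : ℝ) * lam := by positivity
  have hrV : 0 ≤ ((K : ℝ) - 1) * lam := mul_nonneg (by linarith) hlam
  set δ := ε / 16 with hδ'
  have hδ : 0 < δ := by positivity
  set B := L + log 2 with hB
  have hB0 : 0 ≤ B := add_nonneg hL (log_nonneg one_le_two)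
  obtain ⟨n₁, hn₁⟩ := exists_pois_tail hrU L B hδ
  obtain ⟨n₂, hn₂⟩ := exists_pois_tail hrV L B hδ
  set nm := max n₁ n₂ with hnm
  set C := L * nm + B with hC
  obtain ⟨r, hr⟩ := exists_nat_ge (expoA C * 2 / δ)
  have hcoarse : expoA C * (2 / (r + 1 : ℕ)) ≤ δ := by
    rw [div_le_iff₀ hδ] at hr
    rw [← mul_div_assoc, div_le_iff₀ (by positivity)]
    push_cast
    nlinarith
  choose P A hA hcmp using fun k => exists_coarse_bound C k K r hδ
  refine ⟨r, (List.range (nm + 1)).flatMap P, 2 * ∑ k ∈ range (nm + 1), A k,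
    mul_nonneg zero_le_two (sum_nonneg fun k _ => hA k), ?_⟩
  intro μ ρ _ _ hμ hρ ι _ _ β S N _ R hR W hW h u J hJ
  set w := pw (S := S) (β := β) R W h u with hw
  have hR1 : 1 ≤ R := by omega
  have hwpos : ∀ p, 0 < w p := (ok_pw_lin hR1 hW).wpos
  obtain ⟨x, hx, hx1, hlev⟩ := exists_layer_trial hwpos (spinAt R) hR hJ
  have hm0 : ∀ l, 0 < trialExp r l := fun l => (coarseExp_trial_mem.2 l).1
  refine ⟨_, ⟨r, trialExp r, x, coarseExp_trial_mem.1, coarseExp_trial_mem.2, hx, hx1, rfl⟩, ?_⟩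
  set cm := cmpErr R w (spinAt R) r ((List.range (nm + 1)).flatMap P) J
  have hcm0 : 0 ≤ cm := cmpErr_nonneg
  set e := 2 * δ + (∑ k ∈ range (nm + 1), A k) * cm with he
  have he0 : 0 ≤ e := add_nonneg (by positivity) (mul_nonneg (sum_nonneg fun k _ => hA k) hcm0)
  -- one number of clauses, one table
  have key : TableCmp K S β R W h u r x nm C e := by
    intro k hk Y hY hYb hmul
    refine (hcmp k hwpos hR hJ hlev Y hY hYb hmul).trans ?_
    have h1 : cmpErr R w (spinAt R) r (P k) J ≤ cm :=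
      cmpErr_le_flatMap P _ (List.mem_range.2 (Nat.lt_succ_of_le hk))
    have h2 : A k ≤ ∑ k ∈ range (nm + 1), A k :=
      single_le_sum (fun k _ => hA k) (mem_range.2 (Nat.lt_succ_of_le hk))
    have h3 : A k * cmpErr R w (spinAt R) r (P k) J ≤ (∑ k ∈ range (nm + 1), A k) * cm :=
      mul_le_mul h2 h1 cmpErr_nonneg (sum_nonneg fun k _ => hA k)
    unfold cmpErr at h3
    linarith
  have hU := gain_U (S := S) (h := h) (u := u) hlam hL hμ hρ hR1 hW hx hx1 he0 key
    (hn₁ nm (le_max_left _ _))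
  have hV := gain_V (S := S) (h := h) (u := u) hlam hL hμ hR1 hW hx hx1 he0 key
    (hn₂ nm (le_max_right _ _))
  have h1 := abs_le.1 hU
  have h2 := abs_le.1 hV
  rw [cavGain]
  rw [abs_le]
  constructor <;> linarith

end Vale.Agent.P168.MP
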