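import Vale.Agent.P168.MP.Deriv

/-! Invariance of replica expectations under relabelling the marks, globally or on one node. -/

namespace Vale.Agent.P168.MP

open Finset

variable {Ω : Type*} [Fintype Ω] {R : ℕ} {m : ℕ → ℝ} {w : List Ω → ℝ}

section
variable {e : Ω ≃ Ω} (hw : ∀ p, w (p.map e) = w p)
include hw

lemma Z_map : ∀ k pre, Z m w k (pre.map e) = Z m w k pre
  | 0, pre => by simpa [Z] using hw pre
  | k + 1, pre => by
    simp only [Z, List.length_map, avg]
    congr 2
    rw [← Equiv.sum_comp e]
    refine sum_congr rfl fun o _ => ?_
    rw [← Z_map k (pre ++ [o]), List.map_append]; rfl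

lemma ext_map : ∀ k pre (F : List Ω → ℝ),
    ext m w k (pre.map e) F = ext m w k pre fun q => F (q.map e)
  | 0, pre, F => by simp
  | k + 1, pre, F => by
    simp only [ext_succ, trans, List.length_map]
    have hz : ∀ o, Z m w k (pre.map e ++ [e o]) = Z m w k (pre ++ [o]) := fun o => by
      rw [← Z_map hw k (pre ++ [o]), List.map_append]; rfl
    rw [← Equiv.sum_comp e]
    conv_lhs => arg 2; ext o; rw [← Equiv.sum_comp e fun o' => Z m w k (pre.map e ++ [o']) ^ _]
    refine sum_congr rfl fun o _ => ?_
    simp only [hz]
    rw [show pre.map e ++ [e o] = (pre ++ [o]).map e by simp, ext_map k]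

/-- relabelling all marks -/
lemma ET_map (T : List (ℕ × ℕ)) (F : List (List Ω) → ℝ) :
    ET R m w T F = ET R m w T fun ps => F (ps.map (List.map e)) := by
  induction T generalizing F with
  | nil => simp
  | cons a T ih =>
    obtain ⟨p, v⟩ := a
    rw [ET_cons, ET_cons, ih]
    congr 1; funext ps
    have h1 : ((ps.map (List.map e)).getD p []).take v = ((ps.getD p []).take v).map e := by
      rw [show ([] : List Ω) = List.map e [] from rfl, List.getD_map, List.map_take]; rfl
    rw [h1, ext_map hw]
    simp only [List.map_append, List.map_cons, List.map_nil]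

end

omit [Fintype Ω] in
lemma modify_append_left {e : Ω → Ω} {l : ℕ} {pre suf : List Ω} (hl : l < pre.length) :
    (pre ++ suf).modify l e = pre.modify l e ++ suf := by
  induction pre generalizing l with
  | nil => simp at hl
  | cons a pre ih =>
    cases l with
    | zero => simp
    | succ l => simp at hl; simp [ih hl]

omit [Fintype Ω] in
lemma modify_append_self {e : Ω → Ω} {pre : List Ω} {o : Ω} :
    (pre ++ [o]).modify pre.length e = pre ++ [e o] := by
  induction pre with
  | nil => simp
  | cons a pre ih => simp [ih]

section
variable {e : Ω ≃ Ω} {l : ℕ} (hw : ∀ p, w (p.modify l e) = w p)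
include hw

lemma Z_modify : ∀ k pre, l < pre.length → Z m w k (pre.modify l e) = Z m w k pre
  | 0, pre, _ => by simpa [Z] using hw pre
  | k + 1, pre, hl => by
    simp only [Z, List.length_modify]
    congr 2; funext o
    rw [← modify_append_left hl, Z_modify k _ (by simp; omega)]

lemma ext_modify_pre : ∀ k pre (F : List Ω → ℝ), l < pre.length →
    ext m w k (pre.modify l e) F = ext m w k pre fun q => F (q.modify l e)
  | 0, pre, F, _ => by simp
  | k + 1, pre, F, hl => by
    simp only [ext_succ, trans, List.length_modify, ← modify_append_left hl]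
    refine sum_congr rfl fun o _ => ?_
    have hz : ∀ o', Z m w k ((pre ++ [o']).modify l e) = Z m w k (pre ++ [o']) := fun o' =>
      Z_modify hw k _ (by simp; omega)
    simp only [hz, ext_modify_pre k (pre ++ [o]) F (by simp; omega)]

lemma ext_modify : ∀ k pre (F : List Ω → ℝ), pre.length ≤ l → l < pre.length + k →
    ext m w k pre F = ext m w k pre fun q => F (q.modify l e)
  | 0, pre, F, h1, h2 => by omega
  | k + 1, pre, F, h1, h2 => by
    simp only [ext_succ]
    rcases h1.eq_or_lt with rfl | h1
    · rw [← Equiv.sum_comp e]
      refine sum_congr rfl fun o _ => ?_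
      rw [← modify_append_self, ext_modify_pre hw k (pre ++ [o]) F (by simp)]
      congr 1
      simp only [trans, ← modify_append_self, Z_modify hw k (pre ++ [o]) (by simp)]
    · refine sum_congr rfl fun o _ => ?_
      rw [ext_modify k (pre ++ [o]) F (by simp; omega) (by simp; omega)]

end

omit [Fintype Ω] in
lemma take_modify_comm (f : Ω → Ω) (l v : ℕ) (q : List Ω) :
    (q.modify l f).take v = (q.take v).modify l f := by
  refine List.ext_getElem? fun i => ?_
  simp only [List.getElem?_take, List.getElem?_modify]
  split <;> simp

/-- apply `f` to the mark with index `l` of the replicas in the node of replica `r` -/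
def nodeMap (R : ℕ) (T : List (ℕ × ℕ)) (r l : ℕ) (f : Ω → Ω) (ps : List (List Ω)) :
    List (List Ω) :=
  ps.mapIdx fun a q => if l < sp R T a r then q.modify l f else q

/-- relabelling the marks of one node -/
lemma ET_nodeMap {e : Ω ≃ Ω} {l : ℕ} (hw : ∀ p, w (p.modify l e) = w p) (hl : l < R)
    {T : List (ℕ × ℕ)} (hT : Valid R T) {r : ℕ} (hr : r < T.length) (F : List (List Ω) → ℝ) :
    ET R m w T F = ET R m w T fun ps => F (nodeMap R T r l e ps) := by
  induction T generalizing r F with
  | nil => simp at hr
  | cons x T ih =>
    obtain ⟨p, v⟩ := x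
    obtain ⟨hT', hv, hp⟩ := valid_split hT
    have hsp : ∀ a b, a < T.length → b < T.length → sp R ((p, v) :: T) a b = sp R T a b :=
      fun a b ha hb => by
        by_cases hab : a = b
        · rw [hab, sp_self, sp_self]
        · simp [sp, hab, ha.ne, hb.ne]
    have hsn : ∀ b, b < T.length → sp R ((p, v) :: T) T.length b = min v (sp R T p b) :=
      fun b hb => by simp [sp, hb.ne']
    have hns : ∀ a, a < T.length → sp R ((p, v) :: T) a T.length = min v (sp R T a p) :=
      fun a ha => by simp [sp, ha.ne]
    have hold : ∀ (q : List Ω) (ps : List (List Ω)), ps.length = T.length →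
        nodeMap R ((p, v) :: T) r l e (ps ++ [q]) =
          (ps.mapIdx fun a z => if l < sp R ((p, v) :: T) a r then z.modify l e else z) ++
            [if l < sp R ((p, v) :: T) T.length r then q.modify l e else q] := fun q ps hps => by
      simp [nodeMap, List.mapIdx_append, hps]
    rw [ET_cons, ET_cons]
    -- the node of an old replica `r'`
    have main : ∀ r', r' < T.length →
        (∀ a, a < T.length → (l < sp R ((p, v) :: T) a r ↔ l < sp R T a r')) →
        (l < sp R ((p, v) :: T) T.length r ↔ l < v ∧ l < sp R T p r') →
        ET R m w T (fun ps => ext m w (R - v) ((ps.getD p []).take v) fun q => F (ps ++ [q])) =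
        ET R m w T fun ps => ext m w (R - v) ((ps.getD p []).take v) fun q =>
          F (nodeMap R ((p, v) :: T) r l e (ps ++ [q])) := by
      intro r' hr' h1 h2
      rw [ih hT' hr']
      refine ET_congr hT' fun ps hs => ?_
      have hpT : p < T.length := by
        rcases hp with ⟨rfl, -, -⟩ | hp
        · simp at hr'
        · exact hp
      have e1 : ∀ q, nodeMap R ((p, v) :: T) r l e (ps ++ [q]) = nodeMap R T r' l e ps ++
          [if l < v ∧ l < sp R T p r' then q.modify l e else q] := fun q => by
        rw [hold q ps hs.1, nodeMap]
        congr 1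
        · refine List.ext_getElem (by simp) fun a h3 h4 => ?_
          simp only [List.length_mapIdx] at h3
          simp [h1 a (hs.1 ▸ h3)]
        · simp [h2]
      have hg : (nodeMap R T r' l e ps).getD p [] =
          if l < sp R T p r' then (ps.getD p []).modify l e else ps.getD p [] := by
        have hps : p < ps.length := hs.1 ▸ hpT
        rw [List.getD_eq_getElem _ _ (by simp [nodeMap, hps]), List.getD_eq_getElem _ _ hps]
        simp [nodeMap]
      simp only [e1, hg]
      by_cases hc : l < v ∧ l < sp R T p r'
      · simp only [hc, and_self, if_true]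
        have hlen : l < ((ps.getD p []).take v).length := by
          rw [List.length_take, hs.2.1 p hpT]; omega
        rw [take_modify_comm]
        exact ext_modify_pre hw _ _ (fun q => F (nodeMap R T r' l e ps ++ [q])) hlen
      · simp only [hc, if_false]
        congr 1
        split_ifs with h
        · rw [take_modify_comm, List.modify_eq_self]
          simp only [List.length_take]
          have : ¬ l < v := fun h' => hc ⟨h', h⟩
          omega
        · rfl
    rcases Nat.lt_succ_iff_lt_or_eq.1 (by simpa using hr) with hr' | rfl
    · exact main r hr' (fun a ha => by rw [hsp a r ha hr']) (by rw [hsn r hr']; omega)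
    · by_cases hlv : l < v
      · have hpT : p < T.length := by
          rcases hp with ⟨-, -, rfl⟩ | hp
          · omega
          · exact hp
        refine main p hpT (fun a ha => by rw [hns a ha]; omega) ?_
        rw [sp_self, sp_self]; omega
      · refine ET_congr hT' fun ps hs => ?_
        have hlen : ((ps.getD p []).take v).length ≤ l := by simp; omega
        have hlen2 : l < ((ps.getD p []).take v).length + (R - v) := by
          rcases hp with ⟨-, -, rfl⟩ | hp
          · simp; omega
          · rw [List.length_take, hs.2.1 p hp]; omega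
        rw [ext_modify hw _ _ _ hlen hlen2]
        refine ext_congr fun suf _ => ?_
        rw [hold _ ps hs.1, sp_self, if_pos hl]
        congr 1
        congr 1
        refine (List.ext_getElem (by simp) fun a h3 h4 => ?_).symm
        simp only [List.length_mapIdx] at h3
        simp only [List.getElem_mapIdx]
        rw [if_neg]
        rw [hns a (hs.1 ▸ h3)]; omega

/-- the marginal of the first replica -/
lemma ET_first [Nonempty Ω] (hw : ∀ p, 0 < w p) {T : List (ℕ × ℕ)} (hT : Valid R T)
    (hne : T ≠ []) (G : List Ω → ℝ) :
    ET R m w T (fun ps => G (ps.getD 0 [])) = ET R m w [(0, 0)] fun ps => G (ps.getD 0 []) := by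
  induction T with
  | nil => exact absurd rfl hne
  | cons x T ih =>
    obtain ⟨p, v⟩ := x
    obtain ⟨hT', -, hp⟩ := valid_split hT
    rcases eq_or_ne T [] with rfl | hne'
    · obtain ⟨rfl, rfl⟩ : p = 0 ∧ v = 0 := by simpa [Valid] using hT
      rfl
    · rw [ET_cons, ← ih hT' hne']
      refine ET_congr hT' fun ps hs => ?_
      have : 0 < ps.length := by rw [hs.1]; exact List.length_pos_iff.2 hne'
      simp only [List.getD_append _ _ _ _ this, ext_const hw]

end Vale.Agent.P168.MP
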