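import Vale.Agent.P168.MP.Node

/-! Values of the twin overlaps of a tree (section C (I) of ROUTE.md). -/

namespace Vale.Agent.P168.MP

open Finset

variable {Ω : Type*} [Fintype Ω] {N R : ℕ} {m : ℕ → ℝ} {w : List Ω → ℝ}
  {rd : List Ω → Fin N → Bool}

/-- second moment of the overlap of two copies of `t` branching at level `η` -/
noncomputable def twinP (R : ℕ) (m : ℕ → ℝ) (w : List Ω → ℝ) (rd : List Ω → Fin N → Bool)
    (t : LT) (η : ℕ) : ℝ :=
  ET R m w [(0, η), (0, 0)] fun ps => twinK R m w rd t (ps.getD 0 []) (ps.getD 1 []) ^ 2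

/-- product of the overlaps of a copy of `t` with two copies branching from each other at `l` -/
noncomputable def twinPhi (R : ℕ) (m : ℕ → ℝ) (w : List Ω → ℝ) (rd : List Ω → Fin N → Bool)
    (t : LT) (η l : ℕ) : ℝ :=
  ET R m w [(1, l), (0, η), (0, 0)] fun ps =>
    twinK R m w rd t (ps.getD 0 []) (ps.getD 1 []) * twinK R m w rd t (ps.getD 0 []) (ps.getD 2 [])

variable [Nonempty Ω] (hw : ∀ p, 0 < w p)
include hw

lemma abs_twinK_le (t : LT) (p q : List Ω) : |twinK R m w rd t p q| ≤ 1 :=
  abs_ip_nv_le hw t t _ _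

lemma abs_twinP_le (t : LT) (η : ℕ) : |twinP R m w rd t η| ≤ 1 :=
  ET_bound hw fun ps => by
    rw [abs_pow]; exact pow_le_one₀ (abs_nonneg _) (abs_twinK_le hw t _ _)

lemma twinP_nonneg (t : LT) (η : ℕ) : 0 ≤ twinP R m w rd t η :=
  ET_nonneg hw fun _ => sq_nonneg _

lemma abs_twinPhi_le (t : LT) (η l : ℕ) : |twinPhi R m w rd t η l| ≤ 1 :=
  ET_bound hw fun ps => by
    rw [abs_mul]
    exact mul_le_one₀ (abs_twinK_le hw t _ _) (abs_nonneg _) (abs_twinK_le hw t _ _)

/-- two copies agreeing up to the top of `t` have the same overlap -/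
theorem twinPhi_high {t : LT} {η l : ℕ} (hη : η ≤ R) (hl : t.top R ≤ l) (hlR : l ≤ R) :
    twinPhi R m w rd t η l = twinP R m w rd t η := by
  have hv2 : Valid R [(0, η), (0, 0)] := ⟨by simp, hη, rfl, rfl⟩
  have hv3 : Valid R [(1, l), (0, η), (0, 0)] := ⟨by simp, hlR, hv2⟩
  have e : sp R [(1, l), (0, η), (0, 0)] 1 2 = l := by simp [sp, min_eq_left hlR]
  rw [twinP, ← ET_dropLast hw (1, l) [(0, η), (0, 0)]
    fun ps => twinK R m w rd t (ps.getD 0 []) (ps.getD 1 []) ^ 2]
  refine ET_congr hv3 fun ps hs => ?_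
  obtain ⟨a, b, c, rfl⟩ : ∃ a b c, ps = [a, b, c] := List.length_eq_three.1 hs.1
  have h := hs.2.2 1 2 (by simp) (by simp)
  rw [e] at h
  simp only [List.dropLast_cons₂, List.dropLast_singleton, List.getD_cons_zero,
    List.getD_cons_succ] at h ⊢
  rw [sq, twinK, twinK, take_of_le h hl]

/-- the product of two overlaps is at most the second moment -/
theorem twinPhi_le {t : LT} {η l : ℕ} (hηl : η ≤ l) (hlR : l ≤ R) :
    twinPhi R m w rd t η l ≤ twinP R m w rd t η := by
  have hη : η ≤ R := hηl.trans hlR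
  have hv2 : Valid R [(0, η), (0, 0)] := ⟨by simp, hη, rfl, rfl⟩
  have hv3 : Valid R [(1, l), (0, η), (0, 0)] := ⟨by simp, hlR, hv2⟩
  let K : List Ω → List Ω → ℝ := fun p q => twinK R m w rd t p q ^ 2
  have hsel : ∀ j, j = 1 ∨ j = 2 → ET R m w [(1, l), (0, η), (0, 0)]
      (fun ps => K (ps.getD 0 []) (ps.getD j [])) = twinP R m w rd t η := by
    intro j hj
    refine ET_restrict (ι := Fin 2) (fun k pre => trans_sum hw k pre) hv3 hv2
      ![0, j] ![0, 1] (fun i => ?_) (fun i => ?_) (fun i i' => ?_) (fun P => K (P 0) (P 1))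
    · fin_cases i <;> rcases hj with rfl | rfl <;> simp
    · fin_cases i <;> simp
    · fin_cases i <;> fin_cases i' <;> rcases hj with rfl | rfl <;>
        simp [sp, min_eq_left hη, min_eq_left hηl, min_eq_right hηl]
  rw [twinPhi]
  calc ET R m w [(1, l), (0, η), (0, 0)] (fun ps => twinK R m w rd t (ps.getD 0 []) (ps.getD 1 []) *
        twinK R m w rd t (ps.getD 0 []) (ps.getD 2 []))
      ≤ ET R m w [(1, l), (0, η), (0, 0)] (fun ps => (1 / 2) * K (ps.getD 0 []) (ps.getD 1 []) +
          (1 / 2) * K (ps.getD 0 []) (ps.getD 2 [])) := ET_mono hw fun ps => by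
        nlinarith [sq_nonneg (twinK R m w rd t (ps.getD 0 []) (ps.getD 1 []) -
          twinK R m w rd t (ps.getD 0 []) (ps.getD 2 []))]
    _ = _ := by rw [ET_add, ET_const_mul, ET_const_mul, hsel 1 (Or.inl rfl), hsel 2 (Or.inr rfl)]; ring

omit hw in
lemma twinK_mean (hw : ∀ p, 0 < w p) {t : LT} (ht : t.top R ≤ R) (a : List Ω) {q : List Ω}
    (hq : q.length ≤ t.top R) :
    ext m w (R - q.length) q (fun r => twinK R m w rd t a r) =
      ip (nv R m w rd t (a.take (t.top R))) (nv R m w rd t q) := by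
  unfold twinK
  rw [← up_top, up_take hw hq ht le_rfl
    (fun r => ip (nv R m w rd t (a.take (t.top R))) (nv R m w rd t r)), up, ← ext_ip_right]
  exact congrArg _ (funext fun v => nv_martingale ht hq le_rfl v)

/-- the two copies branching at `η` are conditionally independent -/
theorem twinPhi_low {t : LT} (ht : t.top R ≤ R) {η : ℕ} (hη : η ≤ t.top R) :
    twinPhi R m w rd t η η =
      ET R m w [(0, η), (0, 0)] (fun ps => ip (nv R m w rd t ((ps.getD 0 []).take (t.top R)))
        (nv R m w rd t ((ps.getD 0 []).take η)) ^ 2) := by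
  have hηR := hη.trans ht
  have hv1 : Valid R [(0, 0)] := ⟨rfl, rfl⟩
  have hv2 : Valid R [(0, η), (0, 0)] := ⟨by simp, hηR, hv1⟩
  have hlen : ∀ a : List Ω, a.length = R → (a.take η).length = η := fun a ha => by
    rw [List.length_take, ha, min_eq_left hηR]
  have hmean : ∀ a r : List Ω, a.length = R →
      ext m w (R - η) (a.take η) (fun q => twinK R m w rd t r q) =
        ip (nv R m w rd t (r.take (t.top R))) (nv R m w rd t (a.take η)) := fun a r ha => by
    have := twinK_mean (m := m) (rd := rd) hw ht r (q := a.take η) (by rw [hlen a ha]; exact hη)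
    rwa [hlen a ha] at this
  have e1 : twinPhi R m w rd t η η = ET R m w [(0, η), (0, 0)] (fun ps =>
      twinK R m w rd t (ps.getD 0 []) (ps.getD 1 []) *
        ip (nv R m w rd t ((ps.getD 0 []).take (t.top R)))
          (nv R m w rd t ((ps.getD 0 []).take η))) := by
    rw [twinPhi, ET_cons]
    refine ET_congr hv2 fun ps hs => ?_
    obtain ⟨a, b, rfl⟩ : ∃ a b, ps = [a, b] := List.length_eq_two.1 hs.1
    have h := hs.2.2 0 1 (by simp) (by simp)
    have ha := hs.2.1 0 (by simp)
    simp [sp, min_eq_left hηR] at h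
    simp only [List.cons_append, List.nil_append, List.getD_cons_zero,
      List.getD_cons_succ] at ha ⊢
    rw [← h, ext_const_mul, hmean a a ha]
  rw [e1, ET_cons, ET_cons (F := fun ps => ip (nv R m w rd t ((ps.getD 0 []).take (t.top R)))
        (nv R m w rd t ((ps.getD 0 []).take η)) ^ 2)]
  refine ET_congr hv1 fun ps hs => ?_
  obtain ⟨a, rfl⟩ : ∃ a, ps = [a] := List.length_eq_one_iff.1 hs.1
  have ha := hs.2.1 0 (by simp)
  simp only [List.cons_append, List.nil_append, List.getD_cons_zero,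
    List.getD_cons_succ] at ha ⊢
  rw [ext_mul_const, hmean a a ha, ext_const hw, sq]

/-- the purity is at most the defect of the twin moments -/
theorem dtwin_le_twin {t : LT} (ht : t.top R ≤ R) {η : ℕ} (hη : η ≤ t.top R) :
    dtwin R m w rd t η ≤ twinP R m w rd t η - twinPhi R m w rd t η η :=
  twinPhi_low (m := m) (rd := rd) hw ht hη ▸ dtwin_le hw ht hη

end Vale.Agent.P168.MP
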