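import Vale.Agent.P168.MP.Lay
import Vale.Agent.P168.MP.TwinValue

/-! Increments of the node statistics under a shift of one level, and their smallness on average
over the layer levels (section C of ROUTE.md). -/

namespace Vale.Agent.P168.MP

open Finset

section fixed

variable {Ω : Type*} [Fintype Ω] {N R : ℕ} {m : ℕ → ℝ} {w : List Ω → ℝ}
  {rd : List Ω → Fin N → Bool}

lemma ip_sq_eq (x y : Fin N → ℝ) :
    ip x y ^ 2 = avg fun v => avg fun v' => x v * x v' * (y v * y v') := by
  simp only [ip, avg, sq, Finset.sum_mul, Finset.mul_sum, ← Finset.sum_div, div_mul_div_comm]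
  rw [div_div]
  refine congrArg₂ _ (sum_congr rfl fun v _ => sum_congr rfl fun v' _ => ?_) rfl
  ring

lemma up_avg_sites (l : ℕ) (pre : List Ω) (F : Fin N → List Ω → ℝ) :
    up R m w l pre (fun q => avg fun v => F v q) = avg fun v => up R m w l pre (F v) := by
  simp only [up, avg, div_eq_mul_inv, ext_mul_const, ext_sum]

mutual
lemma osc_nonneg' : ∀ t t' : LT, 0 ≤ osc R m w rd t t'
  | .leaf, t' => by rw [osc]; simp
  | .node l cs, .leaf => by rw [osc]; simp
  | .node l cs, .node l' cs' => by rw [osc]; exact oscs_nonneg' l l' cs cs'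
lemma oscs_nonneg' (l l' : ℕ) : ∀ cs cs' : LF, 0 ≤ oscs R m w rd l l' cs cs'
  | .nil, cs' => by rw [oscs]; simp
  | .cons c cs, .nil => by rw [oscs]; simp
  | .cons c cs, .cons c' cs' => by
    rw [oscs]
    exact add_nonneg (add_nonneg (Real.sqrt_nonneg _) (osc_nonneg' c c')) (oscs_nonneg' l l' cs cs')
end

variable [Nonempty Ω] (hw : ∀ p, 0 < w p)
include hw

/-- the twin moment as the squared norm of the conditional second moments -/
theorem twinP_eq {t : LT} (ht : t.top R ≤ R) {η : ℕ} (hη : η ≤ t.top R) :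
    twinP R m w rd t η = up R m w η [] fun q => up R m w (t.top R) q fun a =>
      up R m w (t.top R) q fun b => ip (nv R m w rd t a) (nv R m w rd t b) ^ 2 :=
  twin_law hw hη ht fun _ a b => ip (nv R m w rd t a) (nv R m w rd t b) ^ 2

/-- the twin moment increases with the branching level -/
theorem twinP_mono {t : LT} (ht : t.top R ≤ R) {η η' : ℕ} (h : η ≤ η') (hη' : η' ≤ t.top R) :
    twinP R m w rd t η ≤ twinP R m w rd t η' := by
  set M : Fin N → Fin N → List Ω → ℝ := fun v v' q =>
    up R m w (t.top R) q fun a => nv R m w rd t a v * nv R m w rd t a v' with hM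
  have e : ∀ q, (up R m w (t.top R) q fun a => up R m w (t.top R) q fun b =>
      ip (nv R m w rd t a) (nv R m w rd t b) ^ 2) =
        avg fun v => avg fun v' => M v v' q ^ 2 := fun q => by
    have hmul : ∀ (F : List Ω → ℝ) (x : ℝ),
        up R m w (t.top R) q (fun a => F a * x) = up R m w (t.top R) q F * x := fun F x => by
      simp only [mul_comm _ x, up_const_mul]
    simp only [ip_sq_eq]
    simp only [up_avg_sites, up_const_mul, hmul, hM, sq]
  rw [twinP_eq hw ht (h.trans hη'), twinP_eq hw ht hη']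
  simp only [e]
  rw [← up_tower (Nat.zero_le η) h (hη'.trans ht)]
  refine up_mono_on hw (Nat.zero_le η) fun q hq _ => ?_
  rw [up_avg_sites]
  refine div_le_div_of_nonneg_right (sum_le_sum fun v _ => ?_) (Nat.cast_nonneg _)
  rw [up_avg_sites]
  refine div_le_div_of_nonneg_right (sum_le_sum fun v' _ => ?_) (Nat.cast_nonneg _)
  simp only [hM]
  rw [← up_tower (hq ▸ h) hη' ht]
  exact ext_sq_le (Z_pos hw _) _ _ _

/-- the purity in terms of the twin moment and two path moments -/
theorem dtwin_expand {t : LT} (ht : t.top R ≤ R) {η : ℕ} (hη : η ≤ t.top R) :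
    dtwin R m w rd t η = twinP R m w rd t η -
      2 * up R m w (t.top R) [] (fun p => ip (nv R m w rd t p) (nv R m w rd t (p.take η)) ^ 2) +
      up R m w η [] (fun q => ip (nv R m w rd t q) (nv R m w rd t q) ^ 2) := by
  rw [dtwin_eq hw ht hη, twinP_eq hw ht hη, ← up_tower (Nat.zero_le η) hη ht (pre := [])
    (F := fun p => ip (nv R m w rd t p) (nv R m w rd t (p.take η)) ^ 2), ← up_const_mul, ← up_sub,
    ← up_add]
  refine up_congr (Nat.zero_le η) fun q hq _ => ?_
  have hql : q.length ≤ t.top R := hq ▸ hη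
  have ex : up R m w (t.top R) q (fun p => ip (nv R m w rd t p) (nv R m w rd t (p.take η)) ^ 2) =
      up R m w (t.top R) q (fun p => ip (nv R m w rd t p) (nv R m w rd t q) ^ 2) :=
    up_congr hql fun p _ hp => by rw [← hq, hp]
  simp only [centred hw ht hql, up_sub, ex]
  have e1 : up R m w (t.top R) q (fun a => up R m w (t.top R) q fun b =>
      ip (nv R m w rd t a - nv R m w rd t q) (nv R m w rd t b) ^ 2) =
      up R m w (t.top R) q (fun b => up R m w (t.top R) q fun a =>
        ip (nv R m w rd t b) (nv R m w rd t a - nv R m w rd t q) ^ 2) := by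
    simp only [up, ip_comm]
    exact ext_comm _ _ _ _ _
  have e2 : up R m w (t.top R) q (fun b => up R m w (t.top R) q fun a =>
      ip (nv R m w rd t b) (nv R m w rd t a) ^ 2) =
      up R m w (t.top R) q (fun a => up R m w (t.top R) q fun b =>
        ip (nv R m w rd t a) (nv R m w rd t b) ^ 2) := rfl
  have e3 : up R m w (t.top R) q (fun p => ip (nv R m w rd t p - nv R m w rd t q) (nv R m w rd t q) ^ 2) =
      up R m w (t.top R) q (fun p => ip (nv R m w rd t q) (nv R m w rd t p - nv R m w rd t q) ^ 2) := by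
    simp only [ip_comm]
  rw [e1, e3]
  simp only [centred hw ht hql, up_sub, e2]
  simp only [ip_comm (nv R m w rd t q)]
  ring

/-- mean norm of a martingale increment -/
lemma up_nrm_increment {t : LT} (ht : t.top R ≤ R) {η η' : ℕ} (h : η ≤ η') (hη' : η' ≤ t.top R) :
    up R m w η' [] (fun p => nrm (nv R m w rd t p - nv R m w rd t (p.take η))) ≤
      Real.sqrt (Lam R m w rd t η' - Lam R m w rd t η) := by
  rw [← up_increment hw ht h hη']
  exact ext_sqrt_le (Z_pos hw _) _ _ fun p => ip_nonneg _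

omit hw [Fintype Ω] [Nonempty Ω] in
lemma abs_ip_sq_sub_le {x y : ℝ} (hx : |x| ≤ 1) (hy : |y| ≤ 1) : |x ^ 2 - y ^ 2| ≤ 2 * |x - y| := by
  rw [show x ^ 2 - y ^ 2 = (x + y) * (x - y) by ring, abs_mul]
  exact mul_le_mul_of_nonneg_right ((abs_add_le _ _).trans (by linarith)) (abs_nonneg _)

/-- stability of the purity under a move of the branching level -/
theorem dtwin_level {t : LT} (ht : t.top R ≤ R) {η η' : ℕ} (h : η ≤ η') (hη' : η' ≤ t.top R) :
    |dtwin R m w rd t η' - dtwin R m w rd t η| ≤
      (twinP R m w rd t η' - twinP R m w rd t η) +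
        8 * Real.sqrt (Lam R m w rd t η' - Lam R m w rd t η) := by
  have hη := h.trans hη'
  set X : ℕ → ℝ := fun l =>
    up R m w (t.top R) [] (fun p => ip (nv R m w rd t p) (nv R m w rd t (p.take l)) ^ 2) with hX
  set Q : ℕ → ℝ := fun l =>
    up R m w l [] (fun q => ip (nv R m w rd t q) (nv R m w rd t q) ^ 2) with hQ
  set s := Real.sqrt (Lam R m w rd t η' - Lam R m w rd t η)
  have hs := up_nrm_increment (m := m) (rd := rd) hw ht h hη'
  have hnv := fun p => abs_nv_le (R := R) (m := m) (rd := rd) hw t p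
  have hn1 := fun p => nrm_le_of_abs zero_le_one (hnv p)
  have dX : |X η' - X η| ≤ 2 * s := by
    refine le_trans ?_ (mul_le_mul_of_nonneg_left hs zero_le_two)
    rw [hX]; simp only
    rw [← up_sub, ← up_const_mul, ← up_take hw (pre := []) (Nat.zero_le η') hη' ht
      (fun p => 2 * nrm (nv R m w rd t p - nv R m w rd t (p.take η)))]
    refine (ext_abs_le (Z_pos hw _) _ _ _).trans (up_mono hw fun p => ?_)
    rw [List.take_take, min_eq_left h]
    refine (abs_ip_sq_sub_le (abs_ip_nv_le hw t t _ _) (abs_ip_nv_le hw t t _ _)).trans ?_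
    rw [← ip_sub_right]
    exact mul_le_mul_of_nonneg_left ((abs_ip_le_nrm _ _).trans
      ((mul_le_mul_of_nonneg_right (hn1 p) (nrm_nonneg _)).trans_eq (one_mul _))) zero_le_two
  have dQ : |Q η' - Q η| ≤ 4 * s := by
    refine le_trans ?_ (mul_le_mul_of_nonneg_left hs (by norm_num))
    rw [hQ]; simp only
    rw [← up_const_mul, ← up_take (a := η) (b := η') (pre := []) hw (Nat.zero_le η) h (hη'.trans ht)
      (fun q => ip (nv R m w rd t q) (nv R m w rd t q) ^ 2), ← up_sub]
    refine (ext_abs_le (Z_pos hw _) _ _ _).trans (up_mono hw fun p => ?_)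
    set x := nv R m w rd t p
    set y := nv R m w rd t (p.take η)
    refine (abs_ip_sq_sub_le (abs_ip_nv_le hw t t _ _) (abs_ip_nv_le hw t t _ _)).trans ?_
    have e : ip x x - ip y y = ip x (x - y) + ip (x - y) y := by
      rw [ip_sub_left, ip_sub_right]; ring
    have a := (abs_ip_le_nrm x (x - y)).trans
      ((mul_le_mul_of_nonneg_right (hn1 p) (nrm_nonneg _)).trans_eq (one_mul _))
    have b := (abs_ip_le_nrm (x - y) y).trans
      ((mul_le_mul_of_nonneg_left (hn1 _) (nrm_nonneg _)).trans_eq (mul_one _))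
    rw [e]
    linarith [abs_add_le (ip x (x - y)) (ip (x - y) y)]
  have hP := twinP_mono (m := m) (rd := rd) hw ht h hη'
  rw [dtwin_expand hw ht hη', dtwin_expand hw ht hη]
  change |twinP R m w rd t η' - 2 * X η' + Q η' - (twinP R m w rd t η - 2 * X η + Q η)| ≤ _
  have := abs_le.1 dX
  have := abs_le.1 dQ
  rw [abs_le]
  constructor <;> linarith

end fixed

/-! ### the error of a unit shift -/

section shift

variable {Ω : Type*} [Fintype Ω] {N : ℕ}

/-- bound for the change of the purity of `c` when `c` and the level `l` are raised by one -/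
noncomputable def dErr (R : ℕ) (m : ℕ → ℝ) (w : List Ω → ℝ) (rd : List Ω → Fin N → Bool)
    (c : LT) (l : ℕ) : ℝ :=
  64 * osc R m w rd c c.shift +
    Real.sqrt (twinP R m w rd c (l + 1) - twinP R m w rd c l) +
    8 * Real.sqrt (Lam R m w rd c (l + 1) - Lam R m w rd c l)

mutual
/-- bound for the change of the purity defect of a tree under a unit shift -/
noncomputable def shiftErr (R : ℕ) (m : ℕ → ℝ) (w : List Ω → ℝ) (rd : List Ω → Fin N → Bool) :
    LT → ℝ
  | .leaf => 0
  | .node l cs => shiftErrs R m w rd l cs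
/-- the same for a forest under a node of level `l` -/
noncomputable def shiftErrs (R : ℕ) (m : ℕ → ℝ) (w : List Ω → ℝ) (rd : List Ω → Fin N → Bool)
    (l : ℕ) : LF → ℝ
  | .nil => 0
  | .cons c cs =>
      Real.sqrt (Real.sqrt (dErr R m w rd c l)) + shiftErr R m w rd c + shiftErrs R m w rd l cs
end

variable {R : ℕ} {m : ℕ → ℝ} {w : List Ω → ℝ} {rd : List Ω → Fin N → Bool}

lemma dErr_nonneg (c : LT) (l : ℕ) : 0 ≤ dErr R m w rd c l :=
  add_nonneg (add_nonneg (mul_nonneg (by norm_num) (osc_nonneg' _ _)) (Real.sqrt_nonneg _))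
    (mul_nonneg (by norm_num) (Real.sqrt_nonneg _))

lemma sqrt_add_le_add (a : ℝ) {b : ℝ} (hb : 0 ≤ b) :
    Real.sqrt (a + b) ≤ Real.sqrt a + Real.sqrt b := by
  rcases le_total a 0 with ha | ha
  · rw [Real.sqrt_eq_zero'.2 ha, zero_add]; exact Real.sqrt_le_sqrt (by linarith)
  · refine Real.sqrt_le_iff.2 ⟨add_nonneg (Real.sqrt_nonneg _) (Real.sqrt_nonneg _), ?_⟩
    nlinarith [Real.sq_sqrt ha, Real.sq_sqrt hb, Real.sqrt_nonneg a, Real.sqrt_nonneg b]

variable [Nonempty Ω] (hw : ∀ p, 0 < w p)
include hw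

/-- the purity of the shifted tree at the shifted level -/
theorem dtwin_shift {c : LT} {l : ℕ} (hc : LT.Wf R l c) (hl : l < R) :
    dtwin R m w rd c.shift (l + 1) ≤ dtwin R m w rd c l + dErr R m w rd c l := by
  have ht := hc.top_le
  have hη : l + 1 ≤ c.top R := hc.lt_top hl
  have a := (abs_le.1 (dtwin_stable (m := m) (rd := rd) hw (LT.below_shift hc) hη)).2
  have b := (abs_le.1 (dtwin_level (m := m) (rd := rd) hw ht (Nat.le_succ l) hη)).2
  have h0 := twinP_mono (m := m) (rd := rd) hw ht (Nat.le_succ l) hη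
  have h1 : twinP R m w rd c (l + 1) - twinP R m w rd c l ≤ 1 := by
    linarith [twinP_nonneg (R := R) (m := m) (rd := rd) hw c l,
      (abs_le.1 (abs_twinP_le (R := R) (m := m) (rd := rd) hw c (l + 1))).2]
  have h2 : twinP R m w rd c (l + 1) - twinP R m w rd c l ≤
      Real.sqrt (twinP R m w rd c (l + 1) - twinP R m w rd c l) := by
    refine Real.le_sqrt_of_sq_le ?_
    rw [sq]
    exact mul_le_of_le_one_left (sub_nonneg.2 h0) h1
  simp only [dErr]
  linarith

set_option linter.unusedSectionVars false in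
mutual
/-- the purity defect of the shifted tree -/
theorem pur_shift : ∀ (t : LT) {lo : ℕ}, LT.Wf R lo t →
    pur R m w rd t.shift ≤ pur R m w rd t + shiftErr R m w rd t
  | .leaf, lo, _ => by simp [LT.shift, LT.map, pur, shiftErr]
  | .node l cs, lo, h => by
    rw [LT.Wf] at h
    rw [LT.shift, LT.map, pur, pur, shiftErr]
    exact purs_shift l cs h.2.1 h.2.2.2
/-- the purity defect of the shifted forest -/
theorem purs_shift (l : ℕ) : ∀ (cs : LF), l < R → LT.Wfs R l cs →
    purs R m w rd (l + 1) (LT.maps (· + 1) cs) ≤ purs R m w rd l cs + shiftErrs R m w rd l cs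
  | .nil, _, _ => by simp [LT.maps, purs, shiftErrs]
  | .cons c cs, hl, h => by
    rw [LT.Wfs] at h
    rw [LT.maps, purs, purs, shiftErrs]
    have a : Real.sqrt (Real.sqrt (dtwin R m w rd c.shift (l + 1))) ≤
        Real.sqrt (Real.sqrt (dtwin R m w rd c l)) + Real.sqrt (Real.sqrt (dErr R m w rd c l)) :=
      (Real.sqrt_le_sqrt ((Real.sqrt_le_sqrt (dtwin_shift hw h.1 hl)).trans
        (sqrt_add_le_add _ (dErr_nonneg c l)))).trans (sqrt_add_le_add _ (Real.sqrt_nonneg _))
    have b := pur_shift c h.1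
    have d := purs_shift l cs hl h.2
    simp only [LT.shift] at a b
    linarith
end

end shift

/-! ### smallness on average over the layer levels -/

section small

variable {L : ℕ} {k : ℕ}

lemma lvl_update_of_ne {J : Fin L → ℕ} {q : Fin L} (i : ℕ) {q' : ℕ} (h : q' ≠ q) :
    lvl (Function.update J q i) q' = lvl J q' := by
  unfold lvl
  split_ifs with h'
  · rw [Function.update_of_ne fun e => h (by rw [← e])]
  · rfl

mutual
/-- a layered tree does not see the layers above it -/
lemma LT.Lay.atJ_update {J : Fin L → ℕ} {q : Fin L} (i : ℕ) :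
    ∀ (t : LT) {lo : ℕ}, LT.Lay L lo t → (q : ℕ) < lo →
      t.atJ (Function.update J q i) = t.atJ J
  | .leaf, _, _, _ => rfl
  | .node q' cs, lo, h, hq => by
    rw [LT.Lay] at h
    simp only [LT.atJ_eq, LT.map]
    rw [lvl_update_of_ne i (by omega), LT.Lays.maps_update i cs h.2.2.2 (by omega)]
lemma LT.Lays.maps_update {J : Fin L → ℕ} {q : Fin L} (i : ℕ) :
    ∀ (cs : LF) {lo : ℕ}, LT.Lays L lo cs → (q : ℕ) < lo →
      LT.maps (lvl (Function.update J q i)) cs = LT.maps (lvl J) cs
  | .nil, _, _, _ => rfl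
  | .cons c cs, lo, h, hq => by
    rw [LT.Lays] at h
    have := LT.Lay.atJ_update (J := J) i c h.1 hq
    rw [LT.atJ_eq, LT.atJ_eq] at this
    rw [LT.maps, LT.maps, this, LT.Lays.maps_update i cs h.2 hq]
end

/-- the top of a layered tree is at least three levels below the window of an earlier layer -/
lemma Win.Ok.le_top {W : Win L} {c : ℝ} {R : ℕ} (h : W.Ok c R) {J : Fin L → ℕ} (hJ : J ∈ W.set)
    {q : Fin L} {t : LT} (ht : LT.Lay L (q + 1) t) :
    W.lo q + W.len q + 2 ≤ (t.atJ J).top R ∧ (t.atJ J).top R ≤ R := by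
  cases t with
  | leaf =>
    have := h.high q
    exact ⟨by simp only [LT.atJ_eq, LT.map, LT.top]; omega, le_rfl⟩
  | node q' cs =>
    rw [LT.Lay] at ht
    simp only [LT.atJ_eq, LT.map, LT.top, lvl_of_lt J ht.2.1]
    have h1 := (Win.mem_set.1 hJ ⟨q', ht.2.1⟩).1
    have h2 := (h.range hJ ⟨q', ht.2.1⟩).2.2
    have := h.sep q ⟨q', ht.2.1⟩ (Fin.lt_def.2 (by simp only; omega))
    omega

/-- a monotone statistic of a tree below layer `q` -/
lemma small_stat (q : Fin L) {t : LT} (ht : LT.Lay L (q + 1) t)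
    (F : ℕ → Sys → LT → ℕ → ℝ) (d d' : ℕ) (hd : d' + 1 ≤ d + 2)
    (hmon : ∀ R (S : Sys) (t : LT) (l : ℕ), t.top R ≤ R → l + 1 ≤ t.top R →
      F R S t l ≤ F R S t (l + 1))
    (hbd : ∀ R (S : Sys) (t : LT) (l l' : ℕ), F R S t l' - F R S t l ≤ 1) :
    Small (L := L) k fun R S J =>
      √(F R S (t.atJ J) (lvl J q + d' + 1 - d) - F R S (t.atJ J) (lvl J q + d' - d)) := by
  refine (small_increment q (fun R S J l => F R S (t.atJ J) (l + d' - d)) ?_ ?_ ?_).mono
    fun c hc R W hW S E hE J hJ => le_of_eq ?_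
  · intro R S J l i
    simp only [LT.Lay.atJ_update i t ht (Nat.lt_succ_self _)]
  · intro c hc R W hW S J hJ l hl hl'
    obtain ⟨h1, h2⟩ := hW.le_top hJ ht
    rcases Nat.lt_or_ge (l + d') d with h | h
    · rw [show l + 1 + d' - d = 0 by omega, show l + d' - d = 0 by omega]
    · rw [show l + 1 + d' - d = (l + d' - d) + 1 by omega]
      exact hmon R S _ _ h2 (by omega)
  · intro c _ R W _ S J _
    exact hbd R S _ _ _
  · simp only [lvl_of_lt J q.isLt, Fin.eta]
    rw [show J q + 1 + d' - d = J q + d' + 1 - d by omega]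

/-- increment of the squared norm of a lower tree, just above its layer -/
theorem small_Lam (q : Fin L) {t : LT} (ht : LT.Lay L (q + 1) t) (d d' : ℕ)
    (hd : d' + 1 ≤ d + 2) :
    Small (L := L) k fun R S J =>
      √(Lam R (lin R) S.w S.rd (t.atJ J) (lvl J q + d' + 1 - d) -
        Lam R (lin R) S.w S.rd (t.atJ J) (lvl J q + d' - d)) :=
  small_stat q ht (fun R S t l => Lam R (lin R) S.w S.rd t l) d d' hd
    (fun _ S _ _ h h' => Lam_mono S.pos h (Nat.le_succ _) h')
    fun R S t l l' => by
      linarith [(Lam_mem (R := R) (m := lin R) (rd := S.rd) S.pos t l).1,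
        (Lam_mem (R := R) (m := lin R) (rd := S.rd) S.pos t l').2]

/-- `Lam` between the levels `J q` and `J q + 1` -/
theorem small_Lam_succ (q : Fin L) {t : LT} (ht : LT.Lay L (q + 1) t) :
    Small (L := L) k fun R S J =>
      √(Lam R (lin R) S.w S.rd (t.atJ J) (lvl J q + 1) -
        Lam R (lin R) S.w S.rd (t.atJ J) (lvl J q)) := by
  simpa using small_Lam (k := k) q ht 0 0 (by norm_num)

/-- `Lam` between the levels `J q - 1` and `J q` -/
theorem small_Lam_pred (q : Fin L) {t : LT} (ht : LT.Lay L (q + 1) t) :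
    Small (L := L) k fun R S J =>
      √(Lam R (lin R) S.w S.rd (t.atJ J) (lvl J q) -
        Lam R (lin R) S.w S.rd (t.atJ J) (lvl J q - 1)) := by
  simpa using small_Lam (k := k) q ht 1 0 (by norm_num)

/-- the twin moment between the levels `J q` and `J q + 1` -/
theorem small_twinP_succ (q : Fin L) {t : LT} (ht : LT.Lay L (q + 1) t) :
    Small (L := L) k fun R S J =>
      √(twinP R (lin R) S.w S.rd (t.atJ J) (lvl J q + 1) -
        twinP R (lin R) S.w S.rd (t.atJ J) (lvl J q)) := by
  simpa using small_stat (k := k) q ht (fun R S t l => twinP R (lin R) S.w S.rd t l) 0 0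
    (by norm_num) (fun _ S _ _ h h' => twinP_mono S.pos h (Nat.le_succ _) h')
    fun R S t l l' => by
      linarith [twinP_nonneg (R := R) (m := lin R) (rd := S.rd) S.pos t l,
        (abs_le.1 (abs_twinP_le (R := R) (m := lin R) (rd := S.rd) S.pos t l')).2]

mutual
/-- the oscillation of a unit shift is small -/
theorem small_osc : ∀ (t : LT) {lo : ℕ}, LT.Lay L lo t →
    Small (L := L) k fun R S J => osc R (lin R) S.w S.rd (t.atJ J) (t.atJ J).shift
  | .leaf, _, _ => by simpa [LT.atJ, LT.shift, LT.map, osc] using small_zero (L := L) (k := k)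
  | .node q cs, lo, h => by
    rw [LT.Lay] at h
    simpa [LT.atJ_eq, LT.shift, LT.map, osc] using small_oscs ⟨q, h.2.1⟩ cs h.2.2.2
/-- the same for a forest below layer `q` -/
theorem small_oscs (q : Fin L) : ∀ (cs : LF), LT.Lays L (q + 1) cs →
    Small (L := L) k fun R S J => oscs R (lin R) S.w S.rd (lvl J q) (lvl J q + 1)
      (LT.maps (lvl J) cs) (LT.maps (· + 1) (LT.maps (lvl J) cs))
  | .nil, _ => by simpa [LT.maps, oscs] using small_zero (L := L) (k := k)
  | .cons c cs, h => by
    rw [LT.Lays] at h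
    simpa [LT.maps, oscs, LT.atJ_eq, LT.shift] using
      ((small_Lam_succ q h.1).add (small_osc c h.1)).add (small_oscs q cs h.2)
end

lemma sqrt_sqrt_eq_rpow {x : ℝ} (hx : 0 ≤ x) : √(√x) = x ^ (1 / 4 : ℝ) := by
  rw [Real.sqrt_eq_rpow, Real.sqrt_eq_rpow, ← Real.rpow_mul hx]; norm_num

lemma Small.sqrt_sqrt {P : ℕ → Sys → (Fin L → ℕ) → ℝ} (hP : Small k P)
    (h0 : ∀ R S J, 0 ≤ P R S J) : Small k fun R S J => √(√(P R S J)) := by
  simpa [sqrt_sqrt_eq_rpow (h0 _ _ _)] using hP.quarter h0

/-- the change of one purity under a unit shift is small -/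
theorem small_dErr (q : Fin L) {c : LT} (hc : LT.Lay L (q + 1) c) :
    Small (L := L) k fun R S J => dErr R (lin R) S.w S.rd (c.atJ J) (lvl J q) :=
  (((small_osc c hc).const_mul (by norm_num : (0 : ℝ) ≤ 64)).add (small_twinP_succ q hc)).add
    ((small_Lam_succ q hc).const_mul (by norm_num : (0 : ℝ) ≤ 8))

mutual
/-- the change of the purity defect under a unit shift is small -/
theorem small_shiftErr : ∀ (t : LT) {lo : ℕ}, LT.Lay L lo t →
    Small (L := L) k fun R S J => shiftErr R (lin R) S.w S.rd (t.atJ J)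
  | .leaf, _, _ => by simpa [LT.atJ, LT.map, shiftErr] using small_zero (L := L) (k := k)
  | .node q cs, lo, h => by
    rw [LT.Lay] at h
    simpa [LT.atJ_eq, LT.map, shiftErr] using small_shiftErrs ⟨q, h.2.1⟩ cs h.2.2.2
/-- the same for a forest below layer `q` -/
theorem small_shiftErrs (q : Fin L) : ∀ (cs : LF), LT.Lays L (q + 1) cs →
    Small (L := L) k fun R S J => shiftErrs R (lin R) S.w S.rd (lvl J q) (LT.maps (lvl J) cs)
  | .nil, _ => by simpa [LT.maps, shiftErrs] using small_zero (L := L) (k := k)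
  | .cons c cs, h => by
    rw [LT.Lays] at h
    simpa [LT.maps, shiftErrs, LT.atJ_eq] using
      (((small_dErr q h.1).sqrt_sqrt fun _ _ _ => dErr_nonneg _ _).add (small_shiftErr c h.1)).add
        (small_shiftErrs q cs h.2)
end

end small

end Vale.Agent.P168.MP
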