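import Vale.Agent.P168.MP.Node

/-! Purity: the overlap of the replicas of a tree is, in mean, the average over the sites of the
product of the node values (section C of ROUTE.md). -/

namespace Vale.Agent.P168.MP

open Finset

variable {Ω : Type*} [Fintype Ω] {N R : ℕ} {m : ℕ → ℝ} {w : List Ω → ℝ}
  {rd : List Ω → Fin N → Bool}

mutual
/-- the total purity defect of a tree -/
noncomputable def pur (R : ℕ) (m : ℕ → ℝ) (w : List Ω → ℝ) (rd : List Ω → Fin N → Bool) :
    LT → ℝ
  | .leaf => 0
  | .node l cs => purs R m w rd l cs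
/-- the total purity defect of a forest hanging at level `l` -/
noncomputable def purs (R : ℕ) (m : ℕ → ℝ) (w : List Ω → ℝ) (rd : List Ω → Fin N → Bool)
    (l : ℕ) : LF → ℝ
  | .nil => 0
  | .cons c cs => Real.sqrt (Real.sqrt (dtwin R m w rd c l)) + pur R m w rd c + purs R m w rd l cs
end

/-- product of the spins of the replicas `pos 0, …, pos (n - 1)` -/
noncomputable def lprod (rd : List Ω → Fin N → Bool) (pos : ℕ → ℕ) (n : ℕ)
    (ps : List (List Ω)) (v : Fin N) : ℝ :=
  ∏ i ∈ range n, sg (rd (ps.getD (pos i) []) v)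

omit [Fintype Ω] in
lemma lprod_zero (pos : ℕ → ℕ) (ps : List (List Ω)) (v : Fin N) :
    lprod rd pos 0 ps v = 1 := by simp [lprod]

omit [Fintype Ω] in
lemma lprod_add (pos : ℕ → ℕ) (a b : ℕ) (ps : List (List Ω)) (v : Fin N) :
    lprod rd pos (a + b) ps v =
      lprod rd pos a ps v * lprod rd (fun i => pos (a + i)) b ps v := by
  simp only [lprod, prod_range_add]

omit [Fintype Ω] in
lemma abs_lprod_le (pos : ℕ → ℕ) (n : ℕ) (ps : List (List Ω)) (v : Fin N) :
    |lprod rd pos n ps v| ≤ 1 := by
  rw [lprod, abs_prod]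
  exact prod_le_one (fun _ _ => abs_nonneg _) fun i _ => (abs_sg _).le

lemma ip_mul_left (a b c : Fin N → ℝ) :
    ip (fun v => a v * b v) c = ip a (fun v => b v * c v) := by
  simp only [ip, mul_assoc]

lemma ip_mul_left' (a b c : Fin N → ℝ) :
    ip (fun v => a v * b v) c = ip b (fun v => a v * c v) := by
  simp only [ip, mul_assoc, mul_left_comm]

lemma LF.ne_nil_of_length_pos {cs : LF} (h : 0 < cs.length) : cs ≠ .nil := by
  rintro rfl
  simp [LF.length] at h

mutual
/-- a well-formed tree has a leaf -/
theorem LT.size_pos_of_wf : ∀ {lo : ℕ} (t : LT), LT.Wf R lo t → 0 < t.size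
  | _, .leaf, _ => by simp [LT.size]
  | _, .node l cs, h => by
    rw [LT.Wf] at h
    rw [LT.size]
    exact LT.sizes_pos_of_wfs cs h.2.2.2 (LF.ne_nil_of_length_pos (by omega))
/-- a nonempty well-formed forest has a leaf -/
theorem LT.sizes_pos_of_wfs : ∀ {l : ℕ} (cs : LF), LT.Wfs R l cs → cs ≠ .nil → 0 < LT.sizes cs
  | _, .nil, _, h => absurd rfl h
  | _, .cons c cs, h, _ => by
    rw [LT.Wfs] at h
    rw [LT.sizes]
    exact Nat.add_pos_left (LT.size_pos_of_wf c h.1) _
end

lemma le_top_of_wf {l : ℕ} {c : LT} (hl : l ≤ R) (h : LT.Wf R l c) : l ≤ c.top R := by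
  cases c with
  | leaf => exact hl
  | node l' cs => rw [LT.Wf] at h; exact h.1.le

variable [Nonempty Ω]

/-- a replica may be resampled below a level separating it from the replicas looked at -/
theorem ET_resample (hw : ∀ p, 0 < w p) {ι : Type*} [Fintype ι] {T : List (ℕ × ℕ)}
    (hT : Valid R T) {q η : ℕ} (hq : q < T.length) (hη : η ≤ R) (s : ι → ℕ)
    (hsl : ∀ i, s i < T.length) (hsep : ∀ i, sp R T q (s i) ≤ η)
    (H : List Ω → (ι → List Ω) → ℝ) :
    ET R m w T (fun ps => H (ps.getD q []) fun i => ps.getD (s i) []) =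
      ET R m w ((q, η) :: T) (fun ps => H (ps.getD T.length []) fun i => ps.getD (s i) []) := by
  let s₁ : Option ι → ℕ := fun x => x.elim q s
  let s₂ : Option ι → ℕ := fun x => x.elim T.length s
  have hnew : ∀ i, sp R ((q, η) :: T) T.length (s i) = sp R T q (s i) := fun i => by
    rw [sp_new R (q, η) (hsl i).ne]
    exact min_eq_right (hsep i)
  refine ET_restrict (ι := Option ι) (fun k pre => trans_sum hw k pre) hT (valid_cons_of hT hq hη)
    s₁ s₂ ?_ ?_ ?_ (fun P => H (P none) fun i => P (some i))
  · rintro (_ | i)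
    exacts [hq, hsl i]
  · rintro (_ | i) <;> simp only [s₂, Option.elim, List.length_cons]
    exacts [Nat.lt_succ_self _, (hsl i).trans (Nat.lt_succ_self _)]
  · rintro (_ | i) (_ | j) <;> simp only [s₁, s₂, Option.elim]
    · rw [sp_self, sp_self]
    · exact (hnew j).symm
    · rw [sp_comm, ← hnew i, sp_comm]
    · exact (sp_old R _ (hsl i).ne (hsl j).ne).symm

/-- replacing the top value of a tree by its value at a level `η` separating it from everything
else costs at most the fourth root of its purity -/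
theorem ET_dev_le (hw : ∀ p, 0 < w p) {ι : Type*} [Fintype ι]
    {T : List (ℕ × ℕ)} (hT : Valid R T) {t : LT} (ht : t.top R ≤ R) {q η : ℕ}
    (hq : q < T.length) (hηt : η ≤ t.top R)
    (s : ι → ℕ) (hsl : ∀ i, s i < T.length) (hsep : ∀ i, sp R T q (s i) ≤ η)
    (B : List Ω → (ι → List Ω) → Fin N → ℝ) (hB : ∀ a P v, |B a P v| ≤ 1) :
    ET R m w T (fun ps => |ip (dev R m w rd t η (ps.getD q []))
        (B ((ps.getD q []).take η) fun i => ps.getD (s i) [])|) ≤
      Real.sqrt (Real.sqrt (dtwin R m w rd t η)) := by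
  have hη : η ≤ R := hηt.trans ht
  rw [ET_resample hw hT hq hη s hsl hsep
    (fun r P => |ip (dev R m w rd t η r) (B (r.take η) P)|)]
  have hV : Valid R ((q, η) :: T) := valid_cons_of hT hq hη
  refine (Real.le_sqrt_of_sq_le ((ET_sq_le hw _ _).trans ?_))
  refine le_trans (le_of_eq (ET_congr hV fun ps hs => ?_)) (ET_dev_ip_le hw ht hηt hT hq
    (fun ps v => B ((ps.getD q []).take η) (fun i => ps.getD (s i) []) v) fun _ _ => hB _ _ _)
  have hdl : ∀ j, j < T.length → ps.dropLast.getD j [] = ps.getD j [] := fun j hj => by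
    have hl : j < ps.dropLast.length := by rw [List.length_dropLast, hs.1]; simpa using hj
    rw [List.getD_eq_getElem _ _ hl, List.getD_eq_getElem _ _ (by rw [hs.1]; simp; omega),
      List.getElem_dropLast]
  have hpre : (ps.getD q []).take η = (ps.getD T.length []).take η := by
    refine take_of_le (hs.2.2 q T.length (by simp; omega) (by simp)) ?_
    rw [sp_new' R (q, η) hq.ne, sp_self, min_eq_left hη]
  simp only [sq_abs, hdl q hq, hdl _ (hsl _), hpre]

set_option linter.unusedSectionVars false in
mutual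
/-- the spins of the leaves of a tree may be replaced by the value of its top node -/
theorem purity_tree (hw : ∀ p, 0 < w p) :
    ∀ (t : LT) {lo : ℕ}, LT.Wf R lo t → ∀ {T : List (ℕ × ℕ)}, Valid R T →
    ∀ (pos : ℕ → ℕ), (∀ i, i < t.size → pos i < T.length) →
    (∀ i j, i < t.size → j < t.size → sp R T (pos i) (pos j) = t.lv R i j) →
    ∀ {ι : Type} [Fintype ι] (s : ι → ℕ), (∀ k, s k < T.length) →
    (∀ i k, i < t.size → sp R T (pos i) (s k) ≤ t.top R) →
    ∀ (B : (ι → List Ω) → Fin N → ℝ), (∀ P v, |B P v| ≤ 1) →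
      ET R m w T (fun ps =>
        |ip (lprod rd pos t.size ps) (B fun k => ps.getD (s k) []) -
          ip (nv R m w rd t ((ps.getD (pos 0) []).take (t.top R))) (B fun k => ps.getD (s k) [])|) ≤
        pur R m w rd t
  | .leaf, lo, _, T, hT, pos, hpos, _, ι, _, s, _, _, B, _ => by
    have h0 := hpos 0 (by simp [LT.size])
    refine le_of_eq ((ET_congr hT fun ps hs => ?_).trans (ET_const hw T (pur R m w rd .leaf)))
    have e : (ps.getD (pos 0) []).take R = ps.getD (pos 0) [] :=
      List.take_of_length_le (hs.2.1 _ h0).le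
    have e' : lprod rd pos (LT.size .leaf) ps = nv R m w rd .leaf ((ps.getD (pos 0) []).take R) := by
      funext v
      rw [e, nv_leaf_self (hs.2.1 _ h0)]
      simp [lprod, LT.size]
    simp only [LT.top] at *
    rw [e', sub_self, abs_zero, pur]
  | .node l cs, lo, hwf, T, hT, pos, hpos, hsp, ι, _, s, hsl, hout, B, hB => by
    rw [LT.Wf] at hwf
    have h0 := hpos 0 (by
      rw [LT.size]
      exact LT.sizes_pos_of_wfs cs hwf.2.2.2 (LF.ne_nil_of_length_pos (by omega)))
    simp only [LT.size, LT.top] at *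
    refine le_trans (le_of_eq (ET_congr hT fun ps hs => ?_))
      ((purity_forest hw l cs hwf.2.1.le hwf.2.2.2 hT pos hpos
        (fun i j hi hj => by rw [hsp i j hi hj, LT.lv]) s hsl hout B hB).trans_eq (by rw [pur]))
    have hlen : ((ps.getD (pos 0) []).take l).length = l := by
      rw [List.length_take, hs.2.1 _ h0, min_eq_left hwf.2.1.le]
    rw [show nv R m w rd (.node l cs) ((ps.getD (pos 0) []).take l) =
      nvs R m w rd cs ((ps.getD (pos 0) []).take l) from funext (nv_node_self hlen)]
/-- the spins of the leaves of a forest may be replaced by the values of its trees at the level of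
their common node -/
theorem purity_forest (hw : ∀ p, 0 < w p) :
    ∀ (l : ℕ) (cs : LF), l ≤ R → LT.Wfs R l cs → ∀ {T : List (ℕ × ℕ)}, Valid R T →
    ∀ (pos : ℕ → ℕ), (∀ i, i < LT.sizes cs → pos i < T.length) →
    (∀ i j, i < LT.sizes cs → j < LT.sizes cs → sp R T (pos i) (pos j) = LT.lvs R l cs i j) →
    ∀ {ι : Type} [Fintype ι] (s : ι → ℕ), (∀ k, s k < T.length) →
    (∀ i k, i < LT.sizes cs → sp R T (pos i) (s k) ≤ l) →
    ∀ (B : (ι → List Ω) → Fin N → ℝ), (∀ P v, |B P v| ≤ 1) →
      ET R m w T (fun ps =>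
        |ip (lprod rd pos (LT.sizes cs) ps) (B fun k => ps.getD (s k) []) -
          ip (nvs R m w rd cs ((ps.getD (pos 0) []).take l)) (B fun k => ps.getD (s k) [])|) ≤
        purs R m w rd l cs
  | l, .nil, _, _, T, hT, pos, _, _, ι, _, s, _, _, B, _ => by
    refine le_of_eq ((ET_congr hT fun ps _ => ?_).trans (ET_const hw T (purs R m w rd l .nil)))
    have e : lprod rd pos (LT.sizes .nil) ps = nvs R m w rd .nil ((ps.getD (pos 0) []).take l) := by
      funext v; rw [LT.sizes, lprod_zero, nvs]
    rw [e, sub_self, abs_zero, purs]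
  | l, .cons c cs, hl, hwf, T, hT, pos, hpos, hsp, ι, _, s, hsl, hout, B, hB => by
    rw [LT.Wfs] at hwf
    simp only [LT.sizes] at hpos hsp hout ⊢
    have hc := LT.size_pos_of_wf c hwf.1
    have hlc : l ≤ c.top R := le_top_of_wf hl hwf.1
    set n := c.size with hn
    set pos' : ℕ → ℕ := fun i => pos (n + i) with hpos'
    have hb : ∀ i, i < LT.sizes cs → n + i < n + LT.sizes cs := fun i hi => by omega
    have hcross : ∀ i j, i < n → j < LT.sizes cs → sp R T (pos i) (pos' j) = l := fun i j hi hj => by
      rw [hpos', hsp i (n + j) (by omega) (hb j hj), LT.lvs, if_pos hi, if_neg (by omega)]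
    -- the spins of the later trees, with the outside factor
    let s' : ι ⊕ Fin (LT.sizes cs) → ℕ := Sum.elim s fun j => pos' j
    let sel : List (List Ω) → ι ⊕ Fin (LT.sizes cs) → List Ω := fun ps x => ps.getD (s' x) []
    let B₁ : (ι ⊕ Fin (LT.sizes cs) → List Ω) → Fin N → ℝ := fun P v =>
      (∏ j : Fin (LT.sizes cs), sg (rd (P (Sum.inr j)) v)) * B (fun k => P (Sum.inl k)) v
    have hB₁ : ∀ P v, |B₁ P v| ≤ 1 := fun P v => by
      rw [abs_mul, abs_prod]
      exact mul_le_one₀ (prod_le_one (fun _ _ => abs_nonneg _) fun j _ => (abs_sg _).le)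
        (abs_nonneg _) (hB _ v)
    have hB₁e : ∀ ps, B₁ (sel ps) = fun v =>
        lprod rd pos' (LT.sizes cs) ps v * B (fun k => ps.getD (s k) []) v := fun ps => by
      funext v
      simp only [B₁, sel, s', lprod, Sum.elim_inr, Sum.elim_inl]
      rw [Fin.prod_univ_eq_prod_range (fun j => sg (rd (ps.getD (pos' j) []) v))]
    have hsl' : ∀ x, s' x < T.length := by
      rintro (k | j)
      exacts [hsl k, hpos _ (hb j j.2)]
    have hout' : ∀ i x, i < n → sp R T (pos i) (s' x) ≤ l := by
      rintro i (k | j) hi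
      exacts [hout i k (by omega), (hcross i j hi j.2).le]
    have hspc : ∀ i j, i < n → j < n → sp R T (pos i) (pos j) = c.lv R i j := fun i j hi hj => by
      rw [hsp i j (by omega) (by omega), LT.lvs, if_pos hi, if_pos hj]
    have I₁ := purity_tree hw c hwf.1 hT pos (fun i hi => hpos i (by omega)) hspc s' hsl'
      (fun i x hi => (hout' i x hi).trans hlc) B₁ hB₁
    have I₂ := ET_dev_le (m := m) (rd := rd) hw hT (LT.Wf.top_le hwf.1) (hpos 0 (by omega)) hlc s' hsl' (fun x => hout' 0 x hc)
      (fun _ P => B₁ P) fun _ P v => hB₁ P v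
    -- the first tree, at level `l`, joins the outside factor
    let s'' : Option ι → ℕ := fun x => x.elim (pos 0) s
    let B₂ : (Option ι → List Ω) → Fin N → ℝ := fun P v =>
      nv R m w rd c ((P none).take l) v * B (fun k => P (some k)) v
    have hB₂ : ∀ P v, |B₂ P v| ≤ 1 := fun P v => by
      rw [abs_mul]
      exact mul_le_one₀ (abs_nv_le hw c _ v) (abs_nonneg _) (hB _ v)
    have I₃ := purity_forest hw l cs hl hwf.2 hT pos' (fun i hi => hpos _ (hb i hi))
      (fun i j hi hj => by
        rw [hpos', hsp _ _ (hb i hi) (hb j hj), LT.lvs, if_neg (by omega), if_neg (by omega),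
          show n + i - c.size = i by omega, show n + j - c.size = j by omega]) s''
      (by rintro (_ | k); exacts [hpos 0 (by omega), hsl k])
      (by
        rintro i (_ | k) hi
        · exact (sp_comm R T _ _).trans_le (hcross 0 i hc hi).le
        · exact hout _ k (hb i hi)) B₂ hB₂
    rw [purs]
    refine le_trans ?_ ((add_le_add (add_le_add I₂ I₁) I₃))
    rw [← ET_add, ← ET_add]
    refine ET_mono_on hw hT fun ps hs => ?_
    set b := B fun k => ps.getD (s k) [] with hbdef
    set M := lprod rd pos' (LT.sizes cs) ps with hM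
    set q := ps.getD (pos 0) [] with hq
    have e₂ : B₂ (fun x => ps.getD (s'' x) []) = fun v => nv R m w rd c (q.take l) v * b v := rfl
    have hvs : nvs R m w rd cs ((ps.getD (pos' 0) []).take l) = nvs R m w rd cs (q.take l) := by
      funext v
      cases hcs : cs with
      | nil => simp only [nvs]
      | cons d ds =>
        have h0 : 0 < LT.sizes cs := LT.sizes_pos_of_wfs cs hwf.2 (by simp [hcs])
        have := hs.2.2 (pos 0) (pos' 0) (hpos 0 (by omega)) (hpos _ (hb 0 h0))
        rw [hcross 0 0 hc h0] at this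
        rw [← hcs, hq, this]
    have eL : ip (lprod rd pos (n + LT.sizes cs) ps) b =
        ip (lprod rd pos n ps) (fun v => M v * b v) := by
      rw [funext fun v => lprod_add (rd := rd) pos n (LT.sizes cs) ps v, ip_mul_left]
    have eR : ip (nvs R m w rd (.cons c cs) (q.take l)) b =
        ip (nvs R m w rd cs (q.take l)) (fun v => nv R m w rd c (q.take l) v * b v) := by
      rw [show nvs R m w rd (.cons c cs) (q.take l) = fun v => nv R m w rd c (q.take l) v *
        nvs R m w rd cs (q.take l) v from funext fun v => by rw [nvs], ip_mul_left']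
    have eD : ip (dev R m w rd c l q) (fun v => M v * b v) =
        ip (nv R m w rd c (q.take (c.top R))) (fun v => M v * b v) -
          ip (nv R m w rd c (q.take l)) (fun v => M v * b v) := by
      rw [← ip_sub_left]; rfl
    have eS : ip (nv R m w rd c (q.take l)) (fun v => M v * b v) =
        ip M (fun v => nv R m w rd c (q.take l) v * b v) := by
      rw [← ip_mul_left, ip_mul_left']
    have eB : B₁ (fun x => ps.getD (s' x) []) = fun v => M v * b v := hB₁e ps
    rw [eL, eR, eB, e₂, hvs, eD]
    rw [← eS]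
    exact (abs_sub_le _ (ip (nv R m w rd c (q.take l)) fun v => M v * b v) _).trans
      (add_le_add ((abs_sub_le _ (ip (nv R m w rd c (q.take (c.top R))) fun v => M v * b v) _).trans
        (add_comm _ _).le) le_rfl)
end

/-- **Purity**: the overlap of the replicas of a tree is close to the average of the product of
its children's values at the top node -/
theorem purity (hw : ∀ p, 0 < w p) {l lo : ℕ} {cs : LF}
    (hwf : LT.Wf R lo (.node l cs)) {T : List (ℕ × ℕ)} (hT : Valid R T) (pos : ℕ → ℕ)
    (hpos : ∀ i, i < LT.sizes cs → pos i < T.length)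
    (hsp : ∀ i j, i < LT.sizes cs → j < LT.sizes cs →
      sp R T (pos i) (pos j) = LT.lvs R l cs i j) :
    ET R m w T (fun ps => |avg (lprod rd pos (LT.sizes cs) ps) -
        avg (nvs R m w rd cs ((ps.getD (pos 0) []).take l))|) ≤ pur R m w rd (.node l cs) := by
  rw [LT.Wf] at hwf
  have h := purity_forest (m := m) (rd := rd) hw l cs hwf.2.1.le hwf.2.2.2 hT pos hpos hsp
    (s := fun e : Empty => e.elim) (fun e => e.elim) (fun _ e => e.elim) (fun _ _ => 1)
    (fun _ _ => by simp)
  simpa [ip, pur] using h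

end Vale.Agent.P168.MP
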