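import Vale.Agent.P168.MP.Layers
import Vale.Agent.P168.MP.Purity

/-! Trees labelled by layer indices and their instances at given layer levels. -/

namespace Vale.Agent.P168.MP

mutual
/-- layer indices increase strictly from `lo` on and stay below `L`; nodes have two children -/
def LT.Lay (L : ℕ) : ℕ → LT → Prop
  | _, .leaf => True
  | lo, .node q cs => lo ≤ q ∧ q < L ∧ 2 ≤ cs.length ∧ LT.Lays L (q + 1) cs
/-- layered forests -/
def LT.Lays (L : ℕ) : ℕ → LF → Prop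
  | _, .nil => True
  | lo, .cons c cs => LT.Lay L lo c ∧ LT.Lays L lo cs
end

lemma LT.maps_length (f : ℕ → ℕ) : ∀ cs : LF, (LT.maps f cs).length = cs.length
  | .nil => rfl
  | .cons c cs => by simp [LT.maps, LF.length, LT.maps_length f cs]

mutual
lemma LT.size_map (f : ℕ → ℕ) : ∀ t : LT, (t.map f).size = t.size
  | .leaf => by simp [LT.map]
  | .node l cs => by simp [LT.map, LT.size, LT.sizes_maps f cs]
lemma LT.sizes_maps (f : ℕ → ℕ) : ∀ cs : LF, LT.sizes (LT.maps f cs) = LT.sizes cs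
  | .nil => by simp [LT.maps]
  | .cons c cs => by simp [LT.maps, LT.sizes, LT.size_map f c, LT.sizes_maps f cs]
end

mutual
/-- relabelling acts on the splitting levels -/
lemma LT.lv_map (f : ℕ → ℕ) (R R' : ℕ) : ∀ (t : LT) {i j : ℕ}, i < t.size → j < t.size → i ≠ j →
    (t.map f).lv R' i j = f (t.lv R i j)
  | .leaf, i, j, hi, hj, hne => by simp [LT.size] at hi hj; omega
  | .node l cs, i, j, hi, hj, hne => by
    rw [LT.map, LT.lv, LT.lv]
    simp only [LT.size] at hi hj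
    exact LT.lvs_maps f R R' l cs hi hj hne
lemma LT.lvs_maps (f : ℕ → ℕ) (R R' l : ℕ) : ∀ (cs : LF) {i j : ℕ}, i < LT.sizes cs →
    j < LT.sizes cs → i ≠ j → LT.lvs R' (f l) (LT.maps f cs) i j = f (LT.lvs R l cs i j)
  | .nil, i, j, hi, _, _ => by simp [LT.sizes] at hi
  | .cons c cs, i, j, hi, hj, hne => by
    simp only [LT.sizes] at hi hj
    rw [LT.maps, LT.lvs, LT.lvs, LT.size_map]
    by_cases h1 : i < c.size <;> by_cases h2 : j < c.size
    · simp only [if_pos h1, if_pos h2]; exact LT.lv_map f R R' c h1 h2 hne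
    · simp [if_pos h1, if_neg h2]
    · simp [if_neg h1, if_pos h2]
    · simp only [if_neg h1, if_neg h2]
      exact LT.lvs_maps f R R' l cs (by omega) (by omega) (by omega)
end

mutual
/-- relabelling by an increasing map turns a layered tree into a well-formed one -/
lemma LT.Lay.wf_map {L R : ℕ} {f : ℕ → ℕ} (hf : ∀ q, q < L → f q < R)
    (hmono : ∀ q q', q < q' → q' < L → f q < f q') :
    ∀ (t : LT) {lo lo' : ℕ}, LT.Lay L lo t → (∀ q, lo ≤ q → q < L → lo' < f q) →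
      LT.Wf R lo' (t.map f)
  | .leaf, lo, lo', _, _ => by simp [LT.map, LT.Wf]
  | .node q cs, lo, lo', h, hlo => by
    rw [LT.Lay] at h
    rw [LT.map, LT.Wf, LT.maps_length]
    exact ⟨hlo q h.1 h.2.1, hf q h.2.1, h.2.2.1, LT.Lays.wf_maps hf hmono cs h.2.2.2
      fun q' h1 h2 => hmono q q' h1 h2⟩
lemma LT.Lays.wf_maps {L R : ℕ} {f : ℕ → ℕ} (hf : ∀ q, q < L → f q < R)
    (hmono : ∀ q q', q < q' → q' < L → f q < f q') :
    ∀ (cs : LF) {lo lo' : ℕ}, LT.Lays L lo cs → (∀ q, lo ≤ q → q < L → lo' < f q) →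
      LT.Wfs R lo' (LT.maps f cs)
  | .nil, lo, lo', _, _ => by simp [LT.maps, LT.Wfs]
  | .cons c cs, lo, lo', h, hlo => by
    rw [LT.Lays] at h
    rw [LT.maps, LT.Wfs]
    exact ⟨LT.Lay.wf_map hf hmono c h.1 hlo, LT.Lays.wf_maps hf hmono cs h.2 hlo⟩
end

variable {L : ℕ}

/-- the level of layer `q` -/
def lvl (J : Fin L → ℕ) (q : ℕ) : ℕ := if h : q < L then J ⟨q, h⟩ else 0

lemma LT.atJ_eq (J : Fin L → ℕ) (t : LT) : t.atJ J = t.map (lvl J) := rfl

lemma lvl_of_lt (J : Fin L → ℕ) {q : ℕ} (h : q < L) : lvl J q = J ⟨q, h⟩ := dif_pos h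

lemma LT.size_atJ (J : Fin L → ℕ) (t : LT) : (t.atJ J).size = t.size := LT.size_map _ t

lemma LT.lv_atJ (J : Fin L → ℕ) (R : ℕ) {t : LT} {i j : ℕ} (hi : i < t.size) (hj : j < t.size)
    (hne : i ≠ j) : (t.atJ J).lv R i j = lvl J (t.lv L i j) :=
  LT.lv_map _ L R t hi hj hne

lemma Win.Ok.lvl_range {W : Win L} {c : ℝ} {R : ℕ} (h : W.Ok c R) {J : Fin L → ℕ}
    (hJ : J ∈ W.set) {q : ℕ} (hq : q < L) :
    c * R ≤ lvl J q ∧ 2 ≤ lvl J q ∧ lvl J q + 4 ≤ R := by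
  rw [lvl_of_lt J hq]
  exact h.range hJ _

lemma Win.Ok.lvl_lt {W : Win L} {c : ℝ} {R : ℕ} (h : W.Ok c R) {J : Fin L → ℕ}
    (hJ : J ∈ W.set) {q q' : ℕ} (hq : q < q') (hq' : q' < L) : lvl J q + 3 ≤ lvl J q' := by
  rw [lvl_of_lt J (hq.trans hq'), lvl_of_lt J hq']
  exact h.lt hJ (show (⟨q, hq.trans hq'⟩ : Fin L) < ⟨q', hq'⟩ from hq)

/-- the instance of a layered tree at admissible levels is well formed -/
lemma LT.Lay.wf_atJ {W : Win L} {c : ℝ} {R : ℕ} (h : W.Ok c R) {J : Fin L → ℕ} (hJ : J ∈ W.set)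
    {t : LT} {lo lo' : ℕ} (ht : LT.Lay L lo t) (hlo : ∀ q, lo ≤ q → q < L → lo' < lvl J q) :
    LT.Wf R lo' (t.atJ J) :=
  LT.Lay.wf_map (f := lvl J) (fun q hq => by have := h.lvl_range hJ hq; omega)
    (fun q q' hq hq' => by have := h.lvl_lt hJ hq hq'; omega) t ht hlo

end Vale.Agent.P168.MP
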