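import Vale.Agent.P168.MP.Core
import Vale.Agent.P168.MP.Trunc
import Vale.Agent.P168.MP.Upper.Main

/-! The formula of Mézard and Parisi: assembly of both bounds. -/

namespace Vale.Agent.P168.MP

open MeasureTheory Filter Topology

/-- both bounds together: the pressure tends to the infimum of the trial values -/
theorem formula_of_gainBound {K : ℕ} (hK : Even K) (hK2 : 2 ≤ K) {lam : ℝ} (hlam : 0 ≤ lam)
    (GB : ∀ L : ℝ, 0 ≤ L → GainBound K lam L)
    {μ : Measure (Clause K)} {β : Measure ℝ} {η : Measure (ℝ × ℝ)} {ρ : Measure ℝ}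
    (H : Upper.Hyp μ β η ρ) :
    (mpValues μ ρ lam).Nonempty ∧ BddBelow (mpValues μ ρ lam) ∧
      Tendsto (pressureM μ ρ lam) atTop (𝓝 (sInf (mpValues μ ρ lam))) := by
  have : NeZero K := ⟨by omega⟩
  have := H.pμ; have := H.pρ
  have hh : Integrable (fun y : ℝ => y) ρ := H.hh
  have hne := mpValues_nonempty μ ρ lam
  have hbd : BddBelow (mpValues μ ρ lam) := bddBelow_mpValues H.hθ hh hlam
  refine ⟨hne, hbd, tendsto_sInf hne hbd ?_ ?_⟩
  · rintro v ⟨r, m, x, hm, hm1, hx, hx1, rfl⟩ ε hε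
    filter_upwards [eventually_ge_atTop 1] with N hN
    have : NeZero N := ⟨by omega⟩
    linarith [Upper.pressureM_le H hK hK2 hlam hm hm1 hx hx1 N]
  · exact lower_of_bounded H.hθ hh hlam fun μ' ρ' pμ pρ L hL hμ' hρ' =>
      bounded_lower (GB L hL) hμ' hρ' hL hlam

end Vale.Agent.P168.MP
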