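import Mathlib

/-! Averaging operators and log power means.  An operator `E` maps a function of the nodes to the
function of the nodes (average over the children). -/

namespace Vale.Agent.P168.MP

open Real

variable {N : Type*}

/-- A positive linear unital operator. -/
structure IsMean (E : (N → ℝ) → N → ℝ) : Prop where
  add : ∀ f g x, E (fun y => f y + g y) x = E f x + E g x
  smul : ∀ c f x, E (fun y => c * f y) x = c * E f x
  mono : ∀ f g x, (∀ y, f y ≤ g y) → E f x ≤ E g x
  one : ∀ x, E (fun _ => 1) x = 1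

namespace IsMean

variable {E : (N → ℝ) → N → ℝ} (hE : IsMean E)
include hE

lemma const (c : ℝ) (x : N) : E (fun _ => c) x = c := by
  have := hE.smul c (fun _ => 1) x
  simpa [hE.one x] using this

lemma mul_right (f : N → ℝ) (c : ℝ) (x : N) : E (fun y => f y * c) x = E f x * c := by
  simp only [mul_comm _ c, hE.smul]

lemma sub (f g : N → ℝ) (x : N) : E (fun y => f y - g y) x = E f x - E g x := by
  have h := hE.add (fun y => f y - g y) g x
  simp only [sub_add_cancel] at h
  linarith

lemma sub_const (f : N → ℝ) (c : ℝ) (x : N) : E (fun y => f y - c) x = E f x - c := by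
  rw [hE.sub, hE.const]

lemma le_const (f : N → ℝ) (c : ℝ) (x : N) (h : ∀ y, f y ≤ c) : E f x ≤ c := by
  simpa [hE.const] using hE.mono f (fun _ => c) x h

lemma const_le (f : N → ℝ) (c : ℝ) (x : N) (h : ∀ y, c ≤ f y) : c ≤ E f x := by
  simpa [hE.const] using hE.mono (fun _ => c) f x h

lemma nonneg (f : N → ℝ) (x : N) (h : ∀ y, 0 ≤ f y) : 0 ≤ E f x := hE.const_le f 0 x h

lemma abs_le (f : N → ℝ) (c : ℝ) (x : N) (h : ∀ y, |f y| ≤ c) : |E f x| ≤ c :=
  _root_.abs_le.2 ⟨hE.const_le f _ x fun y => (_root_.abs_le.1 (h y)).1,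
    hE.le_const f _ x fun y => (_root_.abs_le.1 (h y)).2⟩

lemma dist_le (f g : N → ℝ) (c : ℝ) (x : N) (h : ∀ y, |f y - g y| ≤ c) :
    |E f x - E g x| ≤ c := by
  simpa [hE.sub] using hE.abs_le (fun y => f y - g y) c x h

lemma exp_pos (g : N → ℝ) (C : ℝ) (x : N) (hg : ∀ y, |g y| ≤ C) :
    0 < E (fun y => exp (g y)) x :=
  (Real.exp_pos (-C)).trans_le
    (hE.const_le _ _ x fun y => exp_le_exp.2 (_root_.abs_le.1 (hg y)).1)

end IsMean

/-- `log` of the power mean of `exp g` of exponent `t` (`t = 0`: the mean). -/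
noncomputable def lmean (E : (N → ℝ) → N → ℝ) (t : ℝ) (g : N → ℝ) (x : N) : ℝ :=
  if t = 0 then E g x else log (E (fun y => exp (t * g y)) x) / t

section
variable {E : (N → ℝ) → N → ℝ} (hE : IsMean E) {t t' C : ℝ} {g g' : N → ℝ} {x : N}
include hE

lemma exp_mul_lmean (hg : ∀ y, |g y| ≤ C) :
    exp (t * lmean E t g x) = E (fun y => exp (t * g y)) x := by
  unfold lmean
  split_ifs with h
  · subst h; simp [hE.one]
  · rw [mul_div_cancel₀ _ h, exp_log]
    refine hE.exp_pos _ (|t| * C) x fun y => ?_
    rw [abs_mul]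
    exact mul_le_mul_of_nonneg_left (hg y) (abs_nonneg t)

/-- the tilt has total mass one -/
lemma tilt_one (hg : ∀ y, |g y| ≤ C) :
    E (fun y => exp (t * (g y - lmean E t g x))) x = 1 := by
  have h : ∀ y, exp (t * (g y - lmean E t g x))
      = exp (t * g y) * exp (-(t * lmean E t g x)) := fun y => by
    rw [← exp_add]; congr 1; ring
  simp only [h]
  rw [hE.mul_right, ← exp_mul_lmean hE hg, ← exp_add, add_neg_cancel, exp_zero]

lemma lmean_mem (ht : 0 ≤ t) (hg : ∀ y, |g y| ≤ C) : |lmean E t g x| ≤ C := by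
  rcases ht.eq_or_lt with h | h
  · simpa [lmean, h.symm] using hE.abs_le g C x hg
  · have e := exp_mul_lmean hE (t := t) (x := x) hg
    have h1 : exp (t * (-C)) ≤ E (fun y => exp (t * g y)) x :=
      hE.const_le _ _ x fun y =>
        exp_le_exp.2 (mul_le_mul_of_nonneg_left (abs_le.1 (hg y)).1 h.le)
    have h2 : E (fun y => exp (t * g y)) x ≤ exp (t * C) :=
      hE.le_const _ _ x fun y =>
        exp_le_exp.2 (mul_le_mul_of_nonneg_left (abs_le.1 (hg y)).2 h.le)
    rw [← e, exp_le_exp] at h1 h2
    exact abs_le.2 ⟨le_of_mul_le_mul_left h1 h, le_of_mul_le_mul_left h2 h⟩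

lemma lmean_mono (ht : 0 ≤ t) (hg : ∀ y, |g y| ≤ C) (hg' : ∀ y, |g' y| ≤ C)
    (hle : ∀ y, g y ≤ g' y) : lmean E t g x ≤ lmean E t g' x := by
  rcases ht.eq_or_lt with h | h
  · simpa [lmean, h.symm] using hE.mono g g' x hle
  · refine le_of_mul_le_mul_left (exp_le_exp.1 ?_) h
    rw [exp_mul_lmean hE hg, exp_mul_lmean hE hg']
    exact hE.mono _ _ x fun y => exp_le_exp.2 (mul_le_mul_of_nonneg_left (hle y) h.le)

omit hE in
lemma exp_tangent (a b : ℝ) : exp a * (1 + (b - a)) ≤ exp b := by
  calc exp a * (1 + (b - a)) ≤ exp a * exp (b - a) := by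
        gcongr; linarith [add_one_le_exp (b - a)]
    _ = exp b := by rw [← exp_add]; congr 1; ring

/-- Jensen under a weight of mass one -/
lemma exp_weight_le {w v : N → ℝ} (hw : ∀ y, 0 ≤ w y) (hw1 : E w x = 1) :
    exp (E (fun y => w y * v y) x) ≤ E (fun y => w y * exp (v y)) x := by
  set X := E (fun y => w y * v y) x with hX
  have h := hE.mono (fun y => exp X * (w y * v y) + exp X * (1 - X) * w y)
    (fun y => w y * exp (v y)) x fun y => ?_
  · rw [hE.add, hE.smul, hE.smul, hw1, ← hX] at h
    linarith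
  · have := mul_le_mul_of_nonneg_left (exp_tangent X (v y)) (hw y)
    linarith

lemma exp_mean_le (v : N → ℝ) : exp (E v x) ≤ E (fun y => exp (v y)) x := by
  simpa using exp_weight_le hE (w := fun _ => 1) (v := v) (fun _ => zero_le_one) (hE.one x)

/-- monotonicity in the exponent -/
lemma lmean_exp_mono (ht : 0 ≤ t) (htt : t ≤ t') (hg : ∀ y, |g y| ≤ C) :
    lmean E t g x ≤ lmean E t' g x := by
  rcases (ht.trans htt).eq_or_lt with h | hp
  · obtain rfl : t = t' := le_antisymm htt (h ▸ ht)
    exact le_rfl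
  set a := lmean E t g x with ha
  refine le_of_mul_le_mul_left (exp_le_exp.1 ?_) hp
  rw [exp_mul_lmean hE hg]
  rcases ht.eq_or_lt with h | h
  · have : a = E g x := by simp [ha, lmean, h.symm]
    rw [this, ← hE.smul t' g x]
    exact exp_mean_le hE _
  · have hs : 0 ≤ t / t' := by positivity
    have key : ∀ y, exp (t' * a) * exp (t * (g y - a))
        ≤ t / t' * exp (t' * g y) + (1 - t / t') * exp (t' * a) := fun y => by
      have := convexOn_exp.2 (Set.mem_univ (t' * g y)) (Set.mem_univ (t' * a)) hs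
        (sub_nonneg.2 ((div_le_one hp).2 htt)) (by ring)
      simp only [smul_eq_mul] at this
      rw [← exp_add]
      rw [show t' * a + t * (g y - a) = t / t' * (t' * g y) + (1 - t / t') * (t' * a) by
        field_simp; ring]
      exact this
    have := hE.mono _ _ x key
    rw [hE.smul, tilt_one hE hg, hE.add, hE.smul, hE.const] at this
    have hpos : 0 < t / t' := by positivity
    refine le_of_mul_le_mul_left ?_ hpos
    linarith

/-- the increase of the log power mean is bounded by the mean under the tilt -/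
lemma lmean_sub_le (ht : 0 ≤ t) (hg : ∀ y, |g y| ≤ C) (hg' : ∀ y, |g' y| ≤ C) :
    lmean E t g' x - lmean E t g x ≤
      E (fun y => exp (t * (g' y - lmean E t g' x)) * (g' y - g y)) x := by
  rcases ht.eq_or_lt with h | h
  · simp [lmean, h.symm, hE.sub]
  set a' := lmean E t g' x with ha'
  set X := E (fun y => exp (t * (g' y - a')) * (g' y - g y)) x with hX
  have := exp_weight_le hE (w := fun y => exp (t * (g' y - a')))
    (v := fun y => -t * (g' y - g y)) (fun y => (Real.exp_pos _).le) (tilt_one hE hg')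
  have e1 : E (fun y => exp (t * (g' y - a')) * (-t * (g' y - g y))) x = -t * X := by
    rw [hX, ← hE.smul]; congr 1; funext y; ring
  have e2 : E (fun y => exp (t * (g' y - a')) * exp (-t * (g' y - g y))) x
      = exp (t * lmean E t g x) * exp (-(t * a')) := by
    rw [exp_mul_lmean hE hg, ← hE.mul_right]; congr 1; funext y
    rw [← exp_add, ← exp_add]; congr 1; ring
  rw [e1, e2, ← exp_add, exp_le_exp] at this
  refine le_of_mul_le_mul_left ?_ h
  linarith

lemma var_shift (c : ℝ) : E (fun y => (g y - c) ^ 2) x = (E (fun y => (g y - E g x) ^ 2) x) + (E g x - c) ^ 2 := by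
  have h : ∀ y, (g y - c) ^ 2
      = (g y - E g x) ^ 2 + (2 * (E g x - c) * (g y - E g x) + (E g x - c) ^ 2) :=
    fun y => by ring
  simp only [h]
  rw [hE.add, hE.add, hE.const, hE.smul, hE.sub_const]
  ring

/-- upper bound for the increase in the exponent -/
lemma lmean_exp_sub_le (ht : 0 ≤ t) (htt : t ≤ t') (h1 : t' ≤ 1) (hg : ∀ y, |g y| ≤ C) :
    lmean E t' g x - lmean E t g x
      ≤ exp (2 * C) * (1 + 2 * C * exp (2 * C)) * (t' - t) * (E (fun y => (g y - E g x) ^ 2) x) := by
  have hC : 0 ≤ C := (abs_nonneg _).trans (hg x)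
  set B := exp (2 * C) with hB
  have hB1 : 1 ≤ B := one_le_exp (by linarith)
  have hD : 0 ≤ (E (fun y => (g y - E g x) ^ 2) x) := hE.nonneg _ x fun y => sq_nonneg _
  -- the bound before shifting
  have step : ∀ s s' : ℝ, 0 ≤ s → s ≤ s' → s' ≤ 1 →
      s' * (lmean E s' g x - lmean E s g x)
        ≤ (s' - s) * (E g x - lmean E s g x)
          + (s' - s) * s' * B * ((E (fun y => (g y - E g x) ^ 2) x) + (E g x - lmean E s g x) ^ 2) := by
    intro s s' hs hss hs1
    set a := lmean E s g x with ha
    have hu : ∀ y, |g y - a| ≤ 2 * C := fun y => by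
      have := lmean_mem hE (x := x) hs hg
      calc |g y - a| ≤ |g y| + |a| := abs_sub _ _
        _ ≤ 2 * C := by linarith [hg y]
    have key : ∀ y, exp (s' * (g y - a)) ≤ exp (s * (g y - a))
        + ((s' - s) * (g y - a) + (s' - s) * s' * B * (g y - a) ^ 2) := fun y => by
      set u := g y - a with hudef
      have i1 := exp_tangent (s' * u) (s * u)
      have i2 : u * exp (s' * u) ≤ u + s' * B * u ^ 2 := by
        rcases le_total 0 u with hu0 | hu0
        · have j1 := exp_tangent (s' * u) 0
          rw [exp_zero] at j1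
          have j2 : exp (s' * u) ≤ B := exp_le_exp.2 (by
            have : s' * u ≤ u := mul_le_of_le_one_left hu0 hs1
            linarith [(abs_le.1 (hu y)).2])
          nlinarith [mul_le_mul_of_nonneg_left j2
            (mul_nonneg (hs.trans hss) (sq_nonneg u)), mul_le_mul_of_nonneg_left j1 hu0]
        · have j1 := add_one_le_exp (s' * u)
          nlinarith [mul_le_mul_of_nonpos_left j1 hu0, mul_nonneg (hs.trans hss) (sq_nonneg u)]
      nlinarith [mul_le_mul_of_nonneg_left i2 (sub_nonneg.2 hss)]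
    have := hE.mono _ _ x key
    rw [hE.add, hE.add, hE.smul, hE.smul, tilt_one hE hg, hE.sub_const, var_shift hE] at this
    have e : E (fun y => exp (s' * (g y - a))) x = exp (s' * (lmean E s' g x - a)) := by
      rw [mul_sub, sub_eq_add_neg, exp_add, exp_mul_lmean hE hg, ← hE.mul_right]
      congr 1; funext y; rw [← exp_add]; congr 1; ring
    rw [e] at this
    linarith [add_one_le_exp (s' * (lmean E s' g x - a))]
  -- distance from the mean
  have hδ : lmean E t g x - E g x ≤ B * (E (fun y => (g y - E g x) ^ 2) x) := by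
    rcases ht.eq_or_lt with h | h
    · simp [lmean, h.symm]; positivity
    · have := step 0 t le_rfl ht (htt.trans h1)
      simp only [lmean, if_true, sub_self, sub_zero] at this
      have h2 : t * (B * (E (fun y => (g y - E g x) ^ 2) x)) ≤ 1 * (B * (E (fun y => (g y - E g x) ^ 2) x)) :=
        mul_le_mul_of_nonneg_right (htt.trans h1) (mul_nonneg (by linarith) hD)
      refine le_of_mul_le_mul_left ?_ h
      simp only [lmean] at *
      nlinarith
  have hδ0 : E g x ≤ lmean E t g x := by
    simpa [lmean] using lmean_exp_mono hE (x := x) le_rfl ht hg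
  have hδC : lmean E t g x - E g x ≤ 2 * C := by
    linarith [(abs_le.1 (lmean_mem hE (x := x) ht hg)).2, (abs_le.1 (hE.abs_le g C x hg)).1]
  have hsq : (E g x - lmean E t g x) ^ 2 ≤ 2 * C * (B * (E (fun y => (g y - E g x) ^ 2) x)) := by
    rw [show (E g x - lmean E t g x) ^ 2
      = (lmean E t g x - E g x) * (lmean E t g x - E g x) by ring]
    exact mul_le_mul hδC hδ (by linarith) (by linarith)
  rcases (ht.trans htt).eq_or_lt with h | h
  · obtain rfl : t = t' := le_antisymm htt (h ▸ ht)
    simp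
  refine le_of_mul_le_mul_left ?_ h
  have := step t t' ht htt h1
  nlinarith [mul_le_mul_of_nonneg_left hsq
      (mul_nonneg (mul_nonneg (sub_nonneg.2 htt) h.le) (by linarith : (0:ℝ) ≤ B)),
    mul_nonneg (sub_nonneg.2 htt) (sub_nonneg.2 hδ0)]

/-- one step of the energy bound -/
lemma lmean_energy (ht : 0 ≤ t) (h1 : t ≤ 1) (hg : ∀ y, |g y| ≤ C) :
    exp (2 * lmean E t g x) + exp (-(2 * C)) * (E (fun y => (g y - E g x) ^ 2) x) ≤ E (fun y => exp (2 * g y)) x := by
  set a := lmean E 1 g x with ha
  have ea : exp a = E (fun y => exp (g y)) x := by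
    simpa using exp_mul_lmean hE (t := (1:ℝ)) (x := x) hg
  have haC := abs_le.1 (lmean_mem hE (x := x) zero_le_one hg)
  have key : ∀ y, exp (-(2 * C)) * (g y - a) ^ 2
      ≤ exp (2 * g y) + (-(2 * exp a) * exp (g y) + exp a * exp a) := fun y => by
    have hh : exp (-C) * |g y - a| ≤ |exp (g y) - exp a| := by
      rcases le_total a (g y) with h | h
      · rw [abs_of_nonneg (sub_nonneg.2 h), abs_of_nonneg (sub_nonneg.2 (exp_le_exp.2 h))]
        nlinarith [exp_tangent a (g y),
          mul_le_mul_of_nonneg_right (exp_le_exp.2 haC.1) (sub_nonneg.2 h)]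
      · rw [abs_of_nonpos (sub_nonpos.2 h), abs_of_nonpos (sub_nonpos.2 (exp_le_exp.2 h))]
        nlinarith [exp_tangent (g y) a,
          mul_le_mul_of_nonneg_right (exp_le_exp.2 (abs_le.1 (hg y)).1) (sub_nonneg.2 h)]
    have := mul_self_le_mul_self (by positivity) hh
    rw [mul_mul_mul_comm, abs_mul_abs_self, abs_mul_abs_self, ← exp_add] at this
    calc exp (-(2 * C)) * (g y - a) ^ 2 = exp (-C + -C) * ((g y - a) * (g y - a)) := by
          rw [show -C + -C = -(2 * C) by ring]; ring
      _ ≤ _ := this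
      _ = _ := by rw [two_mul (g y), exp_add]; ring
  have := hE.mono _ _ x key
  rw [hE.smul, hE.add, hE.add, hE.smul, hE.const, ← ea, var_shift hE] at this
  have h3 : exp (2 * lmean E t g x) ≤ exp a * exp a := by
    rw [← exp_add, exp_le_exp]; linarith [lmean_exp_mono hE (x := x) ht h1 hg]
  nlinarith [mul_nonneg (Real.exp_pos (-(2 * C))).le (sq_nonneg (E g x - a))]

end

end Vale.Agent.P168.MP
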