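import Vale.Agent.P168.MP.Moments

/-! Tree expectations: the law of the leaves of a tree under averaging operators, kernels and
products of kernels over slots, and the comparison of joint and product moments. -/

namespace Vale.Agent.P168.MP

open Finset

/-- positive linear unital functional -/
structure IsExp {α : Type*} (F : (α → ℝ) → ℝ) : Prop where
  add : ∀ f g, F (fun y => f y + g y) = F f + F g
  smul : ∀ c f, F (fun y => c * f y) = c * F f
  mono : ∀ f g, (∀ y, f y ≤ g y) → F f ≤ F g
  one : F (fun _ => 1) = 1

namespace IsExp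

variable {α : Type*} {F : (α → ℝ) → ℝ} (hF : IsExp F)
include hF

lemma const (c : ℝ) : F (fun _ => c) = c := by simpa [hF.one] using hF.smul c fun _ => 1

lemma mul_right (f : α → ℝ) (c : ℝ) : F (fun y => f y * c) = F f * c := by
  simp only [mul_comm _ c, hF.smul]

lemma sub (f g : α → ℝ) : F (fun y => f y - g y) = F f - F g := by
  have h := hF.add (fun y => f y - g y) g
  simp only [sub_add_cancel] at h
  linarith

lemma sum {κ : Type*} (s : Finset κ) (f : κ → α → ℝ) :
    F (fun y => ∑ i ∈ s, f i y) = ∑ i ∈ s, F (f i) := by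
  classical
  induction s using Finset.induction_on with
  | empty => simpa using hF.const 0
  | insert i s hi ih => simp only [sum_insert hi, hF.add, ih]

lemma abs_le (f : α → ℝ) : |F f| ≤ F fun y => |f y| :=
  _root_.abs_le.2 ⟨by
    have := hF.mono (fun y => (-1) * |f y|) f fun y => by linarith [neg_abs_le (f y)]
    rw [hF.smul] at this; linarith, hF.mono _ _ fun y => le_abs_self _⟩

lemma abs_le_one (f : α → ℝ) (h : ∀ y, |f y| ≤ 1) : |F f| ≤ 1 :=
  (hF.abs_le f).trans ((hF.mono _ _ h).trans_eq hF.one)

/-- joint against product expectation of bounded variables -/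
lemma prod_sub_le {κ : Type*} (s : Finset κ) (f : κ → α → ℝ) (h : ∀ i ∈ s, ∀ y, |f i y| ≤ 1) :
    |F (fun y => ∏ i ∈ s, f i y) - ∏ i ∈ s, F (f i)| ≤
      ∑ i ∈ s, F fun y => |f i y - F (f i)| := by
  have key : ∀ y, |∏ i ∈ s, f i y - ∏ i ∈ s, F (f i)| ≤ ∑ i ∈ s, |f i y - F (f i)| := fun y => by
    classical
    induction s using Finset.induction_on with
    | empty => simp
    | insert i s hi ih =>
      have hi1 := h i (mem_insert_self i s)
      have hs := fun x (hx : x ∈ s) => h x (mem_insert_of_mem hx)
      rw [prod_insert hi, prod_insert hi, sum_insert hi,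
        show f i y * ∏ x ∈ s, f x y - F (f i) * ∏ x ∈ s, F (f x)
          = (f i y - F (f i)) * ∏ x ∈ s, f x y
            + F (f i) * (∏ x ∈ s, f x y - ∏ x ∈ s, F (f x)) by ring]
      refine (abs_add_le _ _).trans (add_le_add ?_ ?_)
      · rw [abs_mul, abs_prod]
        exact mul_le_of_le_one_right (abs_nonneg _)
          (prod_le_one (fun x _ => abs_nonneg _) fun x hx => hs x hx y)
      · rw [abs_mul]
        exact (mul_le_of_le_one_left (abs_nonneg _) (hF.abs_le_one _ hi1)).trans (ih hs)
  rw [← hF.const (∏ i ∈ s, F (f i)), ← hF.sub]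
  exact (hF.abs_le _).trans ((hF.mono _ _ key).trans_eq (hF.sum s _))

end IsExp

variable {N : Type*}

lemma IsMean.isExp {E : (N → ℝ) → N → ℝ} (hE : IsMean E) (x : N) : IsExp fun f => E f x :=
  ⟨fun f g => hE.add f g x, fun c f => hE.smul c f x, fun f g => hE.mono f g x, hE.one x⟩

/-- number of leaves of a tree `k` levels deep -/
def Tree.size : ℕ → Tree → ℕ
  | 0, t => t.children.length
  | k + 1, t => (t.children.map (Tree.size k)).sum

/-- expectation over the concatenation of the leaves of a forest -/
def forestE {α : Type*} (F : Tree → (List α → ℝ) → ℝ) : List Tree → (List α → ℝ) → ℝ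
  | [], H => H []
  | c :: cs, H => F c fun a => forestE F cs fun b => H (a ++ b)

/-- expectation of a function of the list of the leaves of a tree -/
noncomputable def treeE (E : ℕ → (N → ℝ) → N → ℝ) :
    ℕ → ℕ → Tree → (List N → ℝ) → N → ℝ
  | _, 0, t, H, x => H (List.replicate t.children.length x)
  | l, k + 1, t, H, x =>
      forestE (fun c G => E l (fun y => treeE E (l + 1) k c G y) x) t.children H

variable {E : ℕ → (N → ℝ) → N → ℝ}

lemma isExp_forestE {α : Type*} {F : Tree → (List α → ℝ) → ℝ} (hF : ∀ c, IsExp (F c)) :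
    ∀ cs, IsExp (forestE F cs)
  | [] => ⟨fun _ _ => rfl, fun _ _ => rfl, fun _ _ h => h _, rfl⟩
  | c :: cs => by
    have ih := isExp_forestE hF cs
    refine ⟨fun f g => ?_, fun r f => ?_, fun f g h => ?_, ?_⟩
    · simp only [forestE, ih.add, (hF c).add]
    · simp only [forestE, ih.smul, (hF c).smul]
    · exact (hF c).mono _ _ fun a => ih.mono _ _ fun b => h _
    · simp only [forestE, ih.one, (hF c).one]

lemma isExp_treeE (hE : ∀ l, IsMean (E l)) :
    ∀ k l t x, IsExp fun H => treeE E l k t H x
  | 0, l, t, x => ⟨fun _ _ => rfl, fun _ _ => rfl, fun _ _ h => h _, rfl⟩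
  | k + 1, l, t, x => isExp_forestE (fun c => by
      have ih := fun y => isExp_treeE hE k (l + 1) c y
      refine ⟨fun f g => ?_, fun r f => ?_, fun f g h => (hE l).mono _ _ x fun y => (ih y).mono _ _ h,
        ?_⟩
      · simp only [(ih _).add, (hE l).add]
      · simp only [(ih _).smul, (hE l).smul]
      · simp only [(ih _).one, (hE l).one]) t.children

/-- the leaves matter only through lists of length `size` -/
lemma treeE_congr : ∀ k l t x (H H' : List N → ℝ),
    (∀ ls : List N, ls.length = Tree.size k t → H ls = H' ls) →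
      treeE E l k t H x = treeE E l k t H' x
  | 0, l, t, x, H, H', h => h _ (by simp [Tree.size])
  | k + 1, l, t, x, H, H', h => by
    simp only [treeE, Tree.size] at h ⊢
    revert h
    generalize t.children = cs
    intro h
    induction cs generalizing H H' with
    | nil => exact h [] (by simp)
    | cons c cs ih =>
      simp only [forestE]
      congr 1; funext y
      exact treeE_congr k (l + 1) c y _ _ fun a ha => ih _ _ fun b hb => h _ (by
        simp [ha] at hb ⊢; exact hb)

lemma mono_eq_treeE (hE : ∀ l, IsMean (E l)) (Y : N → ℝ) :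
    ∀ k l t x, mono E Y l k t x = treeE E l k t (fun ls => (ls.map Y).prod) x
  | 0, l, t, x => by simp [mono, treeE]
  | k + 1, l, t, x => by
    simp only [mono, treeE]
    generalize t.children = cs
    induction cs with
    | nil => simp [forestE]
    | cons c cs ih =>
      simp only [List.map_cons, List.prod_cons, forestE, List.map_append, List.prod_append]
      rw [ih, show mono E Y (l + 1) k c = fun y => treeE E (l + 1) k c (fun ls => (ls.map Y).prod) y
        from funext fun y => mono_eq_treeE hE Y k (l + 1) c y, ← (hE l).mul_right]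
      congr 1; funext y
      have hfe : ∀ r, forestE (fun c G => E l (fun y => treeE E (l + 1) k c G y) x) cs
          (fun b : List N => r * (b.map Y).prod)
          = r * forestE (fun c G => E l (fun y => treeE E (l + 1) k c G y) x) cs
              fun b => (b.map Y).prod :=
        fun r => (isExp_forestE (fun c => ⟨fun f g => by simp only [(isExp_treeE hE k (l + 1) c _).add, (hE l).add],
          fun a f => by simp only [(isExp_treeE hE k (l + 1) c _).smul, (hE l).smul],
          fun f g h => (hE l).mono _ _ x fun y => (isExp_treeE hE k (l + 1) c y).mono _ _ h,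
          by simp only [(isExp_treeE hE k (l + 1) c _).one, (hE l).one]⟩) cs).smul r _
      simp only [hfe, (isExp_treeE hE k (l + 1) c y).mul_right]

/-! ### Kernels and their products over slots -/

variable {A : ℕ → Type*} [∀ q, Fintype (A q)]

/-- averaging operator of a kernel -/
def kMean (p : ∀ q, N → A q → ℝ) (nxt : ∀ q, N → A q → N) (q : ℕ) (f : N → ℝ) (x : N) : ℝ :=
  ∑ a, p q x a * f (nxt q x a)

lemma isMean_kMean {p : ∀ q, N → A q → ℝ} {nxt : ∀ q, N → A q → N} {q : ℕ}
    (h0 : ∀ x a, 0 ≤ p q x a) (h1 : ∀ x, ∑ a, p q x a = 1) : IsMean (kMean p nxt q) where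
  add f g x := by simp only [kMean, mul_add, sum_add_distrib]
  smul c f x := by simp only [kMean, mul_sum]; exact sum_congr rfl fun a _ => by ring
  mono f g x h := sum_le_sum fun a _ => mul_le_mul_of_nonneg_left (h _) (h0 x a)
  one x := by simp [kMean, h1]

variable {ι : Type*} [Fintype ι] [DecidableEq ι]

/-- independent kernels in the slots -/
def piMean (p : ∀ q, N → A q → ℝ) (nxt : ∀ q, N → A q → N) (q : ℕ) (f : (ι → N) → ℝ)
    (xs : ι → N) : ℝ :=
  kMean (A := fun q => ι → A q) (fun q xs a => ∏ i, p q (xs i) (a i))
    (fun q xs a i => nxt q (xs i) (a i)) q f xs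

variable {p : ∀ q, N → A q → ℝ} {nxt : ∀ q, N → A q → N}

lemma isMean_piMean {q : ℕ} (h0 : ∀ x a, 0 ≤ p q x a) (h1 : ∀ x, ∑ a, p q x a = 1) :
    IsMean (piMean (ι := ι) p nxt q) :=
  isMean_kMean (A := fun q => ι → A q) (p := fun q (xs : ι → N) a => ∏ i, p q (xs i) (a i))
    (nxt := fun q (xs : ι → N) a i => nxt q (xs i) (a i))
    (fun xs a => prod_nonneg fun i _ => h0 _ _) fun xs => by
      rw [← Fintype.prod_sum fun i => p q (xs i)]
      simp [h1]

lemma piMean_prod (q : ℕ) (f : ι → N → ℝ) (xs : ι → N) :
    piMean p nxt q (fun ys => ∏ i, f i (ys i)) xs = ∏ i, kMean p nxt q (f i) (xs i) := by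
  simp only [piMean, kMean, ← prod_mul_distrib]
  rw [Fintype.prod_sum fun i a => p q (xs i) a * f i (nxt q (xs i) a)]

/-- tree expectations factorise over the slots -/
lemma treeE_pi : ∀ k l t (xs : ι → N) (G : ι → List N → ℝ),
    treeE (fun q => piMean p nxt q) l k t (fun ls => ∏ i, G i (ls.map fun ys => ys i)) xs
      = ∏ i, treeE (fun q => kMean p nxt q) l k t (G i) (xs i)
  | 0, l, t, xs, G => by simp [treeE]
  | k + 1, l, t, xs, G => by
    simp only [treeE]
    generalize t.children = cs
    induction cs generalizing G with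
    | nil => simp [forestE]
    | cons c cs ih =>
      simp only [forestE, List.map_append]
      rw [← piMean_prod]
      congr 1; funext ys
      rw [← treeE_pi k (l + 1) c ys]
      congr 1; funext a
      exact ih fun i b => G i (a.map (fun ys => ys i) ++ b)

end Vale.Agent.P168.MP
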