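import Vale.Agent.P168.MP.Node
import Vale.Agent.P168.MP.Blocks
import Vale.Agent.P168.MP.TreeExp

/-! Tree moments of the coarse structure as replica expectations, and the comparison of the true
blocks with independent slots (ROUTE D').

A tree at layer `1` of depth `k` has the layer levels `J 1, …, J (k+1)`; its leaves are replicas in
depth-first order, each one hanging from the previous one at the level of their splitting layer. -/

namespace Vale.Agent.P168.MP

open Finset

/-! ### trees with one function per leaf -/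

section generic
variable {X : Type*}

/-- product over a forest, the leaves of each tree following those of the previous ones -/
noncomputable def prodFs (c : Tree → ℕ) (F : Tree → (ℕ → X → ℝ) → X → ℝ) :
    List Tree → (ℕ → X → ℝ) → X → ℝ
  | [], _, _ => 1
  | t :: ts, Y, x => F t Y x * prodFs c F ts (fun j => Y (j + c t)) x

/-- tree moment with the function `Y j` at the leaf number `j` -/
noncomputable def monoF (E : ℕ → (X → ℝ) → X → ℝ) : ℕ → ℕ → Tree → (ℕ → X → ℝ) → X → ℝ
  | _, 0, t, Y => fun x => ∏ j ∈ range t.children.length, Y j x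
  | l, k + 1, t, Y =>
      prodFs (Tree.size k) (fun c Z x => E l (monoF E (l + 1) k c Z) x) t.children Y

lemma monoF_const (E : ℕ → (X → ℝ) → X → ℝ) (Y : X → ℝ) :
    ∀ (k l : ℕ) (t : Tree), monoF E l k t (fun _ => Y) = mono E Y l k t
  | 0, l, t => by funext x; simp [monoF, mono]
  | k + 1, l, t => by
    funext x
    simp only [monoF, mono]
    generalize t.children = cs
    induction cs with
    | nil => simp [prodFs]
    | cons c cs ih => simp only [prodFs, List.map_cons, List.prod_cons, monoF_const E Y k, ih]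

/-- two independent systems: product test functions split -/
lemma monoF_prod {A : Type*} {Q : ℕ} (E : ℕ → ((Fin Q → A) → ℝ) → (Fin Q → A) → ℝ)
    (E' : ℕ → (A → ℝ) → A → ℝ)
    (hE : ∀ l (f : Fin Q → A → ℝ) s, E l (fun x => ∏ a, f a (x a)) s = ∏ a, E' l (f a) (s a)) :
    ∀ (k l : ℕ) (t : Tree) (g : ℕ → Fin Q → A → ℝ) (s : Fin Q → A),
      monoF E l k t (fun j x => ∏ a, g j a (x a)) s
        = ∏ a, monoF E' l k t (fun j => g j a) (s a)
  | 0, l, t, g, s => by simp only [monoF]; exact Finset.prod_comm
  | k + 1, l, t, g, s => by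
    simp only [monoF]
    generalize t.children = cs
    induction cs generalizing g with
    | nil => simp [prodFs]
    | cons c cs ih =>
      simp only [prodFs]
      rw [ih fun j => g (j + Tree.size k c), Finset.prod_mul_distrib]
      congr 1
      rw [← hE]
      congr 1
      funext x
      exact monoF_prod E E' hE k (l + 1) c g x

/-- extension of an assignment of the leaves -/
def extA {α : Type*} [Inhabited α] {n : ℕ} (σ : Fin n → α) (j : ℕ) : α :=
  if h : j < n then σ ⟨j, h⟩ else default

lemma extA_lt {α : Type*} [Inhabited α] {n : ℕ} (σ : Fin n → α) {j : ℕ} (h : j < n) :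
    extA σ j = σ ⟨j, h⟩ := dif_pos h

lemma monoF_congr (E : ℕ → (X → ℝ) → X → ℝ) :
    ∀ (k l : ℕ) (t : Tree) (Y Y' : ℕ → X → ℝ), (∀ j < Tree.size k t, Y j = Y' j) →
      monoF E l k t Y = monoF E l k t Y'
  | 0, l, t, Y, Y', h => by
    funext x
    simp only [monoF]
    exact prod_congr rfl fun j hj => by rw [h j (by simpa [Tree.size] using hj)]
  | k + 1, l, t, Y, Y', h => by
    funext x
    simp only [monoF, Tree.size] at h ⊢
    revert h
    generalize t.children = cs
    intro h
    induction cs generalizing Y Y' with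
    | nil => simp [prodFs]
    | cons c cs ih =>
      simp only [List.map_cons, List.sum_cons] at h
      simp only [prodFs]
      rw [monoF_congr E k (l + 1) c Y Y' fun j hj => h j (by omega),
        ih (fun j => Y (j + Tree.size k c)) (fun j => Y' (j + Tree.size k c)) fun j hj =>
          h _ (by omega)]

variable {α : Type*} [Fintype α] [Inhabited α]

omit [Inhabited α] in
lemma sum_append {n₁ n₂ : ℕ} (F : (Fin (n₁ + n₂) → α) → ℝ) :
    ∑ σ, F σ = ∑ σ₁ : Fin n₁ → α, ∑ σ₂ : Fin n₂ → α, F (Fin.append σ₁ σ₂) := by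
  rw [← Fintype.sum_prod_type' (f := fun σ₁ σ₂ => F (Fin.append σ₁ σ₂))]
  exact (Equiv.sum_comp (Fin.appendEquiv n₁ n₂) F).symm

/-- multilinear expansion -/
lemma monoF_expand (E : ℕ → (X → ℝ) → X → ℝ)
    (add : ∀ l f g x, E l (fun y => f y + g y) x = E l f x + E l g x)
    (smul : ∀ l c f x, E l (fun y => c * f y) x = c * E l f x) (c : α → ℝ) :
    ∀ (k l : ℕ) (t : Tree) (Z : ℕ → α → X → ℝ) (x : X),
      monoF E l k t (fun j y => ∑ a, c a * Z j a y) x
        = ∑ σ : Fin (Tree.size k t) → α,
            (∏ j, c (σ j)) * monoF E l k t (fun j => Z j (extA σ j)) x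
  | 0, l, t, Z, x => by
    simp only [monoF, Tree.size]
    rw [← Fin.prod_univ_eq_prod_range (fun j => ∑ a, c a * Z j a x), Fintype.prod_sum]
    refine sum_congr rfl fun σ _ => ?_
    rw [← Fin.prod_univ_eq_prod_range (fun j => Z j (extA σ j) x)]
    refine Finset.prod_mul_distrib.trans (congrArg _ ?_)
    exact prod_congr rfl fun j _ => by rw [extA_lt σ j.2]
  | k + 1, l, t, Z, x => by
    have hsum : ∀ {β : Type _} (s : Finset β) (f : β → X → ℝ),
        E l (fun y => ∑ b ∈ s, f b y) x = ∑ b ∈ s, E l (f b) x := by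
      intro β s f
      classical
      induction s using Finset.induction_on with
      | empty => simpa using smul l 0 (fun _ => 0) x
      | insert b s hb ih => simp only [sum_insert hb, add, ih]
    simp only [monoF]
    show _ = ∑ σ : Fin (t.children.map (Tree.size k)).sum → α, (∏ j, c (σ j)) *
      prodFs (Tree.size k) (fun d W y => E l (monoF E (l + 1) k d W) y) t.children
        (fun j => Z j (extA σ j)) x
    generalize t.children = cs
    induction cs generalizing Z with
    | nil =>
      show (1 : ℝ) = ∑ σ : Fin 0 → α, _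
      simp [prodFs]
      exact (Finset.prod_eq_one fun j _ => j.elim0).symm
    | cons t cs ih =>
      simp only [prodFs]
      rw [show monoF E (l + 1) k t (fun j y => ∑ a, c a * Z j a y) = fun y => _ from
        funext (monoF_expand E add smul c k (l + 1) t Z), hsum, ih fun j => Z (j + Tree.size k t),
        sum_mul_sum]
      have e := sum_append (n₁ := Tree.size k t) (n₂ := (cs.map (Tree.size k)).sum) fun σ =>
        (∏ j, c (σ j)) * (E l (monoF E (l + 1) k t fun j => Z j (extA σ j)) x *
          prodFs (Tree.size k) (fun d W y => E l (monoF E (l + 1) k d W) y) cs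
            (fun j => Z (j + Tree.size k t) (extA σ (j + Tree.size k t))) x)
      refine Eq.trans ?_ e.symm
      refine sum_congr rfl fun σ₁ _ => sum_congr rfl fun σ₂ _ => ?_
      have h1 : monoF E (l + 1) k t
          (fun j => Z j (extA (Fin.append σ₁ σ₂) j)) = monoF E (l + 1) k t
          (fun j => Z j (extA σ₁ j)) := monoF_congr E k _ t _ _ fun j hj => by
        rw [extA_lt σ₁ hj, extA_lt _ (Nat.lt_add_right _ hj)]
        exact congrArg (Z j) (Fin.append_left σ₁ σ₂ ⟨j, hj⟩)
      have h2 := congrFun (monoF_congr E (k + 1) l (.node cs)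
          (fun j => Z (j + Tree.size k t) (extA (Fin.append σ₁ σ₂) (j + Tree.size k t)))
          (fun j => Z (j + Tree.size k t) (extA σ₂ j)) fun j hj => by
        simp only [Tree.size, Tree.children_node] at hj
        rw [extA_lt σ₂ hj, extA_lt _ (by omega)]
        refine congrArg (Z _) ?_
        rw [← Fin.append_right σ₁ σ₂ ⟨j, hj⟩]
        congr 1
        ext
        simp [add_comm]) x
      simp only [monoF, Tree.children_node] at h2
      rw [h1, h2, Fin.prod_univ_add]
      simp only [Fin.append_left, Fin.append_right, smul]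
      ring

end generic

/-! ### attachment lists in layer indices -/

/-- change the first entry -/
def setHead (a : ℕ) : List ℕ → List ℕ
  | [] => []
  | _ :: gs => a :: gs

/-- the layer at which each leaf leaves the previous one, for a tree at layer `l` -/
def lg : ℕ → ℕ → Tree → List ℕ
  | l, 0, t => List.replicate t.children.length l
  | l, k + 1, t => t.children.flatMap fun c => setHead l (lg (l + 1) k c)

/-- replicas `n, n+1, …`, each hanging from the previous one at the given levels -/
def chainFrom : ℕ → List ℕ → List (ℕ × ℕ)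
  | _, [] => []
  | n, g :: gs => chainFrom (n + 1) gs ++ [(n - 1, g)]

/-- the attachment list of a tree at layer `1`, in layer indices -/
def layT (k : ℕ) (t : Tree) : List (ℕ × ℕ) := chainFrom 0 (setHead 0 (lg 1 k t))

/-- the attachment list of a tree at layer `1` at the levels `J` -/
def lvT (J : ℕ → ℕ) (k : ℕ) (t : Tree) : List (ℕ × ℕ) := (layT k t).map fun x => (x.1, J x.2)

/-- the layer at which two leaves split -/
def lay (k : ℕ) (t : Tree) (i j : ℕ) : ℕ := sp (k + 2) (layT k t) i j

lemma length_setHead (a : ℕ) (gs : List ℕ) : (setHead a gs).length = gs.length := by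
  cases gs <;> rfl

lemma map_setHead (f : ℕ → ℕ) (a : ℕ) (gs : List ℕ) :
    (setHead a gs).map f = setHead (f a) (gs.map f) := by
  cases gs <;> rfl

lemma length_lg : ∀ (k l : ℕ) (t : Tree), (lg l k t).length = Tree.size k t
  | 0, l, t => by simp [lg, Tree.size]
  | k + 1, l, t => by
    simp only [lg, Tree.size, List.length_flatMap, length_setHead, length_lg k]

lemma mem_lg : ∀ (k l : ℕ) (t : Tree), ∀ g ∈ lg l k t, l ≤ g ∧ g ≤ l + k
  | 0, l, t => by simp [lg]
  | k + 1, l, t => by
    intro g hg
    simp only [lg, List.mem_flatMap] at hg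
    obtain ⟨c, -, hg⟩ := hg
    have h := mem_lg k (l + 1) c
    cases hc : lg (l + 1) k c with
    | nil => simp [hc, setHead] at hg
    | cons b gs =>
      rw [hc] at hg h
      rcases List.mem_cons.1 hg with rfl | hg
      · omega
      · have := h g (List.mem_cons_of_mem _ hg); omega

lemma lg_head : ∀ (k l : ℕ) (t : Tree), lg l k t = setHead l (lg l k t)
  | 0, l, t => by
    simp only [lg]
    generalize t.children = cs
    cases cs <;> simp [setHead, List.replicate_succ]
  | k + 1, l, t => by
    simp only [lg]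
    generalize t.children = cs
    induction cs with
    | nil => rfl
    | cons c cs ih =>
      rw [List.flatMap_cons]
      cases lg (l + 1) k c with
      | nil => simpa [setHead] using ih
      | cons b gs => rfl

lemma length_chainFrom : ∀ (n : ℕ) (gs : List ℕ), (chainFrom n gs).length = gs.length
  | _, [] => rfl
  | n, g :: gs => by simp [chainFrom, length_chainFrom (n + 1) gs]

lemma chainFrom_map (f : ℕ → ℕ) : ∀ (n : ℕ) (gs : List ℕ),
    (chainFrom n gs).map (fun x => (x.1, f x.2)) = chainFrom n (gs.map f)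
  | _, [] => rfl
  | n, g :: gs => by simp [chainFrom, chainFrom_map f (n + 1) gs]

lemma valid_chainFrom {R : ℕ} : ∀ (gs : List ℕ) (n : ℕ) (T₀ : List (ℕ × ℕ)), T₀.length = n →
    Valid R T₀ → (∀ g ∈ gs, g ≤ R) → (n = 0 → gs = setHead 0 gs) →
      Valid R (chainFrom n gs ++ T₀)
  | [], _, _, _, h, _, _ => h
  | g :: gs, n, T₀, hn, h, hg, h0 => by
    rw [chainFrom, List.append_assoc, List.singleton_append]
    refine valid_chainFrom gs (n + 1) _ (by simp [hn]) ?_
      (fun x hx => hg x (List.mem_cons_of_mem _ hx)) fun h => absurd h (by omega)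
    rcases Nat.eq_zero_or_pos n with rfl | hpos
    · obtain rfl : T₀ = [] := List.length_eq_zero_iff.1 hn
      exact ⟨rfl, by simpa [setHead] using h0 rfl⟩
    · exact valid_cons_of h (by omega) (hg g (List.mem_cons_self ..))

lemma layT_length (k : ℕ) (t : Tree) : (layT k t).length = Tree.size k t := by
  rw [layT, length_chainFrom, length_setHead, length_lg]

lemma lvT_length (J : ℕ → ℕ) (k : ℕ) (t : Tree) : (lvT J k t).length = Tree.size k t := by
  rw [lvT, List.length_map, layT_length]

lemma mem_gaps (k : ℕ) (t : Tree) : ∀ g ∈ setHead 0 (lg 1 k t), g ≤ k + 1 := by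
  intro g hg
  have h := mem_lg k 1 t
  cases hc : lg 1 k t with
  | nil => simp [hc, setHead] at hg
  | cons b gs =>
    rw [hc] at hg h
    rcases List.mem_cons.1 hg with rfl | hg
    · omega
    · have := h g (List.mem_cons_of_mem _ hg); omega

lemma monoOn_le {J : ℕ → ℕ} {k : ℕ} (hmono : ∀ q ≤ k, J q ≤ J (q + 1)) {a b : ℕ} (hab : a ≤ b)
    (hb : b ≤ k + 1) : J a ≤ J b := by
  induction hab with
  | refl => exact le_rfl
  | @step b hab ih => exact (ih (by omega)).trans (hmono b (by omega))

theorem valid_lvT {J : ℕ → ℕ} {R k : ℕ} (hJ0 : J 0 = 0) (hmono : ∀ q ≤ k, J q ≤ J (q + 1))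
    (hR : J (k + 1) ≤ R) (t : Tree) : Valid R (lvT J k t) := by
  rw [lvT, layT, chainFrom_map, ← List.append_nil (chainFrom 0 _)]
  refine valid_chainFrom _ 0 [] rfl trivial (fun g hg => ?_) fun _ => ?_
  · obtain ⟨q, hq, rfl⟩ := List.mem_map.1 hg
    exact (monoOn_le hmono (mem_gaps k t q hq) le_rfl).trans hR
  · rw [map_setHead, hJ0]
    cases (lg 1 k t).map J <;> rfl

/-- splitting levels of a mapped list -/
lemma sp_map {f : ℕ → ℕ} {B R : ℕ} (hf : ∀ a b, a ≤ b → b ≤ B → f a ≤ f b) (hB : f B = R) :
    ∀ (T : List (ℕ × ℕ)), (∀ x ∈ T, x.2 ≤ B) → ∀ i j,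
      sp R (T.map fun x => (x.1, f x.2)) i j = f (sp B T i j) ∧ sp B T i j ≤ B
  | [], _, i, j => by simp [sp, hB]
  | (p, v) :: T, h, i, j => by
    have ih := sp_map hf hB T (fun x hx => h x (List.mem_cons_of_mem _ hx))
    have hv : v ≤ B := h _ (List.mem_cons_self ..)
    have hmin : ∀ a, a ≤ B → min (f v) (f a) = f (min v a) := fun a ha => by
      rcases le_total v a with hva | hva
      · rw [min_eq_left hva, min_eq_left (hf v a hva ha)]
      · rw [min_eq_right hva, min_eq_right (hf a v hva hv)]
    simp only [List.map_cons, sp, List.length_map]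
    split_ifs
    · exact ⟨hB.symm, le_rfl⟩
    · rw [(ih p j).1, hmin _ (ih p j).2]; exact ⟨rfl, (min_le_right _ _).trans (ih p j).2⟩
    · rw [(ih i p).1, hmin _ (ih i p).2]; exact ⟨rfl, (min_le_right _ _).trans (ih i p).2⟩
    · exact ih i j

/-- splitting levels between two replicas of a chain are among its levels -/
lemma sp_chain_range {B a b : ℕ} : ∀ (gs : List ℕ) (n : ℕ) (T₀ : List (ℕ × ℕ)), T₀.length = n →
    (∀ g ∈ gs.drop (1 - n), a ≤ g ∧ g ≤ b) →
    (∀ i j, i < n → j < n → i ≠ j → a ≤ sp B T₀ i j ∧ sp B T₀ i j ≤ b) → b ≤ B →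
    ∀ i j, i < n + gs.length → j < n + gs.length → i ≠ j →
      a ≤ sp B (chainFrom n gs ++ T₀) i j ∧ sp B (chainFrom n gs ++ T₀) i j ≤ b
  | [], n, T₀, _, _, h, _ => fun i j hi hj => h i j hi hj
  | g :: gs, n, T₀, hn, hg, h, hbB => fun i j hi hj => by
    rw [chainFrom, List.append_assoc, List.singleton_append]
    refine sp_chain_range gs (n + 1) _ (by simp [hn]) (fun x hx => hg x ?_) ?_ hbB i j
      (by simp at hi; omega) (by simp at hj; omega)
    · rw [Nat.sub_eq_zero_of_le (by omega : 1 ≤ n + 1), List.drop_zero] at hx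
      rcases Nat.eq_zero_or_pos n with rfl | hn
      · simpa using hx
      · rw [Nat.sub_eq_zero_of_le hn, List.drop_zero]
        exact List.mem_cons_of_mem _ hx
    · intro i j hi hj hij
      simp only [sp, hn, if_neg hij]
      have hg' : 0 < n → a ≤ g ∧ g ≤ b := fun hn =>
        hg g (by rw [Nat.sub_eq_zero_of_le hn]; simp)
      have key : ∀ q, q < n →
          a ≤ sp B T₀ (n - 1) q ∧ (q ≠ n - 1 → sp B T₀ (n - 1) q ≤ b) := fun q hq => by
        rcases eq_or_ne q (n - 1) with rfl | hne
        · rw [sp_self]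
          exact ⟨((hg' (by omega)).1.trans (hg' (by omega)).2).trans hbB, fun h => absurd rfl h⟩
        · exact ⟨(h _ q (by omega) hq hne.symm).1, fun _ => (h _ q (by omega) hq hne.symm).2⟩
      split_ifs with h1 h2
      · obtain ⟨g1, g2⟩ := hg' (by omega)
        exact ⟨le_min g1 (key j (by omega)).1, (min_le_left _ _).trans g2⟩
      · obtain ⟨g1, g2⟩ := hg' (by omega)
        rw [sp_comm B T₀ i]
        exact ⟨le_min g1 (key i (by omega)).1, (min_le_left _ _).trans g2⟩
      · exact h i j (by omega) (by omega) hij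

/-- the splitting levels of the leaves are the levels of their splitting layers, which do not
depend on the levels -/
theorem sp_lvT {J : ℕ → ℕ} {R k : ℕ} (hmono : ∀ q ≤ k, J q ≤ J (q + 1)) (hR : J (k + 1) ≤ R)
    (t : Tree) {i j : ℕ} (hi : i < Tree.size k t) (hj : j < Tree.size k t) (hij : i ≠ j) :
    sp R (lvT J k t) i j = J (lay k t i j) ∧ 1 ≤ lay k t i j ∧ lay k t i j ≤ k + 1 := by
  have hr : 1 ≤ lay k t i j ∧ lay k t i j ≤ k + 1 := by
    rw [lay, layT, ← List.append_nil (chainFrom 0 _)]
    refine sp_chain_range _ 0 [] rfl (fun g hg => ?_) (by simp) (by omega) i j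
      (by simpa [length_setHead, length_lg] using hi)
      (by simpa [length_setHead, length_lg] using hj) hij
    have h := mem_lg k 1 t
    cases hc : lg 1 k t with
    | nil => simp [hc, setHead] at hg
    | cons b gs =>
      rw [hc] at hg h
      simp only [setHead, Nat.sub_zero, List.drop_one, List.tail_cons] at hg
      have := h g (List.mem_cons_of_mem _ hg); omega
  have hmem : ∀ x ∈ layT k t, x.2 ≤ k + 1 := by
    have : ∀ (gs : List ℕ) (n : ℕ), ∀ x ∈ chainFrom n gs, x.2 ∈ gs := by
      intro gs
      induction gs with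
      | nil => simp [chainFrom]
      | cons g gs ih =>
        intro n x hx
        simp only [chainFrom, List.mem_append, List.mem_singleton] at hx
        rcases hx with hx | rfl
        · exact List.mem_cons_of_mem _ (ih _ x hx)
        · exact List.mem_cons_self ..
    exact fun x hx => mem_gaps k t _ (this _ _ x hx)
  set f : ℕ → ℕ := fun q => if q ≤ k + 1 then J q else R with hf
  have e : lvT J k t = (layT k t).map fun x => (x.1, f x.2) :=
    List.map_congr_left fun x hx => by simp [hf, hmem x hx]
  refine ⟨?_, hr⟩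
  rw [e, (sp_map (B := k + 2) (fun a b hab hb => ?_) (by simp [hf]) _
    (fun x hx => (hmem x hx).trans (by omega)) i j).1]
  · exact if_pos hr.2
  · simp only [hf]
    split_ifs with h1 h2 h2
    · exact monoOn_le hmono hab h2
    · exact (monoOn_le hmono h1 le_rfl).trans hR
    · omega
    · exact le_rfl

/-! ### chains of replicas -/

section chains
variable {Ω : Type*} [Fintype Ω] {R : ℕ} {m : ℕ → ℝ} {w : List Ω → ℝ}

/-- replicas sampled one after the other, each from the previous one -/
noncomputable def runG (R : ℕ) (m : ℕ → ℝ) (w : List Ω → ℝ) :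
    List Ω → List ℕ → (List (List Ω) → ℝ) → ℝ
  | _, [], G => G []
  | q, g :: gs, G =>
      ext m w (R - g) (q.take g) fun q' => runG R m w q' gs fun qs => G (q' :: qs)

/-- the same for a product test function -/
noncomputable def runP (R : ℕ) (m : ℕ → ℝ) (w : List Ω → ℝ) :
    List Ω → List ℕ → (ℕ → List Ω → ℝ) → ℝ
  | _, [], _ => 1
  | q, g :: gs, f =>
      ext m w (R - g) (q.take g) fun q' => f 0 q' * runP R m w q' gs fun j => f (j + 1)

lemma runG_mul : ∀ (gs : List ℕ) (q : List Ω) (c : ℝ) (G : List (List Ω) → ℝ),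
    runG R m w q gs (fun qs => c * G qs) = c * runG R m w q gs G
  | [], _, _, _ => rfl
  | g :: gs, q, c, G => by simp only [runG, runG_mul gs, ext_const_mul]

lemma runG_prod : ∀ (gs : List ℕ) (q : List Ω) (f : ℕ → List Ω → ℝ),
    runG R m w q gs (fun qs => ∏ j ∈ range gs.length, f j (qs.getD j [])) = runP R m w q gs f
  | [], q, f => by simp [runG, runP]
  | g :: gs, q, f => by
    simp only [runG, runP]
    refine ext_congr fun suf _ => ?_
    rw [← runG_prod gs _ fun j => f (j + 1), ← runG_mul]
    congr 1
    funext qs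
    rw [List.length_cons, prod_range_succ', mul_comm]
    simp

lemma ET_chain : ∀ (gs : List ℕ) (n : ℕ) (T₀ : List (ℕ × ℕ)), T₀.length = n → Valid R T₀ →
    (∀ g ∈ gs, g ≤ R) → (n = 0 → gs = setHead 0 gs) → ∀ F : List (List Ω) → ℝ,
      ET R m w (chainFrom n gs ++ T₀) F =
        ET R m w T₀ fun ps => runG R m w (ps.getD (n - 1) []) gs fun qs => F (ps ++ qs)
  | [], n, T₀, _, _, _, _, F => by simp [chainFrom, runG]
  | g :: gs, n, T₀, hn, hT, hg, h0, F => by
    rw [chainFrom, List.append_assoc, List.singleton_append,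
      ET_chain gs (n + 1) ((n - 1, g) :: T₀) (by simp [hn]) ?_
        (fun x hx => hg x (List.mem_cons_of_mem _ hx)) (fun h => absurd h (by omega)) F,
      ET_cons]
    · refine ET_congr hT fun ps hs => ?_
      simp only [runG]
      refine ext_congr fun suf _ => ?_
      rw [Nat.add_sub_cancel, List.getD_append_right _ _ _ _ (hs.1.trans hn).le,
        show n - ps.length = 0 by rw [hs.1, hn]; simp]
      simp
    · rcases Nat.eq_zero_or_pos n with rfl | hpos
      · obtain rfl : T₀ = [] := List.length_eq_zero_iff.1 hn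
        exact ⟨rfl, by simpa [setHead] using h0 rfl⟩
      · exact valid_cons_of hT (by omega) (hg g (List.mem_cons_self ..))

/-- the first entry only sees the common part -/
lemma runP_head {q q' : List Ω} {a : ℕ} (h : q'.take a = q.take a) :
    ∀ (gs : List ℕ), gs = setHead a gs → ∀ f, runP R m w q' gs f = runP R m w q gs f
  | [], _, _ => rfl
  | g :: gs, hgs, f => by
    obtain rfl : g = a := by simpa [setHead] using hgs
    simp only [runP, h]

lemma runP_append {a : ℕ} (B : List ℕ) (hB : B = setHead a B) :
    ∀ (A : List ℕ), (∀ g ∈ A, a ≤ g ∧ g ≤ R) → ∀ (q : List Ω), q.length = R →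
      ∀ f : ℕ → List Ω → ℝ, runP R m w q (A ++ B) f =
        runP R m w q A f * runP R m w q B fun j => f (j + A.length)
  | [], _, q, _, f => by simp [runP]
  | g :: A, hA, q, hq, f => by
    obtain ⟨hag, hgR⟩ := hA g (List.mem_cons_self ..)
    simp only [List.cons_append, runP]
    rw [← ext_mul_const]
    refine ext_congr fun suf hs => ?_
    have hl : (q.take g).length = g := by simp [hq, hgR]
    have hq' : (q.take g ++ suf).length = R := by simp [hq, hs]; omega
    rw [runP_append B hB A (fun x hx => hA x (List.mem_cons_of_mem _ hx)) _ hq',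
      runP_head (q := q) (q' := q.take g ++ suf) (by
        rw [List.take_append_of_le_length (by omega), List.take_take, min_eq_left hag]) B hB]
    simp only [List.length_cons, add_assoc, mul_assoc]

end chains

/-! ### blocks are replicas -/

section blocks
variable {Ω : Type} [Fintype Ω] [Nonempty Ω] {R : ℕ} {m : ℕ → ℝ} {w : List Ω → ℝ} {J : ℕ → ℕ}

omit [Nonempty Ω] in
lemma runP_replicate {a : ℕ} (ha : a ≤ R) {p q : List Ω} (hq : q.length = R)
    (hp : q.take a = p) : ∀ (n : ℕ) (f : ℕ → List Ω → ℝ),
      runP R m w q (List.replicate n a) f = ∏ j ∈ range n, up R m w R p (f j)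
  | 0, f => by simp [runP]
  | n + 1, f => by
    rw [List.replicate_succ, show a :: List.replicate n a = [a] ++ List.replicate n a from rfl,
      runP_append (a := a) _ (by cases n <;> rfl) [a] (by simpa using ha) q hq,
      prod_range_succ', runP_replicate ha hq hp n]
    have hl : p.length = a := by rw [← hp]; simp [hq, ha]
    simp only [runP, mul_one, hp, List.length_singleton, up_top, hl]
    ring

/-- tree moments of the blocks, below the prefix `p` at level `J l`, are chains of replicas -/
theorem monoF_blockMean (hw : ∀ p, 0 < w p) :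
    ∀ (k l : ℕ), (∀ q, l ≤ q → q < l + k → J q ≤ J (q + 1)) → J (l + k) ≤ R →
      ∀ (t : Tree) (f : ℕ → List Ω → ℝ) (p q : List Ω), q.length = R → q.take (J l) = p →
        monoF (blockMean R m w J) l k t (fun j x => up R m w R x (f j)) p =
          runP R m w q ((lg l k t).map J) f
  | 0, l, _, hR, t, f, p, q, hq, hp => by
    simp only [monoF, lg, List.map_replicate]
    exact (runP_replicate hR hq hp _ f).symm
  | k + 1, l, hmono, hR, t, f, p, q, hq, hp => by
    have hJ : ∀ a b, l ≤ a → a ≤ b → b ≤ l + (k + 1) → J a ≤ J b := by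
      intro a b ha hab hb
      induction hab with
      | refl => exact le_rfl
      | @step b hab ih => exact (ih (by omega)).trans (hmono b (le_trans ha hab) (by omega))
    set a := J l with ha
    set b := J (l + 1)
    have hab : a ≤ b := hJ _ _ le_rfl (by omega) (by omega)
    have hbR : b ≤ R := (hJ _ _ (by omega) (by omega) le_rfl).trans hR
    have hl : p.length = a := by rw [← hp]; simp [hq]; omega
    simp only [monoF, lg]
    generalize t.children = cs
    induction cs generalizing f with
    | nil => simp [prodFs, runP]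
    | cons c cs ih =>
      have hrec : ∀ (f : ℕ → List Ω → ℝ) (p' q' : List Ω), q'.length = R → q'.take b = p' →
          monoF (blockMean R m w J) (l + 1) k c (fun j x => up R m w R x (f j)) p' =
            runP R m w q' ((lg (l + 1) k c).map J) f :=
        monoF_blockMean hw k (l + 1) (fun x hx hx' => hmono x (by omega) (by omega))
          (by rw [show l + 1 + k = l + (k + 1) by omega]; exact hR) c
      have hchild : blockMean R m w J l
          (monoF (blockMean R m w J) (l + 1) k c fun j x => up R m w R x (f j)) p =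
            runP R m w q (setHead a ((lg (l + 1) k c).map J)) f := by
        set o := Classical.arbitrary Ω
        show up R m w b p _ = _
        rw [up_congr (hl.le.trans hab) (G := fun p' => runP R m w (p' ++ List.replicate (R - b) o)
          ((lg (l + 1) k c).map J) f) fun p' hp' _ => hrec f p' _ (by simp [hp']; omega)
            (List.take_left' hp')]
        have hh := congrArg (List.map J) (lg_head k (l + 1) c)
        rw [map_setHead] at hh
        cases hc : (lg (l + 1) k c).map J with
        | nil => simp [setHead, runP, up_const hw]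
        | cons g gs =>
          rw [hc] at hh
          obtain rfl : g = b := (List.cons.inj hh).1
          simp only [setHead, runP, hp]
          rw [up_congr (hl.le.trans hab) (G := fun p' => up R m w R p' fun r =>
              f 0 r * runP R m w r gs fun j => f (j + 1)) fun p' hp' _ => by
            rw [up_top, List.take_left' hp', hp'],
            up_tower (hl.le.trans hab) hbR le_rfl, up_top, hl]
      rw [prodFs, List.flatMap_cons, List.map_append, map_setHead, runP_append (a := a)]
      · rw [hchild, ih fun j => f (j + Tree.size k c)]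
        simp [length_setHead, length_lg, a]
      · rw [ha, ← map_setHead]
        have := congrArg (List.map J) (lg_head (k + 1) l (.node cs))
        simpa only [lg, Tree.children_node] using this
      · intro g hg
        cases hc : lg (l + 1) k c with
        | nil => simp [hc, setHead] at hg
        | cons x xs =>
          rw [hc] at hg
          simp only [List.map_cons, setHead] at hg
          rcases List.mem_cons.1 hg with rfl | hg
          · exact ⟨le_rfl, by omega⟩
          · obtain ⟨y, hy, rfl⟩ := List.mem_map.1 hg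
            have hy' := mem_lg k (l + 1) c y (hc ▸ List.mem_cons_of_mem _ hy)
            exact ⟨hJ _ _ le_rfl (by omega) (by omega),
              (hJ _ _ (by omega) (by omega) le_rfl).trans hR⟩
      · exact hq

/-- a tree at layer `1` under block `0`: replicas of the attachment list `lvT` -/
theorem root_blockMean (hw : ∀ p, 0 < w p) {k : ℕ} (hJ0 : J 0 = 0)
    (hmono : ∀ q ≤ k, J q ≤ J (q + 1)) (hR : J (k + 1) ≤ R) (t : Tree) (f : ℕ → List Ω → ℝ) :
    monoF (blockMean R m w J) 0 (k + 1) (.node [t]) (fun j x => up R m w R x (f j)) [] =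
      ET R m w (lvT J k t) fun ps => ∏ j ∈ range (Tree.size k t), f j (ps.getD j []) := by
  set o := Classical.arbitrary Ω
  rw [monoF_blockMean hw (k + 1) 0 (fun q _ hq => hmono q (by omega)) (by simpa using hR)
    (.node [t]) f [] (List.replicate R o) (List.length_replicate ..) (by simp [hJ0]),
    lvT, layT, chainFrom_map]
  simp only [lg, Tree.children_node, List.flatMap_cons, List.flatMap_nil, List.append_nil, Nat.zero_add]
  set gs := (setHead 0 (lg 1 k t)).map J with hgs
  have hlen : gs.length = Tree.size k t := by simp [hgs, length_setHead, length_lg]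
  have hhead : gs = setHead 0 gs := by
    rw [hgs, map_setHead, hJ0]
    cases (lg 1 k t).map J <;> rfl
  rw [← List.append_nil (chainFrom 0 gs), ET_chain gs 0 [] rfl trivial (fun g hg => ?_)
    (fun _ => hhead), ET_nil]
  · simp only [List.nil_append, ← hlen, runG_prod]
    exact runP_head (by simp) gs hhead f
  · obtain ⟨x, hx, rfl⟩ := List.mem_map.1 hg
    exact (monoOn_le hmono (mem_gaps k t x hx) le_rfl).trans hR

end blocks

/-! ### slots -/

section slots
variable {Ω : Type} [Fintype Ω] {N R : ℕ} {m : ℕ → ℝ} {w : List Ω → ℝ} {J : ℕ → ℕ}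

/-- one trial slot -/
noncomputable def slotMean (R : ℕ) (m : ℕ → ℝ) (w : List Ω → ℝ) (J : ℕ → ℕ) (l : ℕ)
    (f : Fin N × List Ω → ℝ) (a : Fin N × List Ω) : ℝ :=
  if l = 0 then slotRoot R m w J f else blockMean R m w J l (fun p => f (a.1, p)) a.2

lemma slotMean_add (l : ℕ) (f g : Fin N × List Ω → ℝ) (a : Fin N × List Ω) :
    slotMean R m w J l (fun y => f y + g y) a =
      slotMean R m w J l f a + slotMean R m w J l g a := by
  unfold slotMean
  split_ifs
  · simp only [slotRoot, blockMean, up_add, avg, sum_add_distrib, add_div]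
  · simp only [blockMean, up_add]

lemma slotMean_smul (l : ℕ) (c : ℝ) (f : Fin N × List Ω → ℝ) (a : Fin N × List Ω) :
    slotMean R m w J l (fun y => c * f y) a = c * slotMean R m w J l f a := by
  unfold slotMean
  split_ifs
  · simp only [slotRoot, blockMean, up_const_mul, avg, ← mul_sum, mul_div_assoc]
  · simp only [blockMean, up_const_mul]

lemma slotsMean_succ (l Q : ℕ) (f : (Fin (Q + 1) → Fin N × List Ω) → ℝ)
    (s : Fin (Q + 1) → Fin N × List Ω) :
    slotsMean R m w J l (Q + 1) f s = slotMean R m w J l
      (fun a => slotsMean R m w J l Q (fun t => f (Fin.cons a t)) (Fin.tail s)) (s 0) := by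
  simp only [slotsMean, slotMean]

lemma slotsMean_add (l : ℕ) : ∀ (Q : ℕ) (f g : (Fin Q → Fin N × List Ω) → ℝ) (s),
    slotsMean R m w J l Q (fun y => f y + g y) s =
      slotsMean R m w J l Q f s + slotsMean R m w J l Q g s
  | 0, _, _, _ => rfl
  | Q + 1, f, g, s => by simp only [slotsMean_succ, slotsMean_add l Q, slotMean_add]

lemma slotsMean_smul (l : ℕ) (c : ℝ) : ∀ (Q : ℕ) (f : (Fin Q → Fin N × List Ω) → ℝ) (s),
    slotsMean R m w J l Q (fun y => c * f y) s = c * slotsMean R m w J l Q f s
  | 0, _, _ => rfl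
  | Q + 1, f, s => by simp only [slotsMean_succ, slotsMean_smul l c Q, slotMean_smul]

lemma slotsMean_prod (l : ℕ) : ∀ (Q : ℕ) (f : Fin Q → Fin N × List Ω → ℝ) (s),
    slotsMean R m w J l Q (fun x => ∏ a, f a (x a)) s = ∏ a, slotMean R m w J l (f a) (s a)
  | 0, f, s => by simp [slotsMean]
  | Q + 1, f, s => by
    simp only [slotsMean_succ, Fin.prod_univ_succ, Fin.cons_zero, Fin.cons_succ, slotsMean_smul,
      slotsMean_prod l Q (fun a => f a.succ)]
    simp only [fun a : Fin N × List Ω => mul_comm (f 0 a), slotMean_smul, Fin.tail]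
    ring

/-- below the root a slot keeps its site -/
lemma monoF_slot : ∀ (k l : ℕ), 1 ≤ l → ∀ (t : Tree) (g : ℕ → Fin N × List Ω → ℝ) (v : Fin N)
    (p : List Ω), monoF (slotMean R m w J) l k t g (v, p) =
      monoF (blockMean R m w J) l k t (fun j x => g j (v, x)) p
  | 0, l, _, t, g, v, p => by simp [monoF]
  | k + 1, l, hl, t, g, v, p => by
    simp only [monoF]
    generalize t.children = cs
    induction cs generalizing g with
    | nil => simp [prodFs]
    | cons c cs ih =>
      simp only [prodFs, ih fun j => g (j + Tree.size k c)]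
      congr 1
      rw [slotMean, if_neg (by omega)]
      congr 1
      funext x
      exact monoF_slot k (l + 1) (by omega) c g v x

/-- the root of one slot: a uniform site, then the true blocks -/
lemma monoF_slot_root (k : ℕ) (t : Tree) (g : ℕ → Fin N × List Ω → ℝ) (a : Fin N × List Ω) :
    monoF (slotMean R m w J) 0 (k + 1) (.node [t]) g a =
      avg fun v => monoF (blockMean R m w J) 0 (k + 1) (.node [t]) (fun j x => g j (v, x)) [] := by
  simp only [monoF, prodFs, Tree.children_node, mul_one, slotMean, if_pos, slotRoot]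
  congr 1
  funext v
  congr 1
  funext x
  exact monoF_slot k 1 le_rfl t g v x

end slots

/-! ### characters -/

section walsh
variable {Q : ℕ}

/-- Fourier coefficient of a table -/
noncomputable def wcoef (Φ : (Fin Q → Bool) → ℝ) (A : Finset (Fin Q)) : ℝ :=
  (∑ σ, Φ σ * ∏ a ∈ A, sg (σ a)) / 2 ^ Q

lemma abs_sg (b : Bool) : |sg b| = 1 := by cases b <;> simp [sg]

lemma multilinear_walsh (Φ : (Fin Q → Bool) → ℝ) (z : Fin Q → ℝ) :
    ∑ σ : Fin Q → Bool, (∏ a, (1 + z a * sg (σ a)) / 2) * Φ σ =
      ∑ A, wcoef Φ A * ∏ a ∈ A, z a := by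
  simp only [wcoef, div_mul_eq_mul_div, sum_mul, ← sum_div]
  rw [Finset.sum_comm]
  simp only [prod_div_distrib, prod_const, card_univ, Fintype.card_fin, div_mul_eq_mul_div,
    ← sum_div]
  congr 1
  refine sum_congr rfl fun σ _ => ?_
  rw [prod_one_add, powerset_univ, sum_mul]
  refine sum_congr rfl fun A _ => ?_
  rw [prod_mul_distrib]
  ring

lemma table_walsh (Φ : (Fin Q → Bool) → ℝ) (τ : Fin Q → Bool) :
    Φ τ = ∑ A, wcoef Φ A * ∏ a ∈ A, sg (τ a) := by
  rw [← multilinear_walsh, Fintype.sum_eq_single τ]
  · rw [prod_eq_one fun a _ => by cases τ a <;> simp [sg], one_mul]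
  · intro σ hσ
    obtain ⟨a, ha⟩ := Function.ne_iff.1 hσ
    rw [prod_eq_zero (mem_univ a), zero_mul]
    cases hτ : τ a <;> cases hs : σ a <;> simp_all [sg]

lemma abs_wcoef_le {Φ : (Fin Q → Bool) → ℝ} {B : ℝ} (hB : ∀ σ, |Φ σ| ≤ B) (A : Finset (Fin Q)) :
    |wcoef Φ A| ≤ B := by
  rw [wcoef, abs_div, abs_of_pos (pow_pos two_pos Q : (0:ℝ) < 2 ^ Q), div_le_iff₀ (by positivity)]
  refine (abs_sum_le_sum_abs _ _).trans ?_
  calc _ ≤ ∑ _σ : Fin Q → Bool, B := sum_le_sum fun σ _ => by
        rw [abs_mul, abs_prod, prod_congr rfl fun a _ => abs_sg _]; simpa using hB σ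
    _ = _ := by simp; ring

end walsh

/-! ### comparison -/

section compare
variable {Ω : Type} [Fintype Ω] [Nonempty Ω] {N R Q n : ℕ} {m : ℕ → ℝ} {w : List Ω → ℝ}

/-- site average of the product of the spins of the replicas in `S` -/
noncomputable def Mset (rd : List Ω → Fin N → Bool) (S : Finset (Fin n)) (ps : List (List Ω)) :
    ℝ :=
  avg fun v => ∏ i ∈ S, sg (rd (ps.getD i []) v)

/-- variance of `Mset` under the replicas `T` -/
noncomputable def varM (R : ℕ) (m : ℕ → ℝ) (w : List Ω → ℝ) (rd : List Ω → Fin N → Bool)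
    (T : List (ℕ × ℕ)) (S : Finset (Fin n)) : ℝ :=
  ET R m w T fun ps => (Mset rd S ps - ET R m w T (Mset rd S)) ^ 2

lemma abs_prod_sub_prod {ι : Type*} (s : Finset ι) (x y : ι → ℝ) (hx : ∀ a, |x a| ≤ 1)
    (hy : ∀ a, |y a| ≤ 1) : |∏ a ∈ s, x a - ∏ a ∈ s, y a| ≤ ∑ a ∈ s, |x a - y a| := by
  classical
  induction s using Finset.induction_on with
  | empty => simp
  | insert b s hb ih =>
    rw [prod_insert hb, prod_insert hb, sum_insert hb,
      show x b * ∏ a ∈ s, x a - y b * ∏ a ∈ s, y a =
        (x b - y b) * ∏ a ∈ s, x a + y b * (∏ a ∈ s, x a - ∏ a ∈ s, y a) by ring]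
    refine (abs_add_le _ _).trans (add_le_add ?_ ?_) <;> rw [abs_mul]
    · refine mul_le_of_le_one_right (abs_nonneg _) ?_
      rw [abs_prod]; exact prod_le_one (fun a _ => abs_nonneg _) fun a _ => hx a
    · exact (mul_le_of_le_one_left (abs_nonneg _) (hy b)).trans ih

omit [Fintype Ω] [Nonempty Ω] in
lemma abs_Mset_le (rd : List Ω → Fin N → Bool) (S : Finset (Fin n)) (ps : List (List Ω)) :
    |Mset rd S ps| ≤ 1 := by
  rw [Mset, avg, abs_div, Nat.abs_cast]
  refine div_le_of_le_mul₀ (Nat.cast_nonneg _) zero_le_one ((abs_sum_le_sum_abs _ _).trans ?_)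
  rw [sum_congr rfl fun v _ => by rw [abs_prod, prod_congr rfl fun a _ => abs_sg _]]
  simp

/-- expectation of a product against the product of the expectations -/
lemma ET_prod_sub (hw : ∀ p, 0 < w p) (rd : List Ω → Fin N → Bool) (T : List (ℕ × ℕ))
    (S : Fin Q → Finset (Fin n)) :
    |ET R m w T (fun ps => ∏ a, Mset rd (S a) ps) - ∏ a, ET R m w T (Mset rd (S a))| ≤
      ∑ a, √(varM R m w rd T (S a)) := by
  rw [← ET_const (R := R) (m := m) hw T (∏ a, ET R m w T (Mset rd (S a))), ← ET_sub]
  refine (ET_abs_le hw T _).trans ((ET_mono hw fun ps => abs_prod_sub_prod univ _ _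
    (fun a => abs_Mset_le rd (S a) ps)
    (fun a => ET_bound hw fun qs => abs_Mset_le rd (S a) qs)).trans ?_)
  rw [ET_sum]
  refine sum_le_sum fun a _ => Real.le_sqrt_of_sq_le ((ET_sq_le hw T _).trans (le_of_eq ?_))
  simp only [sq_abs, varM]

/-- **Comparison**: the site average of a true tree moment against the trial one -/
theorem abs_tree_moment_sub [NeZero N] (hw : ∀ p, 0 < w p) {J : ℕ → ℕ} {k : ℕ} (hJ0 : J 0 = 0)
    (hmono : ∀ q ≤ k, J q ≤ J (q + 1)) (hR : J (k + 1) ≤ R) (rd : List Ω → Fin N → Bool)
    (Φ : (Fin Q → Bool) → ℝ) {B : ℝ} (hB : ∀ σ, |Φ σ| ≤ B) (t : Tree)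
    (s₀ : Fin Q → Fin N × List Ω) :
    |avg (fun v : Fin Q → Fin N => blockMean R m w J 0
          (mono (blockMean R m w J) (trueLeaf R m w rd Φ v) 1 k t) []) -
      slotsMean R m w J 0 Q
          (mono (fun l => slotsMean R m w J l Q) (trialLeaf R m w rd Φ) 1 k t) s₀| ≤
      Q * (2 ^ Q * B) ^ Tree.size k t *
        ∑ S ∈ (univ : Finset (Finset (Fin (Tree.size k t)))).erase ∅,
          √(varM R m w rd (lvT J k t) S) := by
  classical
  set K := Tree.size k t
  set T := lvT J k t
  set t₀ : Tree := .node [t]
  set c := wcoef Φ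
  have hcard : Tree.size (k + 1) t₀ = K := by simp [t₀, Tree.size, K]
  -- the slot functions
  set χ : Finset (Fin Q) → Fin Q → Fin N → List Ω → ℝ := fun A a v q =>
    if a ∈ A then sg (rd q v) else 1 with hχ
  set sel : (Fin (Tree.size (k + 1) t₀) → Finset (Fin Q)) → Fin Q → Finset (Fin K) := fun σ a =>
    univ.filter fun i => a ∈ extA σ i with hsel
  have hprod : ∀ σ a v (ps : List (List Ω)),
      ∏ j ∈ range K, χ (extA σ j) a v (ps.getD j []) =
        ∏ i ∈ sel σ a, sg (rd (ps.getD i []) v) := fun σ a v ps => by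
    rw [← Fin.prod_univ_eq_prod_range (fun j => χ (extA σ j) a v (ps.getD j [])), hsel,
      prod_filter]
  -- true side
  have htrue : avg (fun v : Fin Q → Fin N => blockMean R m w J 0
      (mono (blockMean R m w J) (trueLeaf R m w rd Φ v) 1 k t) []) =
      ∑ σ : Fin (Tree.size (k + 1) t₀) → Finset (Fin Q), (∏ j, c (σ j)) *
        ET R m w T fun ps => ∏ a, Mset rd (sel σ a) ps := by
    have hleaf : ∀ v : Fin Q → Fin N, trueLeaf R m w rd Φ v =
        fun x => ∑ A, c A * up R m w R x fun q => ∏ a, χ A a (v a) q := fun v => by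
      funext x
      simp only [trueLeaf, up, ← ext_const_mul, ← ext_sum]
      refine ext_congr fun suf _ => (table_walsh Φ _).trans ?_
      refine sum_congr rfl fun A _ => ?_
      simp only [hχ, prod_ite_mem, univ_inter, readSlots, c]
    have h1 : ∀ v : Fin Q → Fin N, blockMean R m w J 0
        (mono (blockMean R m w J) (trueLeaf R m w rd Φ v) 1 k t) [] =
        ∑ σ : Fin (Tree.size (k + 1) t₀) → Finset (Fin Q), (∏ j, c (σ j)) *
          ET R m w T fun ps => ∏ a, ∏ i ∈ sel σ a, sg (rd (ps.getD i []) (v a)) := by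
      intro v
      have e : blockMean R m w J 0
          (mono (blockMean R m w J) (trueLeaf R m w rd Φ v) 1 k t) [] =
          monoF (blockMean R m w J) 0 (k + 1) t₀ (fun _ => trueLeaf R m w rd Φ v) [] := by
        simp [monoF_const, mono, t₀]
      rw [e, hleaf v, monoF_expand _ (fun l f g x => up_add _ _ f g)
        (fun l d f x => up_const_mul _ _ d f) c (k + 1) 0 t₀
        (fun _ A x => up R m w R x fun q => ∏ a, χ A a (v a) q)]
      refine sum_congr rfl fun σ _ => congrArg _ ?_
      rw [root_blockMean hw hJ0 hmono hR t fun j q => ∏ a, χ (extA σ j) a (v a) q]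
      congr 1
      funext ps
      rw [Finset.prod_comm]
      exact prod_congr rfl fun a _ => hprod σ a (v a) ps
    simp only [h1, avg, Finset.sum_comm (s := (univ : Finset (Fin Q → Fin N))), sum_div]
    refine sum_congr rfl fun σ _ => ?_
    rw [← sum_div, ← mul_sum, ← ET_sum, mul_div_assoc, div_eq_mul_inv, ← ET_mul_const]
    congr 2
    funext ps
    simp only [Mset, avg, Fintype.card_fun, Fintype.card_fin, Nat.cast_pow, div_eq_mul_inv]
    rw [Finset.prod_mul_distrib, prod_const, card_univ, Fintype.card_fin, inv_pow,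
      Fintype.prod_sum]
  -- trial side
  have htrial : slotsMean R m w J 0 Q
      (mono (fun l => slotsMean R m w J l Q) (trialLeaf R m w rd Φ) 1 k t) s₀ =
      ∑ σ : Fin (Tree.size (k + 1) t₀) → Finset (Fin Q), (∏ j, c (σ j)) *
        ∏ a, ET R m w T (Mset rd (sel σ a)) := by
    have e : slotsMean R m w J 0 Q
        (mono (fun l => slotsMean R m w J l Q) (trialLeaf R m w rd Φ) 1 k t) s₀ =
        monoF (fun l => slotsMean R m w J l Q) 0 (k + 1) t₀
          (fun _ => trialLeaf R m w rd Φ) s₀ := by
      simp [monoF_const, mono, t₀]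
    have hleaf : trialLeaf R m w rd Φ = fun s => ∑ A, c A *
        ∏ a, up R m w R (s a).2 (fun q => χ A a (s a).1 q) := by
      funext s
      rw [trialLeaf, multilinear_walsh]
      refine sum_congr rfl fun A _ => ?_
      congr 1
      rw [← univ_inter A, ← prod_ite_mem]
      refine prod_congr rfl fun a _ => ?_
      by_cases h : a ∈ A
      · simp [hχ, h, message]
      · simp [hχ, h, up_const hw]
    rw [e, hleaf, monoF_expand _ (fun l f g x => slotsMean_add l Q f g x)
      (fun l d f x => slotsMean_smul l d Q f x) c (k + 1) 0 t₀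
      (fun _ A s => ∏ a, up R m w R (s a).2 (fun q => χ A a (s a).1 q))]
    refine sum_congr rfl fun σ _ => congrArg _ ?_
    rw [monoF_prod _ (slotMean R m w J) (fun l f s => slotsMean_prod l Q f s) (k + 1) 0 t₀
      (fun j a x => up R m w R x.2 fun q => χ (extA σ j) a x.1 q)]
    refine prod_congr rfl fun a _ => ?_
    rw [monoF_slot_root]
    simp only [root_blockMean hw hJ0 hmono hR t, avg, ← ET_sum]
    rw [div_eq_mul_inv, ← ET_mul_const]
    congr 1
    funext ps
    simp only [Mset, avg, ← hprod σ a, div_eq_mul_inv, K]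
  rw [htrue, htrial, ← sum_sub_distrib]
  refine (abs_sum_le_sum_abs _ _).trans ?_
  set V := ∑ S ∈ (univ : Finset (Finset (Fin K))).erase ∅, √(varM R m w rd T S)
  have hV : ∀ S, √(varM R m w rd T S) ≤ V := fun S => by
    rcases eq_or_ne S ∅ with rfl | hS
    · refine le_trans (le_of_eq ?_) (sum_nonneg fun _ _ => Real.sqrt_nonneg _)
      have h1 : Mset rd (∅ : Finset (Fin K)) = fun _ => 1 := by
        funext ps
        simp [Mset, avg, Nat.cast_ne_zero.2 (NeZero.ne N)]
      have h2 : varM R m w rd T (∅ : Finset (Fin K)) = 0 := by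
        simp only [varM]
        erw [h1]
        simp [ET_const hw]
      show √(varM R m w rd T (∅ : Finset (Fin K))) = 0
      rw [h2, Real.sqrt_zero]
    · exact single_le_sum (f := fun S => √(varM R m w rd T S))
        (fun _ _ => Real.sqrt_nonneg _) (by simp [hS])
  have hB0 : 0 ≤ B := (abs_nonneg _).trans (hB fun _ => false)
  calc _ ≤ ∑ _σ : Fin (Tree.size (k + 1) t₀) → Finset (Fin Q), B ^ K * ∑ _a : Fin Q, V := by
        refine sum_le_sum fun σ _ => ?_
        rw [← mul_sub, abs_mul, abs_prod]
        refine mul_le_mul ?_ ((ET_prod_sub hw rd T _).trans (sum_le_sum fun a _ => hV _))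
          (abs_nonneg _) (pow_nonneg hB0 K)
        calc ∏ j, |c (σ j)| ≤ ∏ _j : Fin (Tree.size (k + 1) t₀), B :=
              prod_le_prod (fun j _ => abs_nonneg _) fun j _ => abs_wcoef_le hB _
          _ = B ^ K := by simp [hcard]
    _ = _ := by
        simp [hcard, mul_pow, Fintype.card_finset]
        ring

end compare

end Vale.Agent.P168.MP
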