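import Vale.Agent.P168.MP.CavDefs
import Vale.Agent.P168.Basic

/-! Poisson bookkeeping for `cex`: pushforward of labels, thinning, superposition, stability in the
rate (section D of ROUTE.md). -/

namespace Vale.Agent.P168.MP

open MeasureTheory Finset Real

variable {C P Q A B : Type*}

/-- standing hypothesis on a function of marked clause lists -/
structure CexOK [MeasurableSpace C] (μ : Measure C) (f : List (C × P) → ℝ) (A₀ : ℝ) (φ : C → ℝ) :
    Prop where
  nonneg : ∀ c, 0 ≤ φ c
  integrable : Integrable φ μ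
  meas : ∀ (M : ℕ) (i : Fin M → P), Measurable fun w : Fin M → C => f (List.ofFn fun k => (w k, i k))
  bound : ∀ l : List (C × P), |f l| ≤ A₀ + (l.map fun c => φ c.1).sum

/-! ### averages -/

lemma abs_av_le₀ {α : Type*} [Fintype α] {f : α → ℝ} {D : ℝ} (h0 : 0 ≤ D) (h : ∀ a, |f a| ≤ D) :
    |av f| ≤ D := by
  rcases isEmpty_or_nonempty α with _ | _
  · simpa [av] using h0
  · exact abs_av_le h

lemma sum_eq_card_mul_av {α : Type*} [Fintype α] (f : α → ℝ) :
    ∑ a, f a = (Fintype.card α : ℝ) * av f := by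
  rcases isEmpty_or_nonempty α with _ | _
  · simp
  · rw [av, mul_div_cancel₀]
    exact Nat.cast_ne_zero.2 Fintype.card_ne_zero

lemma av_comp_equiv {α β : Type*} [Fintype α] [Fintype β] (e : α ≃ β) (f : β → ℝ) :
    av (fun a => f (e a)) = av f := by
  simp only [av, Fintype.card_congr e, Equiv.sum_comp e f]

lemma av_prod {α β : Type*} [Fintype α] [Fintype β] (f : α × β → ℝ) :
    av f = av fun a => av fun b => f (a, b) := by
  simp only [av, Fintype.sum_prod_type, Fintype.card_prod, Nat.cast_mul, Finset.sum_div, div_div]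
  exact sum_congr rfl fun a _ => sum_congr rfl fun b _ => by rw [mul_comm]

/-! ### lists of labels -/

variable [MeasurableSpace C] {μ : Measure C}

/-- the mean over the clauses for given labels -/
noncomputable def gint (μ : Measure C) (f : List (C × P) → ℝ) {M : ℕ} (i : Fin M → P) : ℝ :=
  ∫ w : Fin M → C, f (List.ofFn fun k => (w k, i k)) ∂Measure.pi fun _ => μ

lemma exists_equiv_of_perm {α : Type*} {l l' : List α} (h : l.Perm l') :
    ∃ σ : Fin l.length ≃ Fin l'.length, ∀ k, l'.get (σ k) = l.get k := by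
  induction h with
  | nil => exact ⟨Equiv.refl _, fun k => rfl⟩
  | @cons x l l' h ih =>
    obtain ⟨σ, hσ⟩ := ih
    refine ⟨((finSuccEquiv l.length).trans σ.optionCongr).trans (finSuccEquiv l'.length).symm, fun k => ?_⟩
    refine Fin.cases ?_ (fun j => ?_) k
    · simp [finSuccEquiv_zero]
    · simpa [finSuccEquiv_succ] using hσ j
  | swap x y l =>
    refine ⟨Equiv.swap 0 1, fun k => ?_⟩
    refine Fin.cases ?_ (fun j => ?_) k
    · simp
    · refine Fin.cases ?_ (fun i => ?_) j
      · simp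
      · rw [Equiv.swap_apply_of_ne_of_ne] <;> simp [Fin.ext_iff]
  | trans _ _ ih₁ ih₂ =>
    obtain ⟨σ, hσ⟩ := ih₁
    obtain ⟨τ, hτ⟩ := ih₂
    exact ⟨σ.trans τ, fun k => by rw [Equiv.trans_apply, hτ, hσ]⟩

variable [IsProbabilityMeasure μ]

lemma gint_reindex {f : List (C × P) → ℝ} (hperm : ∀ l l', l.Perm l' → f l = f l') {M M' : ℕ}
    (σ : Fin M ≃ Fin M') {i : Fin M → P} {i' : Fin M' → P} (h : ∀ k, i' (σ k) = i k) :
    gint μ f i' = gint μ f i := by
  obtain rfl : M = M' := by simpa using Fintype.card_congr σ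
  unfold gint
  rw [← (measurePreserving_piCongrLeft (fun _ : Fin M => μ) σ).integral_comp
    (MeasurableEquiv.measurableEmbedding _)]
  refine integral_congr_ae (Filter.Eventually.of_forall fun w => hperm _ _ ?_)
  refine (Equiv.Perm.ofFn_comp_perm σ _).symm.trans (List.Perm.of_eq (congrArg List.ofFn ?_))
  funext k
  simp only [Function.comp_apply]
  rw [h k]
  congr 1
  exact MeasurableEquiv.piCongrLeft_apply_apply (β := fun _ : Fin M => C) σ w k

lemma gint_perm {f : List (C × P) → ℝ} (hperm : ∀ l l', l.Perm l' → f l = f l') {M M' : ℕ}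
    {i : Fin M → P} {i' : Fin M' → P} (h : (List.ofFn i).Perm (List.ofFn i')) :
    gint μ f i' = gint μ f i := by
  obtain ⟨σ, hσ⟩ := exists_equiv_of_perm h
  refine gint_reindex hperm ((finCongr List.length_ofFn.symm).trans (σ.trans (finCongr List.length_ofFn)))
    fun k => ?_
  have := hσ (Fin.cast List.length_ofFn.symm k)
  simp only [List.get_eq_getElem, List.getElem_ofFn] at this
  convert this using 2 <;> rfl

/-- `gint` as a function of the list of labels -/
noncomputable def glist (μ : Measure C) (f : List (C × P) → ℝ) (l : List P) : ℝ := gint μ f l.get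

lemma glist_perm {f : List (C × P) → ℝ} (hperm : ∀ l l', l.Perm l' → f l = f l') (l l' : List P)
    (h : l.Perm l') : glist μ f l = glist μ f l' := by
  obtain ⟨σ, hσ⟩ := exists_equiv_of_perm h
  exact (gint_reindex hperm σ hσ).symm

lemma glist_ofFn {f : List (C × P) → ℝ} (hperm : ∀ l l', l.Perm l' → f l = f l') {M : ℕ} (i : Fin M → P) :
    glist μ f (List.ofFn i) = gint μ f i :=
  gint_perm hperm (i' := (List.ofFn i).get) (by rw [List.ofFn_get])

/-! ### integrability and the terms of `cex` -/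

/-- the `M`-th term of `cex` -/
noncomputable def cexTerm [Fintype P] (μ : Measure C) (M : ℕ) (f : List (C × P) → ℝ) : ℝ :=
  ∫ w : Fin M → C, av (fun i : Fin M → P => f (List.ofFn fun k => (w k, i k))) ∂Measure.pi fun _ => μ

omit [IsProbabilityMeasure μ] in
lemma cex_eq [Fintype P] (r : ℝ) (f : List (C × P) → ℝ) :
    cex μ r f = ∑' M, pois r M * cexTerm μ M f := rfl

section
variable {f : List (C × P) → ℝ} {A₀ : ℝ} {φ : C → ℝ}

omit [IsProbabilityMeasure μ] in
lemma CexOK.A_nonneg (hf : CexOK μ f A₀ φ) : 0 ≤ A₀ := by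
  simpa using (abs_nonneg _).trans (hf.bound [])

omit [IsProbabilityMeasure μ] in
lemma CexOK.bound_ofFn (hf : CexOK μ f A₀ φ) {M : ℕ} (w : Fin M → C) (i : Fin M → P) :
    |f (List.ofFn fun k => (w k, i k))| ≤ A₀ + ∑ k, φ (w k) := by
  refine (hf.bound _).trans (le_of_eq ?_)
  rw [List.map_ofFn, List.sum_ofFn]
  rfl

lemma CexOK.integrable_labels (hf : CexOK μ f A₀ φ) {M : ℕ} (i : Fin M → P) :
    Integrable (fun w : Fin M → C => f (List.ofFn fun k => (w k, i k))) (Measure.pi fun _ => μ) :=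
  ((integrable_const A₀).add (integral_sum_eval μ hf.integrable M).1).mono' (hf.meas M i).aestronglyMeasurable
    (Filter.Eventually.of_forall fun w => by simpa [Real.norm_eq_abs] using hf.bound_ofFn w i)

omit [IsProbabilityMeasure μ] in
lemma CexOK.abs_av_le' [Fintype P] (hf : CexOK μ f A₀ φ) {M : ℕ} (w : Fin M → C) :
    |av fun i : Fin M → P => f (List.ofFn fun k => (w k, i k))| ≤ A₀ + ∑ k, φ (w k) :=
  abs_av_le₀ (add_nonneg hf.A_nonneg (sum_nonneg fun _ _ => hf.nonneg _)) fun i => hf.bound_ofFn w i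

lemma CexOK.integrable_term [Fintype P] (hf : CexOK μ f A₀ φ) (M : ℕ) :
    Integrable (fun w : Fin M → C => av fun i : Fin M → P => f (List.ofFn fun k => (w k, i k)))
      (Measure.pi fun _ => μ) := by
  simp only [av]
  exact (integrable_finsetSum _ fun i _ => hf.integrable_labels i).div_const _

lemma cexTerm_eq_av [Fintype P] (hf : CexOK μ f A₀ φ) (M : ℕ) :
    cexTerm μ M f = av fun i : Fin M → P => gint μ f i := by
  simp only [cexTerm, gint, av]
  rw [integral_div, integral_finsetSum _ fun i _ => hf.integrable_labels i]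

lemma abs_gint_le (hf : CexOK μ f A₀ φ) {M : ℕ} (i : Fin M → P) :
    |gint μ f i| ≤ (∫ c, φ c ∂μ) * M + A₀ := by
  have hs := integral_sum_eval μ hf.integrable M
  rw [gint, ← Real.norm_eq_abs]
  refine (norm_integral_le_of_norm_le ((integrable_const A₀).add hs.1)
    (Filter.Eventually.of_forall fun w => by simpa [Real.norm_eq_abs] using hf.bound_ofFn w i)).trans (le_of_eq ?_)
  simp only [Pi.add_apply]
  rw [integral_add (integrable_const _) hs.1, hs.2]
  simp; ring

omit [IsProbabilityMeasure μ] in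
lemma CexOK.int_nonneg (hf : CexOK μ f A₀ φ) : 0 ≤ ∫ c, φ c ∂μ := integral_nonneg hf.nonneg

lemma abs_cexTerm_le [Fintype P] (hf : CexOK μ f A₀ φ) (M : ℕ) :
    |cexTerm μ M f| ≤ (∫ c, φ c ∂μ) * M + A₀ := by
  rw [cexTerm_eq_av hf]
  exact abs_av_le₀ (add_nonneg (mul_nonneg hf.int_nonneg M.cast_nonneg) hf.A_nonneg) fun i => abs_gint_le hf i

lemma summable_cex [Fintype P] (hf : CexOK μ f A₀ φ) {r : ℝ} (hr : 0 ≤ r) :
    Summable fun M => pois r M * cexTerm μ M f :=
  summable_pois_mul hr (abs_cexTerm_le hf)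

lemma abs_cex_le [Fintype P] (hf : CexOK μ f A₀ φ) {r : ℝ} (hr : 0 ≤ r) :
    |cex μ r f| ≤ (∫ c, φ c ∂μ) * r + A₀ := by
  rw [cex_eq, ← Real.norm_eq_abs]
  refine tsum_of_norm_bounded (hasSum_pois_affine r _ _) fun M => ?_
  rw [Real.norm_eq_abs, abs_mul, abs_of_nonneg (pois_nonneg hr M)]
  exact mul_le_mul_of_nonneg_left (abs_cexTerm_le hf M) (pois_nonneg hr M)

end

/-! ### linearity and order -/

section
variable [Fintype P] {f g : List (C × P) → ℝ} {A₀ A₁ : ℝ} {φ ψ : C → ℝ} {r : ℝ}

omit [IsProbabilityMeasure μ] [Fintype P] in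
lemma CexOK.add (hf : CexOK μ f A₀ φ) (hg : CexOK μ g A₁ ψ) :
    CexOK μ (fun l => f l + g l) (A₀ + A₁) (fun c => φ c + ψ c) where
  nonneg c := add_nonneg (hf.nonneg c) (hg.nonneg c)
  integrable := hf.integrable.add hg.integrable
  meas M i := (hf.meas M i).add (hg.meas M i)
  bound l := by
    rw [List.sum_map_add]
    exact (abs_add_le _ _).trans (by linarith [hf.bound l, hg.bound l])

omit [IsProbabilityMeasure μ] [Fintype P] in
lemma CexOK.sub (hf : CexOK μ f A₀ φ) (hg : CexOK μ g A₁ ψ) :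
    CexOK μ (fun l => f l - g l) (A₀ + A₁) (fun c => φ c + ψ c) where
  nonneg c := add_nonneg (hf.nonneg c) (hg.nonneg c)
  integrable := hf.integrable.add hg.integrable
  meas M i := (hf.meas M i).sub (hg.meas M i)
  bound l := by
    rw [List.sum_map_add]
    exact (abs_sub _ _).trans (by linarith [hf.bound l, hg.bound l])

omit [IsProbabilityMeasure μ] [Fintype P] in
lemma CexOK.const (c₀ : ℝ) : CexOK μ (fun _ : List (C × P) => c₀) |c₀| (fun _ => 0) where
  nonneg _ := le_rfl
  integrable := integrable_zero _ _ _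
  meas _ _ := measurable_const
  bound l := by simp

lemma cex_add (hf : CexOK μ f A₀ φ) (hg : CexOK μ g A₁ ψ) (hr : 0 ≤ r) :
    cex μ r (fun l => f l + g l) = cex μ r f + cex μ r g := by
  rw [cex_eq, cex_eq, cex_eq, ← (summable_cex hf hr).tsum_add (summable_cex hg hr)]
  refine tsum_congr fun M => ?_
  rw [← mul_add]
  congr 1
  simp only [cexTerm, av_add]
  exact integral_add (hf.integrable_term M) (hg.integrable_term M)

lemma cex_sub (hf : CexOK μ f A₀ φ) (hg : CexOK μ g A₁ ψ) (hr : 0 ≤ r) :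
    cex μ r (fun l => f l - g l) = cex μ r f - cex μ r g := by
  have h := cex_add (hf.sub hg) hg hr
  simp only [sub_add_cancel] at h
  linarith

omit [IsProbabilityMeasure μ] in
lemma cex_const_mul (c₀ : ℝ) : cex μ r (fun l => c₀ * f l) = c₀ * cex μ r f := by
  rw [cex_eq, cex_eq, ← tsum_mul_left]
  refine tsum_congr fun M => ?_
  simp only [cexTerm, av_const_mul, integral_const_mul]
  ring

lemma cex_const [Nonempty P] (c₀ : ℝ) : cex μ r (fun _ : List (C × P) => c₀) = c₀ := by
  simp only [cex_eq, cexTerm, av_const, integral_const, probReal_univ, one_smul]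
  rw [tsum_mul_right, (hasSum_pois r).tsum_eq, one_mul]

omit [Fintype P] in
lemma ae_forall_mem_ofFn {p : C → Prop} (hp : ∀ᵐ c ∂μ, p c) (M : ℕ) :
    ∀ᵐ w ∂Measure.pi (fun _ : Fin M => μ), ∀ i : Fin M → P, ∀ c ∈ List.ofFn (fun k => (w k, i k)), p c.1 := by
  have h : ∀ᵐ w ∂Measure.pi (fun _ : Fin M => μ), ∀ k, p (w k) :=
    ae_all_iff.2 fun k => (Measure.tendsto_eval_ae_ae (μ := fun _ : Fin M => μ) (i := k)).eventually hp
  filter_upwards [h] with w hw i c hc
  rw [List.mem_ofFn] at hc
  obtain ⟨k, rfl⟩ := hc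
  exact hw k

lemma cex_mono (hf : CexOK μ f A₀ φ) (hg : CexOK μ g A₁ ψ) (hr : 0 ≤ r) {p : C → Prop}
    (hp : ∀ᵐ c ∂μ, p c) (h : ∀ l : List (C × P), (∀ c ∈ l, p c.1) → f l ≤ g l) :
    cex μ r f ≤ cex μ r g := by
  refine (summable_cex hf hr).tsum_le_tsum (fun M => mul_le_mul_of_nonneg_left ?_ (pois_nonneg hr M))
    (summable_cex hg hr)
  exact integral_mono_ae (hf.integrable_term M) (hg.integrable_term M)
    ((ae_forall_mem_ofFn hp M).mono fun w hw => av_mono fun i => h _ (hw i))

/-- `cex` only sees almost every clause -/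
lemma cex_congr_ae {p : C → Prop} (hp : ∀ᵐ c ∂μ, p c)
    (h : ∀ l : List (C × P), (∀ c ∈ l, p c.1) → f l = g l) : cex μ r f = cex μ r g := by
  rw [cex_eq, cex_eq]
  refine tsum_congr fun M => ?_
  congr 1
  exact integral_congr_ae ((ae_forall_mem_ofFn hp M).mono fun w hw => congrArg av (funext fun i => h _ (hw i)))

end

/-! ### parameters -/

/-- measurability in a parameter -/
lemma measurable_cex [Fintype P] {X : Type*} [MeasurableSpace X] {f : X → List (C × P) → ℝ} {r : ℝ}
    (hr : 0 ≤ r) {A₀ : X → ℝ} {φ : C → ℝ}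
    (hm : ∀ (M : ℕ) (i : Fin M → P), Measurable fun q : X × (Fin M → C) => f q.1 (List.ofFn fun k => (q.2 k, i k)))
    (hf : ∀ x, CexOK μ (f x) (A₀ x) φ) : Measurable fun x => cex μ r (f x) := by
  have ht : ∀ M : ℕ, Measurable fun x => pois r M * cexTerm μ M (f x) := fun M => by
    refine measurable_const.mul ?_
    have : Measurable fun q : X × (Fin M → C) => av fun i : Fin M → P => f q.1 (List.ofFn fun k => (q.2 k, i k)) := by
      simp only [av]; exact (Finset.measurable_sum _ fun i _ => hm M i).div_const _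
    exact this.stronglyMeasurable.integral_prod_right'.measurable
  refine measurable_of_tendsto_metrizable (fun n => Finset.measurable_sum (Finset.range n) fun M _ => ht M) ?_
  exact tendsto_pi_nhds.2 fun x => (summable_cex (hf x) hr).hasSum.tendsto_sum_nat

/-! ### pushforward of the labels -/

omit [IsProbabilityMeasure μ] in
/-- (1) labels pushed forward by a map with fibres of equal size -/
theorem cex_comp [Fintype P] [Fintype Q] [Nonempty Q] [DecidableEq P] {g : Q → P} {n : ℕ}
    (hg : ∀ p, Fintype.card {q // g q = p} = n) (r : ℝ) (f : List (C × P) → ℝ) :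
    cex μ r (fun l : List (C × Q) => f (l.map fun c => (c.1, g c.2))) = cex μ r f := by
  have hn : 0 < n := hg (g (Classical.arbitrary Q)) ▸
    Fintype.card_pos_iff.2 ⟨⟨Classical.arbitrary Q, rfl⟩⟩
  have : Nonempty (Fin n) := ⟨⟨0, hn⟩⟩
  let e : P × Fin n ≃ Q := ((Equiv.sigmaEquivProd P (Fin n)).symm.trans
    (Equiv.sigmaCongrRight fun p => ((Fintype.equivFinOfCardEq (hg p)).symm))).trans (Equiv.sigmaFiberEquiv g)
  have he : ∀ x, g (e x) = x.1 := fun x => by
    simp only [e, Equiv.trans_apply, Equiv.sigmaFiberEquiv, Equiv.coe_fn_mk]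
    exact ((Fintype.equivFinOfCardEq (hg x.1)).symm x.2).2
  rw [cex_eq, cex_eq]
  refine tsum_congr fun M => ?_
  congr 1
  refine integral_congr_ae (Filter.Eventually.of_forall fun w => ?_)
  let E : (Fin M → P) × (Fin M → Fin n) ≃ (Fin M → Q) :=
    (Equiv.arrowProdEquivProdArrow (Fin M) (fun _ => P) (fun _ => Fin n)).symm.trans (Equiv.piCongrRight fun _ => e)
  dsimp only
  rw [← av_comp_equiv E, av_prod]
  refine congrArg av (funext fun i => ?_)
  simp only [List.map_ofFn, Function.comp_def]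
  have : ∀ (j : Fin M → Fin n) k, g (E (i, j) k) = i k := fun j k => he (i k, j k)
  simp only [this]
  exact av_const _

/-! ### two independent Poisson families -/

/-- mean over two groups of labels -/
noncomputable def dterm [Fintype A] [Fintype B] (μ : Measure C) (g₁ : A → P) (g₂ : B → P)
    (f : List (C × P) → ℝ) (a b : ℕ) : ℝ :=
  av fun i₁ : Fin a → A => av fun i₂ : Fin b → B =>
    gint μ f (Fin.append (fun k => g₁ (i₁ k)) fun k => g₂ (i₂ k))

omit [MeasurableSpace C] in
lemma ofFn_mark_append {a b : ℕ} (w₁ : Fin a → C) (w₂ : Fin b → C) (j₁ : Fin a → P) (j₂ : Fin b → P) :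
    (List.ofFn fun k => (Fin.append w₁ w₂ k, Fin.append j₁ j₂ k)) =
      (List.ofFn fun k => (w₁ k, j₁ k)) ++ List.ofFn fun k => (w₂ k, j₂ k) := by
  rw [← List.ofFn_fin_append]
  congr 1
  funext k
  refine Fin.addCases (fun i => ?_) (fun i => ?_) k <;> simp

omit [IsProbabilityMeasure μ] in
lemma CexOK.left {f : List (C × P) → ℝ} {A₀ : ℝ} {φ : C → ℝ} (hf : CexOK μ f A₀ φ) (g₂ : B → P)
    (l₁ : List (C × P)) (hl : ∀ (b : ℕ) (i : Fin b → P), Measurable fun w : Fin b → C =>
      f (l₁ ++ List.ofFn fun k => (w k, i k))) :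
    CexOK μ (fun l₂ : List (C × B) => f (l₁ ++ l₂.map fun c => (c.1, g₂ c.2)))
      (A₀ + (l₁.map fun c => φ c.1).sum) φ where
  nonneg := hf.nonneg
  integrable := hf.integrable
  meas b i := by
    simp only [List.map_ofFn, Function.comp_def]
    exact hl b fun k => g₂ (i k)
  bound l := by
    refine (hf.bound _).trans (le_of_eq ?_)
    simp [List.map_map, Function.comp_def, add_assoc]

section double
variable [Fintype A] [Fintype B] {f : List (C × P) → ℝ} {A₀ : ℝ} {φ : C → ℝ}

omit [IsProbabilityMeasure μ] [Fintype A] [Fintype B] in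
lemma CexOK.meas_append (hf : CexOK μ f A₀ φ) {a b : ℕ} (j₁ : Fin a → P) (j₂ : Fin b → P) :
    Measurable fun q : (Fin a → C) × (Fin b → C) =>
      f ((List.ofFn fun k => (q.1 k, j₁ k)) ++ List.ofFn fun k => (q.2 k, j₂ k)) := by
  simp only [← ofFn_mark_append]
  refine (hf.meas (a + b) (Fin.append j₁ j₂)).comp (f := fun q : (Fin a → C) × (Fin b → C) => Fin.append q.1 q.2)
    (measurable_pi_lambda _ fun k => ?_)
  refine Fin.addCases (fun i => ?_) (fun i => ?_) k
  · simp only [Fin.append_left]; exact (measurable_pi_apply i).comp measurable_fst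
  · simp only [Fin.append_right]; exact (measurable_pi_apply i).comp measurable_snd

omit [IsProbabilityMeasure μ] [Fintype A] [Fintype B] in
lemma CexOK.left_ofFn (hf : CexOK μ f A₀ φ) (g₂ : B → P) {a : ℕ} (w₁ : Fin a → C) (j₁ : Fin a → P) :
    CexOK μ (fun l₂ : List (C × B) => f ((List.ofFn fun k => (w₁ k, j₁ k)) ++ l₂.map fun c => (c.1, g₂ c.2)))
      (A₀ + ∑ k, φ (w₁ k)) φ := by
  have h := hf.left g₂ (List.ofFn fun k => (w₁ k, j₁ k))
    fun b i => (hf.meas_append j₁ i).comp (measurable_const.prodMk measurable_id)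
  simpa [List.map_ofFn, Function.comp_def, List.sum_ofFn] using h

lemma gint_append (hf : CexOK μ f A₀ φ) {a b : ℕ} (j₁ : Fin a → P) (j₂ : Fin b → P) :
    gint μ f (Fin.append j₁ j₂) = ∫ w₁ : Fin a → C, ∫ w₂ : Fin b → C,
      f ((List.ofFn fun k => (w₁ k, j₁ k)) ++ List.ofFn fun k => (w₂ k, j₂ k))
        ∂Measure.pi (fun _ => μ) ∂Measure.pi (fun _ => μ) := by
  have h := (measurePreserving_sumPiEquivProdPi_symm fun _ : Fin a ⊕ Fin b => μ)
  have h' := (measurePreserving_piCongrLeft (fun _ : Fin (a + b) => μ) finSumFinEquiv).comp h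
  have happ : ∀ q : (Fin a → C) × (Fin b → C),
      ((MeasurableEquiv.piCongrLeft (fun _ : Fin (a + b) => C) finSumFinEquiv) ∘
        (MeasurableEquiv.sumPiEquivProdPi fun _ : Fin a ⊕ Fin b => C).symm) q = Fin.append q.1 q.2 := fun q => by
    funext k
    refine Fin.addCases (fun i => ?_) (fun i => ?_) k
    · rw [Fin.append_left, ← finSumFinEquiv_apply_left, Function.comp_apply,
        MeasurableEquiv.piCongrLeft_apply_apply (β := fun _ : Fin (a + b) => C)]
      rfl
    · rw [Fin.append_right, ← finSumFinEquiv_apply_right, Function.comp_apply,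
        MeasurableEquiv.piCongrLeft_apply_apply (β := fun _ : Fin (a + b) => C)]
      rfl
  have hemb := (MeasurableEquiv.piCongrLeft (fun _ : Fin (a + b) => C) finSumFinEquiv).measurableEmbedding.comp
    (MeasurableEquiv.sumPiEquivProdPi fun _ : Fin a ⊕ Fin b => C).symm.measurableEmbedding
  rw [gint, ← h'.integral_comp hemb]
  have hi := (h'.integrable_comp_emb hemb).2 (hf.integrable_labels (Fin.append j₁ j₂))
  simp only [Function.comp_def] at happ hi ⊢
  simp only [happ, ofFn_mark_append] at hi ⊢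
  exact integral_prod _ hi

lemma cexTerm_inner (hf : CexOK μ f A₀ φ) (g₁ : A → P) (g₂ : B → P) (a b : ℕ) :
    cexTerm μ a (fun l₁ : List (C × A) => cexTerm μ b fun l₂ : List (C × B) =>
      f (l₁.map (fun c => (c.1, g₁ c.2)) ++ l₂.map fun c => (c.1, g₂ c.2))) = dterm μ g₁ g₂ f a b := by
  simp only [cexTerm, dterm, List.map_ofFn, Function.comp_def, gint_append hf]
  have hi2 : ∀ (w₁ : Fin a → C) (j₁ : Fin a → P) (i₂ : Fin b → B), Integrable (fun w₂ : Fin b → C =>
      f ((List.ofFn fun k => (w₁ k, j₁ k)) ++ List.ofFn fun k => (w₂ k, g₂ (i₂ k)))) (Measure.pi fun _ => μ) :=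
    fun w₁ j₁ i₂ => by
      have := (hf.left_ofFn g₂ w₁ j₁).integrable_labels i₂
      simpa [List.map_ofFn, Function.comp_def] using this
  have hi1 : ∀ (j₁ : Fin a → P) (i₂ : Fin b → B), Integrable (fun w₁ : Fin a → C => ∫ w₂ : Fin b → C,
      f ((List.ofFn fun k => (w₁ k, j₁ k)) ++ List.ofFn fun k => (w₂ k, g₂ (i₂ k))) ∂Measure.pi (fun _ => μ))
      (Measure.pi fun _ => μ) := fun j₁ i₂ => by
    refine ((integrable_const ((∫ c, φ c ∂μ) * b + A₀)).add (integral_sum_eval μ hf.integrable a).1).mono'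
      (hf.meas_append j₁ _).stronglyMeasurable.integral_prod_right'.aestronglyMeasurable
      (Filter.Eventually.of_forall fun w₁ => ?_)
    have := abs_gint_le (hf.left_ofFn g₂ w₁ j₁) i₂
    simp only [gint, List.map_ofFn, Function.comp_def] at this
    simp only [Pi.add_apply, Real.norm_eq_abs]
    linarith
  simp only [av, integral_div, integral_finsetSum _ fun i₂ (_ : i₂ ∈ univ) => hi2 _ _ i₂]
  rw [integral_finsetSum _ fun i _ => (integrable_finsetSum _ fun i₂ _ => hi1 _ i₂).div_const _]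
  congr 1
  refine sum_congr rfl fun i _ => ?_
  rw [integral_div, integral_finsetSum _ fun i₂ _ => hi1 _ i₂]

lemma abs_dterm_le (hf : CexOK μ f A₀ φ) (g₁ : A → P) (g₂ : B → P) (a b : ℕ) :
    |dterm μ g₁ g₂ f a b| ≤ (∫ c, φ c ∂μ) * (a + b : ℕ) + A₀ := by
  have h0 := add_nonneg (mul_nonneg hf.int_nonneg (a + b).cast_nonneg) hf.A_nonneg
  exact abs_av_le₀ h0 fun i₁ => abs_av_le₀ h0 fun i₂ => abs_gint_le hf _

omit [Fintype A] in
/-- the inner expectation is again admissible -/
lemma CexOK.inner (hf : CexOK μ f A₀ φ) (g₁ : A → P) (g₂ : B → P) {s : ℝ} (hs : 0 ≤ s) :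
    CexOK μ (fun l₁ : List (C × A) => cex μ s fun l₂ : List (C × B) =>
      f (l₁.map (fun c => (c.1, g₁ c.2)) ++ l₂.map fun c => (c.1, g₂ c.2)))
      ((∫ c, φ c ∂μ) * s + A₀) φ where
  nonneg := hf.nonneg
  integrable := hf.integrable
  meas a i := by
    simp only [List.map_ofFn, Function.comp_def]
    refine measurable_cex hs (A₀ := fun w => A₀ + ∑ k, φ (w k)) (φ := φ) (fun b i₂ => ?_)
      fun w => hf.left_ofFn g₂ w fun k => g₁ (i k)
    simp only [List.map_ofFn, Function.comp_def]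
    exact hf.meas_append (fun k => g₁ (i k)) fun k => g₂ (i₂ k)
  bound l := by
    obtain ⟨a, w, i, rfl⟩ : ∃ (a : ℕ) (w : Fin a → C) (i : Fin a → A), l = List.ofFn fun k => (w k, i k) :=
      ⟨l.length, fun k => (l.get k).1, fun k => (l.get k).2, (List.ofFn_get l).symm⟩
    simp only [List.map_ofFn, Function.comp_def, List.sum_ofFn]
    exact (abs_cex_le (hf.left_ofFn g₂ w fun k => g₁ (i k)) hs).trans (by linarith)

/-- two independent families as one double sum -/
lemma cex_cex (hf : CexOK μ f A₀ φ) (g₁ : A → P) (g₂ : B → P) {r s : ℝ} (hr : 0 ≤ r) (hs : 0 ≤ s) :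
    cex μ r (fun l₁ : List (C × A) => cex μ s fun l₂ : List (C × B) =>
      f (l₁.map (fun c => (c.1, g₁ c.2)) ++ l₂.map fun c => (c.1, g₂ c.2))) =
    ∑' M : ℕ, ∑ ab ∈ antidiagonal M, pois r ab.1 * pois s ab.2 * dterm μ g₁ g₂ f ab.1 ab.2 := by
  set I := ∫ c, φ c ∂μ
  have hI : 0 ≤ I := hf.int_nonneg
  set F : ℕ × ℕ → ℝ := fun ab => pois r ab.1 * pois s ab.2 * dterm μ g₁ g₂ f ab.1 ab.2
  have hF : Summable F := by
    have pn : ∀ {t : ℝ}, 0 ≤ t → ∀ n : ℕ, 0 ≤ pois t n := fun ht n => pois_nonneg ht n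
    have m1 := (hasSum_pois_affine r I A₀).summable.mul_of_nonneg (hasSum_pois s).summable
      (fun n => mul_nonneg (pn hr n) (add_nonneg (mul_nonneg hI n.cast_nonneg) hf.A_nonneg)) (pn hs)
    have m2 := (hasSum_pois r).summable.mul_of_nonneg ((hasSum_pois_id s).summable.mul_left I)
      (pn hr) (fun n => mul_nonneg hI (mul_nonneg (pn hs n) n.cast_nonneg))
    refine Summable.of_norm_bounded (m1.add m2) fun ab => ?_
    simp only [F, Real.norm_eq_abs, abs_mul, abs_of_nonneg (pn hr _), abs_of_nonneg (pn hs _)]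
    have h := abs_dterm_le hf g₁ g₂ ab.1 ab.2
    push_cast at h
    calc pois r ab.1 * pois s ab.2 * |dterm μ g₁ g₂ f ab.1 ab.2|
        ≤ pois r ab.1 * pois s ab.2 * (I * (ab.1 + ab.2) + A₀) :=
          mul_le_mul_of_nonneg_left h (mul_nonneg (pn hr _) (pn hs _))
      _ = _ := by ring
  have hterm : ∀ a, cexTerm μ a (fun l₁ : List (C × A) => cex μ s fun l₂ : List (C × B) =>
      f (l₁.map (fun c => (c.1, g₁ c.2)) ++ l₂.map fun c => (c.1, g₂ c.2))) =
      ∑' b, pois s b * dterm μ g₁ g₂ f a b := fun a => by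
    simp only [← cexTerm_inner hf g₁ g₂ a]
    set G : ℕ → (Fin a → C) → ℝ := fun b w₁ => av fun i : Fin a → A =>
      cexTerm μ b fun l₂ : List (C × B) =>
        f ((List.ofFn fun k => (w₁ k, i k)).map (fun c => (c.1, g₁ c.2)) ++ l₂.map fun c => (c.1, g₂ c.2))
    have hb : ∀ b w₁, |G b w₁| ≤ I * b + (A₀ + ∑ k, φ (w₁ k)) := fun b w₁ => by
      refine abs_av_le₀ (add_nonneg (mul_nonneg hI b.cast_nonneg)
        (add_nonneg hf.A_nonneg (sum_nonneg fun k _ => hf.nonneg _))) fun i => ?_
      simpa [List.map_ofFn, Function.comp_def] using abs_cexTerm_le (hf.left_ofFn g₂ w₁ fun k => g₁ (i k)) b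
    have hGm : ∀ b, Measurable (G b) := fun b => by
      simp only [G, av, cexTerm, List.map_ofFn, Function.comp_def]
      refine (Finset.measurable_sum _ fun i _ => ?_).div_const _
      have : Measurable fun q : (Fin a → C) × (Fin b → C) => (∑ j : Fin b → B,
          f ((List.ofFn fun k => (q.1 k, g₁ (i k))) ++ List.ofFn fun k => (q.2 k, g₂ (j k)))) /
          (Fintype.card (Fin b → B) : ℝ) :=
        (Finset.measurable_sum _ fun j _ => hf.meas_append (fun k => g₁ (i k)) fun k => g₂ (j k)).div_const _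
      exact this.stronglyMeasurable.integral_prod_right'.measurable
    have hs1 := integral_sum_eval μ hf.integrable a
    have hGi : ∀ b, Integrable (fun w₁ => pois s b * G b w₁) (Measure.pi fun _ => μ) := fun b =>
      Integrable.const_mul (((integrable_const (I * b)).add ((integrable_const A₀).add hs1.1)).mono'
        (hGm b).aestronglyMeasurable (Filter.Eventually.of_forall fun w => by
          simpa [Real.norm_eq_abs] using hb b w)) _
    have hGs : Summable fun b => ∫ w₁, ‖pois s b * G b w₁‖ ∂Measure.pi (fun _ => μ) := by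
      refine (hasSum_pois_affine s I (A₀ + a * I)).summable.of_nonneg_of_le
        (fun b => integral_nonneg fun _ => norm_nonneg _) fun b => ?_
      refine (integral_mono (hGi b).norm (((integrable_const (I * b + A₀)).add hs1.1).const_mul (pois s b))
        fun w => ?_).trans (le_of_eq ?_)
      · rw [norm_mul, Real.norm_eq_abs, Real.norm_eq_abs, abs_of_nonneg (pois_nonneg hs b)]
        simp only [Pi.add_apply]
        exact mul_le_mul_of_nonneg_left (by linarith [hb b w]) (pois_nonneg hs b)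
      · rw [integral_const_mul]
        simp only [Pi.add_apply]
        rw [integral_add (integrable_const _) hs1.1, hs1.2]
        rw [integral_const, probReal_univ, one_smul]; ring
    calc _ = ∫ w₁ : Fin a → C, ∑' b, pois s b * G b w₁ ∂Measure.pi (fun _ => μ) := by
          refine integral_congr_ae (Filter.Eventually.of_forall fun w₁ => ?_)
          simp only [G, av, cex_eq, mul_div_assoc', mul_sum]
          rw [tsum_div_const, Summable.tsum_finsetSum fun i _ => ?_]
          simpa [List.map_ofFn, Function.comp_def] using summable_cex (hf.left_ofFn g₂ w₁ fun k => g₁ (i k)) hs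
      _ = ∑' b, pois s b * ∫ w₁, G b w₁ ∂Measure.pi (fun _ => μ) := by
          rw [← integral_tsum_of_summable_integral_norm hGi hGs]
          exact tsum_congr fun b => integral_const_mul _ _
      _ = _ := rfl
  rw [cex_eq]
  simp only [hterm, ← tsum_mul_left, ← mul_assoc]
  rw [← hF.tsum_prod, ← Finset.HasAntidiagonal.sigmaAntidiagonalEquivProd.tsum_eq F,
    (show Summable fun c => F (Finset.HasAntidiagonal.sigmaAntidiagonalEquivProd c) from
      Finset.HasAntidiagonal.sigmaAntidiagonalEquivProd.summable_iff.2 hF).tsum_sigma' fun n => (hasSum_fintype _).summable]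
  exact tsum_congr fun M => (tsum_fintype _).trans (Finset.sum_coe_sort _ F)

end double

/-! ### superposition and thinning -/

lemma pois_mul_pois (r s : ℝ) (a b : ℕ) :
    pois r a * pois s b = exp (-(r + s)) / ((a + b).factorial : ℕ) * (((a + b).choose a : ℕ) * r ^ a * s ^ b) := by
  have h : (((a + b).choose a : ℕ) : ℝ) * a.factorial * b.factorial = ((a + b).factorial : ℕ) := by
    rw [Nat.choose_symm_add]
    exact_mod_cast Nat.add_choose_mul_factorial_mul_factorial a b
  rw [neg_add, exp_add, ← h]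
  simp only [pois]
  have : (((a + b).choose a : ℕ) : ℝ) ≠ 0 := Nat.cast_ne_zero.2 (Nat.choose_pos (Nat.le_add_right a b)).ne'
  field_simp

section
variable [Fintype P] {f : List (C × P) → ℝ} {A₀ : ℝ} {φ : C → ℝ}

/-- (3) superposition -/
theorem cex_add_rate (hf : CexOK μ f A₀ φ) {r s : ℝ} (hr : 0 ≤ r) (hs : 0 ≤ s) :
    cex μ (r + s) f = cex μ r (fun l₁ => cex μ s fun l₂ => f (l₁ ++ l₂)) := by
  have h := cex_cex hf (fun p : P => p) (fun p : P => p) hr hs
  simp only [Prod.mk.eta, List.map_id'] at h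
  rw [h, cex_eq]
  refine tsum_congr fun M => ?_
  have hd : ∀ ab ∈ antidiagonal M, dterm μ (fun p : P => p) (fun p : P => p) f ab.1 ab.2 = cexTerm μ M f := by
    rintro ⟨a, b⟩ hab
    rw [Finset.HasAntidiagonal.mem_antidiagonal] at hab
    subst hab
    rw [cexTerm_eq_av hf, ← av_comp_equiv (Fin.appendEquiv a b), av_prod]
    rfl
  rw [sum_congr rfl fun ab hab => by rw [hd ab hab], ← sum_mul]
  congr 1
  have he : ∀ ab ∈ antidiagonal M, pois r ab.1 * pois s ab.2 =
      exp (-(r + s)) / (M.factorial : ℕ) * ((M.choose ab.1 : ℕ) * r ^ ab.1 * s ^ ab.2) := by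
    rintro ⟨a, b⟩ hab
    rw [Finset.HasAntidiagonal.mem_antidiagonal] at hab
    subst hab
    exact pois_mul_pois r s a b
  rw [sum_congr rfl he, ← mul_sum, pois, (Commute.all r s).add_pow']
  simp only [nsmul_eq_mul, mul_assoc]
  ring

end

lemma map_ofFn_append {a b : ℕ} (g₁ : A → P) (g₂ : B → P) (i₁ : Fin a → A) (i₂ : Fin b → B) :
    (List.ofFn i₁).map g₁ ++ (List.ofFn i₂).map g₂ =
      List.ofFn (Fin.append (fun k => g₁ (i₁ k)) fun k => g₂ (i₂ k)) := by
  rw [List.ofFn_fin_append, List.map_ofFn, List.map_ofFn]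
  rfl

/-- sums over labels of a sum type -/
lemma sum_labels [Fintype A] [Fintype B] : ∀ (M : ℕ) (G : List (A ⊕ B) → ℝ),
    (∀ l l', l.Perm l' → G l = G l') →
    ∑ i : Fin M → A ⊕ B, G (List.ofFn i) = ∑ ab ∈ antidiagonal M, (M.choose ab.1 : ℝ) *
      ∑ i₁ : Fin ab.1 → A, ∑ i₂ : Fin ab.2 → B, G ((List.ofFn i₁).map Sum.inl ++ (List.ofFn i₂).map Sum.inr) := by
  intro M
  induction M with
  | zero => intro G _; simp
  | succ M ih =>
    intro G hG
    have hc : ∀ q, ∀ l l' : List (A ⊕ B), l.Perm l' → G (q :: l) = G (q :: l') := fun q l l' h => hG _ _ (h.cons q)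
    let S : ℕ → ℕ → ℝ := fun a b =>
      ∑ i₁ : Fin a → A, ∑ i₂ : Fin b → B, G ((List.ofFn i₁).map Sum.inl ++ (List.ofFn i₂).map Sum.inr)
    have hsA : ∀ {n : ℕ} (H : (Fin (n + 1) → A) → ℝ), ∑ i, H i = ∑ p, ∑ i, H (Fin.cons p i) := fun H => by
      rw [← Equiv.sum_comp (Fin.consEquiv fun _ => A) H, Fintype.sum_prod_type]; rfl
    have hsB : ∀ {n : ℕ} (H : (Fin (n + 1) → B) → ℝ), ∑ i, H i = ∑ p, ∑ i, H (Fin.cons p i) := fun H => by
      rw [← Equiv.sum_comp (Fin.consEquiv fun _ => B) H, Fintype.sum_prod_type]; rfl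
    rw [sum_antidiagonal_choose_succ_mul S M]
    rw [← Equiv.sum_comp (Fin.consEquiv fun _ => A ⊕ B), Fintype.sum_prod_type, Fintype.sum_sum_type]
    simp only [Fin.consEquiv, Equiv.coe_fn_mk, List.ofFn_cons]
    rw [add_comm]
    simp only [fun q => ih (fun l => G (q :: l)) (hc q)]
    refine congrArg₂ (· + ·) ?_ ?_ <;> rw [sum_comm]
    · refine sum_congr rfl fun ab _ => ?_
      rw [← mul_sum, sum_comm]
      refine congrArg _ (sum_congr rfl fun i₁ _ => ?_)
      rw [hsB]
      refine sum_congr rfl fun p _ => sum_congr rfl fun i₂ _ => ?_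
      rw [List.ofFn_cons, List.map_cons]
      exact hG _ _ List.perm_middle.symm
    · refine sum_congr rfl fun ab hab => ?_
      rw [Finset.HasAntidiagonal.mem_antidiagonal] at hab
      rw [← mul_sum, Nat.choose_symm_of_eq_add hab.symm]
      refine congrArg _ ?_
      refine Eq.trans ?_ (hsA _).symm
      refine sum_congr rfl fun p _ => sum_congr rfl fun i₁ _ => sum_congr rfl fun i₂ _ => ?_
      simp

/-- thinning, for labels in a sum type -/
lemma cex_sum_type [Fintype A] [Fintype B] [Nonempty (A ⊕ B)] {f : List (C × (A ⊕ B)) → ℝ} {A₀ : ℝ}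
    {φ : C → ℝ} (hf : CexOK μ f A₀ φ) (hperm : ∀ l l', l.Perm l' → f l = f l') {r : ℝ} (hr : 0 ≤ r) :
    cex μ r f = cex μ (r * Fintype.card A / Fintype.card (A ⊕ B)) (fun l₁ : List (C × A) =>
      cex μ (r * Fintype.card B / Fintype.card (A ⊕ B)) fun l₂ : List (C × B) =>
        f (l₁.map (fun c => (c.1, Sum.inl c.2)) ++ l₂.map fun c => (c.1, Sum.inr c.2))) := by
  set p : ℝ := ((Fintype.card (A ⊕ B) : ℕ) : ℝ) with hpdef
  have hp : 0 < p := Nat.cast_pos.2 Fintype.card_pos
  rw [cex_cex hf Sum.inl Sum.inr (by positivity) (by positivity), cex_eq]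
  refine tsum_congr fun M => ?_
  rw [cexTerm_eq_av hf]
  have hav : av (fun i : Fin M → A ⊕ B => gint μ f i) =
      (∑ i : Fin M → A ⊕ B, glist μ f (List.ofFn i)) / p ^ M := by
    simp only [av, glist_ofFn hperm, Fintype.card_fun, Fintype.card_fin, Nat.cast_pow, hpdef]
  rw [hav, sum_labels M _ (glist_perm hperm), mul_div_assoc', mul_sum, sum_div]
  refine sum_congr rfl fun ab hab => ?_
  obtain ⟨a, b⟩ := ab
  rw [Finset.HasAntidiagonal.mem_antidiagonal] at hab
  subst hab
  simp only [map_ofFn_append, glist_ofFn hperm, sum_eq_card_mul_av, av_const_mul, Fintype.card_fun,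
    Fintype.card_fin, Nat.cast_pow]
  rw [show av (fun i₁ : Fin a → A => av fun i₂ : Fin b → B =>
    gint μ f (Fin.append (fun k => Sum.inl (i₁ k)) fun k => Sum.inr (i₂ k))) = dterm μ Sum.inl Sum.inr f a b from rfl,
    pois_mul_pois]
  have hcard : (Fintype.card A : ℝ) + Fintype.card B = p := by simp [hpdef]
  rw [show r * Fintype.card A / p + r * Fintype.card B / p = r by field_simp; rw [hcard]]
  simp only [pois, div_pow, mul_pow, pow_add]
  field_simp

/-- (2) thinning: split the labels along `e` -/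
theorem cex_split [Fintype P] [Fintype A] [Fintype B] [Nonempty P] {f : List (C × P) → ℝ} {A₀ : ℝ}
    {φ : C → ℝ} (hf : CexOK μ f A₀ φ) (hperm : ∀ l l', l.Perm l' → f l = f l') (e : A ⊕ B ≃ P) {r : ℝ}
    (hr : 0 ≤ r) :
    cex μ r f = cex μ (r * Fintype.card A / Fintype.card P) (fun l₁ : List (C × A) =>
      cex μ (r * Fintype.card B / Fintype.card P) fun l₂ : List (C × B) =>
        f (l₁.map (fun c => (c.1, e (Sum.inl c.2))) ++ l₂.map fun c => (c.1, e (Sum.inr c.2)))) := by
  classical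
  have : Nonempty (A ⊕ B) := e.nonempty
  have h1 := cex_comp (μ := μ) (g := e) (n := 1) (fun p => Fintype.card_eq_one_iff.2
    ⟨⟨e.symm p, e.apply_symm_apply p⟩, fun q => Subtype.ext (e.injective (q.2.trans (e.apply_symm_apply p).symm))⟩) r f
  rw [← h1, cex_sum_type (A₀ := A₀) (φ := φ) ?_ (fun l l' h => hperm _ _ (h.map _)) hr, Fintype.card_congr e]
  · simp only [List.map_append, List.map_map, Function.comp_def]
  · refine ⟨hf.nonneg, hf.integrable, fun M i => ?_, fun l => ?_⟩
    · simp only [List.map_ofFn, Function.comp_def]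
      exact hf.meas M fun k => e (i k)
    · refine (hf.bound _).trans (le_of_eq ?_)
      simp [List.map_map, Function.comp_def]

/-- (4) stability in the rate -/
theorem cex_rate_stable [Fintype P] [Nonempty P] {f : List (C × P) → ℝ} {A₀ : ℝ} {φ ψ : C → ℝ}
    (hf : CexOK μ f A₀ φ) (hψ : Integrable ψ μ) {r d : ℝ} (hr : 0 ≤ r) (hd : 0 ≤ d) {p : C → Prop}
    (hp : ∀ᵐ c ∂μ, p c)
    (h : ∀ l₁ l₂ : List (C × P), (∀ c ∈ l₁ ++ l₂, p c.1) → |f (l₁ ++ l₂) - f l₁| ≤ (l₂.map fun c => ψ c.1).sum) :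
    |cex μ (r + d) f - cex μ r f| ≤ d * ∫ c, ψ c ∂μ := by
  set J := ∫ c, ψ c ∂μ
  have hin := hf.inner (fun p : P => p) (fun p : P => p) hd
  simp only [Prod.mk.eta, List.map_id'] at hin
  rw [cex_add_rate hf hr hd, ← cex_sub hin hf hr, cex_eq, ← Real.norm_eq_abs]
  refine (tsum_of_norm_bounded ((hasSum_pois r).mul_right (d * J)) fun a => ?_).trans (le_of_eq (one_mul _))
  rw [Real.norm_eq_abs, abs_mul, abs_of_nonneg (pois_nonneg hr a)]
  refine mul_le_mul_of_nonneg_left ?_ (pois_nonneg hr a)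
  rw [cexTerm, ← Real.norm_eq_abs]
  refine (norm_integral_le_of_norm_le_const (C := d * J) ?_).trans (le_of_eq (by simp))
  filter_upwards [ae_forall_mem_ofFn (P := P) hp a] with w hw
  rw [Real.norm_eq_abs]
  refine abs_av_le fun i => ?_
  set l₁ := List.ofFn fun k => (w k, i k)
  have hl := hf.left (fun p : P => p) l₁
    fun b j => (hf.meas_append i j).comp (measurable_const.prodMk measurable_id)
  simp only [Prod.mk.eta, List.map_id'] at hl
  rw [show cex μ d (fun l₂ => f (l₁ ++ l₂)) - f l₁ = cex μ d fun l₂ => f (l₁ ++ l₂) - f l₁ from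
    ((cex_sub hl (CexOK.const (f l₁)) hd).trans (by rw [cex_const])).symm, cex_eq, ← Real.norm_eq_abs]
  refine tsum_of_norm_bounded ((hasSum_pois_id d).mul_right J) fun b => ?_
  rw [Real.norm_eq_abs, abs_mul, abs_of_nonneg (pois_nonneg hd b), mul_assoc]
  refine mul_le_mul_of_nonneg_left ?_ (pois_nonneg hd b)
  rw [cexTerm, ← Real.norm_eq_abs]
  have hs := integral_sum_eval μ hψ b
  refine (norm_integral_le_of_norm_le hs.1 ?_).trans (le_of_eq hs.2)
  filter_upwards [ae_forall_mem_ofFn (P := P) hp b] with w₂ hw₂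
  rw [Real.norm_eq_abs]
  refine abs_av_le fun j => ?_
  refine (h l₁ _ fun c hc => ?_).trans (le_of_eq ?_)
  · rcases List.mem_append.1 hc with hc | hc
    exacts [hw i c hc, hw₂ j c hc]
  · rw [List.map_ofFn, List.sum_ofFn]; rfl

/-- (4) bound from almost every clause -/
theorem abs_cex_le_ae [Fintype P] [Nonempty P] {f : List (C × P) → ℝ} {A₀ : ℝ} {ψ : C → ℝ}
    (hψ : Integrable ψ μ) {r : ℝ} (hr : 0 ≤ r) {p : C → Prop} (hp : ∀ᵐ c ∂μ, p c)
    (h : ∀ l : List (C × P), (∀ c ∈ l, p c.1) → |f l| ≤ A₀ + (l.map fun c => ψ c.1).sum) :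
    |cex μ r f| ≤ (∫ c, ψ c ∂μ) * r + A₀ := by
  rw [cex_eq, ← Real.norm_eq_abs]
  refine tsum_of_norm_bounded (hasSum_pois_affine r _ _) fun M => ?_
  rw [Real.norm_eq_abs, abs_mul, abs_of_nonneg (pois_nonneg hr M)]
  refine mul_le_mul_of_nonneg_left ?_ (pois_nonneg hr M)
  have hs := integral_sum_eval μ hψ M
  rw [cexTerm, ← Real.norm_eq_abs]
  refine (norm_integral_le_of_norm_le ((integrable_const A₀).add hs.1) ?_).trans (le_of_eq ?_)
  · filter_upwards [ae_forall_mem_ofFn (P := P) hp M] with w hw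
    rw [Real.norm_eq_abs]
    refine abs_av_le fun i => (h _ (hw i)).trans (le_of_eq ?_)
    rw [List.map_ofFn, List.sum_ofFn]; rfl
  · simp only [Pi.add_apply]
    rw [integral_add (integrable_const _) hs.1, hs.2, integral_const, probReal_univ, one_smul]; ring

/-- rate zero -/
lemma cex_zero [Fintype P] (f : List (C × P) → ℝ) : cex μ 0 f = f [] := by
  rw [cex_eq, tsum_eq_single 0 fun M hM => by simp [pois, zero_pow hM]]
  simp [cexTerm, pois, av]

end Vale.Agent.P168.MP
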