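import Vale.Agent.P168.MP.Lay

/-! Every ultrametric matrix of layer indices is realised by a layered tree. -/

namespace Vale.Agent.P168.MP

open Finset

/-- a node at layer `l` joining the tree `c` to a tree whose layers are at least `l` -/
lemma LT.exists_join {L l : ℕ} (hl : l < L) (c t : LT) (hc : LT.Lay L (l + 1) c) (ht : LT.Lay L l t) :
    ∃ u : LT, LT.Lay L l u ∧ u.size = c.size + t.size ∧
      ∀ i j, i < c.size + t.size → j < c.size + t.size → i ≠ j → u.lv L i j =
        if i < c.size then (if j < c.size then c.lv L i j else l)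
        else if j < c.size then l else t.lv L (i - c.size) (j - c.size) := by
  cases t with
  | leaf =>
    refine ⟨.node l (.cons c (.cons .leaf .nil)), by simp [LT.Lay, LT.Lays, LF.length, hc, hl], by simp [LT.size, LT.sizes], ?_⟩
    intro i j hi hj hne
    simp only [LT.size] at hi hj
    simp only [LT.lv, LT.lvs, LT.size]
    split_ifs <;> omega
  | node q cs =>
    rw [LT.Lay] at ht
    obtain ⟨h1, h2, h3, h4⟩ := ht
    rcases h1.eq_or_lt with h | h
    · subst h
      refine ⟨.node l (.cons c cs), ?_, by simp [LT.size, LT.sizes], ?_⟩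
      · rw [LT.Lay, LT.Lays]
        exact ⟨le_rfl, hl, by simp only [LF.length]; omega, hc, h4⟩
      · intro i j _ _ _
        simp [LT.lv, LT.lvs]
    · refine ⟨.node l (.cons c (.cons (.node q cs) .nil)), ?_, by simp [LT.size, LT.sizes], ?_⟩
      · simp only [LT.Lay, LT.Lays, LF.length]
        exact ⟨le_rfl, hl, le_rfl, hc, ⟨h, h2, h3, h4⟩, trivial⟩
      · intro i j hi hj hne
        simp only [LT.size] at hi hj
        simp only [LT.lv, LT.lvs, LT.size]
        by_cases h1' : i < c.size <;> by_cases h2' : j < c.size <;> simp [h1', h2'] <;>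
          simp only [show i - c.size < LT.sizes cs by omega, show j - c.size < LT.sizes cs by omega, if_true]

/-- every ultrametric matrix with off-diagonal entries in `[lo, L)` comes from a layered tree -/
lemma exists_tree_lo {L : ℕ} : ∀ (n lo : ℕ), 0 < n → ∀ d : Fin n → Fin n → ℕ,
    (∀ i j, d i j = d j i) → (∀ i j, i ≠ j → lo ≤ d i j ∧ d i j < L) →
    (∀ i j k, i ≠ j → j ≠ k → i ≠ k → min (d i j) (d j k) ≤ d i k) →
    ∃ t : LT, LT.Lay L lo t ∧ t.size = n ∧
      ∃ e : Fin n ≃ Fin n, ∀ i j, i ≠ j → t.lv L (e i) (e j) = d i j := by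
  intro n
  induction n using Nat.strong_induction_on with
  | _ n ih =>
    intro lo hn d hsym hb hultra
    rcases Nat.lt_or_ge n 2 with h2 | h2
    · obtain rfl : n = 1 := by omega
      exact ⟨.leaf, by simp [LT.Lay], by simp [LT.size], Equiv.refl _,
        fun i j hne => absurd (Subsingleton.elim i j) hne⟩
    obtain ⟨⟨i₀, j₀⟩, h0, hmin⟩ := exists_min_image
      ((univ : Finset (Fin n × Fin n)).filter fun p => p.1 ≠ p.2) (fun p => d p.1 p.2)
      ⟨(⟨0, hn⟩, ⟨1, h2⟩), by simp⟩
    simp only [mem_filter, mem_univ, true_and] at h0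
    set l := d i₀ j₀ with hl
    have hle : ∀ i j, i ≠ j → l ≤ d i j := fun i j h => hmin (i, j) (by simp [h])
    let p : Fin n → Prop := fun k => k = i₀ ∨ l < d i₀ k
    have hp0 : p i₀ := Or.inl rfl
    have hq0 : ¬ p j₀ := by
      rintro (h | h)
      · exact h0 h.symm
      · exact lt_irrefl _ h
    have hin : ∀ a b, p a → p b → a ≠ b → l < d a b := by
      rintro a b (rfl | ha) (rfl | hb') hne
      · exact absurd rfl hne
      · exact hb'
      · rwa [hsym]
      · by_cases h : a = i₀
        · subst h; exact hb'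
        by_cases h' : b = i₀
        · subst h'; rwa [hsym]
        exact lt_of_lt_of_le (lt_min (hsym a i₀ ▸ ha) hb') (hultra a i₀ b h (Ne.symm h') hne)
    have hout : ∀ a b, p a → ¬ p b → d a b = l := by
      intro a b ha hb'
      have hne : a ≠ b := fun h => hb' (h ▸ ha)
      refine le_antisymm (not_lt.1 fun h => hb' ?_) (hle a b hne)
      rcases ha with rfl | ha
      · exact Or.inr h
      · by_cases h' : a = i₀
        · subst h'; exact Or.inr h
        exact Or.inr (lt_of_lt_of_le (lt_min ha h)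
          (hultra i₀ a b (Ne.symm h') hne fun e => hb' (Or.inl e.symm)))
    set A := Fintype.card {k // p k} with hA
    set B := Fintype.card {k // ¬ p k} with hB
    have hApos : 0 < A := Fintype.card_pos_iff.2 ⟨⟨i₀, hp0⟩⟩
    have hBpos : 0 < B := Fintype.card_pos_iff.2 ⟨⟨j₀, hq0⟩⟩
    have hAB : A + B = n := by
      rw [hA, hB, Fintype.card_subtype_compl, Fintype.card_fin]
      have := Fintype.card_subtype_le p
      rw [Fintype.card_fin] at this
      omega
    let fA := Fintype.equivFin {k // p k}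
    let fB := Fintype.equivFin {k // ¬ p k}
    obtain ⟨c, hc, hcs, eA, heA⟩ := ih A (by omega) (l + 1) hApos
      (fun a b => d (fA.symm a).1 (fA.symm b).1) (fun a b => hsym _ _)
      (fun a b h => have hne : (fA.symm a).1 ≠ (fA.symm b).1 := fun e => h (fA.symm.injective (Subtype.ext e))
        ⟨hin _ _ (fA.symm a).2 (fA.symm b).2 hne, (hb _ _ hne).2⟩)
      (fun a b k h1 h2 h3 => hultra _ _ _ (fun e => h1 (fA.symm.injective (Subtype.ext e)))
        (fun e => h2 (fA.symm.injective (Subtype.ext e))) (fun e => h3 (fA.symm.injective (Subtype.ext e))))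
    obtain ⟨t, ht, hts, eB, heB⟩ := ih B (by omega) l hBpos
      (fun a b => d (fB.symm a).1 (fB.symm b).1) (fun a b => hsym _ _)
      (fun a b h => have hne : (fB.symm a).1 ≠ (fB.symm b).1 := fun e => h (fB.symm.injective (Subtype.ext e))
        ⟨hle _ _ hne, (hb _ _ hne).2⟩)
      (fun a b k h1 h2 h3 => hultra _ _ _ (fun e => h1 (fB.symm.injective (Subtype.ext e)))
        (fun e => h2 (fB.symm.injective (Subtype.ext e))) (fun e => h3 (fB.symm.injective (Subtype.ext e))))
    obtain ⟨u, hu, hus, hulv⟩ := LT.exists_join (hb i₀ j₀ h0).2 c t hc ht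
    refine ⟨u, ?_, by omega, ?_⟩
    · cases u with
      | leaf => simp [LT.Lay]
      | node q cs =>
        rw [LT.Lay] at hu ⊢
        exact ⟨(hb i₀ j₀ h0).1.trans hu.1, hu.2⟩
    rw [hcs, hts] at hulv
    classical
    let e : Fin n ≃ Fin n := ((Equiv.sumCompl p).symm.trans
      ((Equiv.sumCongr (fA.trans eA) (fB.trans eB)).trans finSumFinEquiv)).trans (finCongr hAB)
    refine ⟨e, fun i j hne => ?_⟩
    have vA : ∀ k (hk : p k), (e k : ℕ) = eA (fA ⟨k, hk⟩) := fun k hk => by
      simp [e, Equiv.sumCompl_symm_apply_of_pos hk]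
    have vB : ∀ k (hk : ¬ p k), (e k : ℕ) = A + eB (fB ⟨k, hk⟩) := fun k hk => by
      simp [e, Equiv.sumCompl_symm_apply_of_neg hk]
    rw [hulv _ _ (by omega) (by omega) fun h => hne (e.injective (Fin.ext h))]
    by_cases hi : p i <;> by_cases hj : p j
    · rw [vA i hi, vA j hj, if_pos (eA _).isLt, if_pos (eA _).isLt,
        heA _ _ fun h => hne (congrArg Subtype.val (fA.injective h))]
      simp
    · rw [vA i hi, vB j hj, if_pos (eA _).isLt, if_neg (by omega), hout i j hi hj]
    · rw [vB i hi, vA j hj, if_neg (by omega), if_pos (eA _).isLt, hsym i j, hout j i hj hi]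
    · rw [vB i hi, vB j hj, if_neg (by omega), if_neg (by omega)]
      simp only [Nat.add_sub_cancel_left]
      rw [heB _ _ fun h => hne (congrArg Subtype.val (fB.injective h))]
      simp

/-- **Realisation.** Every ultrametric matrix of layers is realised by a layered tree. -/
theorem exists_tree {L n : ℕ} (hn : 0 < n) (d : Fin n → Fin n → ℕ) (hsym : ∀ i j, d i j = d j i)
    (hlt : ∀ i j, i ≠ j → d i j < L)
    (hultra : ∀ i j k, i ≠ j → j ≠ k → i ≠ k → min (d i j) (d j k) ≤ d i k) :
    ∃ t : LT, LT.Lay L 0 t ∧ t.size = n ∧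
      ∃ e : Fin n ≃ Fin n, ∀ i j, i ≠ j → t.lv L (e i) (e j) = d i j :=
  exists_tree_lo n 0 hn d hsym (fun i j h => ⟨Nat.zero_le _, hlt i j h⟩) hultra

end Vale.Agent.P168.MP
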