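import Vale.Agent.P168.MP.Pert
import Vale.Agent.P168.MP.Gauge

/-! Averaging over the marks of one free site (the core of B3 in ROUTE.md). -/

namespace Vale.Agent.P168.MP

open Finset

lemma sp_symmetric (R : ℕ) (T : List (ℕ × ℕ)) (a b : ℕ) : sp R T a b = sp R T b a := by
  induction T generalizing a b with
  | nil => rfl
  | cons x T ih =>
      obtain ⟨p, v⟩ := x
      rcases eq_or_ne a b with rfl | hab
      · rfl
      rw [sp, sp, if_neg hab, if_neg hab.symm]
      split_ifs with h1 h2
      · exact absurd (h1.trans h2.symm) hab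
      · rw [ih]
      · rw [ih]
      · rw [ih]

/-! ### site maps -/

section maps
variable {N k : ℕ}

/-- flip one `eps` -/
def epsFlip (a : Fin k) : Site N k ≃ Site N k :=
  Function.Involutive.toPerm (fun s => (s.1, s.2.1, Function.update s.2.2.1 a (!s.2.2.1 a), s.2.2.2))
    fun s => by simp

/-- flip one `xi` -/
def xiFlip (q : Pair k) : Site N k ≃ Site N k :=
  Function.Involutive.toPerm (fun s => (s.1, s.2.1, s.2.2.1, Function.update s.2.2.2 q (!s.2.2.2 q)))
    fun s => by simp

/-- translate position and `J` -/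
def shift [NeZero N] (c : Fin N × (Pair k → Bool)) : Site N k ≃ Site N k where
  toFun s := (s.1 + c.1, fun q => xor (s.2.1 q) (c.2 q), s.2.2)
  invFun s := (s.1 - c.1, fun q => xor (s.2.1 q) (c.2 q), s.2.2)
  left_inv s := by
    refine Prod.ext (by simp) (Prod.ext ?_ rfl)
    funext q; simp
  right_inv s := by
    refine Prod.ext (by simp) (Prod.ext ?_ rfl)
    funext q; simp

lemma epsFlip_apply (a : Fin k) (s : Site N k) :
    epsFlip a s = (s.1, s.2.1, Function.update s.2.2.1 a (!s.2.2.1 a), s.2.2.2) := rfl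

lemma xiFlip_apply (q : Pair k) (s : Site N k) :
    xiFlip q s = (s.1, s.2.1, s.2.2.1, Function.update s.2.2.2 q (!s.2.2.2 q)) := rfl

lemma sg_not (b : Bool) : sg (!b) = -sg b := by cases b <;> simp [sg]

lemma sg_mul_self (b : Bool) : sg b * sg b = 1 := by cases b <;> simp [sg]

end maps

variable {N S : ℕ} {ι : Type} [DecidableEq ι] {β : ι → Batch}

/-- act on the marks of one site -/
def onSite (x : ι × Fin S) (f : Site N (β x.1).k ≃ Site N (β x.1).k) :
    Mark N S β ≃ Mark N S β where
  toFun o := (o.1, Function.update o.2 x (f (o.2 x)))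
  invFun o := (o.1, Function.update o.2 x (f.symm (o.2 x)))
  left_inv o := by simp
  right_inv o := by simp

lemma onSite_fst (x : ι × Fin S) (f : Site N (β x.1).k ≃ Site N (β x.1).k) (o : Mark N S β) :
    (onSite x f o).1 = o.1 := rfl

lemma onSite_self (x : ι × Fin S) (f : Site N (β x.1).k ≃ Site N (β x.1).k) (o : Mark N S β) :
    (onSite x f o).2 x = f (o.2 x) := Function.update_self ..

lemma onSite_ne {x y : ι × Fin S} (h : y ≠ x) (f : Site N (β x.1).k ≃ Site N (β x.1).k)
    (o : Mark N S β) : (onSite x f o).2 y = o.2 y := Function.update_of_ne h ..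

lemma proj_modify {α Ω : Type*} (g : Ω → α) (f : Ω → Ω) (hg : ∀ o, g (f o) = g o) (p : List Ω)
    (l i : ℕ) (d : Ω) : g ((p.modify l f).getD i d) = g (p.getD i d) := by
  simp only [List.getD_eq_getElem?_getD, List.getElem?_modify]
  cases p[i]? <;> simp
  split <;> simp [hg]

variable [NeZero N] [Fintype ι] {R : ℕ} {m : ℕ → ℝ}

/-- the weight ignores the marks of site `x` -/
def Free (w : List (Mark N S β) → ℝ) (x : ι × Fin S) : Prop :=
  ∀ (f : Site N (β x.1).k ≃ Site N (β x.1).k) (p : List (Mark N S β)) (l : ℕ),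
    w (p.modify l (onSite x f)) = w p

/-- the weight with site `x` removed -/
noncomputable def pwFree (R : ℕ) (W : (Fin N → Bool) → ℝ) (h u : ι → ℝ) (x : ι × Fin S)
    (p : List (Mark N S β)) : ℝ :=
  W (spinAt R p) * Real.exp (∑ i ∈ univ.erase x, gain1 R h u p i)

omit [Fintype ι] in
lemma spinAt_modify (x : ι × Fin S) (f : Site N (β x.1).k ≃ Site N (β x.1).k)
    (p : List (Mark N S β)) (l : ℕ) : spinAt R (p.modify l (onSite x f)) = spinAt R p :=
  proj_modify Prod.fst _ (fun o => onSite_fst x f o) p l _ _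

omit [Fintype ι] in
lemma siteAt_modify_ne {x y : ι × Fin S} (h : y ≠ x) (f : Site N (β x.1).k ≃ Site N (β x.1).k)
    (p : List (Mark N S β)) (l : ℕ) : siteAt (p.modify l (onSite x f)) y = siteAt p y :=
  funext fun i => proj_modify (fun o : Mark N S β => o.2 y) _ (fun o => onSite_ne h f o) p l _ _

lemma pwFree_free (R : ℕ) (W : (Fin N → Bool) → ℝ) (h u : ι → ℝ) (x : ι × Fin S) :
    Free (pwFree (β := β) R W h u x) x := fun f p l => by
  unfold pwFree
  rw [spinAt_modify]
  congr 2
  refine sum_congr rfl fun i hi => ?_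
  rw [gain1, gain1, spinAt_modify, siteAt_modify_ne (ne_of_mem_erase hi)]

variable {x : ι × Fin S} {T : List (ℕ × ℕ)} {ps : List (List (Mark N S β))}

omit [Fintype ι] in
lemma map_spinAt_node (r l : ℕ) (f : Site N (β x.1).k ≃ Site N (β x.1).k) :
    (nodeMap R T r l (onSite x f) ps).map (spinAt R) = ps.map (spinAt R) := by
  refine List.ext_getElem (by simp [nodeMap]) fun a h1 h2 => ?_
  simp only [List.getElem_map, nodeMap, List.getElem_mapIdx]
  split
  · rw [spinAt_modify]
  · rfl

omit [Fintype ι] in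
lemma site_node (hs : Supp R T ps) {r L : ℕ} (hL : 1 ≤ L)
    (f : Site N (β x.1).k ≃ Site N (β x.1).k) {a i : ℕ} (ha : a < T.length) (hi : 1 ≤ i)
    (hiR : i ≤ R) :
    siteAt ((nodeMap R T r (L - 1) (onSite x f) ps).getD a []) x i =
      if i = L ∧ L ≤ sp R T a r then f (siteAt (ps.getD a []) x i)
      else siteAt (ps.getD a []) x i := by
  have h : a < ps.length := hs.1 ▸ ha
  have hlen : (ps.getD a []).length = R := hs.2.1 a ha
  rw [List.getD_eq_getElem _ _ h] at hlen ⊢
  rw [List.getD_eq_getElem _ _ (by simp [nodeMap, h])]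
  simp only [nodeMap, List.getElem_mapIdx, siteAt]
  by_cases hc : L ≤ sp R T a r
  · rw [if_pos (show L - 1 < sp R T a r by omega)]
    have hi' : i - 1 < ps[a].length := by omega
    rw [List.getD_eq_getElem _ _ (by simpa using hi'), List.getD_eq_getElem _ _ hi',
      List.getElem_modify]
    by_cases hil : i = L
    · simp [hil, hc, onSite_self]
    · rw [if_neg (show ¬ L - 1 = i - 1 by omega), if_neg (fun h => hil h.1)]
  · rw [if_neg (show ¬ L - 1 < sp R T a r by omega), if_neg (fun h => hc h.2)]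

omit [Fintype ι] [DecidableEq ι] in
lemma siteAt_agree (hs : Supp R T ps) {a c : ℕ} (ha : a < T.length) (hc : c < T.length) {L : ℕ}
    (h1 : 1 ≤ L) (h : L ≤ sp R T a c) :
    siteAt (ps.getD a []) x L = siteAt (ps.getD c []) x L := by
  have e := take_of_le (hs.2.2 a c ha hc) h
  have ga : ∀ p : List (Mark N S β), p.getD (L - 1) default = (p.take L).getD (L - 1) default :=
    fun p => by simp [List.getD_eq_getElem?_getD, show L - 1 < L by omega]
  simp only [siteAt]
  rw [ga, ga (ps.getD c []), e]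

section
variable (b : Batch) {σ : Fin N → Bool} {s s' : ℕ → Site N b.k}

omit [NeZero N] in
lemma xiv_congr {q : Pair b.k} (hJ : (s' 1).2.1 = (s 1).2.1)
    (hxi : (s' (b.lev q.1.1 q.1.2 + if (s 1).2.1 q then 1 else 0)).2.2.2 q =
      (s (b.lev q.1.1 q.1.2 + if (s 1).2.1 q then 1 else 0)).2.2.2 q) :
    xiv b s' q = xiv b s q := by
  simp only [xiv, hJ, hxi]

omit [NeZero N] in
lemma phi_congr {a : Fin (b.k + 1)} (hv : (s' 1).1 = (s 1).1)
    (he : ∀ c : Fin b.k, c.succ = a → (s' 1).2.2.1 c = (s 1).2.2.1 c)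
    (hx : ∀ q, xiv b s' q = xiv b s q) : phi b σ s' a = phi b σ s a := by
  simp only [phi, hv, hx]
  congr 2
  induction a using Fin.cases with
  | zero => simp
  | succ c => simp [he c rfl]

/-- the part of a feature that reads the spin -/
def spinF (σ : Fin N → Bool) (v : Fin N) (a : Fin (b.k + 1)) : ℝ :=
  if b.spin a then sg (σ v) else 1

omit [NeZero N] in
/-- the product of all features at positions sharing their first mark -/
lemma feature_prod (σ : Fin (b.k + 1) → Fin N → Bool) (s : Fin (b.k + 1) → ℕ → Site N b.k)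
    (h1 : ∀ a, s a 1 = s 0 1) :
    psi0 b (σ 0) (s 0) * ∏ a : Fin b.k, phi b (σ a.succ) (s a.succ) a.succ =
      (∏ a, spinF b (σ a) (s 0 1).1 a) *
        ((∏ q : Pair b.k, if (s 0 1).2.1 q then (-1 : ℝ) else 1) *
          ∏ q : Pair b.k, xiv b (s q.1.1) q * xiv b (s q.1.2) q) := by
  have hx : ∏ a : Fin (b.k + 1), ∏ q : Pair b.k,
      (if q.1.1 = a ∨ q.1.2 = a then xiv b (s a) q else 1) =
      ∏ q : Pair b.k, xiv b (s q.1.1) q * xiv b (s q.1.2) q := by
    rw [Finset.prod_comm]
    refine prod_congr rfl fun q _ => ?_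
    rw [← Finset.prod_filter, show (univ.filter fun a => q.1.1 = a ∨ q.1.2 = a) = {q.1.1, q.1.2} by
      ext a; simp [eq_comm], Finset.prod_pair q.2.ne]
  rw [← hx, Fin.prod_univ_succ (f := fun a => spinF b (σ a) (s 0 1).1 a),
    Fin.prod_univ_succ (n := b.k)]
  have he : (∏ a : Fin b.k, sg ((s 0 1).2.2.1 a)) * ∏ a : Fin b.k, sg ((s 0 1).2.2.1 a) = 1 := by
    rw [← Finset.prod_mul_distrib]; simp [sg_mul_self]
  simp only [psi0, phi, h1, Fin.cons_zero, Fin.cons_succ, Finset.prod_mul_distrib, spinF]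
  linear_combination (if b.spin 0 = true then sg (σ 0 (s 0 1).1) else 1) *
    (∏ q : Pair b.k, if q.1.1 = 0 ∨ q.1.2 = 0 then xiv b (s 0) q else 1) *
    (∏ q : Pair b.k, if (s 0 1).2.1 q = true then (-1 : ℝ) else 1) *
    (∏ a : Fin b.k, if b.spin a.succ = true then sg (σ a.succ (s 0 1).1) else 1) *
    (∏ a : Fin b.k, ∏ q : Pair b.k,
      if q.1.1 = a.succ ∨ q.1.2 = a.succ then xiv b (s a.succ) q else 1) * he

end

omit [Fintype ι] [DecidableEq ι] in
/-- the spin part of a function is read from the configurations -/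
lemma getD_spin (a : ℕ) (ps : List (List (Mark N S β))) :
    (ps.map (spinAt R)).getD a default = spinAt R (ps.getD a []) := by
  rw [show (default : Fin N → Bool) = spinAt R ([] : List (Mark N S β)) by
    simp [spinAt]; rfl, List.getD_map]

variable {w : List (Mark N S β) → ℝ}

omit [NeZero N] in
lemma ET_odd (hw : Free w x) (hT : Valid R T) {r L : ℕ} (hr : r < T.length) (h1 : 1 ≤ L) (hL : L ≤ R)
    (f : Site N (β x.1).k ≃ Site N (β x.1).k) {H : List (List (Mark N S β)) → ℝ}
    (hH : ∀ ps, Supp R T ps → H (nodeMap R T r (L - 1) (onSite x f) ps) = -H ps) :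
    ET R m w T H = 0 := by
  have h := ET_nodeMap (m := m) (fun p => hw f p (L - 1)) (show L - 1 < R by omega) hT hr H
  rw [ET_congr hT hH, ET_neg] at h
  linarith

/-- the observable times features at given positions vanishes if a feature is missing -/
theorem ET_site_zero (hw : Free w x) (hT : Valid R T) (hR : 1 ≤ R) {r₀ : ℕ} (hr₀ : r₀ < T.length)
    (hlev : ∀ q : Pair (β x.1).k, 1 ≤ (β x.1).lev q.1.1 q.1.2 ∧
      (β x.1).lev q.1.1 q.1.2 < R)
    {J : Type} [Fintype J] (pos : J → ℕ) (hpos : ∀ t, pos t < T.length) (f : J → Fin (β x.1).k)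
    {a₀ : Fin (β x.1).k} (ha₀ : ∀ t, f t ≠ a₀) (F : List (Fin N → Bool) → ℝ) :
    ET R m w T (fun ps => F (ps.map (spinAt R)) *
      (psi0 (β x.1) (spinAt R (ps.getD r₀ [])) (siteAt (ps.getD r₀ []) x) *
        ∏ t, phi (β x.1) (spinAt R (ps.getD (pos t) [])) (siteAt (ps.getD (pos t) []) x) (f t).succ))
      = 0 := by
  refine ET_odd hw hT hr₀ le_rfl hR (epsFlip a₀) fun ps hs => ?_
  set ps' := nodeMap R T r₀ (1 - 1) (onSite x (epsFlip a₀)) ps with hps'
  have hmap : ps'.map (spinAt R) = ps.map (spinAt R) := map_spinAt_node _ _ _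
  have hσ : ∀ a, spinAt R (ps'.getD a []) = spinAt R (ps.getD a []) := fun a => by
    rw [← getD_spin, ← getD_spin, hmap]
  have hx : ∀ a, a < T.length → ∀ q,
      xiv (β x.1) (siteAt (ps'.getD a []) x) q = xiv (β x.1) (siteAt (ps.getD a []) x) q := by
    intro a ha q
    refine xiv_congr _ ?_ ?_
    · rw [hps', site_node hs le_rfl _ ha le_rfl hR]; split_ifs <;> rfl
    · rw [hps', site_node hs le_rfl _ ha (by have := hlev q; omega)
        (by have := hlev q; split <;> omega)]
      split_ifs <;> rfl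
  have hv : ∀ a, a < T.length →
      (siteAt (ps'.getD a []) x 1).1 = (siteAt (ps.getD a []) x 1).1 ∧
      (siteAt (ps'.getD a []) x 1).2.1 = (siteAt (ps.getD a []) x 1).2.1 ∧
      ∀ c, c ≠ a₀ → (siteAt (ps'.getD a []) x 1).2.2.1 c = (siteAt (ps.getD a []) x 1).2.2.1 c := by
    intro a ha
    rw [hps', site_node hs le_rfl _ ha le_rfl hR]
    split
    · exact ⟨rfl, rfl, fun c hc => Function.update_of_ne hc ..⟩
    · exact ⟨rfl, rfl, fun _ _ => rfl⟩
  have h0 : (siteAt (ps'.getD r₀ []) x 1) = epsFlip a₀ (siteAt (ps.getD r₀ []) x 1) := by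
    rw [hps', site_node hs le_rfl _ hr₀ le_rfl hR, if_pos ⟨rfl, by rw [sp_self]; exact hR⟩]
  have hp : ∀ t, phi (β x.1) (spinAt R (ps'.getD (pos t) [])) (siteAt (ps'.getD (pos t) []) x) (f t).succ
      = phi (β x.1) (spinAt R (ps.getD (pos t) [])) (siteAt (ps.getD (pos t) []) x) (f t).succ := by
    intro t
    rw [hσ]
    exact phi_congr _ (hv _ (hpos t)).1 (fun c hc => (hv _ (hpos t)).2.2 c
      (Fin.succ_injective _ hc ▸ ha₀ t)) (hx _ (hpos t))
  have hprod : ∏ c, sg ((siteAt (ps'.getD r₀ []) x 1).2.2.1 c) =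
      -∏ c, sg ((siteAt (ps.getD r₀ []) x 1).2.2.1 c) := by
    rw [← Finset.mul_prod_erase _ _ (mem_univ a₀), ← Finset.mul_prod_erase _ _ (mem_univ a₀),
      Finset.prod_congr rfl fun c hc => by rw [(hv _ hr₀).2.2 c (ne_of_mem_erase hc)]]
    rw [h0]
    simp [epsFlip_apply, sg_not]
  simp only [hp]
  simp only [hmap, psi0, hσ, hprod, (hv _ hr₀).2.1]
  rw [phi_congr (σ := spinAt R (ps.getD r₀ [])) _ (hv _ hr₀).1
    (fun c hc => absurd hc (Fin.succ_ne_zero c)) (hx _ hr₀)]
  ring

/-- the observable times one copy of every feature gives the kernel -/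
theorem ET_site (hw : Free w x) (hT : Valid R T) (hR : 1 ≤ R)
    (hlev : ∀ q : Pair (β x.1).k, 1 ≤ (β x.1).lev q.1.1 q.1.2 ∧
      (β x.1).lev q.1.1 q.1.2 < R)
    (pos : Fin ((β x.1).k + 1) → ℕ) (hpos : ∀ a, pos a < T.length)
    (F : List (Fin N → Bool) → ℝ) :
    ET R m w T (fun ps => F (ps.map (spinAt R)) *
      (psi0 (β x.1) (spinAt R (ps.getD (pos 0) [])) (siteAt (ps.getD (pos 0) []) x) *
        ∏ a : Fin (β x.1).k, phi (β x.1) (spinAt R (ps.getD (pos a.succ) []))
          (siteAt (ps.getD (pos a.succ) []) x) a.succ)) =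
    (1 / 2) ^ Fintype.card (Pair (β x.1).k) * ET R m w T (fun ps =>
      F (ps.map (spinAt R)) * kappa (β x.1) R T pos (ps.map (spinAt R))) := by
  classical
  by_cases hsh : ∀ a : Fin (β x.1).k, 1 ≤ sp R T (pos a.succ) (pos 0)
  swap
  · push Not at hsh
    obtain ⟨a, ha⟩ := hsh
    have hk : ∀ σs : List (Fin N → Bool), kappa (β x.1) R T pos σs = 0 := fun σs => by
      unfold kappa
      rw [Finset.prod_eq_zero (mem_univ (⟨(0, a.succ), Fin.succ_pos a⟩ : Pair (β x.1).k)), mul_zero]
      have := hlev ⟨(0, a.succ), Fin.succ_pos a⟩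
      rw [if_neg]
      rw [sp_symmetric]
      show ¬ sp R T (pos a.succ) (pos 0) = _
      omega
    have hz : ∀ (c : ℝ), ET R m w T (fun _ => c * 0) = 0 := fun c => by
      rw [ET_mul_const, mul_zero]
    simp only [hk]
    rw [show ET R m w T (fun ps => F (ps.map (spinAt R)) * 0) = 0 by rw [ET_mul_const, mul_zero],
      mul_zero]
    refine ET_odd hw hT (hpos 0) le_rfl hR (epsFlip a) fun ps hs => ?_
    set ps' := nodeMap R T (pos 0) (1 - 1) (onSite x (epsFlip a)) ps with hps'
    have hmap : ps'.map (spinAt R) = ps.map (spinAt R) := map_spinAt_node _ _ _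
    have hσ : ∀ c, spinAt R (ps'.getD c []) = spinAt R (ps.getD c []) := fun c => by
      rw [← getD_spin, ← getD_spin, hmap]
    have hv : ∀ c, c < T.length →
        (siteAt (ps'.getD c []) x 1).1 = (siteAt (ps.getD c []) x 1).1 ∧
        (siteAt (ps'.getD c []) x 1).2.1 = (siteAt (ps.getD c []) x 1).2.1 ∧
        ∀ e, (e ≠ a ∨ sp R T c (pos 0) < 1) →
          (siteAt (ps'.getD c []) x 1).2.2.1 e = (siteAt (ps.getD c []) x 1).2.2.1 e := by
      intro c hc
      rw [hps', site_node hs le_rfl _ hc le_rfl hR]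
      split
      next h => exact ⟨rfl, rfl, fun e he => Function.update_of_ne (he.resolve_right (by omega)) ..⟩
      next => exact ⟨rfl, rfl, fun _ _ => rfl⟩
    have hx : ∀ c, c < T.length → ∀ q,
        xiv (β x.1) (siteAt (ps'.getD c []) x) q = xiv (β x.1) (siteAt (ps.getD c []) x) q := by
      intro c hc q
      refine xiv_congr _ (hv c hc).2.1 ?_
      rw [hps', site_node hs le_rfl _ hc (by have := hlev q; omega)
        (by have := hlev q; split <;> omega)]
      split_ifs <;> rfl
    have hp : ∀ e : Fin (β x.1).k,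
        phi (β x.1) (spinAt R (ps'.getD (pos e.succ) [])) (siteAt (ps'.getD (pos e.succ) []) x) e.succ
        = phi (β x.1) (spinAt R (ps.getD (pos e.succ) [])) (siteAt (ps.getD (pos e.succ) []) x) e.succ := by
      intro e
      rw [hσ]
      refine phi_congr _ (hv _ (hpos _)).1 (fun c hc => (hv _ (hpos _)).2.2 c ?_) (hx _ (hpos _))
      rw [Fin.succ_injective _ hc]
      rcases eq_or_ne e a with rfl | hne
      · exact Or.inr ha
      · exact Or.inl hne
    have h0 : (siteAt (ps'.getD (pos 0) []) x 1) = epsFlip a (siteAt (ps.getD (pos 0) []) x 1) := by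
      rw [hps', site_node hs le_rfl _ (hpos 0) le_rfl hR, if_pos ⟨rfl, by rw [sp_self]; exact hR⟩]
    have hprod : ∏ c, sg ((siteAt (ps'.getD (pos 0) []) x 1).2.2.1 c) =
        -∏ c, sg ((siteAt (ps.getD (pos 0) []) x 1).2.2.1 c) := by
      rw [← Finset.mul_prod_erase _ _ (mem_univ a), ← Finset.mul_prod_erase _ _ (mem_univ a),
        Finset.prod_congr rfl fun c hc => by
          rw [(hv _ (hpos 0)).2.2 c (Or.inl (ne_of_mem_erase hc))]]
      rw [h0]
      simp [epsFlip_apply, sg_not]
    simp only [hp]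
    simp only [hmap, psi0, hσ, hprod, (hv _ (hpos 0)).2.1]
    rw [phi_congr (σ := spinAt R (ps.getD (pos 0) [])) _ (hv _ (hpos 0)).1
      (fun c hc => absurd hc (Fin.succ_ne_zero c)) (hx _ (hpos 0))]
    ring
  -- all features share their first mark
  set G : Fin N → List (Fin N → Bool) → ℝ := fun v σs => ∏ a, spinF (β x.1) (σs.getD (pos a) default) v a
  set sgn : (Pair (β x.1).k → Bool) → ℝ := fun d => ∏ q, if d q then -1 else 1
  set s0 : List (List (Mark N S β)) → Site N (β x.1).k := fun ps => siteAt (ps.getD (pos 0) []) x 1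
  set good : (Pair (β x.1).k → Bool) → ℝ := fun d => ∏ q : Pair (β x.1).k,
    if (β x.1).lev q.1.1 q.1.2 + (if d q then 1 else 0) ≤ sp R T (pos q.1.1) (pos q.1.2) then 1 else 0
  set X : (Pair (β x.1).k → Bool) → List (List (Mark N S β)) → ℝ := fun d ps => ∏ q : Pair (β x.1).k,
    sg ((siteAt (ps.getD (pos q.1.1) []) x ((β x.1).lev q.1.1 q.1.2 + if d q then 1 else 0)).2.2.2 q) *
    sg ((siteAt (ps.getD (pos q.1.2) []) x ((β x.1).lev q.1.1 q.1.2 + if d q then 1 else 0)).2.2.2 q)
  have step1 : ∀ ps, Supp R T ps →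
      F (ps.map (spinAt R)) * (psi0 (β x.1) (spinAt R (ps.getD (pos 0) [])) (siteAt (ps.getD (pos 0) []) x) *
        ∏ a : Fin (β x.1).k, phi (β x.1) (spinAt R (ps.getD (pos a.succ) []))
          (siteAt (ps.getD (pos a.succ) []) x) a.succ) =
      ∑ d, sgn d * ((if (s0 ps).2.1 = d then (1:ℝ) else 0) *
        (F (ps.map (spinAt R)) * G (s0 ps).1 (ps.map (spinAt R))) * X d ps) := by
    intro ps hs
    have h1 : ∀ a, siteAt (ps.getD (pos a) []) x 1 = siteAt (ps.getD (pos 0) []) x 1 := by
      intro a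
      induction a using Fin.cases with
      | zero => rfl
      | succ c => exact siteAt_agree hs (hpos _) (hpos 0) le_rfl (hsh c)
    rw [feature_prod (β x.1) (fun a => spinAt R (ps.getD (pos a) []))
      (fun a => siteAt (ps.getD (pos a) []) x) h1,
      Finset.sum_eq_single (s0 ps).2.1 (fun d _ hd => by rw [if_neg (Ne.symm hd)]; ring) (by simp)]
    simp only [if_true, s0, G, sgn, X, getD_spin, xiv, h1]
    ring
  rw [ET_congr hT step1, ET_sum]
  simp only [ET_const_mul]
  have step2 : ∀ d, ET R m w T (fun ps => (if (s0 ps).2.1 = d then (1:ℝ) else 0) *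
      (F (ps.map (spinAt R)) * G (s0 ps).1 (ps.map (spinAt R))) * X d ps) =
      good d * ET R m w T (fun ps => (if (s0 ps).2.1 = d then (1:ℝ) else 0) *
        (F (ps.map (spinAt R)) * G (s0 ps).1 (ps.map (spinAt R)))) := by
    intro d
    by_cases hg : ∀ q : Pair (β x.1).k,
        (β x.1).lev q.1.1 q.1.2 + (if d q then 1 else 0) ≤ sp R T (pos q.1.1) (pos q.1.2)
    · have : good d = 1 := Finset.prod_eq_one fun q _ => if_pos (hg q)
      rw [this, one_mul]
      refine ET_congr hT fun ps hs => ?_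
      have : X d ps = 1 := Finset.prod_eq_one fun q _ => by
        rw [siteAt_agree hs (hpos q.1.1) (hpos q.1.2) (by have := hlev q; omega) (hg q), sg_mul_self]
      rw [this, mul_one]
    · push Not at hg
      obtain ⟨q₀, hq₀⟩ := hg
      rw [show good d = 0 from Finset.prod_eq_zero (mem_univ q₀) (if_neg (by omega)), zero_mul]
      set L := (β x.1).lev q₀.1.1 q₀.1.2 + (if d q₀ then 1 else 0)
      have hL : 1 ≤ L ∧ L ≤ R := by
        have := hlev q₀
        constructor <;> simp only [L] <;> split <;> omega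
      refine ET_odd hw hT (hpos q₀.1.1) hL.1 hL.2 (xiFlip q₀) fun ps hs => ?_
      set ps' := nodeMap R T (pos q₀.1.1) (L - 1) (onSite x (xiFlip q₀)) ps with hps'
      have hmap : ps'.map (spinAt R) = ps.map (spinAt R) := map_spinAt_node _ _ _
      have hs0 : (s0 ps').1 = (s0 ps).1 ∧ (s0 ps').2.1 = (s0 ps).2.1 := by
        simp only [s0, hps']
        rw [site_node hs hL.1 _ (hpos 0) le_rfl hR]
        split <;> exact ⟨rfl, rfl⟩
      have hX : X d ps' = -X d ps := by
        simp only [X, hps']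
        rw [← Finset.mul_prod_erase _ _ (mem_univ q₀), ← Finset.mul_prod_erase _ _ (mem_univ q₀)]
        rw [site_node hs hL.1 _ (hpos _) hL.1 hL.2, site_node hs hL.1 _ (hpos _) hL.1 hL.2,
          if_pos ⟨rfl, by rw [sp_self]; exact hL.2⟩,
          if_neg (fun h => by rw [sp_symmetric] at h; exact absurd h.2 (by omega))]
        have hrest : ∀ q ∈ univ.erase q₀, ∀ c,
            (siteAt ((nodeMap R T (pos q₀.1.1) (L - 1) (onSite x (xiFlip q₀)) ps).getD (pos c) [])
              x ((β x.1).lev q.1.1 q.1.2 + if d q then 1 else 0)).2.2.2 q =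
            (siteAt (ps.getD (pos c) []) x ((β x.1).lev q.1.1 q.1.2 + if d q then 1 else 0)).2.2.2 q := by
          intro q hq c
          rw [site_node hs hL.1 _ (hpos c) (by have := hlev q; omega)
            (by have := hlev q; split <;> omega)]
          split_ifs <;> first | rfl | exact Function.update_of_ne (ne_of_mem_erase hq) ..
        rw [Finset.prod_congr rfl fun q hq => by rw [hrest q hq, hrest q hq]]
        simp [xiFlip_apply, sg_not, L]
      rw [hmap, hs0.1, hs0.2, hX, mul_neg]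
  simp only [step2]
  -- translation of the position and of `J`
  have step3 : ∀ d, ET R m w T (fun ps => (if (s0 ps).2.1 = d then (1:ℝ) else 0) *
      (F (ps.map (spinAt R)) * G (s0 ps).1 (ps.map (spinAt R)))) =
      (1 / 2) ^ Fintype.card (Pair (β x.1).k) *
        ET R m w T (fun ps => F (ps.map (spinAt R)) * avg fun v => G v (ps.map (spinAt R))) := by
    intro d
    set H : List (List (Mark N S β)) → ℝ := fun ps => (if (s0 ps).2.1 = d then (1:ℝ) else 0) *
      (F (ps.map (spinAt R)) * G (s0 ps).1 (ps.map (spinAt R)))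
    have hc : ∀ c : Fin N × (Pair (β x.1).k → Bool), ET R m w T H =
        ET R m w T fun ps => (if (fun q => xor ((s0 ps).2.1 q) (c.2 q)) = d then (1:ℝ) else 0) *
          (F (ps.map (spinAt R)) * G ((s0 ps).1 + c.1) (ps.map (spinAt R))) := fun c => by
      rw [ET_nodeMap (fun p => hw (shift c) p (1 - 1)) (show 1 - 1 < R by omega) hT (hpos 0) H]
      refine ET_congr hT fun ps hs => ?_
      simp only [H, map_spinAt_node, s0, site_node hs le_rfl _ (hpos 0) le_rfl hR, sp_self,
        show (1 = 1 ∧ 1 ≤ R) from ⟨rfl, hR⟩, and_self, if_true]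
      rfl
    have hN : (0:ℝ) < N := by exact_mod_cast NeZero.pos N
    have key : (N : ℝ) * 2 ^ Fintype.card (Pair (β x.1).k) * ET R m w T H =
        N * ET R m w T (fun ps => F (ps.map (spinAt R)) * avg fun v => G v (ps.map (spinAt R))) := by
      have e : ∑ c : Fin N × (Pair (β x.1).k → Bool), ET R m w T H =
          (N : ℝ) * 2 ^ Fintype.card (Pair (β x.1).k) * ET R m w T H := by
        simp
      rw [← e, Finset.sum_congr rfl fun c _ => hc c, ← ET_sum, ← ET_const_mul]
      congr 1; funext ps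
      rw [Fintype.sum_prod_type, avg, Fintype.card_fin]
      have hd : ∀ q', ((fun q => xor ((s0 ps).2.1 q) (q' q)) = d) ↔
          q' = fun q => xor ((s0 ps).2.1 q) (d q) := fun q' => by
        simp only [funext_iff]
        refine forall_congr' fun q => ?_
        cases (s0 ps).2.1 q <;> cases q' q <;> cases d q <;> simp
      simp only [hd, ite_mul, one_mul, zero_mul, Finset.sum_ite_eq', mem_univ, if_true]
      rw [← Equiv.sum_comp (Equiv.addLeft (s0 ps).1) (fun v => G v (ps.map (spinAt R))), ← Finset.mul_sum]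
      simp only [Equiv.coe_addLeft]
      rw [mul_left_comm, mul_div_cancel₀ _ hN.ne']
    rw [div_pow, one_pow, div_mul_eq_mul_div, one_mul, eq_div_iff (by positivity)]
    nlinarith [mul_left_cancel₀ hN.ne' (show (N:ℝ) * (2 ^ Fintype.card (Pair (β x.1).k) * ET R m w T H) = _ by
      rw [← mul_assoc, key])]
  simp only [step3]
  have hsum : ∑ d, sgn d * good d = ∏ q : Pair (β x.1).k,
      if sp R T (pos q.1.1) (pos q.1.2) = (β x.1).lev q.1.1 q.1.2 then (1:ℝ) else 0 := by
    simp only [sgn, good, ← Finset.prod_mul_distrib]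
    refine (Fintype.prod_sum (fun (q : Pair (β x.1).k) (e : Bool) => (if e then (-1:ℝ) else 1) *
      if (β x.1).lev q.1.1 q.1.2 + (if e then 1 else 0) ≤ sp R T (pos q.1.1) (pos q.1.2) then (1:ℝ) else 0)).symm.trans ?_
    refine prod_congr rfl fun q _ => ?_
    simp only [Fintype.sum_bool, if_true, Bool.false_eq_true, if_false, add_zero]
    split_ifs <;> first | (norm_num; done) | (exfalso; omega)
  simp only [← mul_assoc]
  rw [← Finset.sum_mul, ← Finset.sum_mul, hsum]
  simp only [kappa, G, spinF]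
  rw [mul_comm _ ((1 / 2 : ℝ) ^ _), mul_assoc, ← ET_const_mul]
  congr 2; funext ps; ring

end Vale.Agent.P168.MP
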