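import Vale.Agent.P168.MP.Comb
import Vale.Agent.P168.MP.Shape

/-! The combinatorial heart of section C: sums over sequences of attachments which realize a
prescribed shape (levels `lv` of all pairs of the features `0..k`). -/

namespace Vale.Agent.P168.MP

open Finset

variable {R : ℕ} {m : ℕ → ℝ} {k : ℕ} {lv : Fin (k + 1) → Fin (k + 1) → ℕ}

/-! ## Shapes -/

/-- an ultrametric on the features, with values in `[1, R)` off the diagonal -/
structure Levels (R : ℕ) (lv : Fin (k + 1) → Fin (k + 1) → ℕ) : Prop where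
  diag : ∀ a, lv a a = R
  comm : ∀ a b, lv a b = lv b a
  ultra : ∀ a b c, min (lv a b) (lv b c) ≤ lv a c
  pos : ∀ a b, a ≠ b → 1 ≤ lv a b
  lt : ∀ a b, a ≠ b → lv a b < R

/-- the features in `A` are placed by `pos` according to the shape `lv` -/
def ShpOn (R : ℕ) (lv : Fin (k + 1) → Fin (k + 1) → ℕ) (A : Finset (Fin (k + 1)))
    (T : List (ℕ × ℕ)) (pos : Fin (k + 1) → ℕ) : Prop :=
  ∀ a ∈ A, ∀ b ∈ A, a ≠ b → sp R T (pos a) (pos b) = lv a b

/-- all features are placed according to the shape `lv` -/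
def Shp (R : ℕ) (lv : Fin (k + 1) → Fin (k + 1) → ℕ) (T : List (ℕ × ℕ))
    (pos : Fin (k + 1) → ℕ) : Prop :=
  ∀ a b, a ≠ b → sp R T (pos a) (pos b) = lv a b

instance (A : Finset (Fin (k + 1))) (T : List (ℕ × ℕ)) (pos : Fin (k + 1) → ℕ) :
    Decidable (ShpOn R lv A T pos) := by unfold ShpOn; infer_instance

instance (T : List (ℕ × ℕ)) (pos : Fin (k + 1) → ℕ) : Decidable (Shp R lv T pos) := by
  unfold Shp; infer_instance

theorem shpOn_univ {T : List (ℕ × ℕ)} {pos : Fin (k + 1) → ℕ} :
    ShpOn R lv univ T pos ↔ Shp R lv T pos :=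
  ⟨fun h a b => h a (mem_univ a) b (mem_univ b), fun h a _ b _ => h a b⟩

theorem Levels.le_R (h : Levels R lv) (a b : Fin (k + 1)) : lv a b ≤ R := by
  rcases eq_or_ne a b with rfl | hab
  · exact (h.diag a).le
  · exact (h.lt a b hab).le

theorem Levels.trans (h : Levels R lv) {l : ℕ} {a b c : Fin (k + 1)} (h1 : l ≤ lv a b)
    (h2 : l ≤ lv b c) : l ≤ lv a c :=
  (le_min h1 h2).trans (h.ultra a b c)

theorem ShpOn.sp_eq (h : Levels R lv) {A : Finset (Fin (k + 1))} {T : List (ℕ × ℕ)}
    {pos : Fin (k + 1) → ℕ} (hA : ShpOn R lv A T pos) {a b : Fin (k + 1)} (ha : a ∈ A)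
    (hb : b ∈ A) : sp R T (pos a) (pos b) = lv a b := by
  rcases eq_or_ne a b with rfl | hab
  · rw [sp_self, h.diag]
  · exact hA a ha b hb hab

/-! ## One step -/

/-- the level at which the new feature `a` leaves the features in `A` -/
def lmax (lv : Fin (k + 1) → Fin (k + 1) → ℕ) (A : Finset (Fin (k + 1))) (a : Fin (k + 1)) : ℕ :=
  A.sup fun b => lv a b

/-- representatives of the children which the node of `a` has among the features in `A` -/
def reps (lv : Fin (k + 1) → Fin (k + 1) → ℕ) (A : Finset (Fin (k + 1))) (a : Fin (k + 1)) :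
    Finset (Fin (k + 1)) :=
  A.filter fun b => lv a b = lmax lv A a ∧
    ∀ c ∈ A, c < b → lv a c = lmax lv A a → lv b c ≤ lmax lv A a

/-- the weight of the step placing `a` next to the features in `A` -/
def stepW (m : ℕ → ℝ) (lv : Fin (k + 1) → Fin (k + 1) → ℕ) (A : Finset (Fin (k + 1)))
    (a : Fin (k + 1)) : ℝ :=
  m (lmax lv A a) - (reps lv A a).card * m (lmax lv A a + 1)

theorem lmax_mem (A : Finset (Fin (k + 1))) (hA : A.Nonempty) (a : Fin (k + 1)) :
    ∃ b ∈ A, lv a b = lmax lv A a :=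
  (A.exists_mem_eq_sup hA fun b => lv a b).imp fun _ h => ⟨h.1, h.2.symm⟩

theorem le_lmax {A : Finset (Fin (k + 1))} (a : Fin (k + 1)) {b : Fin (k + 1)} (hb : b ∈ A) :
    lv a b ≤ lmax lv A a :=
  Finset.le_sup (f := fun b => lv a b) hb

theorem lmax_range (h : Levels R lv) {A : Finset (Fin (k + 1))} (hA : A.Nonempty)
    {a : Fin (k + 1)} (ha : a ∉ A) : 1 ≤ lmax lv A a ∧ lmax lv A a < R := by
  obtain ⟨b, hb, e⟩ := lmax_mem (lv := lv) A hA a
  have hab : a ≠ b := fun e => ha (e ▸ hb)
  rw [← e]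
  exact ⟨h.pos a b hab, h.lt a b hab⟩

theorem exists_rep (h : Levels R lv) {A : Finset (Fin (k + 1))} {a : Fin (k + 1)} (ha : a ∉ A)
    {b : Fin (k + 1)} (hb : b ∈ A) (e : lv a b = lmax lv A a) :
    ∃ r ∈ reps lv A a, lmax lv A a + 1 ≤ lv b r := by
  set l := lmax lv A a
  have hl : l < R := (lmax_range h ⟨b, hb⟩ ha).2
  let s := A.filter fun c => lv a c = l ∧ l + 1 ≤ lv b c
  have hs : s.Nonempty := ⟨b, mem_filter.2 ⟨hb, e, by rw [h.diag]; exact hl⟩⟩
  obtain ⟨hr, hr1, hr2⟩ := mem_filter.1 (s.min'_mem hs)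
  refine ⟨s.min' hs, mem_filter.2 ⟨hr, hr1, fun c hc hcr hac => ?_⟩, hr2⟩
  by_contra hcon
  have : c ∈ s := mem_filter.2 ⟨hc, hac, h.trans hr2 (by omega)⟩
  exact absurd (s.min'_le c this) (not_le.2 hcr)

theorem reps_sep (h : Levels R lv) {A : Finset (Fin (k + 1))} {a r s : Fin (k + 1)}
    (hr : r ∈ reps lv A a) (hs : s ∈ reps lv A a) (hrs : r ≠ s) :
    lv r s < lmax lv A a + 1 := by
  simp only [reps, mem_filter] at hr hs
  rcases lt_or_gt_of_ne hrs with hlt | hlt
  · have := hs.2.2 r hr.1 hlt hr.2.1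
    rw [h.comm r s]; omega
  · have := hr.2.2 s hs.1 hlt hs.2.1
    omega

theorem reps_nonempty (h : Levels R lv) {A : Finset (Fin (k + 1))} (hA : A.Nonempty)
    {a : Fin (k + 1)} (ha : a ∉ A) : (reps lv A a).Nonempty := by
  obtain ⟨b, hb, e⟩ := lmax_mem (lv := lv) A hA a
  exact (exists_rep h ha hb e).imp fun _ h => h.1

/-- the new replica realizes `a` iff it lies in the node and outside the existing children -/
theorem realize_iff (h : Levels R lv) {A : Finset (Fin (k + 1))} {a : Fin (k + 1)} (ha : a ∉ A)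
    {T : List (ℕ × ℕ)} {pos : Fin (k + 1) → ℕ} (hA : ShpOn R lv A T pos)
    {r : Fin (k + 1)} (hr : r ∈ reps lv A a) (n : ℕ) :
    (∀ b ∈ A, sp R T n (pos b) = lv a b) ↔
      lmax lv A a ≤ sp R T n (pos r) ∧
        ∀ s ∈ reps lv A a, ¬ lmax lv A a + 1 ≤ sp R T n (pos s) := by
  set l := lmax lv A a with hl
  have mem : ∀ s ∈ reps lv A a, s ∈ A ∧ lv a s = l := fun s hs =>
    ⟨(mem_filter.1 hs).1, (mem_filter.1 hs).2.1⟩
  constructor
  · intro H
    refine ⟨by rw [H r (mem r hr).1, (mem r hr).2], fun s hs => ?_⟩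
    rw [H s (mem s hs).1, (mem s hs).2]; omega
  · rintro ⟨H1, H2⟩ b hb
    have e := hA.sp_eq h (mem r hr).1 hb
    have u1 := sp_ultra R T n (pos r) (pos b)
    have u2 := sp_ultra R T (pos r) n (pos b)
    have c1 := sp_comm R T n (pos r)
    have H2r := H2 r hr
    rcases lt_or_eq_of_le (le_lmax (lv := lv) a hb) with hlt | heq
    · have v1 := h.ultra r a b
      have v2 := h.ultra a r b
      have c2 := h.comm a r
      have := (mem r hr).2
      omega
    · have hge : l ≤ sp R T n (pos b) := by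
        refine sp_trans H1 ?_
        rw [e]
        exact h.trans (b := a) (by rw [h.comm, (mem r hr).2]) heq.ge
      obtain ⟨s, hs, hbs⟩ := exists_rep h ha hb heq
      have : ¬ l + 1 ≤ sp R T n (pos b) := fun H => H2 s hs
        (sp_trans H (by rw [hA.sp_eq h hb (mem s hs).1]; exact hbs))
      omega

theorem step_sum (hm : m (R + 1) = 0) (h : Levels R lv) {T : List (ℕ × ℕ)} (hT : Valid R T)
    {A : Finset (Fin (k + 1))} (hA : A.Nonempty) {a : Fin (k + 1)} (ha : a ∉ A)
    {pos : Fin (k + 1) → ℕ} (hpos : ∀ b ∈ A, pos b < T.length) (hshp : ShpOn R lv A T pos) :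
    ((att R m T).map fun c => c.2 *
      if (∀ b ∈ A, sp R (c.1 :: T) T.length (pos b) = lv a b) then (1 : ℝ) else 0).sum
      = stepW m lv A a := by
  obtain ⟨r, hr⟩ := reps_nonempty h hA ha
  have hl := lmax_range h hA ha
  have hmem : ∀ s ∈ reps lv A a, s ∈ A ∧ lv a s = lmax lv A a := fun s hs =>
    ⟨(mem_filter.1 hs).1, (mem_filter.1 hs).2.1⟩
  rw [stepW, ← att_node hm hT (reps lv A a) pos hr hl.1 hl.2.le (fun i hi => hpos i (hmem i hi).1)
    (fun i hi => by
      rw [hshp.sp_eq h (hmem r hr).1 (hmem i hi).1]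
      exact h.trans (b := a) (by rw [h.comm, (hmem r hr).2]) (hmem i hi).2.ge)
    (fun i hi j hj hij => by
      rw [hshp.sp_eq h (hmem i hi).1 (hmem j hj).1]
      exact reps_sep h hi hj hij)]
  refine congrArg List.sum (List.map_congr_left fun c hc => ?_)
  congr 1
  have hshp' : ShpOn R lv A (c.1 :: T) pos := fun i hi j hj hij => by
    rw [sp_old R _ (hpos i hi).ne (hpos j hj).ne]; exact hshp i hi j hj hij
  have e := realize_iff h ha hshp' hr T.length
  split_ifs with h1 h2 h3
  · rfl
  · exact absurd (e.1 h1) h2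
  · exact absurd (e.2 h3) h1
  · rfl

theorem shpOn_insert (h : Levels R lv) {T : List (ℕ × ℕ)} (x : ℕ × ℕ) {A : Finset (Fin (k + 1))}
    {a : Fin (k + 1)} (ha : a ∉ A) {pos : Fin (k + 1) → ℕ} (hpos : ∀ b ∈ A, pos b < T.length)
    (hpa : pos a = T.length) :
    ShpOn R lv (insert a A) (x :: T) pos ↔
      ShpOn R lv A T pos ∧ ∀ b ∈ A, sp R (x :: T) T.length (pos b) = lv a b := by
  constructor
  · intro H
    refine ⟨fun i hi j hj hij => ?_, fun b hb => ?_⟩
    · rw [← sp_old R x (hpos i hi).ne (hpos j hj).ne]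
      exact H i (mem_insert_of_mem hi) j (mem_insert_of_mem hj) hij
    · rw [← hpa]
      exact H a (mem_insert_self a A) b (mem_insert_of_mem hb) fun e => ha (e ▸ hb)
  · rintro ⟨H1, H2⟩ i hi j hj hij
    rcases mem_insert.1 hi with rfl | hi' <;> rcases mem_insert.1 hj with rfl | hj'
    · exact absurd rfl hij
    · rw [hpa]; exact H2 j hj'
    · rw [hpa, sp_comm, H2 i hi', h.comm]
    · rw [sp_old R x (hpos i hi').ne (hpos j hj').ne]; exact H1 i hi' j hj' hij

/-! ## Orders -/

/-- product of the step weights along the order `L`; the step placing the first feature of `Bf`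
is left out -/
def word (m : ℕ → ℝ) (lv : Fin (k + 1) → Fin (k + 1) → ℕ) (Bf : Finset (Fin (k + 1))) :
    Finset (Fin (k + 1)) → List (Fin (k + 1)) → ℝ
  | _, [] => 1
  | A, a :: L => (if a ∈ Bf ∧ Disjoint A Bf then 1 else stepW m lv A a) *
      word m lv Bf (insert a A) L

theorem word_cons (Bf A : Finset (Fin (k + 1))) (a : Fin (k + 1)) (L : List (Fin (k + 1))) :
    word m lv Bf A (a :: L) = (if a ∈ Bf ∧ Disjoint A Bf then 1 else stepW m lv A a) *
      word m lv Bf (insert a A) L := rfl

theorem word_empty_cons (A : Finset (Fin (k + 1))) (a : Fin (k + 1)) (L : List (Fin (k + 1))) :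
    word m lv ∅ A (a :: L) = stepW m lv A a * word m lv ∅ (insert a A) L := by
  rw [word_cons, if_neg (fun h => Finset.notMem_empty a h.1)]

/-- the features, in the order in which `e` places them -/
def order (e : Equiv.Perm (Fin k)) : List (Fin (k + 1)) :=
  List.ofFn fun i => (e.symm i).succ

/-- total weight of a shape -/
def Wsum (m : ℕ → ℝ) (lv : Fin (k + 1) → Fin (k + 1) → ℕ) : ℝ :=
  ∑ e : Equiv.Perm (Fin k), word m lv ∅ {0} (order e)

/-- total weight of a shape without the step which opens `Bf` -/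
def Wrest (m : ℕ → ℝ) (lv : Fin (k + 1) → Fin (k + 1) → ℕ) (Bf : Finset (Fin (k + 1))) : ℝ :=
  ∑ e : Equiv.Perm (Fin k), word m lv Bf {0} (order e)

theorem sum_flatMap_att {α : Type*} (L : List α) (g : α → List (List (ℕ × ℕ) × ℝ))
    (f : List (ℕ × ℕ) × ℝ → ℝ) :
    ((L.flatMap g).map f).sum = (L.map fun c => ((g c).map f).sum).sum := by
  induction L with
  | nil => simp
  | cons a L ih => simp [ih]

theorem attSeq_sum_step (j : ℕ) (T : List (ℕ × ℕ)) (f : List (ℕ × ℕ) → ℝ) :
    ((attSeq R m (j + 1) T).map fun d => d.2 * f d.1).sum =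
      ((att R m T).map fun c =>
        c.2 * ((attSeq R m j (c.1 :: T)).map fun d => d.2 * f d.1).sum).sum := by
  rw [attSeq, sum_flatMap_att]
  refine congrArg List.sum (List.map_congr_left fun c _ => ?_)
  rw [← List.sum_map_mul_left, List.map_map]
  exact congrArg List.sum (List.map_congr_left fun d _ => by simp [mul_assoc])

theorem attSeq_suffix : ∀ (j : ℕ) (T : List (ℕ × ℕ)), ∀ d ∈ attSeq R m j T,
    ∃ pre, d.1 = pre ++ T ∧ pre.length = j
  | 0, T, d, hd => by
    obtain rfl : d = (T, 1) := by simpa [attSeq] using hd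
    exact ⟨[], rfl, rfl⟩
  | j + 1, T, d, hd => by
    simp only [attSeq, List.mem_flatMap, List.mem_map] at hd
    obtain ⟨c, -, d', hd', rfl⟩ := hd
    obtain ⟨pre, e, hl⟩ := attSeq_suffix j (c.1 :: T) d' hd'
    exact ⟨pre ++ [c.1], by simp [e], by simp [hl]⟩

theorem sp_append (R : ℕ) (pre T : List (ℕ × ℕ)) {a b : ℕ} (ha : a < T.length)
    (hb : b < T.length) : sp R (pre ++ T) a b = sp R T a b := by
  induction pre with
  | nil => rfl
  | cons x pre ih =>
      rw [List.cons_append, sp_old R x (by simp; omega) (by simp; omega), ih]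

/-- **constant observable**: the sequences realizing the order `L` have total weight `word` -/
theorem word_sum (hm : m (R + 1) = 0) (h : Levels R lv) (pos : Fin (k + 1) → ℕ) :
    ∀ (L : List (Fin (k + 1))) (T : List (ℕ × ℕ)) (A : Finset (Fin (k + 1)))
      (G : List (ℕ × ℕ) → ℝ) (V : ℝ), Valid R T → A.Nonempty → L.Nodup → (∀ a ∈ L, a ∉ A) →
      (∀ b ∈ A, pos b < T.length) →
      (∀ i (hi : i < L.length), pos L[i] = T.length + i) →
      (∀ d ∈ attSeq R m L.length T, ShpOn R lv (A ∪ L.toFinset) d.1 pos → G d.1 = V) →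
      ((attSeq R m L.length T).map fun d => d.2 *
        if ShpOn R lv (A ∪ L.toFinset) d.1 pos then G d.1 else 0).sum
      = if ShpOn R lv A T pos then V * word m lv ∅ A L else 0
  | [], T, A, G, V, _, _, _, _, _, _, hG => by
    simp only [List.length_nil, attSeq, List.map_cons, List.map_nil, List.sum_cons, List.sum_nil,
      List.toFinset_nil, Finset.union_empty, word, mul_one, one_mul, add_zero]
    split_ifs with hs
    · exact hG (T, 1) (by simp [attSeq]) (by simpa using hs)
    · rfl
  | a :: L, T, A, G, V, hT, hA, hnd, hdis, hpos, hL, hG => by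
    have ha : a ∉ A := hdis a (by simp)
    rw [List.nodup_cons] at hnd
    have hpa : pos a = T.length := hL 0 (Nat.succ_pos _)
    have hset : A ∪ (a :: L).toFinset = insert a A ∪ L.toFinset := by
      rw [List.toFinset_cons, Finset.union_insert, Finset.insert_union]
    simp only [hset, List.length_cons] at hG ⊢
    rw [attSeq_sum_step L.length T fun d =>
      if ShpOn R lv (insert a A ∪ L.toFinset) d pos then G d else 0]
    have key : ∀ c ∈ att R m T, c.2 * ((attSeq R m L.length (c.1 :: T)).map fun d => d.2 *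
          if ShpOn R lv (insert a A ∪ L.toFinset) d.1 pos then G d.1 else 0).sum =
        (c.2 * if (∀ b ∈ A, sp R (c.1 :: T) T.length (pos b) = lv a b) then (1 : ℝ) else 0) *
          if ShpOn R lv A T pos then V * word m lv ∅ (insert a A) L else 0 := by
      intro c hc
      rw [word_sum hm h pos L (c.1 :: T) (insert a A) G V (valid_att hT hc) (insert_nonempty _ _)
        hnd.2 (fun b hb => by
          simp only [mem_insert, not_or]
          exact ⟨fun e => hnd.1 (e ▸ hb), hdis b (by simp [hb])⟩)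
        (fun b hb => by
          rcases mem_insert.1 hb with rfl | hb'
          · simp [hpa]
          · exact (hpos b hb').trans (by simp))
        (fun i hi => by
          have := hL (i + 1) (by simp; omega)
          simp only [List.getElem_cons_succ] at this
          rw [this]; simp; omega)
        (fun d hd => hG (d.1, c.2 * d.2)
          (by
            simp only [attSeq, List.mem_flatMap, List.mem_map]
            exact ⟨c, hc, d, hd, rfl⟩)),
        if_congr (shpOn_insert h c.1 ha hpos hpa) rfl rfl]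
      by_cases h1 : ShpOn R lv A T pos <;>
        by_cases h2 : ∀ b ∈ A, sp R (c.1 :: T) T.length (pos b) = lv a b <;> simp [h1, h2]
    rw [List.map_congr_left key, List.sum_map_mul_right]
    split_ifs with hs
    · rw [step_sum hm h hT hA ha hpos hs, word_empty_cons]; ring
    · rw [mul_zero]

theorem posOf_zero (n : ℕ) (e : Equiv.Perm (Fin k)) : posOf n e 0 = 0 := rfl

theorem posOf_succ (n : ℕ) (e : Equiv.Perm (Fin k)) (a : Fin k) :
    posOf n e a.succ = n + (e a : ℕ) := rfl

theorem order_data (n : ℕ) (e : Equiv.Perm (Fin k)) :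
    (order e).length = k ∧ (order e).Nodup ∧ (∀ a ∈ order e, a ∉ ({0} : Finset (Fin (k + 1)))) ∧
      ({0} : Finset (Fin (k + 1))) ∪ (order e).toFinset = univ ∧
      ∀ i (hi : i < (order e).length), posOf n e (order e)[i] = n + i := by
  refine ⟨by simp [order], ?_, ?_, ?_, fun i hi => ?_⟩
  · exact List.nodup_ofFn.2 ((Fin.succ_injective k).comp e.symm.injective)
  · intro a ha
    obtain ⟨i, rfl⟩ := List.mem_ofFn.1 ha
    simp [Fin.succ_ne_zero]
  · refine eq_univ_iff_forall.2 fun a => ?_
    refine Fin.cases (by simp) (fun b => ?_) a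
    refine mem_union_right _ (List.mem_toFinset.2 (List.mem_ofFn.2 ⟨e b, by simp⟩))
  · simp [order, posOf_succ]

theorem sum_orders (d : List (List (ℕ × ℕ) × ℝ)) (f : List (ℕ × ℕ) → Equiv.Perm (Fin k) → ℝ) :
    (d.map fun x => x.2 * ∑ e, f x.1 e).sum = ∑ e, (d.map fun x => x.2 * f x.1 e).sum := by
  simp only [Finset.mul_sum]
  exact list_sum_map_finset_sum d univ fun x e => x.2 * f x.1 e

/-- **(S1)** constant observable on all sequences of the shape -/
theorem shape_sum (hm : m (R + 1) = 0) (h : Levels R lv) {T : List (ℕ × ℕ)} (hT : Valid R T)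
    (hne : T ≠ []) (G : List (ℕ × ℕ) → Equiv.Perm (Fin k) → ℝ) (V : ℝ)
    (hG : ∀ d ∈ attSeq R m k T, ∀ e, Shp R lv d.1 (posOf T.length e) → G d.1 e = V) :
    ((attSeq R m k T).map fun d => d.2 *
      ∑ e, if Shp R lv d.1 (posOf T.length e) then G d.1 e else 0).sum = V * Wsum m lv := by
  rw [sum_orders _ fun d e => if Shp R lv d (posOf T.length e) then G d e else 0, Wsum,
    Finset.mul_sum]
  refine Finset.sum_congr rfl fun e _ => ?_
  obtain ⟨h1, h2, h3, h4, h5⟩ := order_data T.length e
  have h0 : ShpOn R lv {0} T (posOf T.length e) := fun a ha b hb hab =>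
    absurd ((mem_singleton.1 ha).trans (mem_singleton.1 hb).symm) hab
  have := word_sum hm h (posOf T.length e) (order e) T {0} (fun d => G d e) V hT
    (singleton_nonempty _) h2 h3
    (fun b hb => by rw [mem_singleton.1 hb, posOf_zero]; exact List.length_pos_iff.2 hne) h5
    (fun d hd hs => hG d (h1 ▸ hd) e (shpOn_univ.1 (h4 ▸ hs)))
  rw [if_pos h0, h1] at this
  simp only [h4, shpOn_univ] at this
  exact this

/-! ## Twins -/

/-- two groups of features hanging at a node of level `η`, each of them above level `a` -/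
structure TwinLv (lv : Fin (k + 1) → Fin (k + 1) → ℕ) (Bf : Finset (Fin (k + 1))) (η a : ℕ) :
    Prop where
  one_le : 1 ≤ η
  lt : η < a
  zero_notMem : (0 : Fin (k + 1)) ∉ Bf
  cross : ∀ b ∈ Bf, ∀ c ∉ Bf, lv b c = η
  same : ∀ b c, (b ∈ Bf ↔ c ∈ Bf) → a ≤ lv b c

/-- the bracket of the twin identity -/
def bracket (m : ℕ → ℝ) (η a : ℕ) (Φ : ℕ → ℝ) : ℝ :=
  m a * Φ a + ∑ l ∈ Ico (η + 1) a, (m l - m (l + 1)) * Φ l + (m η - 2 * m (η + 1)) * Φ η

theorem TwinLv.a_le {Bf : Finset (Fin (k + 1))} {η a : ℕ} (h : Levels R lv)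
    (tw : TwinLv lv Bf η a) : a ≤ R :=
  h.diag (0 : Fin (k + 1)) ▸ tw.same 0 0 Iff.rfl

/-- the attachments opening the second group, weighted by the split from a reference replica -/
theorem open_sum (hm : m (R + 1) = 0) {T : List (ℕ × ℕ)} (hT : Valid R T) {u η a : ℕ}
    (hη : 1 ≤ η) (hηa : η < a) (ha : a ≤ R) (hu : u < T.length) (h0u : sp R T 0 u = η)
    (Φ : ℕ → ℝ) :
    ((att R m T).map fun c => c.2 *
      if sp R (c.1 :: T) T.length 0 = η then Φ (min a (sp R (c.1 :: T) T.length u)) else 0).sum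
      = bracket m η a Φ := by
  classical
  have hn : 0 < T.length := by omega
  have hu0 : u ≠ 0 := by
    rintro rfl
    rw [sp_self] at h0u
    omega
  have e1 := att_ge hm hT hu (show 1 ≤ a by omega) ha
  have e2 : ∀ l ∈ Ico (η + 1) a, ((att R m T).map fun c => c.2 *
      if sp R (c.1 :: T) T.length u = l then (1 : ℝ) else 0).sum = m l - m (l + 1) := fun l hl => by
    rw [mem_Ico] at hl
    exact att_eq hm hT hu (by omega) (by omega)
  have e3 := att_node hm hT ({0, u} : Finset ℕ) id (i₀ := 0) (by simp) hη (by omega)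
    (fun i hi => by
      rcases mem_insert.1 hi with rfl | hi
      · exact hn
      · rw [mem_singleton.1 hi]; exact hu)
    (fun i hi => by
      rcases mem_insert.1 hi with rfl | hi
      · show η ≤ sp R T 0 0
        rw [sp_self]; omega
      · rw [mem_singleton.1 hi]; exact h0u.ge)
    (fun i hi j hj hij => by
      simp only [mem_insert, mem_singleton] at hi hj
      simp only [id]
      rcases hi with rfl | rfl <;> rcases hj with rfl | rfl
      · exact absurd rfl hij
      · omega
      · rw [sp_comm, h0u]; omega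
      · exact absurd rfl hij)
  have split : ∀ c ∈ att R m T, (c.2 *
      if sp R (c.1 :: T) T.length 0 = η then Φ (min a (sp R (c.1 :: T) T.length u)) else 0) =
      (c.2 * (if a ≤ sp R (c.1 :: T) T.length u then (1 : ℝ) else 0)) * Φ a +
      ∑ l ∈ Ico (η + 1) a, (c.2 * if sp R (c.1 :: T) T.length u = l then (1 : ℝ) else 0) * Φ l +
      (c.2 * if η ≤ sp R (c.1 :: T) T.length (id 0) ∧ ∀ i ∈ ({0, u} : Finset ℕ),
        ¬ η + 1 ≤ sp R (c.1 :: T) T.length (id i) then (1 : ℝ) else 0) * Φ η := by
    intro c _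
    have y := sp_old R c.1 hn.ne hu.ne
    have u1 := sp_ultra R (c.1 :: T) T.length 0 u
    have u2 := sp_ultra R (c.1 :: T) T.length u 0
    have u3 := sp_ultra R (c.1 :: T) 0 T.length u
    have c1 := sp_comm R (c.1 :: T) 0 u
    have c2 := sp_comm R (c.1 :: T) 0 T.length
    simp only [id, mem_insert, mem_singleton, forall_eq_or_imp, forall_eq]
    set S := sp R (c.1 :: T) T.length 0
    set U := sp R (c.1 :: T) T.length u
    rw [y, h0u] at *
    rcases le_or_gt a U with hU | hU
    · rw [if_pos (show S = η by omega), if_pos hU, min_eq_left hU,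
        Finset.sum_eq_zero (fun l hl => by
          rw [mem_Ico] at hl; rw [if_neg (by omega), mul_zero, zero_mul]),
        if_neg (by omega)]
      ring
    rcases lt_or_ge η U with hU' | hU'
    · rw [if_pos (show S = η by omega), if_neg (not_le.2 hU), min_eq_right hU.le,
        Finset.sum_eq_single_of_mem U (mem_Ico.2 ⟨hU', hU⟩) (fun l _ hl => by
          rw [if_neg hl.symm, mul_zero, zero_mul]),
        if_pos rfl, if_neg (by omega)]
      ring
    · rw [if_neg (not_le.2 hU), Finset.sum_eq_zero (fun l hl => by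
          rw [mem_Ico] at hl; rw [if_neg (by omega), mul_zero, zero_mul])]
      by_cases hS : S = η
      · rw [if_pos hS, if_pos (by omega), show min a U = η by omega]; ring
      · rw [if_neg hS, if_neg (by omega)]; ring
  rw [List.map_congr_left split, List.sum_map_add, List.sum_map_add, List.sum_map_mul_right,
    List.sum_map_mul_right, list_sum_map_finset_sum, e1, bracket]
  congr 1
  · congr 1
    refine Finset.sum_congr rfl fun l hl => ?_
    rw [List.sum_map_mul_right, e2 l hl]
  · congr 1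
    rw [show m η - 2 * m (η + 1) = m η - (({0, u} : Finset ℕ).card : ℝ) * m (η + 1) by
      rw [Finset.card_pair hu0.symm]; norm_num]
    exact Eq.trans (congrArg List.sum (List.map_congr_left fun c _ => by congr 1; congr 1)) e3

theorem word_not_disjoint {Bf : Finset (Fin (k + 1))} :
    ∀ (L : List (Fin (k + 1))) (A : Finset (Fin (k + 1))), ¬ Disjoint A Bf →
      word m lv Bf A L = word m lv ∅ A L
  | .nil, _, _ => rfl
  | b :: L, A, hA => by
    rw [word_cons, word_empty_cons, if_neg (fun h => hA h.2), word_not_disjoint L (insert b A)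
      fun h => hA (h.mono_left (subset_insert _ _))]

theorem stepW_open (h : Levels R lv) {Bf : Finset (Fin (k + 1))} {η a : ℕ}
    (tw : TwinLv lv Bf η a) {A : Finset (Fin (k + 1))} (hA : A.Nonempty) (hd : Disjoint A Bf)
    {b : Fin (k + 1)} (hb : b ∈ Bf) : stepW m lv A b = m η - m (η + 1) := by
  have hbA : b ∉ A := fun h' => disjoint_left.1 hd h' hb
  have e : ∀ c ∈ A, lv b c = η := fun c hc => tw.cross b hb c (disjoint_left.1 hd hc)
  have hl : lmax lv A b = η := by
    obtain ⟨c, hc, h'⟩ := lmax_mem (lv := lv) A hA b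
    rw [← h', e c hc]
  have hc : (reps lv A b).card = 1 := by
    refine le_antisymm (Finset.card_le_one.2 fun r hr s hs => ?_)
      (reps_nonempty h hA hbA).card_pos
    by_contra hrs
    have h1 := reps_sep h hr hs hrs
    have h2 := tw.same r s (iff_of_false (disjoint_left.1 hd (mem_filter.1 hr).1)
      (disjoint_left.1 hd (mem_filter.1 hs).1))
    have := tw.lt
    omega
  rw [stepW, hl, hc]; norm_num

theorem word_split (h : Levels R lv) {Bf : Finset (Fin (k + 1))} {η a : ℕ}
    (tw : TwinLv lv Bf η a) :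
    ∀ (L : List (Fin (k + 1))) (A : Finset (Fin (k + 1))), A.Nonempty → Disjoint A Bf →
      (∃ b ∈ L, b ∈ Bf) → word m lv ∅ A L = (m η - m (η + 1)) * word m lv Bf A L
  | [], _, _, _, ⟨b, hb, _⟩ => absurd hb List.not_mem_nil
  | c :: L, A, hA, hd, ⟨b, hb, hbB⟩ => by
    rw [word_empty_cons, word_cons]
    by_cases hc : c ∈ Bf
    · rw [if_pos ⟨hc, hd⟩, one_mul, stepW_open h tw hA hd hc, word_not_disjoint L _
        fun h' => disjoint_left.1 h' (mem_insert_self c A) hc]
    · rw [if_neg (fun h' => hc h'.1), word_split h tw L (insert c A) (insert_nonempty _ _)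
        (disjoint_insert_left.2 ⟨hc, hd⟩)
        ⟨b, (List.mem_cons.1 hb).resolve_left fun e => hc (e ▸ hbB), hbB⟩]
      ring

theorem order_mem (e : Equiv.Perm (Fin k)) {b : Fin (k + 1)} (hb : b ≠ 0) : b ∈ order e := by
  obtain ⟨b', rfl⟩ := Fin.exists_succ_eq.2 hb
  exact List.mem_ofFn.2 ⟨e b', by simp⟩

theorem Wsum_eq_Wrest (h : Levels R lv) {Bf : Finset (Fin (k + 1))} {η a : ℕ}
    (tw : TwinLv lv Bf η a) (hB : Bf.Nonempty) :
    Wsum m lv = (m η - m (η + 1)) * Wrest m lv Bf := by
  obtain ⟨b, hb⟩ := hB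
  rw [Wsum, Wrest, Finset.mul_sum]
  exact Finset.sum_congr rfl fun e _ => word_split h tw (order e) {0} (singleton_nonempty _)
    (disjoint_singleton_left.2 tw.zero_notMem)
    ⟨b, order_mem e fun h' => tw.zero_notMem (h' ▸ hb), hb⟩

theorem twin_word_sum (hm : m (R + 1) = 0) (h : Levels R lv) {Bf : Finset (Fin (k + 1))}
    {η a : ℕ} (tw : TwinLv lv Bf η a) (pos : Fin (k + 1) → ℕ) (hp0 : pos 0 = 0)
    {b₀ : Fin (k + 1)} (hb₀ : b₀ ∈ Bf) (Φ : ℕ → ℝ) {u : ℕ} :
    ∀ (L : List (Fin (k + 1))) (T : List (ℕ × ℕ)) (A : Finset (Fin (k + 1)))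
      (G : List (ℕ × ℕ) → ℝ), Valid R T → (0 : Fin (k + 1)) ∈ A → Disjoint A Bf → L.Nodup →
      (∀ c ∈ L, c ∉ A) → b₀ ∈ L → u < T.length → sp R T 0 u = η →
      (∀ b ∈ A, pos b < T.length) →
      (∀ i (hi : i < L.length), pos L[i] = T.length + i) →
      (∀ d ∈ attSeq R m L.length T, ShpOn R lv (A ∪ L.toFinset) d.1 pos →
        G d.1 = Φ (min a (sp R d.1 u (pos b₀)))) →
      ((attSeq R m L.length T).map fun d => d.2 *
        if ShpOn R lv (A ∪ L.toFinset) d.1 pos then G d.1 else 0).sum
      = if ShpOn R lv A T pos then bracket m η a Φ * word m lv Bf A L else 0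
  | [], _, _, _, _, _, _, _, _, hmem, _, _, _, _, _ => absurd hmem List.not_mem_nil
  | c₀ :: L, T, A, G, hT, h0A, hd, hnd, hdis, hmem, hu, h0u, hpos, hL, hG => by
    have hc₀ : c₀ ∉ A := hdis c₀ (by simp)
    rw [List.nodup_cons] at hnd
    have hpc : pos c₀ = T.length := hL 0 (Nat.succ_pos _)
    have hn : 0 < T.length := by omega
    have hset : A ∪ (c₀ :: L).toFinset = insert c₀ A ∪ L.toFinset := by
      rw [List.toFinset_cons, Finset.union_insert, Finset.insert_union]
    have hnil : ∀ b ∈ L, b ∉ insert c₀ A := fun b hb => by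
      simp only [mem_insert, not_or]
      exact ⟨fun e => hnd.1 (e ▸ hb), hdis b (by simp [hb])⟩
    have hpos' : ∀ x : ℕ × ℕ, ∀ b ∈ insert c₀ A, pos b < (x :: T).length := fun x b hb => by
      rcases mem_insert.1 hb with rfl | hb'
      · simp [hpc]
      · exact (hpos b hb').trans (by simp)
    have hL' : ∀ x : ℕ × ℕ, ∀ i (hi : i < L.length), pos L[i] = (x :: T).length + i :=
      fun x i hi => by
        have := hL (i + 1) (by simp; omega)
        simp only [List.getElem_cons_succ] at this
        rw [this]; simp; omega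
    simp only [hset, List.length_cons] at hG ⊢
    rw [attSeq_sum_step L.length T fun d =>
      if ShpOn R lv (insert c₀ A ∪ L.toFinset) d pos then G d else 0]
    have hmemd : ∀ c ∈ att R m T, ∀ d ∈ attSeq R m L.length (c.1 :: T),
        (d.1, c.2 * d.2) ∈ attSeq R m (L.length + 1) T := fun c hc d hd => by
      simp only [attSeq, List.mem_flatMap, List.mem_map]
      exact ⟨c, hc, d, hd, rfl⟩
    by_cases hcB : c₀ ∈ Bf
    · have hnd' : ¬ Disjoint (insert c₀ A) Bf := fun h' =>
        disjoint_left.1 h' (mem_insert_self _ _) hcB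
      have key : ∀ c ∈ att R m T, c.2 * ((attSeq R m L.length (c.1 :: T)).map fun d => d.2 *
            if ShpOn R lv (insert c₀ A ∪ L.toFinset) d.1 pos then G d.1 else 0).sum =
          (c.2 * if sp R (c.1 :: T) T.length 0 = η then
            Φ (min a (sp R (c.1 :: T) T.length u)) else 0) *
            if ShpOn R lv A T pos then word m lv Bf (insert c₀ A) L else 0 := by
        intro c hc
        rw [word_sum hm h pos L (c.1 :: T) (insert c₀ A) G
          (Φ (min a (sp R (c.1 :: T) T.length u))) (valid_att hT hc) (insert_nonempty _ _)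
          hnd.2 hnil (hpos' c.1) (hL' c.1)
          (fun d hd' hs => by
            rw [show G d.1 = Φ (min a (sp R d.1 u (pos b₀))) from
              hG (d.1, c.2 * d.2) (hmemd c hc d hd') hs]
            obtain ⟨pre, e, -⟩ := attSeq_suffix L.length (c.1 :: T) d hd'
            have hb : b₀ ∈ insert c₀ A ∪ L.toFinset := by
              rcases List.mem_cons.1 hmem with rfl | hb <;> simp [*]
            have h1 : a ≤ sp R d.1 T.length (pos b₀) := by
              rw [← hpc, hs.sp_eq h (by simp) hb]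
              exact tw.same c₀ b₀ (iff_of_true hcB hb₀)
            have h2 : sp R d.1 T.length u = sp R (c.1 :: T) T.length u := by
              rw [e]; exact sp_append R pre (c.1 :: T) (by simp) (by simp; omega)
            have u1 := sp_ultra R d.1 T.length (pos b₀) u
            have u2 := sp_ultra R d.1 u T.length (pos b₀)
            have c1 := sp_comm R d.1 (pos b₀) u
            have c2 := sp_comm R d.1 u T.length
            exact congrArg Φ (by omega)),
          if_congr (shpOn_insert h c.1 hc₀ hpos hpc) rfl rfl, ← word_not_disjoint L _ hnd']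
        by_cases hs : ShpOn R lv A T pos
        · have e : (∀ b ∈ A, sp R (c.1 :: T) T.length (pos b) = lv c₀ b) ↔
              sp R (c.1 :: T) T.length 0 = η := by
            refine ⟨fun H => by
              rw [← hp0, H 0 h0A]; exact tw.cross c₀ hcB 0 tw.zero_notMem, fun H b hb => ?_⟩
            rw [tw.cross c₀ hcB b (disjoint_left.1 hd hb)]
            have h1 : a ≤ sp R (c.1 :: T) 0 (pos b) := by
              rw [sp_old R _ hn.ne (hpos b hb).ne, ← hp0, hs.sp_eq h h0A hb]
              exact tw.same 0 b (iff_of_false tw.zero_notMem (disjoint_left.1 hd hb))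
            have u1 := sp_ultra R (c.1 :: T) T.length 0 (pos b)
            have u2 := sp_ultra R (c.1 :: T) T.length (pos b) 0
            have c1 := sp_comm R (c.1 :: T) 0 (pos b)
            have := tw.lt
            omega
          by_cases h2 : sp R (c.1 :: T) T.length 0 = η
          · rw [if_pos ⟨hs, e.2 h2⟩, if_pos h2, if_pos hs]; ring
          · rw [if_neg (fun h' => h2 (e.1 h'.2)), if_neg h2, if_pos hs]; ring
        · rw [if_neg (fun h' => hs h'.1), if_neg hs, mul_zero, mul_zero]
      rw [List.map_congr_left key, List.sum_map_mul_right,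
        open_sum hm hT tw.one_le tw.lt (tw.a_le h) hu h0u Φ, word_cons,
        if_pos (show c₀ ∈ Bf ∧ Disjoint A Bf from ⟨hcB, hd⟩), one_mul]
      split_ifs <;> simp
    · have hd' : Disjoint (insert c₀ A) Bf := disjoint_insert_left.2 ⟨hcB, hd⟩
      have key : ∀ c ∈ att R m T, c.2 * ((attSeq R m L.length (c.1 :: T)).map fun d => d.2 *
            if ShpOn R lv (insert c₀ A ∪ L.toFinset) d.1 pos then G d.1 else 0).sum =
          (c.2 * if (∀ b ∈ A, sp R (c.1 :: T) T.length (pos b) = lv c₀ b) then (1 : ℝ) else 0) *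
            if ShpOn R lv A T pos then bracket m η a Φ * word m lv Bf (insert c₀ A) L else 0 := by
        intro c hc
        rw [twin_word_sum hm h tw pos hp0 hb₀ Φ L (c.1 :: T) (insert c₀ A) G (valid_att hT hc)
          (mem_insert_of_mem h0A) hd' hnd.2 hnil
          ((List.mem_cons.1 hmem).resolve_left fun e => hcB (e ▸ hb₀))
          (hu.trans (by simp)) (by rw [sp_old R _ hn.ne hu.ne, h0u]) (hpos' c.1) (hL' c.1)
          (fun d hd'' => hG (d.1, c.2 * d.2) (hmemd c hc d hd'')),
          if_congr (shpOn_insert h c.1 hc₀ hpos hpc) rfl rfl]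
        by_cases h1 : ShpOn R lv A T pos <;>
          by_cases h2 : ∀ b ∈ A, sp R (c.1 :: T) T.length (pos b) = lv c₀ b <;> simp [h1, h2]
      rw [List.map_congr_left key, List.sum_map_mul_right]
      split_ifs with hs
      · rw [step_sum hm h hT ⟨0, h0A⟩ hc₀ hpos hs, word_cons, if_neg (fun h' => hcB h'.1)]; ring
      · rw [mul_zero]

/-- **(S3)** the twin identity -/
theorem twin_sum (hm : m (R + 1) = 0) (h : Levels R lv) {Bf : Finset (Fin (k + 1))} {η a : ℕ}
    (tw : TwinLv lv Bf η a) {b₀ : Fin (k + 1)} (hb₀ : b₀ ∈ Bf) {T : List (ℕ × ℕ)}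
    (hT : Valid R T) {u : ℕ} (hu : u < T.length) (h0u : sp R T 0 u = η)
    (G : List (ℕ × ℕ) → Equiv.Perm (Fin k) → ℝ) (Φ : ℕ → ℝ)
    (hG : ∀ d ∈ attSeq R m k T, ∀ e, Shp R lv d.1 (posOf T.length e) →
      G d.1 e = Φ (min a (sp R d.1 u (posOf T.length e b₀)))) :
    ((attSeq R m k T).map fun d => d.2 *
      ∑ e, if Shp R lv d.1 (posOf T.length e) then G d.1 e else 0).sum
      = Wrest m lv Bf * bracket m η a Φ := by
  rw [sum_orders _ fun d e => if Shp R lv d (posOf T.length e) then G d e else 0, Wrest,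
    Finset.sum_mul]
  refine Finset.sum_congr rfl fun e _ => ?_
  obtain ⟨h1, h2, h3, h4, h5⟩ := order_data T.length e
  have h0 : ShpOn R lv {0} T (posOf T.length e) := fun a ha b hb hab =>
    absurd ((mem_singleton.1 ha).trans (mem_singleton.1 hb).symm) hab
  have := twin_word_sum hm h tw (posOf T.length e) (posOf_zero _ e) hb₀ Φ (order e) T {0}
    (fun d => G d e) hT (mem_singleton_self _) (disjoint_singleton_left.2 tw.zero_notMem) h2 h3
    (order_mem e fun h' => tw.zero_notMem (h' ▸ hb₀)) hu h0u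
    (fun b hb => by rw [mem_singleton.1 hb, posOf_zero]; omega) h5
    (fun d hd hs => hG d (h1 ▸ hd) e (shpOn_univ.1 (h4 ▸ hs)))
  rw [if_pos h0, h1] at this
  simp only [h4, shpOn_univ] at this
  rw [this, mul_comm]

/-- **(S3)** constant observable of a twin shape, with the same `Wrest` -/
theorem twin_const (hm : m (R + 1) = 0) (h : Levels R lv) {Bf : Finset (Fin (k + 1))} {η a : ℕ}
    (tw : TwinLv lv Bf η a) (hB : Bf.Nonempty) {T : List (ℕ × ℕ)} (hT : Valid R T) (hne : T ≠ [])
    (G : List (ℕ × ℕ) → Equiv.Perm (Fin k) → ℝ) (V : ℝ)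
    (hG : ∀ d ∈ attSeq R m k T, ∀ e, Shp R lv d.1 (posOf T.length e) → G d.1 e = V) :
    ((attSeq R m k T).map fun d => d.2 *
      ∑ e, if Shp R lv d.1 (posOf T.length e) then G d.1 e else 0).sum
      = Wrest m lv Bf * ((m η - m (η + 1)) * V) := by
  rw [shape_sum hm h hT hne G V hG, Wsum_eq_Wrest h tw hB]; ring

/-! ## Counting: nodes at levels where the old replicas do not split -/

/-- the features below the node of level `l` of `a` -/
def ball (lv : Fin (k + 1) → Fin (k + 1) → ℕ) (a : Fin (k + 1)) (l : ℕ) : Finset (Fin (k + 1)) :=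
  univ.filter fun c => l ≤ lv a c

/-- nodes with level in `L` which split two features in `A` -/
def nodesIn (lv : Fin (k + 1) → Fin (k + 1) → ℕ) (L : Finset ℕ) (A : Finset (Fin (k + 1))) :
    Finset (ℕ × Finset (Fin (k + 1))) :=
  ((A ×ˢ A).filter fun q => q.1 ≠ q.2 ∧ lv q.1 q.2 ∈ L).image fun q =>
    (lv q.1 q.2, ball lv q.1 (lv q.1 q.2))

/-- the number of nodes of the shape with level in `L` -/
def pinned (lv : Fin (k + 1) → Fin (k + 1) → ℕ) (L : Finset ℕ) : ℕ := (nodesIn lv L univ).card

/-- the number of different attachment points of `T` with level in `L` -/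
def splits (L : Finset ℕ) (T : List (ℕ × ℕ)) : ℕ := (T.toFinset.filter fun x => x.2 ∈ L).card

theorem entry_bound : ∀ (T : List (ℕ × ℕ)), Valid R T →
    ∀ x ∈ T, x.1 < T.length ∧ x.2 ≤ R := by
  refine valid_induction (by simp) (by simp) fun p v T hne _ hp hv ih x hx => ?_
  rcases List.mem_cons.1 hx with rfl | hx
  · exact ⟨hp.trans (by simp), hv⟩
  · exact ⟨(ih x hx).1.trans (by simp), (ih x hx).2⟩

/-- every split is carried by an entry -/
theorem split_entry : ∀ (T : List (ℕ × ℕ)), Valid R T →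
    ∀ a b, a < T.length → b < T.length → sp R T a b < R →
      ∃ x ∈ T, x.2 = sp R T a b ∧ sp R T a b ≤ sp R T a x.1 := by
  refine valid_induction (fun a b ha => by simp at ha) (fun a b ha hb h => ?_)
    fun p v T _ hT hp hv ih a b ha hb hlt => ?_
  · obtain ⟨rfl, rfl⟩ : a = 0 ∧ b = 0 := by simp at ha hb; omega
    rw [sp_self] at h; omega
  have old : ∀ a b, a < T.length → b < T.length → sp R ((p, v) :: T) a b < R →
      ∃ x ∈ (p, v) :: T, x.2 = sp R ((p, v) :: T) a b ∧
        sp R ((p, v) :: T) a b ≤ sp R ((p, v) :: T) a x.1 := by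
    intro a b ha hb h
    rw [sp_old R _ ha.ne hb.ne] at h ⊢
    obtain ⟨x, hx, e1, e2⟩ := ih a b ha hb h
    exact ⟨x, List.mem_cons_of_mem _ hx, e1, by rwa [sp_old R _ ha.ne (entry_bound T hT x hx).1.ne]⟩
  have new : ∀ b, b < T.length → sp R ((p, v) :: T) T.length b < R →
      ∃ x ∈ (p, v) :: T, x.2 = sp R ((p, v) :: T) T.length b ∧
        sp R ((p, v) :: T) T.length b ≤ sp R ((p, v) :: T) T.length x.1 := by
    intro b hb h
    rw [sp_new R _ hb.ne] at h ⊢
    dsimp only at h ⊢
    by_cases hvb : v ≤ sp R T p b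
    · refine ⟨(p, v), List.mem_cons_self, (min_eq_left hvb).symm, ?_⟩
      rw [sp_new R _ hp.ne, sp_self]; dsimp only; omega
    · obtain ⟨x, hx, e1, e2⟩ := ih p b hp hb (by omega)
      refine ⟨x, List.mem_cons_of_mem _ hx, by omega, ?_⟩
      rw [sp_new R _ (entry_bound T hT x hx).1.ne]; dsimp only; omega
  simp only [List.length_cons, Nat.lt_succ_iff_lt_or_eq] at ha hb
  rcases ha with ha | rfl <;> rcases hb with hb | rfl
  · exact old a b ha hb hlt
  · rw [sp_comm] at hlt ⊢
    obtain ⟨x, hx, e1, e2⟩ := new a ha hlt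
    exact ⟨x, hx, e1, sp_trans (by rw [sp_comm]) e2⟩
  · exact new b hb hlt
  · rw [sp_self] at hlt; omega

/-- every entry is a split -/
theorem entry_split : ∀ (T : List (ℕ × ℕ)), Valid R T →
    ∀ x ∈ T, 1 ≤ x.2 → ∃ a b, a < T.length ∧ b < T.length ∧ sp R T a b = x.2 := by
  refine valid_induction (by simp) (fun x hx h => by simp at hx; simp [hx] at h)
    fun p v T _ hT hp hv ih x hx h => ?_
  rcases List.mem_cons.1 hx with rfl | hx
  · exact ⟨T.length, p, by simp, hp.trans (by simp),
      by rw [sp_new R _ hp.ne, sp_self]; exact min_eq_left hv⟩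
  · obtain ⟨a, b, ha, hb, e⟩ := ih x hx h
    exact ⟨a, b, ha.trans (by simp), hb.trans (by simp), by rw [sp_old R _ ha.ne hb.ne, e]⟩

theorem attSeq_valid : ∀ (j : ℕ) {T : List (ℕ × ℕ)}, Valid R T → ∀ d ∈ attSeq R m j T,
    Valid R d.1
  | 0, T, hT, d, hd => by
    obtain rfl : d = (T, 1) := by simpa [attSeq] using hd
    exact hT
  | j + 1, T, hT, d, hd => by
    simp only [attSeq, List.mem_flatMap, List.mem_map] at hd
    obtain ⟨c, hc, d', hd', rfl⟩ := hd
    exact attSeq_valid j (valid_att hT hc) d' hd'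

theorem posOf_lt {j : ℕ} {T : List (ℕ × ℕ)} {d : List (ℕ × ℕ) × ℝ} (hne : T ≠ [])
    (hd : d ∈ attSeq R m j T) (e : Equiv.Perm (Fin j)) (a : Fin (j + 1)) :
    posOf T.length e a < d.1.length := by
  obtain ⟨pre, h, hl⟩ := attSeq_suffix j T d hd
  have := List.length_pos_iff.2 hne
  refine Fin.cases ?_ (fun b => ?_) a
  · rw [posOf_zero, h, List.length_append]; omega
  · rw [posOf_succ, h, List.length_append]; omega

/-- each node of a realized shape has its own entry -/
theorem pinned_le_splits (h : Levels R lv) {L : Finset ℕ} (hL : ∀ l ∈ L, l < R)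
    {T : List (ℕ × ℕ)} (hT : Valid R T) {pos : Fin (k + 1) → ℕ} (hpos : ∀ a, pos a < T.length)
    (hs : Shp R lv T pos) : pinned lv L ≤ splits L T := by
  refine le_trans (card_le_card fun ν hν => ?_)
    (card_image_le (f := fun x : ℕ × ℕ =>
      (x.2, univ.filter fun c => x.2 ≤ sp R T (pos c) x.1)))
  obtain ⟨⟨a, b⟩, hq, rfl⟩ := mem_image.1 hν
  simp only [mem_filter, mem_product, mem_univ, true_and] at hq
  have e : ∀ a b, sp R T (pos a) (pos b) = lv a b := fun a b =>
    (shpOn_univ.2 hs).sp_eq h (mem_univ a) (mem_univ b)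
  obtain ⟨x, hx, e1, e2⟩ := split_entry T hT (pos a) (pos b) (hpos a) (hpos b)
    (by rw [e]; exact hL _ hq.2)
  rw [e] at e1 e2
  refine mem_image.2 ⟨x, mem_filter.2 ⟨List.mem_toFinset.2 hx, e1 ▸ hq.2⟩, ?_⟩
  rw [e1]
  refine Prod.ext rfl (Finset.ext fun c => ?_)
  simp only [ball, mem_filter, mem_univ, true_and]
  constructor
  · intro hc
    have := sp_trans e2 (show _ ≤ sp R T x.1 (pos c) by rw [sp_comm]; exact hc)
    rwa [e] at this
  · intro hc
    refine sp_trans (b := pos a) ?_ e2
    rw [e, h.comm c a]; exact hc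

theorem splits_cons_le (L : Finset ℕ) (x : ℕ × ℕ) (T : List (ℕ × ℕ)) :
    splits L (x :: T) ≤ splits L T + if x.2 ∈ L then 1 else 0 := by
  simp only [splits, List.toFinset_cons, filter_insert]
  split_ifs
  · exact card_insert_le _ _
  · exact le_rfl

theorem lin_nonneg (R l : ℕ) : 0 ≤ lin R l := by unfold lin; split_ifs <;> positivity

theorem lin_le_one (R l : ℕ) : lin R l ≤ 1 := by
  unfold lin
  split_ifs with h
  · exact div_le_one_of_le₀ (by exact_mod_cast h) (by positivity)
  · exact zero_le_one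

theorem lin_sub {l : ℕ} (h : l < R) : lin R l - lin R (l + 1) = -(R : ℝ)⁻¹ := by
  simp only [lin, if_pos h.le, if_pos (show l + 1 ≤ R by omega), Nat.cast_add, Nat.cast_one]
  ring

/-- one attachment: a new level in `L` costs a factor `1/R` -/
theorem att_count {L : Finset ℕ} (hR : 0 < R) (hL : ∀ l ∈ L, l < R) (T₀ : List (ℕ × ℕ))
    (P : ℕ) : ∀ T : List (ℕ × ℕ), (∀ x ∈ T, x ∈ T₀) →
      ((att R (lin R) T).map fun c => |c.2| * ((R : ℝ)⁻¹) ^ (P - splits L (c.1 :: T₀))).sum ≤
        (3 + L.card) * T.length * ((R : ℝ)⁻¹) ^ (P - splits L T₀)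
  | [], _ => by simp [att]
  | (p, v) :: T, hsub => by
    set q : ℝ := (R : ℝ)⁻¹ with hq
    set D := P - splits L T₀
    have hq0 : 0 ≤ q := by positivity
    have hq1 : q ≤ 1 := inv_le_one_of_one_le₀ (by exact_mod_cast hR)
    have ih := att_count hR hL T₀ P T fun x hx => hsub x (List.mem_cons_of_mem _ hx)
    have hpar : |-lin R (v + 1)| * q ^ (P - splits L ((p, v) :: T₀)) ≤ 1 * q ^ D := by
      have : splits L ((p, v) :: T₀) = splits L T₀ := by
        simp only [splits, List.toFinset_cons,
          insert_eq_of_mem (List.mem_toFinset.2 (hsub (p, v) List.mem_cons_self))]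
      rw [this, abs_neg, abs_of_nonneg (lin_nonneg _ _)]
      exact mul_le_mul_of_nonneg_right (lin_le_one _ _) (by positivity)
    have hown : ((List.range' (v + 1) (R - v)).map fun l =>
        |lin R l - lin R (l + 1)| * q ^ (P - splits L ((T.length, l) :: T₀))).sum ≤
        (2 + L.card) * q ^ D := by
      have hterm : ∀ l ∈ List.range' (v + 1) (R - v),
          |lin R l - lin R (l + 1)| * q ^ (P - splits L ((T.length, l) :: T₀)) ≤
            ((q + if l ∈ L then 1 else 0) + if l = R then 1 else 0) * q ^ D := by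
        intro l hl
        rw [List.mem_range'_1] at hl
        have hs := splits_cons_le L (T.length, l) T₀
        dsimp only at hs
        rcases lt_or_eq_of_le (show l ≤ R by omega) with hlR | rfl
        · rw [lin_sub hlR, abs_neg, abs_of_nonneg hq0, if_neg (show l ≠ R by omega), add_zero]
          by_cases hlL : l ∈ L
          · rw [if_pos hlL] at hs ⊢
            have e : q ^ (P - splits L ((T.length, l) :: T₀) + 1) ≤ q ^ D :=
              pow_le_pow_of_le_one hq0 hq1 (by omega)
            rw [pow_succ] at e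
            nlinarith [pow_nonneg hq0 D]
          · rw [if_neg hlL, add_zero]
            exact mul_le_mul_of_nonneg_left (pow_le_pow_of_le_one hq0 hq1
              (by rw [if_neg hlL] at hs; omega)) hq0
        · have hlL : l ∉ L := fun h => absurd (hL l h) (lt_irrefl _)
          rw [if_neg hlL, if_pos rfl, add_zero]
          refine mul_le_mul (le_trans ?_ (le_add_of_nonneg_left hq0))
            (pow_le_pow_of_le_one hq0 hq1 (by rw [if_neg hlL] at hs; omega)) (by positivity)
            (by positivity)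
          rw [abs_le]
          constructor <;>
            linarith [lin_nonneg l l, lin_le_one l l, lin_nonneg l (l + 1), lin_le_one l (l + 1)]
      refine (List.sum_le_sum hterm).trans ?_
      rw [List.sum_map_mul_right]
      refine mul_le_mul_of_nonneg_right ?_ (by positivity)
      rw [← List.sum_toFinset _ List.nodup_range', sum_add_distrib, sum_add_distrib, sum_const,
        List.toFinset_card_of_nodup List.nodup_range', List.length_range', nsmul_eq_mul,
        Finset.sum_boole, Finset.sum_boole]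
      have e1 : ((R - v : ℕ) : ℝ) * q ≤ 1 := by
        rw [hq, ← div_eq_mul_inv]
        exact div_le_one_of_le₀ (by exact_mod_cast Nat.sub_le R v) (by positivity)
      have e2 : ((((List.range' (v + 1) (R - v)).toFinset.filter fun l => l ∈ L).card : ℕ) : ℝ) ≤
          L.card := by
        exact_mod_cast card_le_card fun l hl => (mem_filter.1 hl).2
      have e4 : ((List.range' (v + 1) (R - v)).toFinset.filter fun l => l = R).card ≤ 1 :=
        card_le_one.2 fun a ha b hb => (mem_filter.1 ha).2.trans (mem_filter.1 hb).2.symm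
      have e3 : ((((List.range' (v + 1) (R - v)).toFinset.filter fun l => l = R).card : ℕ) : ℝ)
          ≤ 1 := by exact_mod_cast e4
      linarith
    simp only [att, List.map_append, List.map_map, List.map_cons, List.sum_append, List.sum_cons,
      Function.comp_def, List.length_cons, Nat.cast_add, Nat.cast_one]
    linarith

theorem attSeq_count {L : Finset ℕ} (hR : 0 < R) (hL : ∀ l ∈ L, l < R) (P : ℕ) :
    ∀ (j : ℕ) (T : List (ℕ × ℕ)),
      ((attSeq R (lin R) j T).map fun d => |d.2| * if P ≤ splits L d.1 then (1 : ℝ) else 0).sum ≤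
        ((3 + L.card) * (T.length + j : ℝ)) ^ j * ((R : ℝ)⁻¹) ^ (P - splits L T)
  | 0, T => by
    simp only [attSeq, List.map_cons, List.map_nil, List.sum_cons, List.sum_nil, abs_one, one_mul,
      add_zero, pow_zero]
    split_ifs with hP
    · rw [Nat.sub_eq_zero_of_le hP, pow_zero]
    · positivity
  | j + 1, T => by
    rw [attSeq, sum_flatMap_att]
    calc ((att R (lin R) T).map fun c =>
          (((attSeq R (lin R) j (c.1 :: T)).map fun d => (d.1, c.2 * d.2)).map fun d =>
            |d.2| * if P ≤ splits L d.1 then (1 : ℝ) else 0).sum).sum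
        ≤ ((att R (lin R) T).map fun c => ((3 + L.card) * (T.length + 1 + j : ℝ)) ^ j *
            (|c.2| * ((R : ℝ)⁻¹) ^ (P - splits L (c.1 :: T)))).sum := by
          refine List.sum_le_sum fun c _ => ?_
          have := attSeq_count hR hL P j (c.1 :: T)
          simp only [List.map_map, Function.comp_def, abs_mul, mul_assoc, List.sum_map_mul_left]
          refine (mul_le_mul_of_nonneg_left this (abs_nonneg c.2)).trans (le_of_eq ?_)
          simp only [List.length_cons, Nat.cast_add, Nat.cast_one]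
          ring
      _ ≤ ((3 + L.card) * (T.length + 1 + j : ℝ)) ^ j *
            ((3 + L.card) * T.length * ((R : ℝ)⁻¹) ^ (P - splits L T)) := by
          rw [List.sum_map_mul_left]
          exact mul_le_mul_of_nonneg_left (att_count hR hL T P T fun _ h => h) (by positivity)
      _ ≤ _ := by
          refine le_trans (mul_le_mul_of_nonneg_left (mul_le_mul_of_nonneg_right
            (mul_le_mul_of_nonneg_left (show (T.length : ℝ) ≤ T.length + 1 + j by
              linarith [Nat.cast_nonneg (α := ℝ) j]) (by positivity : (0 : ℝ) ≤ 3 + L.card))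
            (pow_nonneg (by positivity) _)) (by positivity)) (le_of_eq ?_)
          rw [show (T.length : ℝ) + ((j + 1 : ℕ) : ℝ) = T.length + 1 + j by push_cast; ring]
          ring

theorem abs_list_sum_le (l : List ℝ) : |l.sum| ≤ (l.map fun x => |x|).sum := by
  induction l with
  | nil => simp
  | cons a l ih =>
      simp only [List.map_cons, List.sum_cons]
      exact (abs_add_le _ _).trans (by linarith)

/-- **(S2)** the counting lemma -/
theorem shape_abs (h : Levels R lv) {T : List (ℕ × ℕ)} (hT : Valid R T) (hne : T ≠ [])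
    {L : Finset ℕ} (hR : 0 < R) (hL : ∀ l ∈ L, 1 ≤ l ∧ l < R)
    (hsplit : ∀ a b, a < T.length → b < T.length → sp R T a b ∉ L) :
    ((attSeq R (lin R) k T).map fun d => |d.2| *
      ∑ e, if Shp R lv d.1 (posOf T.length e) then (1 : ℝ) else 0).sum ≤
      k.factorial * ((3 + L.card) * (T.length + k : ℝ)) ^ k * ((R : ℝ)⁻¹) ^ pinned lv L := by
  have h0 : splits L T = 0 := card_eq_zero.2 <| filter_eq_empty_iff.2 fun x hx hxL => by
    obtain ⟨a, b, ha, hb, e⟩ := entry_split T hT x (List.mem_toFinset.1 hx) (hL _ hxL).1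
    exact hsplit a b ha hb (e ▸ hxL)
  have key := attSeq_count hR (fun l hl => (hL l hl).2) (pinned lv L) k T
  rw [h0, Nat.sub_zero] at key
  rw [mul_assoc]
  refine le_trans (List.sum_le_sum fun d hd => ?_) ((List.sum_map_mul_left (r := (k.factorial : ℝ))
    ..).trans_le (mul_le_mul_of_nonneg_left key (by positivity)))
  rw [mul_left_comm]
  refine mul_le_mul_of_nonneg_left ?_ (abs_nonneg _)
  calc (∑ e, if Shp R lv d.1 (posOf T.length e) then (1 : ℝ) else 0)
      ≤ ∑ _e : Equiv.Perm (Fin k), if pinned lv L ≤ splits L d.1 then (1 : ℝ) else 0 := by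
        refine sum_le_sum fun e _ => ?_
        by_cases hs : Shp R lv d.1 (posOf T.length e)
        · rw [if_pos hs, if_pos (pinned_le_splits h (fun l hl => (hL l hl).2)
            (attSeq_valid k hT d hd) (posOf_lt hne hd e) hs)]
        · rw [if_neg hs]; split_ifs <;> norm_num
    _ = _ := by rw [sum_const, card_univ, Fintype.card_perm, Fintype.card_fin, nsmul_eq_mul]

/-- **(S2)** for a bounded observable -/
theorem shape_bound (h : Levels R lv) {T : List (ℕ × ℕ)} (hT : Valid R T) (hne : T ≠ [])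
    {L : Finset ℕ} (hR : 0 < R) (hL : ∀ l ∈ L, 1 ≤ l ∧ l < R)
    (hsplit : ∀ a b, a < T.length → b < T.length → sp R T a b ∉ L)
    (G : List (ℕ × ℕ) → Equiv.Perm (Fin k) → ℝ) {B : ℝ} (hB : 0 ≤ B)
    (hG : ∀ d ∈ attSeq R (lin R) k T, ∀ e, Shp R lv d.1 (posOf T.length e) → |G d.1 e| ≤ B) :
    |((attSeq R (lin R) k T).map fun d => d.2 *
      ∑ e, if Shp R lv d.1 (posOf T.length e) then G d.1 e else 0).sum| ≤
      B * (k.factorial * ((3 + L.card) * (T.length + k : ℝ)) ^ k * ((R : ℝ)⁻¹) ^ pinned lv L) := by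
  refine le_trans ?_ (mul_le_mul_of_nonneg_left (shape_abs h hT hne hR hL hsplit) hB)
  rw [← List.sum_map_mul_left]
  refine (abs_list_sum_le _).trans ?_
  rw [List.map_map]
  refine List.sum_le_sum fun d hd => ?_
  rw [Function.comp_apply, abs_mul, mul_left_comm B, mul_sum]
  refine mul_le_mul_of_nonneg_left ((abs_sum_le_sum_abs _ _).trans (sum_le_sum fun e _ => ?_))
    (abs_nonneg _)
  split_ifs with hs
  · rw [mul_one]; exact hG d hd e hs
  · simp

/-! ## The lower bound -/

theorem nodesIn_mono {L : Finset ℕ} {A A' : Finset (Fin (k + 1))} (hA : A ⊆ A') :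
    nodesIn lv L A ⊆ nodesIn lv L A' :=
  image_subset_image (filter_subset_filter _ (product_subset_product hA hA))

/-- a step with a single child creates a node -/
theorem nodesIn_ssubset (h : Levels R lv) {L : Finset ℕ} {A : Finset (Fin (k + 1))}
    (hA : A.Nonempty) {a : Fin (k + 1)} (ha : a ∉ A) (hl : lmax lv A a ∈ L)
    (hb : (reps lv A a).card = 1) :
    (nodesIn lv L A).card < (nodesIn lv L (insert a A)).card := by
  set l := lmax lv A a with hlm
  obtain ⟨x, hx, hax⟩ := lmax_mem (lv := lv) A hA a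
  have hlR := (lmax_range h hA ha).2
  refine card_lt_card ((ssubset_iff_of_subset (nodesIn_mono (subset_insert a A))).2
    ⟨(l, ball lv a l), mem_image.2 ⟨(a, x), ?_, by simp [hax, ← hlm]⟩, fun hν => ?_⟩)
  · simp only [mem_filter, mem_product, mem_insert]
    exact ⟨⟨Or.inl trivial, Or.inr hx⟩, fun e => ha (e ▸ hx), by rw [hax]; exact hl⟩
  obtain ⟨⟨c, d⟩, hq, e⟩ := mem_image.1 hν
  simp only [mem_filter, mem_product] at hq
  rw [Prod.mk.injEq] at e
  obtain ⟨e1, e2⟩ := e
  dsimp only at e1 e2
  have hac : l ≤ lv c a := by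
    have : a ∈ ball lv a l := mem_filter.2 ⟨mem_univ _, by rw [h.diag]; omega⟩
    rw [← e2] at this
    simpa [e1, ball] using this
  have hc : lv a c = l := le_antisymm (le_lmax a hq.1.1) (by rw [h.comm]; exact hac)
  have hd : lv a d = l := le_antisymm (le_lmax a hq.1.2) (h.trans hc.ge e1.ge)
  obtain ⟨r, hr, hcr⟩ := exists_rep h ha hq.1.1 hc
  obtain ⟨r', hr', hdr⟩ := exists_rep h ha hq.1.2 hd
  obtain rfl : r = r' := card_le_one.1 hb.le r hr r' hr'
  have := h.trans hcr (show l + 1 ≤ lv r d by rw [h.comm]; exact hdr)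
  omega

theorem stepW_lin (h : Levels R lv) {A : Finset (Fin (k + 1))} (hA : A.Nonempty)
    {a : Fin (k + 1)} (ha : a ∉ A) {δ : ℝ} (hδ : δ * R ≤ lmax lv A a) :
    ((reps lv A a).card = 1 ∧ -stepW (lin R) lv A a = (R : ℝ)⁻¹) ∨
      δ ≤ -stepW (lin R) lv A a := by
  have hl := (lmax_range h hA ha).2
  have hb := (reps_nonempty h hA ha).card_pos
  rcases eq_or_ne (reps lv A a).card 1 with e | e
  · refine Or.inl ⟨e, ?_⟩
    rw [stepW, e, Nat.cast_one, one_mul, lin_sub hl, neg_neg]
  · refine Or.inr ?_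
    have h2 : (2 : ℝ) ≤ (reps lv A a).card := by exact_mod_cast (show 2 ≤ _ by omega)
    simp only [stepW, lin, if_pos hl.le, if_pos (show lmax lv A a + 1 ≤ R by omega),
      Nat.cast_add, Nat.cast_one]
    rw [← mul_div_assoc, ← sub_div, ← neg_div, le_div_iff₀ (by exact_mod_cast (by omega : 0 < R))]
    nlinarith [Nat.cast_nonneg (α := ℝ) (lmax lv A a)]

theorem word_lower (h : Levels R lv) {L : Finset ℕ} {δ : ℝ} (hδ0 : 0 ≤ δ) (hδ1 : δ ≤ 1)
    (hδ : ∀ l ∈ L, δ * R ≤ l) (hR : 0 < R) {Bf : Finset (Fin (k + 1))}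
    (hlev : ∀ A a, (0 : Fin (k + 1)) ∈ A → a ∉ A → ¬ (a ∈ Bf ∧ Disjoint A Bf) →
      lmax lv A a ∈ L) :
    ∀ (o : List (Fin (k + 1))) (A : Finset (Fin (k + 1))), (0 : Fin (k + 1)) ∈ A → o.Nodup →
      (∀ a ∈ o, a ∉ A) →
      ((R : ℝ)⁻¹) ^ (pinned lv L - (nodesIn lv L A).card) * δ ^ o.length ≤
        (-1) ^ (o.length + if Disjoint A Bf ∧ ∃ a ∈ o, a ∈ Bf then 1 else 0) *
          word (lin R) lv Bf A o
  | [], A, _, _, _ => by
    simpa [word] using pow_le_one₀ (by positivity : (0 : ℝ) ≤ (R : ℝ)⁻¹)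
      (inv_le_one_of_one_le₀ (by exact_mod_cast hR))
  | a :: o, A, h0, hnd, hdis => by
    have ha : a ∉ A := hdis a (by simp)
    rw [List.nodup_cons] at hnd
    have hle : (nodesIn lv L (insert a A)).card ≤ pinned lv L :=
      card_le_card (nodesIn_mono (subset_univ _))
    have hmono := card_le_card (nodesIn_mono (lv := lv) (L := L) (subset_insert a A))
    have ih := word_lower h hδ0 hδ1 hδ hR hlev o (insert a A) (mem_insert_of_mem h0) hnd.2
      fun b hb => by
        simp only [mem_insert, not_or]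
        exact ⟨fun e => hnd.1 (e ▸ hb), hdis b (by simp [hb])⟩
    set q : ℝ := (R : ℝ)⁻¹ with hq
    have hq0 : 0 ≤ q := by positivity
    have hq1 : q ≤ 1 := inv_le_one_of_one_le₀ (by exact_mod_cast hR)
    set D' := pinned lv L - (nodesIn lv L (insert a A)).card
    set D := pinned lv L - (nodesIn lv L A).card
    rw [word_cons, List.length_cons]
    have hnn : 0 ≤ q ^ D' * δ ^ o.length := by positivity
    by_cases hsk : a ∈ Bf ∧ Disjoint A Bf
    · rw [if_pos hsk, one_mul, if_pos ⟨hsk.2, a, List.mem_cons_self, hsk.1⟩]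
      rw [if_neg (fun h' => disjoint_left.1 h'.1 (mem_insert_self a A) hsk.1), add_zero] at ih
      refine le_trans ?_ (ih.trans_eq (by ring))
      exact mul_le_mul (pow_le_pow_of_le_one hq0 hq1 (by omega))
        (pow_le_pow_of_le_one hδ0 hδ1 (by omega)) (by positivity) (by positivity)
    · rw [if_neg hsk]
      have heq : (Disjoint (insert a A) Bf ∧ ∃ b ∈ o, b ∈ Bf) ↔
          (Disjoint A Bf ∧ ∃ b ∈ a :: o, b ∈ Bf) := by
        by_cases haB : a ∈ Bf
        · exact iff_of_false (fun h' => disjoint_left.1 h'.1 (mem_insert_self a A) haB)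
            (fun h' => hsk ⟨haB, h'.1⟩)
        · simp [disjoint_insert_left, haB]
      rw [if_congr heq rfl rfl] at ih
      have hlL := hlev A a h0 ha hsk
      have hst : q ^ D * δ ^ (o.length + 1) ≤ -stepW (lin R) lv A a * (q ^ D' * δ ^ o.length) := by
        rcases stepW_lin h ⟨0, h0⟩ ha (hδ _ hlL) with ⟨hb, e⟩ | e
        · rw [e]
          have := nodesIn_ssubset h ⟨0, h0⟩ ha hlL hb
          calc q ^ D * δ ^ (o.length + 1) ≤ q ^ (D' + 1) * δ ^ o.length :=
                mul_le_mul (pow_le_pow_of_le_one hq0 hq1 (by omega))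
                  (pow_le_pow_of_le_one hδ0 hδ1 (by omega)) (by positivity) (by positivity)
            _ = _ := by rw [hq]; ring
        · calc q ^ D * δ ^ (o.length + 1) = δ * (q ^ D * δ ^ o.length) := by ring
            _ ≤ δ * (q ^ D' * δ ^ o.length) := mul_le_mul_of_nonneg_left
                (mul_le_mul_of_nonneg_right (pow_le_pow_of_le_one hq0 hq1 (by omega))
                  (by positivity)) hδ0
            _ ≤ _ := mul_le_mul_of_nonneg_right e hnn
      have hs0 : 0 ≤ -stepW (lin R) lv A a := by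
        rcases stepW_lin h ⟨0, h0⟩ ha (hδ _ hlL) with ⟨-, e⟩ | e
        · rw [e]; exact hq0
        · exact hδ0.trans e
      exact hst.trans ((mul_le_mul_of_nonneg_left ih hs0).trans_eq (by ring))

/-- **(S1)** lower bound of the total weight -/
theorem Wsum_lower (h : Levels R lv) {L : Finset ℕ} {δ : ℝ} (hδ0 : 0 ≤ δ) (hδ1 : δ ≤ 1)
    (hδ : ∀ l ∈ L, δ * R ≤ l) (hR : 0 < R) (hlev : ∀ a b, a ≠ b → lv a b ∈ L) :
    ((R : ℝ)⁻¹) ^ pinned lv L * δ ^ k ≤ |Wsum (lin R) lv| := by
  have key : ∀ e, ((R : ℝ)⁻¹) ^ pinned lv L * δ ^ k ≤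
      (-1) ^ k * word (lin R) lv ∅ {0} (order e) := fun e => by
    obtain ⟨h1, h2, h3, -, -⟩ := order_data 1 e
    have := word_lower h hδ0 hδ1 hδ hR (Bf := ∅) (fun A a h0 ha _ => by
      obtain ⟨b, hb, e⟩ := lmax_mem (lv := lv) A ⟨0, h0⟩ a
      exact e ▸ hlev a b fun e => ha (e ▸ hb)) (order e) {0} (mem_singleton_self _) h2 h3
    simpa [h1, nodesIn, filter_singleton] using this
  calc _ ≤ (-1) ^ k * word (lin R) lv ∅ {0} (order (1 : Equiv.Perm (Fin k))) := key 1
    _ ≤ ∑ e, (-1) ^ k * word (lin R) lv ∅ {0} (order e) := single_le_sum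
        (fun e _ => le_trans (by positivity) (key e)) (mem_univ _)
    _ ≤ _ := by
      rw [← mul_sum]
      exact (le_abs_self _).trans_eq (by simp [abs_mul, Wsum])

/-- **(S3)** lower bound of the remaining weight of a twin -/
theorem Wrest_lower (h : Levels R lv) {Bf : Finset (Fin (k + 1))} {η a : ℕ}
    (tw : TwinLv lv Bf η a) (hB : Bf.Nonempty) {L : Finset ℕ} {δ : ℝ} (hδ0 : 0 ≤ δ)
    (hδ1 : δ ≤ 1) (hδ : ∀ l ∈ L, δ * R ≤ l) (hR : 0 < R)
    (hlev : ∀ x y, x ≠ y → lv x y ≠ η → lv x y ∈ L) :
    ((R : ℝ)⁻¹) ^ pinned lv L * δ ^ k ≤ |Wrest (lin R) lv Bf| := by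
  have key : ∀ e, ((R : ℝ)⁻¹) ^ pinned lv L * δ ^ k ≤
      (-1) ^ (k + 1) * word (lin R) lv Bf {0} (order e) := fun e => by
    obtain ⟨h1, h2, h3, -, -⟩ := order_data 1 e
    have := word_lower h hδ0 hδ1 hδ hR (Bf := Bf) (fun A c h0 hc hsk => by
      obtain ⟨b, hb, e⟩ := lmax_mem (lv := lv) A ⟨0, h0⟩ c
      refine e ▸ hlev c b (fun e => hc (e ▸ hb)) ?_
      obtain ⟨x, hx, hxc⟩ : ∃ x ∈ A, (c ∈ Bf ↔ x ∈ Bf) := by
        by_cases hcB : c ∈ Bf
        · obtain ⟨x, hx, hxB⟩ := not_disjoint_iff.1 fun hd => hsk ⟨hcB, hd⟩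
          exact ⟨x, hx, iff_of_true hcB hxB⟩
        · exact ⟨0, h0, iff_of_false hcB tw.zero_notMem⟩
      have h1 := le_lmax (lv := lv) c hx
      have h2 := tw.same c x hxc
      have := tw.lt
      omega) (order e) {0} (mem_singleton_self _) h2 h3
    obtain ⟨b, hb⟩ := hB
    rw [if_pos ⟨disjoint_singleton_left.2 tw.zero_notMem, b,
      order_mem e fun h' => tw.zero_notMem (h' ▸ hb), hb⟩] at this
    simpa [h1, nodesIn, filter_singleton] using this
  calc _ ≤ (-1) ^ (k + 1) * word (lin R) lv Bf {0} (order (1 : Equiv.Perm (Fin k))) := key 1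
    _ ≤ ∑ e, (-1) ^ (k + 1) * word (lin R) lv Bf {0} (order e) := single_le_sum
        (fun e _ => le_trans (by positivity) (key e)) (mem_univ _)
    _ ≤ _ := by
      rw [← mul_sum]
      exact (le_abs_self _).trans_eq (by simp [abs_mul, Wrest])

/-! ## Trees -/

mutual
theorem LT.lv_comm (R : ℕ) : ∀ (t : LT) (i j : ℕ), t.lv R i j = t.lv R j i
  | .leaf, _, _ => rfl
  | .node l cs, i, j => LT.lvs_comm R l cs i j
theorem LT.lvs_comm (R l : ℕ) : ∀ (cs : LF) (i j : ℕ),
    LT.lvs R l cs i j = LT.lvs R l cs j i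
  | .nil, _, _ => rfl
  | .cons c cs, i, j => by
    rw [LT.lvs, LT.lvs]
    split_ifs
    · exact LT.lv_comm R c i j
    · rfl
    · rfl
    · exact LT.lvs_comm R l cs _ _
end

mutual
theorem LT.size_pos {R : ℕ} : ∀ (t : LT) {lo : ℕ}, t.Wf R lo → 0 < t.size
  | .leaf, _, _ => by simp [LT.size]
  | .node _ .nil, _, h => by simp [LT.Wf, LF.length] at h
  | .node _ (.cons c cs), _, h => by
    simp only [LT.Wf, LT.Wfs] at h
    have := LT.size_pos c h.2.2.2.1
    simp only [LT.size, LT.sizes]; omega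
end

mutual
theorem LT.lv_bounds {R : ℕ} : ∀ (t : LT) {lo : ℕ}, t.Wf R lo → lo < R →
    ∀ i j, i < t.size → j < t.size →
      lo < t.lv R i j ∧ (i = j → t.lv R i j = R) ∧ (i ≠ j → t.lv R i j < R)
  | .leaf, lo, _, hlo, i, j, hi, hj => by
    simp only [LT.size] at hi hj
    exact ⟨by simpa [LT.lv] using hlo, fun _ => rfl, fun h => absurd (by omega) h⟩
  | .node l cs, lo, h, hlo, i, j, hi, hj => by
    simp only [LT.Wf] at h
    obtain ⟨h1, h2, h3⟩ := LT.lvs_bounds l cs h.2.2.2 h.2.1 i j hi hj
    exact ⟨h.1.trans_le h1, h2, h3⟩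
theorem LT.lvs_bounds {R : ℕ} (l : ℕ) : ∀ (cs : LF), LT.Wfs R l cs → l < R →
    ∀ i j, i < LT.sizes cs → j < LT.sizes cs →
      l ≤ LT.lvs R l cs i j ∧ (i = j → LT.lvs R l cs i j = R) ∧ (i ≠ j → LT.lvs R l cs i j < R)
  | .nil, _, _, i, _, hi, _ => by simp [LT.sizes] at hi
  | .cons c cs, h, hl, i, j, hi, hj => by
    simp only [LT.Wfs] at h
    simp only [LT.sizes] at hi hj
    rw [LT.lvs]
    split_ifs with h1 h2 h3
    · obtain ⟨a1, a2, a3⟩ := LT.lv_bounds c h.1 hl i j h1 h2
      exact ⟨a1.le, a2, a3⟩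
    · exact ⟨le_rfl, fun e => absurd (e ▸ h1) h2, fun _ => hl⟩
    · exact ⟨le_rfl, fun e => absurd (e ▸ h3) h1, fun _ => hl⟩
    · obtain ⟨a1, a2, a3⟩ := LT.lvs_bounds l cs h.2 hl (i - c.size) (j - c.size)
        (by omega) (by omega)
      exact ⟨a1, fun e => a2 (by omega), fun e => a3 (by omega)⟩
end

/-- all pairs of leaves split below the top node -/
theorem LT.top_le {R : ℕ} : ∀ (t : LT) {lo : ℕ}, t.Wf R lo → ∀ i j, i < t.size → j < t.size →
    t.top R ≤ t.lv R i j
  | .leaf, _, _, _, _, _, _ => le_rfl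
  | .node l cs, _, h, i, j, hi, hj => by
    simp only [LT.Wf] at h
    exact (LT.lvs_bounds l cs h.2.2.2 h.2.1 i j hi hj).1

mutual
/-- depth-first order: the leaves between two leaves share their node -/
theorem LT.lv_between {R : ℕ} : ∀ (t : LT) {lo : ℕ}, t.Wf R lo →
    ∀ i j p, i ≤ j → j ≤ p → p < t.size → t.lv R i p = min (t.lv R i j) (t.lv R j p)
  | .leaf, _, _, _, _, _, _, _, _ => by simp [LT.lv]
  | .node l cs, _, h, i, j, p, h1, h2, h3 => by
    simp only [LT.Wf] at h
    exact LT.lvs_between l cs h.2.2.2 h.2.1 i j p h1 h2 h3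
theorem LT.lvs_between {R : ℕ} (l : ℕ) : ∀ (cs : LF), LT.Wfs R l cs → l < R →
    ∀ i j p, i ≤ j → j ≤ p → p < LT.sizes cs →
      LT.lvs R l cs i p = min (LT.lvs R l cs i j) (LT.lvs R l cs j p)
  | .nil, _, _, _, _, _, _, _, h3 => by simp [LT.sizes] at h3
  | .cons c cs, h, hl, i, j, p, h1, h2, h3 => by
    simp only [LT.Wfs] at h
    simp only [LT.sizes] at h3
    simp only [LT.lvs]
    by_cases hp : p < c.size
    · rw [if_pos (show i < c.size by omega), if_pos hp, if_pos (show i < c.size by omega),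
        if_pos (show j < c.size by omega), if_pos (show j < c.size by omega), if_pos hp]
      exact LT.lv_between c h.1 i j p h1 h2 hp
    · by_cases hi : i < c.size
      · by_cases hj : j < c.size
        · simp only [if_pos hi, if_pos hj, if_neg hp]
          rw [min_eq_right (LT.lv_bounds c h.1 hl i j hi hj).1.le]
        · simp only [if_pos hi, if_neg hj, if_neg hp]
          rw [min_eq_left (LT.lvs_bounds l cs h.2 hl (j - c.size) (p - c.size) (by omega)
            (by omega)).1]
      · simp only [if_neg hi, if_neg hp, if_neg (show ¬ j < c.size by omega)]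
        exact LT.lvs_between l cs h.2 hl _ _ _ (by omega) (by omega) (by omega)
end

/-- the shape of the leaves of a tree -/
theorem LT.levels {R k : ℕ} (t : LT) {lo : ℕ} (h : t.Wf R lo) (hlo : lo < R)
    (hk : k + 1 ≤ t.size) : Levels R (fun a b : Fin (k + 1) => t.lv R a b) where
  diag a := (t.lv_bounds h hlo a a (by omega) (by omega)).2.1 rfl
  comm a b := t.lv_comm R a b
  ultra a b c := by
    have := t.lv_comm R a b
    have := t.lv_comm R b c
    have := t.lv_comm R a c
    rcases le_total (a : ℕ) b with hab | hab <;> rcases le_total (b : ℕ) c with hbc | hbc <;>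
      rcases le_total (a : ℕ) c with hac | hac <;>
      first
      | (have := t.lv_between h a b c hab hbc (by omega); omega)
      | (have := t.lv_between h a c b hac hbc (by omega); omega)
      | (have := t.lv_between h b a c hab hac (by omega); omega)
      | (have := t.lv_between h b c a hbc hac (by omega); omega)
      | (have := t.lv_between h c a b hac hab (by omega); omega)
      | (have := t.lv_between h c b a hbc hab (by omega); omega)
  pos a b hab := by have := (t.lv_bounds h hlo a b (by omega) (by omega)).1; omega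
  lt a b hab := (t.lv_bounds h hlo a b (by omega) (by omega)).2.2 fun e => hab (Fin.ext e)

/-- **(S0)** `attach` realizes the tree -/
theorem LT.attach_spec {R : ℕ} (t : LT) {lo : ℕ} (h : t.Wf R lo) (hlo : lo < R) :
    Valid R (t.attach R) ∧ (t.attach R).length = t.size ∧
      ∀ i j, i < t.size → j < t.size → sp R (t.attach R) i j = t.lv R i j := by
  suffices key : ∀ n, n ≤ t.size →
      let A := ((List.range n).map fun i =>
        if i = 0 then (0, 0) else (i - 1, t.lv R (i - 1) i)).reverse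
      Valid R A ∧ A.length = n ∧ ∀ i j, i < n → j < n → sp R A i j = t.lv R i j from
    key t.size le_rfl
  intro n
  induction n with
  | zero => exact fun _ => ⟨trivial, by simp, fun i _ hi => by omega⟩
  | succ n ih =>
      intro hn
      obtain ⟨hv, hl, hsp⟩ := ih (by omega)
      simp only [List.range_succ, List.map_append, List.map_cons, List.map_nil,
        List.reverse_append, List.reverse_cons, List.reverse_nil, List.nil_append,
        List.cons_append]
      set A := ((List.range n).map fun i =>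
        if i = 0 then (0, 0) else (i - 1, t.lv R (i - 1) i)).reverse
      rcases Nat.eq_zero_or_pos n with rfl | hn0
      · have hA : A = [] := List.eq_nil_of_length_eq_zero hl
        refine ⟨by simp [hA, Valid], by simp [hA], fun i j hi hj => ?_⟩
        obtain rfl : i = 0 := by omega
        obtain rfl : j = 0 := by omega
        rw [sp_self, (t.lv_bounds h hlo 0 0 (by omega) (by omega)).2.1 rfl]
      · rw [if_neg (by omega : n ≠ 0)]
        have hv' : t.lv R (n - 1) n ≤ R :=
          ((t.lv_bounds h hlo (n - 1) n (by omega) (by omega)).2.2 (by omega)).le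
        have hne : A ≠ [] := fun e => by simp [e] at hl; omega
        refine ⟨(valid_cons hne).2 ⟨by omega, hv', hv⟩, by simp [hl], fun i j hi hj => ?_⟩
        have key : ∀ q, q < n →
            sp R ((n - 1, t.lv R (n - 1) n) :: A) A.length q = t.lv R n q := by
          intro q hq
          rw [sp_new R _ (by omega), hsp _ q (by omega) hq, t.lv_comm R (n - 1) q, t.lv_comm R n q,
            t.lv_between h q (n - 1) n (by omega) (by omega) (by omega), min_comm]
        rcases Nat.lt_succ_iff_lt_or_eq.1 hi with hi | rfl <;>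
          rcases Nat.lt_succ_iff_lt_or_eq.1 hj with hj | rfl
        · rw [sp_old R _ (by omega) (by omega), hsp i j hi hj]
        · rw [sp_comm, t.lv_comm R i, ← key i hi, hl]
        · rw [← key j hj, hl]
        · rw [sp_self, (t.lv_bounds h hlo _ _ (by omega) (by omega)).2.1 rfl]

/-- a node with two children is a twin shape -/
theorem LT.twinLv {R k : ℕ} {A B : LT} {lo η a : ℕ} (h : (LT.node η (.cons A (.cons B .nil))).Wf R lo)
    (hk : k + 1 = A.size + B.size) (hη : 1 ≤ η) (hηa : η < a) (hA : a ≤ A.top R)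
    (hB : a ≤ B.top R) :
    TwinLv (fun x y : Fin (k + 1) => (LT.node η (.cons A (.cons B .nil))).lv R x y)
      (univ.filter fun x : Fin (k + 1) => A.size ≤ x) η a := by
  simp only [LT.Wf, LT.Wfs] at h
  have hA0 := A.size_pos h.2.2.2.1
  refine ⟨hη, hηa, by simp; omega, fun b hb c hc => ?_, fun b c hbc => ?_⟩
  · simp only [mem_filter, mem_univ, true_and] at hb hc
    simp only [LT.lv, LT.lvs]
    rw [if_neg (by omega), if_pos (by omega)]
  · simp only [mem_filter, mem_univ, true_and] at hbc
    simp only [LT.lv, LT.lvs]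
    by_cases hb : (b : ℕ) < A.size
    · rw [if_pos hb, if_pos (by by_contra hc; exact absurd (hbc.2 (by omega)) (by omega))]
      exact hA.trans (A.top_le h.2.2.2.1 _ _ hb (by
        by_contra hc; exact absurd (hbc.2 (by omega)) (by omega)))
    · have hc : A.size ≤ (c : ℕ) := hbc.1 (by omega)
      rw [if_neg hb, if_neg (by omega), if_pos (by omega), if_pos (by omega)]
      exact hB.trans (B.top_le h.2.2.2.2.1 _ _ (by omega) (by omega))

end Vale.Agent.P168.MP
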