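import Vale.Agent.P168.MP.Purity
import Vale.Agent.P168.MP.Restrict
import Vale.Agent.P168.MP.Step

/-! Synchronisation (section C (II) of ROUTE.md): the value of a node, seen one level above the
node, is close to its mean. -/

namespace Vale.Agent.P168.MP

open Finset

variable {Ω : Type*} [Fintype Ω] {N R : ℕ} {m : ℕ → ℝ} {w : List Ω → ℝ}
  {rd : List Ω → Fin N → Bool}

/-- site average of a node value -/
noncomputable def Xv (R : ℕ) (m : ℕ → ℝ) (w : List Ω → ℝ) (rd : List Ω → Fin N → Bool)
    (t : LT) (p : List Ω) : ℝ :=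
  avg (nv R m w rd t p)

/-- increments at level `j` of the values of the trees of a forest -/
noncomputable def incs (R : ℕ) (m : ℕ → ℝ) (w : List Ω → ℝ) (rd : List Ω → Fin N → Bool)
    (j : ℕ) : LF → ℝ
  | .nil => 0
  | .cons c cs => Real.sqrt (Lam R m w rd c j - Lam R m w rd c (j - 1)) + incs R m w rd j cs

/-- constant of the synchronisation bound -/
noncomputable def syncC (R : ℕ) (c : ℝ) (n : ℕ) : ℝ :=
  (R : ℝ) ^ ((n + 1) * (n + 1)) * (1 / c) ^ n

lemma avg_abs_le_nrm (x : Fin N → ℝ) : |avg x| ≤ nrm x := by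
  have h := abs_ip_le_nrm x (fun _ => 1)
  have e : ip x (fun _ => 1) = avg x := by simp [ip]
  rw [e] at h
  exact h.trans (mul_le_of_le_one_right (nrm_nonneg x)
    (nrm_le_of_abs zero_le_one fun v => by simp))

lemma abs_avg_le_one {f : Fin N → ℝ} (hf : ∀ v, |f v| ≤ 1) : |avg f| ≤ 1 :=
  (avg_abs_le_nrm f).trans (nrm_le_of_abs zero_le_one hf)

lemma ET_avg (T : List (ℕ × ℕ)) (F : List (List Ω) → Fin N → ℝ) :
    ET R m w T (fun ps => avg (F ps)) = avg fun v => ET R m w T fun ps => F ps v := by
  simp only [avg, div_eq_mul_inv, ET_mul_const, ET_sum]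

lemma up_avg (l : ℕ) (pre : List Ω) (F : List Ω → Fin N → ℝ) :
    up R m w l pre (fun q => avg (F q)) = avg fun v => up R m w l pre fun q => F q v := by
  simp only [up, avg, div_eq_mul_inv, ext_mul_const, ext_sum]

/-- a list realizing a linear ultrametric -/
lemma exists_attach (n : ℕ) (d : ℕ → ℕ → ℕ) (hdiag : ∀ i < n, d i i = R)
    (hcomm : ∀ i j, d i j = d j i) (hle : ∀ i j, i < n → j < n → d i j ≤ R)
    (hbet : ∀ i j p, i ≤ j → j ≤ p → p < n → d i p = min (d i j) (d j p)) :
    ∃ T, Valid R T ∧ T.length = n ∧ ∀ i j, i < n → j < n → sp R T i j = d i j := by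
  induction n with
  | zero => exact ⟨[], trivial, rfl, fun i _ hi => by omega⟩
  | succ n ih =>
    obtain ⟨T, hv, hl, hs⟩ := ih (fun i hi => hdiag i (by omega))
      (fun i j hi hj => hle i j (by omega) (by omega))
      fun i j p h1 h2 h3 => hbet i j p h1 h2 (by omega)
    rcases Nat.eq_zero_or_pos n with rfl | hn
    · refine ⟨[(0, 0)], ⟨rfl, rfl⟩, rfl, fun i j hi hj => ?_⟩
      obtain rfl : i = 0 := by omega
      obtain rfl : j = 0 := by omega
      rw [sp_self, hdiag 0 (by omega)]
    · refine ⟨(n - 1, d (n - 1) n) :: T, (valid_cons (fun e => by simp [e] at hl; omega)).2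
        ⟨by omega, hle _ _ (by omega) (by omega), hv⟩, by simp [hl], fun i j hi hj => ?_⟩
      have key : ∀ q, q < n → sp R ((n - 1, d (n - 1) n) :: T) T.length q = d n q := by
        intro q hq
        rw [sp_new R _ (by omega), hs _ q (by omega) hq, hcomm (n - 1) q, hcomm n q,
          hbet q (n - 1) n (by omega) (by omega) (by omega), min_comm]
      rcases Nat.lt_succ_iff_lt_or_eq.1 hi with hi | rfl <;>
        rcases Nat.lt_succ_iff_lt_or_eq.1 hj with hj | rfl
      · rw [sp_old R _ (by omega) (by omega), hs i j hi hj]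
      · rw [sp_comm, hcomm i, ← key i hi, hl]
      · rw [← key j hj, hl]
      · rw [sp_self, hdiag _ (by omega)]

variable [Nonempty Ω]

/-! ### exact factorisation -/

/-- in mean, the top value of a tree may be replaced by its value at a separating level -/
theorem ET_dev_zero (hw : ∀ p, 0 < w p) {ι : Type*} [Fintype ι] {T : List (ℕ × ℕ)}
    (hT : Valid R T) {t : LT} (ht : t.top R ≤ R) {q η : ℕ} (hq : q < T.length) (hηt : η ≤ t.top R)
    (s : ι → ℕ) (hsl : ∀ i, s i < T.length) (hsep : ∀ i, sp R T q (s i) ≤ η)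
    (B : (ι → List Ω) → ℝ) (v : Fin N) :
    ET R m w T (fun ps => nv R m w rd t ((ps.getD q []).take (t.top R)) v *
        B fun i => ps.getD (s i) []) =
      ET R m w T (fun ps => nv R m w rd t ((ps.getD q []).take η) v *
        B fun i => ps.getD (s i) []) := by
  have hη : η ≤ R := hηt.trans ht
  rw [ET_resample hw hT hq hη s hsl hsep
      (fun a P => nv R m w rd t (a.take (t.top R)) v * B P),
    ET_resample hw hT hq hη s hsl hsep (fun a P => nv R m w rd t (a.take η) v * B P),
    ET_cons, ET_cons]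
  refine ET_congr hT fun ps hs => ?_
  set pre := (ps.getD q []).take η
  have hlen : pre.length = η := by
    simp only [pre, List.length_take, hs.2.1 q hq, min_eq_left hη]
  have hB : ∀ a : List Ω, (B fun i => (ps ++ [a]).getD (s i) []) = B fun i => ps.getD (s i) [] :=
    fun a => congrArg B (funext fun i => List.getD_append _ _ _ _ (hs.1 ▸ hsl i))
  have ha : ∀ a : List Ω, (ps ++ [a]).getD T.length [] = a := fun a => by
    rw [List.getD_append_right _ _ _ _ hs.1.le]; simp [hs.1]
  simp only [ha, hB, ext_mul_const]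
  congr 1
  rw [show R - η = R - pre.length by rw [hlen], ← up_top, ← up_top,
    up_take hw (hlen ▸ hηt) ht le_rfl (fun a => nv R m w rd t a v),
    nv_martingale ht (hlen ▸ hηt) le_rfl v,
    up_take hw (hlen ▸ le_rfl) hη le_rfl (fun a => nv R m w rd t a v), up_self hlen]

set_option linter.unusedSectionVars false in
mutual
/-- the product of the spins of a tree has the mean of its top value -/
theorem fact_tree (hw : ∀ p, 0 < w p) :
    ∀ (t : LT) {lo : ℕ}, LT.Wf R lo t → ∀ {T : List (ℕ × ℕ)}, Valid R T →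
    ∀ (pos : ℕ → ℕ), (∀ i, i < t.size → pos i < T.length) →
    (∀ i j, i < t.size → j < t.size → sp R T (pos i) (pos j) = t.lv R i j) →
    ∀ {ι : Type} [Fintype ι] (s : ι → ℕ), (∀ k, s k < T.length) →
    (∀ i k, i < t.size → sp R T (pos i) (s k) ≤ t.top R) →
    ∀ (B : (ι → List Ω) → ℝ) (v : Fin N),
      ET R m w T (fun ps => lprod rd pos t.size ps v * B fun k => ps.getD (s k) []) =
        ET R m w T (fun ps => nv R m w rd t ((ps.getD (pos 0) []).take (t.top R)) v *
          B fun k => ps.getD (s k) [])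
  | .leaf, lo, _, T, hT, pos, hpos, _, ι, _, s, _, _, B, v => by
    refine ET_congr hT fun ps hs => ?_
    have h0 := hs.2.1 _ (hpos 0 (by simp [LT.size]))
    rw [show (ps.getD (pos 0) []).take (LT.top R .leaf) = ps.getD (pos 0) [] from
      List.take_of_length_le h0.le, nv_leaf_self h0]
    simp [lprod, LT.size]
  | .node l cs, lo, hwf, T, hT, pos, hpos, hsp, ι, _, s, hsl, hout, B, v => by
    rw [LT.Wf] at hwf
    simp only [LT.size, LT.top] at *
    have h0 := hpos 0 (LT.sizes_pos_of_wfs cs hwf.2.2.2 (LF.ne_nil_of_length_pos (by omega)))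
    rw [fact_forest hw l cs hwf.2.1.le hwf.2.2.2 hT pos hpos
      (fun i j hi hj => by rw [hsp i j hi hj, LT.lv]) s hsl hout B v]
    refine ET_congr hT fun ps hs => ?_
    rw [nv_node_self (by rw [List.length_take, hs.2.1 _ h0, min_eq_left hwf.2.1.le])]
/-- the product of the spins of a forest has the mean of the product of the values -/
theorem fact_forest (hw : ∀ p, 0 < w p) :
    ∀ (l : ℕ) (cs : LF), l ≤ R → LT.Wfs R l cs → ∀ {T : List (ℕ × ℕ)}, Valid R T →
    ∀ (pos : ℕ → ℕ), (∀ i, i < LT.sizes cs → pos i < T.length) →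
    (∀ i j, i < LT.sizes cs → j < LT.sizes cs → sp R T (pos i) (pos j) = LT.lvs R l cs i j) →
    ∀ {ι : Type} [Fintype ι] (s : ι → ℕ), (∀ k, s k < T.length) →
    (∀ i k, i < LT.sizes cs → sp R T (pos i) (s k) ≤ l) →
    ∀ (B : (ι → List Ω) → ℝ) (v : Fin N),
      ET R m w T (fun ps => lprod rd pos (LT.sizes cs) ps v * B fun k => ps.getD (s k) []) =
        ET R m w T (fun ps => nvs R m w rd cs ((ps.getD (pos 0) []).take l) v *
          B fun k => ps.getD (s k) [])
  | l, .nil, _, _, T, hT, pos, _, _, ι, _, s, _, _, B, v => by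
    refine ET_congr hT fun ps _ => ?_
    simp [LT.sizes, lprod_zero, nvs]
  | l, .cons c cs, hl, hwf, T, hT, pos, hpos, hsp, ι, _, s, hsl, hout, B, v => by
    rw [LT.Wfs] at hwf
    simp only [LT.sizes] at hpos hsp hout ⊢
    have hc := LT.size_pos_of_wf c hwf.1
    have hlc : l ≤ c.top R := le_top_of_wf hl hwf.1
    set n := c.size with hn
    set pos' : ℕ → ℕ := fun i => pos (n + i) with hpos'
    have hb : ∀ i, i < LT.sizes cs → n + i < n + LT.sizes cs := fun i hi => by omega
    have hcross : ∀ i j, i < n → j < LT.sizes cs → sp R T (pos i) (pos' j) = l := fun i j hi hj => by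
      rw [hpos', hsp i (n + j) (by omega) (hb j hj), LT.lvs, if_pos hi, if_neg (by omega)]
    let s' : ι ⊕ Fin (LT.sizes cs) → ℕ := Sum.elim s fun j => pos' j
    let B₁ : (ι ⊕ Fin (LT.sizes cs) → List Ω) → ℝ := fun P =>
      (∏ j : Fin (LT.sizes cs), sg (rd (P (Sum.inr j)) v)) * B fun k => P (Sum.inl k)
    have hB₁ : ∀ ps, B₁ (fun x => ps.getD (s' x) []) =
        lprod rd pos' (LT.sizes cs) ps v * B fun k => ps.getD (s k) [] := fun ps => by
      simp only [B₁, s', lprod, Sum.elim_inr, Sum.elim_inl]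
      rw [Fin.prod_univ_eq_prod_range (fun j => sg (rd (ps.getD (pos' j) []) v))]
    have hsl' : ∀ x, s' x < T.length := by
      rintro (k | j)
      exacts [hsl k, hpos _ (hb j j.2)]
    have hout' : ∀ i x, i < n → sp R T (pos i) (s' x) ≤ l := by
      rintro i (k | j) hi
      exacts [hout i k (by omega), (hcross i j hi j.2).le]
    have I₁ := fact_tree hw c hwf.1 hT pos (fun i hi => hpos i (by omega))
      (fun i j hi hj => by rw [hsp i j (by omega) (by omega), LT.lvs, if_pos hi, if_pos hj])
      s' hsl' (fun i x hi => (hout' i x hi).trans hlc) B₁ v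
    have I₂ := ET_dev_zero (m := m) (rd := rd) hw hT (LT.Wf.top_le hwf.1) (hpos 0 (by omega)) hlc
      s' hsl' (fun x => hout' 0 x hc) B₁ v
    let s'' : Option ι → ℕ := fun x => x.elim (pos 0) s
    let B₂ : (Option ι → List Ω) → ℝ := fun P =>
      nv R m w rd c ((P none).take l) v * B fun k => P (some k)
    have hB₂ : ∀ ps : List (List Ω), B₂ (fun x => ps.getD (s'' x) []) =
        nv R m w rd c ((ps.getD (pos 0) []).take l) v * B fun k => ps.getD (s k) [] := fun _ => rfl
    have I₃ := fact_forest hw l cs hl hwf.2 hT pos' (fun i hi => hpos _ (hb i hi))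
      (fun i j hi hj => by
        rw [hpos', hsp _ _ (hb i hi) (hb j hj), LT.lvs, if_neg (by omega), if_neg (by omega),
          show n + i - c.size = i by omega, show n + j - c.size = j by omega]) s''
      (by rintro (_ | k); exacts [hpos 0 (by omega), hsl k])
      (by
        rintro i (_ | k) hi
        · exact (sp_comm R T _ _).trans_le (hcross 0 i hc hi).le
        · exact hout _ k (hb i hi)) B₂ v
    simp only [hB₁] at I₁ I₂
    simp only [hB₂] at I₃
    calc ET R m w T (fun ps => lprod rd pos (n + LT.sizes cs) ps v * B fun k => ps.getD (s k) [])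
        = ET R m w T (fun ps => lprod rd pos n ps v *
            (lprod rd pos' (LT.sizes cs) ps v * B fun k => ps.getD (s k) [])) := by
          simp only [lprod_add, mul_assoc, hpos']
      _ = _ := I₁.trans I₂
      _ = ET R m w T (fun ps => lprod rd pos' (LT.sizes cs) ps v *
            (nv R m w rd c ((ps.getD (pos 0) []).take l) v * B fun k => ps.getD (s k) [])) := by
          simp only [mul_left_comm]
      _ = _ := I₃
      _ = _ := by
          refine ET_congr hT fun ps hs => ?_
          have hvs : nvs R m w rd cs ((ps.getD (pos' 0) []).take l) v =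
              nvs R m w rd cs ((ps.getD (pos 0) []).take l) v := by
            cases hcs : cs with
            | nil => simp only [nvs]
            | cons d ds =>
              have h0 : 0 < LT.sizes cs := LT.sizes_pos_of_wfs cs hwf.2 (by simp [hcs])
              have := hs.2.2 (pos 0) (pos' 0) (hpos 0 (by omega)) (hpos _ (hb 0 h0))
              rw [hcross 0 0 hc h0] at this
              rw [← hcs, this]
          rw [hvs]
          conv_rhs => rw [nvs]
          ring
end

/-! ### node values along a path -/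

section node

variable (hw : ∀ p, 0 < w p) {j : ℕ} {cs : LF}
include hw

omit [Nonempty Ω] hw in
lemma Xv_mart (hjR : j ≤ R) {l : ℕ} (hlj : l ≤ j) {q : List Ω} (hq : q.length ≤ l) :
    up R m w l q (fun p => Xv R m w rd (.node j cs) p) = Xv R m w rd (.node j cs) q := by
  unfold Xv
  rw [up_avg]
  exact congrArg _ (funext fun v => nv_martingale (t := .node j cs) hjR hq hlj v)

lemma abs_Xv_le (t : LT) (p : List Ω) : |Xv R m w rd t p| ≤ 1 :=
  abs_avg_le_one (abs_nv_le hw t p)

/-- mean of the product of the spins of the leaves -/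
lemma mean_forest (hwf : LT.Wfs R j cs) (hne : cs ≠ .nil) (hjR : j ≤ R) {T : List (ℕ × ℕ)}
    (hT : Valid R T) (pos : ℕ → ℕ) (hpos : ∀ i, i < LT.sizes cs → pos i < T.length)
    (hsp : ∀ a b, a < LT.sizes cs → b < LT.sizes cs →
      sp R T (pos a) (pos b) = LT.lvs R j cs a b) :
    ET R m w T (fun ps => avg (lprod rd pos (LT.sizes cs) ps)) =
      Xv R m w rd (.node j cs) [] := by
  rw [ET_avg, Xv]
  refine congrArg _ (funext fun v => ?_)
  have h := fact_forest (m := m) (rd := rd) hw j cs hjR hwf hT pos hpos hsp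
    (s := fun e : Empty => e.elim) (fun e => e.elim) (fun _ e => e.elim) (fun _ => 1) v
  simp only [mul_one] at h
  rw [h, ET_marginal hw hT (hpos 0 (LT.sizes_pos_of_wfs cs hwf hne))
    fun p => nvs R m w rd cs (p.take j) v,
    up_take hw (Nat.zero_le j) hjR le_rfl (fun p => nvs R m w rd cs p v), nv]

/-- two groups of leaves of the forest branching one level above their node -/
lemma pair_value (hwf : LT.Wfs R j cs) (hne : cs ≠ .nil) (hjR : j ≤ R) {T : List (ℕ × ℕ)}
    (hT : Valid R T) (p p' : ℕ → ℕ) (hp : ∀ i, i < LT.sizes cs → p i < T.length)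
    (hp' : ∀ i, i < LT.sizes cs → p' i < T.length)
    (hsp : ∀ a b, a < LT.sizes cs → b < LT.sizes cs → sp R T (p a) (p b) = LT.lvs R j cs a b)
    (hsp' : ∀ a b, a < LT.sizes cs → b < LT.sizes cs →
      sp R T (p' a) (p' b) = LT.lvs R j cs a b)
    (hx : ∀ a b, a < LT.sizes cs → b < LT.sizes cs → sp R T (p a) (p' b) = j - 1) :
    ET R m w T (fun ps => avg (lprod rd p (LT.sizes cs) ps) * avg (lprod rd p' (LT.sizes cs) ps)) =
      up R m w (j - 1) [] (fun q => Xv R m w rd (.node j cs) q ^ 2) := by
  have hn := LT.sizes_pos_of_wfs cs hwf hne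
  set n := LT.sizes cs
  let Y : List Ω → ℝ := fun q => Xv R m w rd (.node j cs) (q.take j)
  have h1 : ∀ (p p' : ℕ → ℕ), (∀ i, i < n → p i < T.length) →
      (∀ a b, a < n → b < n → sp R T (p a) (p b) = LT.lvs R j cs a b) →
      ∀ {ι : Type} [Fintype ι] (s : ι → ℕ), (∀ k, s k < T.length) →
      (∀ i k, i < n → sp R T (p i) (s k) ≤ j) → ∀ B : (ι → List Ω) → ℝ,
      ET R m w T (fun ps => avg (lprod rd p n ps) * B fun k => ps.getD (s k) []) =
        ET R m w T (fun ps => Y (ps.getD (p 0) []) * B fun k => ps.getD (s k) []) := by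
    intro p _ hp hsp ι _ s hsl hout B
    have e : ∀ G : List (List Ω) → Fin N → ℝ, ∀ b : List (List Ω) → ℝ,
        ET R m w T (fun ps => avg (G ps) * b ps) =
          avg fun v => ET R m w T fun ps => G ps v * b ps := fun G b => by
      rw [← ET_avg]
      refine congrArg _ (funext fun ps => ?_)
      simp only [avg, div_mul_eq_mul_div, Finset.sum_mul]
    simp only [Y, Xv]
    rw [e, e]
    refine congrArg _ (funext fun v => ?_)
    rw [fact_forest hw j cs hjR hwf hT p hp hsp s hsl hout B v]
    refine ET_congr hT fun ps hs => ?_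
    rw [nv_node_self (by
      rw [List.length_take, hs.2.1 _ (hp 0 hn), min_eq_left hjR])]
  have e1 := h1 p p' hp hsp (fun b : Fin n => p' b) (fun b => hp' b b.2)
    (fun i b hi => (hx i b hi b.2).le.trans (Nat.sub_le _ _))
    (fun P => avg fun v => ∏ b : Fin n, sg (rd (P b) v))
  have e0 : ∀ ps : List (List Ω), (avg fun v => ∏ b : Fin n, sg (rd (ps.getD (p' b) []) v)) =
      avg (lprod rd p' n ps) := fun ps => congrArg _ (funext fun v => by
    rw [lprod, Fin.prod_univ_eq_prod_range (fun b => sg (rd (ps.getD (p' b) []) v))])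
  simp only [e0] at e1
  rw [e1]
  have e2 := h1 p' p hp' hsp' (fun _ : Unit => p 0) (fun _ => hp 0 hn)
    (fun i _ hi => by rw [sp_comm, hx 0 i hn hi]; exact Nat.sub_le _ _) (fun P => Y (P ()))
  simp only [mul_comm (Y _)]
  rw [e2]
  have hv2 : Valid R [(0, j - 1), (0, 0)] := ⟨by simp, (Nat.sub_le _ _).trans hjR, rfl, rfl⟩
  have e3 := ET_restrict (ι := Fin 2) (m := m) (w := w) (fun k pre => trans_sum hw k pre) hT hv2
    ![p 0, p' 0] ![0, 1] (fun i => by fin_cases i <;> simp [hp 0 hn, hp' 0 hn])
    (fun i => by fin_cases i <;> simp)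
    (fun i i' => by
      have := hx 0 0 hn hn
      fin_cases i <;> fin_cases i' <;>
        simp [sp, sp_self, sp_comm R T (p' 0) (p 0), this] <;> omega)
    (fun P => Y (P 1) * Y (P 0))
  simp only [Matrix.cons_val_zero, Matrix.cons_val_one] at e3
  rw [e3]
  simp only [Y]
  rw [twin_law hw (Nat.sub_le j 1) hjR
    (fun _ a b => Xv R m w rd (.node j cs) b * Xv R m w rd (.node j cs) a)]
  refine up_congr (Nat.zero_le _) fun q hq _ => ?_
  simp only [mul_comm (Xv R m w rd (.node j cs) _) (Xv R m w rd (.node j cs) _)]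
  simp only [up_const_mul, sq]
  rw [Xv_mart (m := m) hjR le_rfl (hq ▸ Nat.sub_le _ _)]
  rw [show (fun a => Xv R m w rd (.node j cs) a * Xv R m w rd (.node j cs) q) =
    fun a => Xv R m w rd (.node j cs) q * Xv R m w rd (.node j cs) a from funext fun a => mul_comm _ _,
    up_const_mul, Xv_mart (m := m) hjR le_rfl (hq ▸ Nat.sub_le _ _)]

end node

/-! ### the identity -/

/-- positions of the spins of the new replicas, feature `i + 1` being placed by `e` -/
def newPos {n : ℕ} (n₀ : ℕ) (e : Equiv.Perm (Fin n)) (i : ℕ) : ℕ :=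
  if h : i < n then n₀ + (e ⟨i, h⟩ : ℕ) else 0

omit [Nonempty Ω] in
lemma newPos_eq {n : ℕ} (n₀ : ℕ) (e : Equiv.Perm (Fin n)) {i : ℕ} (hi : i < n) :
    newPos n₀ e i = posOf n₀ e (⟨i, hi⟩ : Fin n).succ := by
  rw [posOf_succ, newPos, dif_pos hi]

/-- kernel with a dummy feature `0`: the order `k` term is a sum over the realizations of its
shape -/
theorem Dk_shape [NeZero N] (hw : ∀ p, 0 < w p) {n : ℕ} {lv : Fin (n + 1) → Fin (n + 1) → ℕ}
    (hlv : Levels R lv) {T : List (ℕ × ℕ)} (hT : Valid R T) (hne : T ≠ [])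
    (F : List (Fin N → Bool) → ℝ) :
    Dk ⟨n, lv, fun a => decide (a ≠ 0)⟩ R m w rd T F = ((attSeq R m n T).map fun d => d.2 *
      ∑ e, if Shp R lv d.1 (posOf T.length e) then ET R m w d.1 (fun ps =>
        F ((ps.take T.length).map rd) * avg (lprod rd (newPos T.length e) n ps)) else 0).sum := by
  refine congrArg List.sum (List.map_congr_left fun d hd => ?_)
  refine congrArg _ (Finset.sum_congr rfl fun e _ => ?_)
  split_ifs with hs
  · refine ET_congr (attSeq_valid n hT d hd) fun ps hps => ?_
    rw [kappa, Finset.prod_eq_one (fun q _ => if_pos (hs _ _ q.2.ne)), mul_one]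
    refine congrArg₂ (· * ·) rfl (congrArg _ (funext fun v => ?_))
    rw [Fin.prod_univ_succ, lprod, ← Fin.prod_univ_eq_prod_range
      (fun i => sg (rd (ps.getD (newPos T.length e i) []) v))]
    simp only [ne_eq, not_true_eq_false, decide_false, Bool.false_eq_true, if_false, one_mul,
      Fin.succ_ne_zero, not_false_eq_true, decide_true, if_true]
    refine Finset.prod_congr rfl fun a _ => ?_
    have hlt : posOf T.length e a.succ < ps.length := hps.1 ▸ posOf_lt hne hd e a.succ
    rw [newPos_eq _ e a.isLt, Fin.eta, List.getD_eq_getElem _ _ (by simpa using hlt),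
      List.getD_eq_getElem _ _ hlt, List.getElem_map]
  · obtain ⟨q, hq⟩ : ∃ q : Pair n,
        sp R d.1 (posOf T.length e q.1.1) (posOf T.length e q.1.2) ≠ lv q.1.1 q.1.2 := by
      by_contra hcon
      push Not at hcon
      refine hs fun x y hxy => ?_
      rcases lt_or_gt_of_ne hxy with hlt | hlt
      · exact hcon ⟨(x, y), hlt⟩
      · rw [sp_comm, hlv.comm x y]; exact hcon ⟨(y, x), hlt⟩
    refine (ET_congr (attSeq_valid n hT d hd) fun ps _ => ?_).trans (ET_const hw d.1 0)
    rw [kappa, Finset.prod_eq_zero (mem_univ q) (if_neg hq), mul_zero, mul_zero]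

section ident

variable {j kmax : ℕ} {cs : LF} {c E : ℝ}

omit [Nonempty Ω] in
/-- the shape of the kernel: a dummy feature next to the trees of the forest -/
lemma kernel_levels (hwf : LT.Wfs R j cs) (hne : cs ≠ .nil) (hj : 1 ≤ j) (hjR : j < R) :
    ∃ lv : Fin (LT.sizes cs + 1) → Fin (LT.sizes cs + 1) → ℕ, Levels R lv ∧
      (∀ b : Fin (LT.sizes cs), lv 0 b.succ = j) ∧
      (∀ a b : Fin (LT.sizes cs), lv a.succ b.succ = LT.lvs R j cs a b) ∧
      ∀ a b, j ≤ lv a b := by
  let tk : LT := .node j (.cons .leaf cs)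
  have htk : tk.Wf R (j - 1) := by
    simp only [tk, LT.Wf, LT.Wfs, LF.length]
    refine ⟨by omega, hjR, ?_, trivial, hwf⟩
    cases cs with
    | nil => exact absurd rfl hne
    | cons c cs => simp [LF.length]
  have htks : tk.size = LT.sizes cs + 1 := by simp [tk, LT.size, LT.sizes, Nat.add_comm]
  exact ⟨fun a b => tk.lv R a b, tk.levels htk (by omega) htks.ge,
    fun b => by simp [tk, LT.lv, LT.lvs, LT.size],
    fun a b => by simp [tk, LT.lv, LT.lvs, LT.size],
    fun a b => tk.top_le htk a b (by omega) (by omega)⟩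

omit [Nonempty Ω] in
/-- the old replicas: a dummy one level above the node of the forest -/
lemma old_list (hwf : LT.Wfs R j cs) (hjR : j < R) :
    ∃ T, Valid R T ∧ T.length = LT.sizes cs + 1 ∧
      (∀ i, i < LT.sizes cs → sp R T 0 (i + 1) = j - 1) ∧
      ∀ a b, a < LT.sizes cs → b < LT.sizes cs → sp R T (a + 1) (b + 1) = LT.lvs R j cs a b := by
  have hb := LT.lvs_bounds (R := R) j cs hwf hjR
  obtain ⟨T, hT, hTl, hTsp⟩ := exists_attach (R := R) (LT.sizes cs + 1)
    (fun a a' => if a = 0 ∧ a' = 0 then R else if a = 0 ∨ a' = 0 then j - 1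
      else LT.lvs R j cs (a - 1) (a' - 1))
    (fun a ha => by
      split_ifs with h1 h2
      · rfl
      · omega
      · exact (hb _ _ (by omega) (by omega)).2.1 rfl)
    (fun a a' => by
      rw [LT.lvs_comm R j cs (a - 1) (a' - 1)]
      split_ifs <;> first | rfl | omega)
    (fun a a' ha ha' => by
      split_ifs
      · exact le_rfl
      · omega
      · rcases eq_or_ne (a - 1) (a' - 1) with e | e
        · exact ((hb _ _ (by omega) (by omega)).2.1 e).le
        · exact ((hb _ _ (by omega) (by omega)).2.2 e).le)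
    (fun a a' p h1 h2 h3 => by
      rcases Nat.eq_zero_or_pos a with rfl | ha
      · rcases Nat.eq_zero_or_pos a' with rfl | ha'
        · rcases Nat.eq_zero_or_pos p with rfl | hp
          · simp
          · simp [show p ≠ 0 by omega]; omega
        · rw [if_neg (by omega : ¬ (0 = 0 ∧ p = 0)), if_pos (Or.inl rfl),
            if_neg (by omega : ¬ (0 = 0 ∧ a' = 0)), if_pos (Or.inl rfl),
            if_neg (by omega : ¬ (a' = 0 ∧ p = 0)), if_neg (by omega : ¬ (a' = 0 ∨ p = 0))]
          have := (hb (a' - 1) (p - 1) (by omega) (by omega)).1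
          omega
      · simp only [show a ≠ 0 by omega, show a' ≠ 0 by omega, show p ≠ 0 by omega, false_and,
          or_self, if_false]
        exact LT.lvs_between j cs hwf hjR _ _ _ (by omega) (by omega) (by omega))
  refine ⟨T, hT, hTl, fun i hi => ?_, fun a b ha hb' => ?_⟩
  · rw [hTsp 0 (i + 1) (by omega) (by omega), if_neg (by omega), if_pos (Or.inl rfl)]
  · rw [hTsp _ _ (by omega) (by omega), if_neg (by omega), if_neg (by omega)]; rfl

/-- data of an admissible sequence -/
lemma seq_data {n : ℕ} {lv : Fin (n + 1) → Fin (n + 1) → ℕ} (hlv : Levels R lv)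
    (h0 : ∀ b : Fin n, lv 0 b.succ = j) (d : ℕ → ℕ → ℕ)
    (hs : ∀ a b : Fin n, lv a.succ b.succ = d a b) {T : List (ℕ × ℕ)} (hne : T ≠ [])
    {x : List (ℕ × ℕ) × ℝ} (hx : x ∈ attSeq R m n T) {e : Equiv.Perm (Fin n)}
    (hshp : Shp R lv x.1 (posOf T.length e)) :
    (∀ i, i < n → newPos T.length e i < x.1.length) ∧
      (∀ a b, a < n → b < n → sp R x.1 (newPos T.length e a) (newPos T.length e b) = d a b) ∧
      ∀ i, i < n → sp R x.1 0 (newPos T.length e i) = j := by
  have hall := shpOn_univ.2 hshp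
  refine ⟨fun i hi => newPos_eq T.length e hi ▸ posOf_lt hne hx e _, fun a b ha hb => ?_,
    fun i hi => ?_⟩
  · rw [newPos_eq _ e ha, newPos_eq _ e hb, hall.sp_eq hlv (mem_univ _) (mem_univ _), hs]
  · rw [newPos_eq _ e hi, ← posOf_zero T.length e, hall.sp_eq hlv (mem_univ _) (mem_univ _), h0]

variable [NeZero N]

/-- **exact synchronisation**: the mean square of the value of a node one level above it is the
square of its mean -/
theorem sync_exact (hw : ∀ p, 0 < w p) (hI : Ident R (lin R) w rd kmax E)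
    (hwf : LT.Wfs R j cs) (hne : cs ≠ .nil) (hj : 1 ≤ j) (hjR : j < R)
    (hc : 0 < c) (hc1 : c ≤ 1) (hcR : c * R ≤ j) (hk : LT.sizes cs ≤ kmax) :
    |ET R (lin R) w [(0, 0)]
        (fun ps => Xv R (lin R) w rd (.node j cs) ((ps.getD 0 []).take (j - 1)) ^ 2)
      - Xv R (lin R) w rd (.node j cs) [] ^ 2| ≤ syncC R c (LT.sizes cs) * E := by
  rw [ET_path hw (show j - 1 ≤ R by omega) fun q => Xv R (lin R) w rd (.node j cs) q ^ 2]
  obtain ⟨lv, hlv, hlv0, hlvs, hlvj⟩ := kernel_levels (R := R) hwf hne hj hjR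
  obtain ⟨T, hT, hTl, hold0, hold⟩ := old_list (R := R) hwf hjR
  let n := LT.sizes cs
  change Fin (n + 1) → Fin (n + 1) → ℕ at lv
  change T.length = n + 1 at hTl
  change ∀ i, i < n → sp R T 0 (i + 1) = j - 1 at hold0
  set V := up R (lin R) w (j - 1) [] fun q => Xv R (lin R) w rd (.node j cs) q ^ 2
  set μ := Xv R (lin R) w rd (.node j cs) []
  have hR : 0 < R := by omega
  have hm : lin R (R + 1) = 0 := if_neg (by omega)
  have hv1 : Valid R [(0, 0)] := ⟨rfl, rfl⟩
  have hne' : T ≠ [] := fun e => by simp [e] at hTl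
  let F : List (Fin N → Bool) → ℝ := fun σs =>
    avg fun v : Fin N => ∏ i ∈ range n, sg ((σs.getD (i + 1) default : Fin N → Bool) v)
  have hF : ∀ σs, |F σs| ≤ 1 := fun σs => by
    refine abs_avg_le_one (f := fun v : Fin N =>
      ∏ i ∈ range n, sg ((σs.getD (i + 1) default : Fin N → Bool) v)) fun v => ?_
    rw [abs_prod]; exact prod_le_one (fun _ _ => abs_nonneg _) fun i _ => (abs_sg _).le
  have hFe : ∀ ps : List (List Ω), n < ps.length →
      F (ps.map rd) = avg (lprod rd (fun i => i + 1) n ps) := by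
    intro ps hl
    refine congrArg avg (funext fun v => ?_)
    refine Finset.prod_congr rfl fun i hi => ?_
    have hi' : i + 1 < ps.length := by have := mem_range.1 hi; omega
    rw [List.getD_eq_getElem _ _ (by simpa using hi'), List.getD_eq_getElem _ _ hi',
      List.getElem_map]
  have hA : Dk ⟨n, lv, fun a => decide (a ≠ 0)⟩ R (lin R) w rd T F = V * Wsum (lin R) lv := by
    rw [Dk_shape hw hlv hT hne' F]
    refine shape_sum hm hlv hT hne' (fun d e => ET R (lin R) w d fun ps =>
      F ((ps.take T.length).map rd) * avg (lprod rd (newPos T.length e) n ps)) V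
      fun d hd e hs => ?_
    obtain ⟨hp, hnn, hn0'⟩ := seq_data hlv hlv0 (LT.lvs R j cs) hlvs hne' hd hs
    have hdv := attSeq_valid n hT d hd
    obtain ⟨pre, hpre, -⟩ := attSeq_suffix n T d hd
    have hold' : ∀ a a', a < T.length → a' < T.length → sp R d.1 a a' = sp R T a a' :=
      fun a a' ha ha' => by rw [hpre]; exact sp_append R pre T ha ha'
    have hlen : T.length ≤ d.1.length := by rw [hpre]; simp
    refine Eq.trans (ET_congr hdv fun ps hps => ?_) (pair_value (m := lin R) (rd := rd) hw hwf hne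
      hjR.le hdv (fun i => i + 1) (newPos T.length e) (fun i hi => by omega) hp
      (fun a a' ha ha' => by rw [hold' _ _ (by omega) (by omega), hold a a' ha ha']) hnn
      (fun a a' ha ha' => by
        have h1 := (hold' 0 (a + 1) (by omega) (by omega)).trans (hold0 a ha)
        have h2 := hn0' a' ha'
        have u1 := sp_ultra R d.1 0 (a + 1) (newPos T.length e a')
        have u2 := sp_ultra R d.1 (a + 1) 0 (newPos T.length e a')
        have u3 := sp_ultra R d.1 0 (newPos T.length e a') (a + 1)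
        have c1 := sp_comm R d.1 0 (a + 1)
        have c2 := sp_comm R d.1 (newPos T.length e a') (a + 1)
        omega))
    rw [hFe (ps.take T.length) (by rw [List.length_take, hps.1]; omega)]
    refine congrArg₂ (· * ·) (congrArg _ (funext fun v => Finset.prod_congr rfl fun i hi => ?_)) rfl
    have hi' : i + 1 < T.length := by have := mem_range.1 hi; omega
    simp only [List.getD_eq_getElem?_getD, List.getElem?_take, if_pos hi']
  have hB : Dk ⟨n, lv, fun a => decide (a ≠ 0)⟩ R (lin R) w rd [(0, 0)] (fun _ => 1) =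
      μ * Wsum (lin R) lv := by
    rw [Dk_shape hw hlv hv1 (by simp) fun _ => 1]
    refine shape_sum hm hlv hv1 (by simp) (fun d e => ET R (lin R) w d fun ps =>
      1 * avg (lprod rd (newPos ([(0, 0)] : List (ℕ × ℕ)).length e) n ps)) μ fun d hd e hs => ?_
    obtain ⟨hp, hnn, -⟩ := seq_data hlv hlv0 (LT.lvs R j cs) hlvs (by simp) hd hs
    simp only [one_mul]
    exact mean_forest hw hwf hne hjR.le (attSeq_valid n hv1 d hd) _ hp hnn
  have hC : ET R (lin R) w T (fun ps => F (ps.map rd)) = μ := by
    refine (ET_congr hT fun ps hps => hFe ps (by rw [hps.1]; omega)).trans ?_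
    exact mean_forest hw hwf hne hjR.le hT _ (fun i hi => by omega) hold
  have key := hI ⟨n, lv, fun a => decide (a ≠ 0)⟩ hk
    (fun q => ⟨hlv.pos _ _ q.2.ne, hlv.lt _ _ q.2.ne⟩) T hT hne' (by omega) F hF
  rw [hA, hB, hC, show V * Wsum (lin R) lv - μ * (μ * Wsum (lin R) lv) =
    (V - μ ^ 2) * Wsum (lin R) lv by ring, abs_mul] at key
  set L : Finset ℕ := ((univ : Finset (Fin (n + 1) × Fin (n + 1))).filter fun q => q.1 ≠ q.2).image
    fun q => lv q.1 q.2
  have hlow := Wsum_lower hlv (L := L) hc.le hc1 (fun l hl => by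
      obtain ⟨q, -, rfl⟩ := mem_image.1 hl
      exact hcR.trans (Nat.cast_le.2 (hlvj _ _)))
    hR (fun x y hxy => mem_image.2 ⟨(x, y), mem_filter.2 ⟨mem_univ _, hxy⟩, rfl⟩)
  have hpin : pinned lv L ≤ (n + 1) * (n + 1) := by
    refine (card_image_le.trans (card_filter_le _ _)).trans ?_
    simp
  have hq : ((R : ℝ)⁻¹) ^ ((n + 1) * (n + 1)) * c ^ n ≤ |Wsum (lin R) lv| :=
    le_trans (mul_le_mul_of_nonneg_right (pow_le_pow_of_le_one (by positivity)
      (inv_le_one_of_one_le₀ (by exact_mod_cast hR)) hpin) (by positivity)) hlow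
  have hle := (mul_le_mul_of_nonneg_left hq (abs_nonneg (V - μ ^ 2))).trans key
  rw [inv_pow, inv_mul_eq_div, mul_div_assoc', div_le_iff₀ (by positivity),
    ← le_div_iff₀ (by positivity)] at hle
  refine hle.trans (le_of_eq ?_)
  rw [syncC, one_div, inv_pow]; ring

end ident

/-! ### variance of the product of the spins -/

mutual
theorem LT.below_self {R : ℕ} : ∀ {t : LT} {lo : ℕ}, LT.Wf R lo t → LT.Below R t t
  | .leaf, _, _ => by simp [LT.Below]
  | .node l cs, _, h => by
    rw [LT.Wf] at h
    rw [LT.Below]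
    exact ⟨le_rfl, h.2.1.le, LT.belows_self h.2.1.le h.2.2.2⟩
theorem LT.belows_self {R : ℕ} : ∀ {cs : LF} {l : ℕ}, l ≤ R → LT.Wfs R l cs →
    LT.Belows R l cs cs
  | .nil, _, _, _ => by simp [LT.Belows]
  | .cons c cs, l, hl, h => by
    rw [LT.Wfs] at h
    rw [LT.Belows]
    exact ⟨le_top_of_wf hl h.1, LT.below_self h.1, LT.belows_self hl h.2⟩
end

omit [Nonempty Ω] in
mutual
theorem osc_self : ∀ t : LT, osc R m w rd t t = 0
  | .leaf => by simp [osc]
  | .node l cs => by rw [osc]; exact oscs_self l cs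
theorem oscs_self (l : ℕ) : ∀ cs : LF, oscs R m w rd l l cs cs = 0
  | .nil => by simp [oscs]
  | .cons c cs => by rw [oscs, osc_self c, oscs_self l cs, sub_self, Real.sqrt_zero]; ring
end

omit [Nonempty Ω] in
lemma oscs_pred (j : ℕ) : ∀ cs : LF, oscs R m w rd (j - 1) j cs cs = incs R m w rd j cs
  | .nil => by simp [oscs, incs]
  | .cons c cs => by rw [oscs, incs, osc_self c, oscs_pred j cs, add_zero]

variable {j kmax : ℕ} {cs : LF} {c E : ℝ}

/-- the increment of the value of a node one level above it -/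
theorem Xv_increment (hw : ∀ p, 0 < w p) (hwf : LT.Wfs R j cs) (hjR : j ≤ R) :
    up R m w j [] (fun p => Xv R m w rd (.node j cs) p ^ 2) -
      up R m w (j - 1) [] (fun q => Xv R m w rd (.node j cs) q ^ 2) ≤
        4 * incs R m w rd j cs := by
  set X : List Ω → ℝ := fun p => Xv R m w rd (.node j cs) p with hX
  set g : List Ω → ℝ := fun q => avg (nvs R m w rd cs q) with hg
  have hlen : ∀ p : List Ω, p.length = j → (p.take (j - 1)).length = j - 1 := fun p hp => by
    rw [List.length_take, hp]; omega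
  -- the closeness to a function of the level above
  have hD : up R m w j [] (fun p => |X p - g (p.take (j - 1))|) ≤ incs R m w rd j cs := by
    rw [← oscs_pred]
    refine le_trans (up_mono_on hw (Nat.zero_le j) fun p hp _ => ?_)
      (kids_osc hw (j - 1) j (Nat.sub_le j 1) hjR cs cs (LT.belows_self hjR hwf))
    have e : X p - g (p.take (j - 1)) =
        avg (nvs R m w rd cs p - nvs R m w rd cs (p.take (j - 1))) := by
      simp only [hX, hg, Xv, avg, Pi.sub_apply, Finset.sum_sub_distrib, sub_div,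
        nv_node_self hp]
    rw [e]
    exact avg_abs_le_nrm _
  rw [← up_tower (Nat.zero_le (j - 1)) (Nat.sub_le j 1) hjR, ← up_sub]
  have hstep : ∀ q : List Ω, q.length = j - 1 →
      up R m w j q (fun p => X p ^ 2) - X q ^ 2 ≤ 4 * up R m w j q (fun p => |X p - g q|) := by
    intro q hq
    have hm : up R m w j q X = X q := Xv_mart (m := m) hjR le_rfl (hq ▸ Nat.sub_le _ _)
    have hd : |X q - g q| ≤ up R m w j q (fun p => |X p - g q|) := by
      have e : X q - g q = up R m w j q (fun p => X p - g q) := by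
        rw [up_sub, up_const hw, hm]
      rw [e]
      exact ext_abs_le (Z_pos hw _) _ _ _
    have e : up R m w j q (fun p => X p ^ 2) - X q ^ 2 = up R m w j q (fun p => (X p - X q) ^ 2) := by
      simp only [sub_sq, up_add, up_sub, up_const hw, mul_assoc, up_const_mul]
      rw [show (fun p => X p * X q) = fun p => X q * X p from funext fun p => mul_comm _ _,
        up_const_mul, hm]
      ring
    have h2 : up R m w j q (fun p => (X p - X q) ^ 2) ≤
        up R m w j q (fun p => 2 * (|X p - g q| + |X q - g q|)) := by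
      refine up_mono hw fun p => ?_
      have a := abs_Xv_le (R := R) (m := m) (rd := rd) hw (.node j cs) p
      have b := abs_Xv_le (R := R) (m := m) (rd := rd) hw (.node j cs) q
      have h : |X p - X q| ≤ 2 := (abs_sub _ _).trans (by linarith)
      have h' : |X p - X q| ≤ |X p - g q| + |X q - g q| := by
        rw [abs_sub_comm (X q)]; exact abs_sub_le _ _ _
      rw [← sq_abs, sq]
      exact mul_le_mul h h' (abs_nonneg _) zero_le_two
    rw [up_const_mul, up_add, up_const hw] at h2
    linarith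
  calc up R m w (j - 1) [] (fun q => up R m w j q (fun p => X p ^ 2) - X q ^ 2)
      ≤ up R m w (j - 1) [] (fun q => 4 * up R m w j q fun p => |X p - g q|) :=
        up_mono_on hw (Nat.zero_le _) fun q hq _ => hstep q hq
    _ = 4 * up R m w j [] (fun p => |X p - g (p.take (j - 1))|) := by
        rw [up_const_mul]
        conv_rhs => rw [← up_tower (Nat.zero_le (j - 1)) (Nat.sub_le j 1) hjR]
        refine congrArg (4 * ·) (up_congr (Nat.zero_le _) fun q hq _ => ?_)
        refine up_congr (hq ▸ Nat.sub_le _ _) fun p _ hp => ?_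
        rw [← hq, hp]
    _ ≤ 4 * incs R m w rd j cs := by linarith

/-- **variance of a forest**: the overlap of the leaves is close to its mean -/
theorem sync_var [NeZero N] (hw : ∀ p, 0 < w p) (hI : Ident R (lin R) w rd kmax E)
    (hwf : LT.Wfs R j cs) (hne : cs ≠ .nil) (hj : 1 ≤ j) (hjR : j < R)
    (hc : 0 < c) (hc1 : c ≤ 1) (hcR : c * R ≤ j) (hk : LT.sizes cs ≤ kmax)
    {T : List (ℕ × ℕ)} (hT : Valid R T) (pos : ℕ → ℕ)
    (hpos : ∀ i, i < LT.sizes cs → pos i < T.length)
    (hsp : ∀ a b, a < LT.sizes cs → b < LT.sizes cs →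
      sp R T (pos a) (pos b) = LT.lvs R j cs a b) :
    ET R (lin R) w T (fun ps =>
        (avg (lprod rd pos (LT.sizes cs) ps) - Xv R (lin R) w rd (.node j cs) []) ^ 2) ≤
      4 * purs R (lin R) w rd j cs + 8 * incs R (lin R) w rd j cs +
        2 * syncC R c (LT.sizes cs) * E := by
  set μ := Xv R (lin R) w rd (.node j cs) []
  set n := LT.sizes cs
  set Y : List (List Ω) → ℝ := fun ps => avg (nvs R (lin R) w rd cs ((ps.getD (pos 0) []).take j))
  have hn := LT.sizes_pos_of_wfs cs hwf hne
  have hp := purity_forest (m := lin R) (rd := rd) hw j cs hjR.le hwf hT pos hpos hsp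
    (s := fun e : Empty => e.elim) (fun e => e.elim) (fun _ e => e.elim) (fun _ _ => 1)
    (fun _ _ => by simp)
  simp only [ip, mul_one] at hp
  have h1 : ET R (lin R) w T (fun ps => (avg (lprod rd pos n ps) - μ) ^ 2) ≤
      4 * ET R (lin R) w T (fun ps => |avg (lprod rd pos n ps) - Y ps|) +
        2 * ET R (lin R) w T (fun ps => (Y ps - μ) ^ 2) := by
    rw [← ET_const_mul, ← ET_const_mul, ← ET_add]
    refine ET_mono hw fun ps => ?_
    have a := abs_avg_le_one (f := lprod rd pos n ps) (abs_lprod_le pos n ps)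
    have b : |Y ps| ≤ 1 := abs_avg_le_one (abs_nvs_le hw _ _)
    have h : |avg (lprod rd pos n ps) - Y ps| ≤ 2 := (abs_sub _ _).trans (by linarith)
    have h' : (avg (lprod rd pos n ps) - Y ps) ^ 2 ≤ 2 * |avg (lprod rd pos n ps) - Y ps| := by
      rw [← sq_abs, sq]; exact mul_le_mul_of_nonneg_right h (abs_nonneg _)
    nlinarith [sq_nonneg (avg (lprod rd pos n ps) - Y ps - (Y ps - μ))]
  have h2 : ET R (lin R) w T (fun ps => (Y ps - μ) ^ 2) =
      up R (lin R) w j [] (fun q => Xv R (lin R) w rd (.node j cs) q ^ 2) - μ ^ 2 := by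
    rw [ET_marginal hw hT (hpos 0 hn) fun p =>
        (avg (nvs R (lin R) w rd cs (p.take j)) - μ) ^ 2,
      up_take hw (Nat.zero_le j) hjR.le le_rfl
        (fun p => (avg (nvs R (lin R) w rd cs p) - μ) ^ 2)]
    have hmart : up R (lin R) w j [] (fun q => Xv R (lin R) w rd (.node j cs) q) = μ :=
      Xv_mart (m := lin R) hjR.le le_rfl (Nat.zero_le _)
    rw [up_congr (Nat.zero_le j) (G := fun q => (Xv R (lin R) w rd (.node j cs) q - μ) ^ 2)
      (fun q hq _ => by rw [Xv, funext (nv_node_self hq)])]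
    simp only [sub_sq, up_add, up_sub, up_const hw, mul_assoc, up_const_mul]
    rw [show (fun q => Xv R (lin R) w rd (.node j cs) q * μ) =
        fun q => μ * Xv R (lin R) w rd (.node j cs) q from funext fun q => mul_comm _ _,
      up_const_mul, hmart]
    ring
  have h3 := Xv_increment (m := lin R) (rd := rd) hw hwf hjR.le
  have h4 := sync_exact hw hI hwf hne hj hjR hc hc1 hcR hk
  rw [ET_path hw (show j - 1 ≤ R by omega) fun q => Xv R (lin R) w rd (.node j cs) q ^ 2] at h4
  have := (abs_le.1 h4).2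
  linarith

end Vale.Agent.P168.MP
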