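import Vale.Agent.P168.MP.Realize
import Vale.Agent.P168.MP.Monomial
import Vale.Agent.P168.MP.Step

/-! From the attachment lists of tree moments to layered trees. -/

namespace Vale.Agent.P168.MP

open Finset

variable {Ω : Type} [Fintype Ω] [Nonempty Ω] {N : ℕ}

/-- variance of the site average of the product of the spins of all leaves of `t` -/
noncomputable def varT (R : ℕ) (m : ℕ → ℝ) (w : List Ω → ℝ) (rd : List Ω → Fin N → Bool)
    (t : LT) : ℝ :=
  varM R m w rd (t.attach R) (univ : Finset (Fin t.size))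

/-- **Transfer.** A set of leaves of a tree moment is a layered tree: the variances agree at all
admissible levels of the layers. -/
theorem exists_lay_tree {k : ℕ} (tr : Tree) {S : Finset (Fin (Tree.size k tr))}
    (hS : S.Nonempty) :
    ∃ t : LT, LT.Lay (k + 1) 0 t ∧ t.size = S.card ∧
      ∀ (Ω : Type) [Fintype Ω] [Nonempty Ω] (N R : ℕ) (c : ℝ) (W : Win (k + 1)),
        W.Ok c R → ∀ J ∈ W.set, ∀ J₀ : ℕ → ℕ, J₀ 0 = 0 → (∀ q, q < k + 1 → J₀ (q + 1) = lvl J q) →
        ∀ (m : ℕ → ℝ) (w : List Ω → ℝ), (∀ p, 0 < w p) → ∀ rd : List Ω → Fin N → Bool,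
          varM R m w rd (lvT J₀ k tr) S = varT R m w rd (t.atJ J) := by
  classical
  set T₀ := layT k tr
  let s : Fin S.card → Fin (Tree.size k tr) := S.orderEmbOfFin rfl
  have hsinj : Function.Injective s := (S.orderEmbOfFin rfl).injective
  have hlay : ∀ a b, a ≠ b → 1 ≤ lay k tr (s a) (s b) ∧ lay k tr (s a) (s b) ≤ k + 1 :=
    fun a b h => (sp_lvT (J := id) (R := k + 1) (fun q _ => Nat.le_succ q) le_rfl tr (s a).2 (s b).2
      (fun e => h (hsinj (Fin.ext e)))).2
  obtain ⟨t, hLay, hsize, e, he⟩ := exists_tree (L := k + 1) hS.card_pos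
    (fun a b => lay k tr (s a) (s b) - 1) (fun a b => by simp only [lay, sp_comm])
    (fun a b h => by have := hlay a b h; omega)
    (fun a b d hab hbd had => by
      have h1 := hlay a b hab; have h2 := hlay b d hbd; have h3 := hlay a d had
      have h4 : min (lay k tr (s a) (s b)) (lay k tr (s b) (s d)) ≤ lay k tr (s a) (s d) :=
        sp_ultra _ _ _ _ _
      omega)
  refine ⟨t, hLay, hsize, fun Ω _ _ N R c W hW J hJ J₀ hJ₀ hJ₁ m w hw rd => ?_⟩
  have hsz : (t.atJ J).size = t.size := LT.size_atJ J t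
  have hR0 : 0 < R := by have := hW.lvl_range hJ (q := 0) (Nat.succ_pos k); omega
  obtain ⟨hvT, hlT, hspT⟩ := LT.attach_spec (t.atJ J)
    (hLay.wf_atJ hW hJ (lo' := 0) fun q _ hq => by have := hW.lvl_range hJ hq; omega) hR0
  have hmono : ∀ q ≤ k, J₀ q ≤ J₀ (q + 1) := by
    intro q hq
    rcases Nat.eq_zero_or_pos q with rfl | hpos
    · rw [hJ₀]; exact Nat.zero_le _
    · have h1 := hJ₁ (q - 1) (by omega)
      rw [Nat.sub_add_cancel hpos] at h1
      rw [h1, hJ₁ q (by omega)]
      have := hW.lvl_lt hJ (show q - 1 < q by omega) (show q < k + 1 by omega)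
      omega
  have hR : J₀ (k + 1) ≤ R := by
    rw [hJ₁ k (by omega)]; have := hW.lvl_range hJ (show k < k + 1 by omega); omega
  have hvalid := valid_lvT hJ₀ hmono hR tr
  have hsp : ∀ a b, sp R (lvT J₀ k tr) (s a) (s b) = sp R ((t.atJ J).attach R) (e a) (e b) := by
    intro a b
    have ha : (e a : ℕ) < t.size := by have := (e a).2; omega
    have hb : (e b : ℕ) < t.size := by have := (e b).2; omega
    rw [hspT _ _ (by omega) (by omega)]
    rcases eq_or_ne a b with rfl | hab
    · rw [sp_self, ← hspT _ _ (by omega) (by omega), sp_self]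
    · rw [(sp_lvT hmono hR tr (s a).2 (s b).2 (fun h => hab (hsinj (Fin.ext h)))).1,
        LT.lv_atJ J R ha hb (fun h => hab (e.injective (Fin.ext h)))]
      have hl := hlay a b hab
      rw [show t.lv (k + 1) (e a) (e b) = lay k tr (s a) (s b) - 1 from he a b hab,
        ← hJ₁ _ (by omega), Nat.sub_add_cancel hl.1]
  have key : ∀ G : (Fin S.card → List Ω) → ℝ,
      ET R m w (lvT J₀ k tr) (fun ps => G fun a => ps.getD (s a) []) =
        ET R m w ((t.atJ J).attach R) (fun ps => G fun a => ps.getD (e a) []) :=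
    fun G => ET_restrict (fun k pre => trans_sum hw k pre) hvalid hvT _ _
      (fun a => by rw [lvT_length]; exact (s a).2)
      (fun a => by rw [hlT, hsz, hsize]; exact (e a).2) hsp G
  let F : (Fin S.card → List Ω) → ℝ := fun f => avg fun v => ∏ a, sg (rd (f a) v)
  have e1 : ∀ ps, Mset rd S ps = F fun a => ps.getD (s a) [] := fun ps => by
    unfold Mset
    refine congrArg avg (funext fun v => ?_)
    have := Finset.prod_map (univ : Finset (Fin S.card)) (S.orderEmbOfFin rfl).toEmbedding
      fun i => sg (rd (ps.getD i []) v)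
    rw [S.map_orderEmbOfFin_univ rfl] at this
    exact this
  have e2 : ∀ ps, Mset rd (univ : Finset (Fin (t.atJ J).size)) ps = F fun a => ps.getD (e a) [] := by
    intro ps
    unfold Mset
    refine congrArg avg (funext fun v => ?_)
    exact (Fintype.prod_equiv (e.trans (finCongr (hsize.symm.trans hsz.symm)))
      (fun a => sg (rd (ps.getD (e a) []) v)) (fun i => sg (rd (ps.getD i []) v))
      fun a => by simp).symm
  have hm := key F
  simp only [← e1, ← e2] at hm
  have hv := key fun f => (F f - ET R m w (lvT J₀ k tr) (Mset rd S)) ^ 2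
  simp only [← e1, ← e2] at hv
  show ET R m w (lvT J₀ k tr) (fun ps => (Mset rd S ps - ET R m w (lvT J₀ k tr) (Mset rd S)) ^ 2) = _
  rw [hv, hm]
  rfl

end Vale.Agent.P168.MP
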