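import Vale.Agent.P168.Defs

/-! The trial functional of Mézard and Parisi at depth `r`. -/

namespace Vale.Agent.P168.MP

open MeasureTheory Real

/-- The pressure `F_N` for clauses of law `μ`: `μ` is any law of `((a,b), (f_1,…,f_K))`, so that
`a` may depend on `(b, f)`. -/
noncomputable def pressureM {K : ℕ} (μ : Measure (Clause K)) (ρ : Measure ℝ) (lam : ℝ) (N : ℕ) : ℝ :=
  (1 / (N : ℝ)) * ∑' M : ℕ, pois (lam * N) M *
    ∫ h : Fin N → ℝ, ∫ w : Fin M → Clause K, av (fun i => logZ h w i)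
      ∂Measure.pi (fun _ => μ) ∂Measure.pi (fun _ => ρ)

/-- `inner r m X Y`: the variable `Y₀` for given outer randomness: `X i` is message `i` as a function of
its remaining `r` uniform variables, `Y` is the variable as a function of the messages, and
`Y_{p-1} = (E_p Y_p^{m_p})^{1/m_p}`, the average being over the level-`p` variables of all messages. -/
noncomputable def inner {ι : Type*} [Fintype ι] :
    (r : ℕ) → (Fin r → ℝ) → (ι → (Fin r → ℝ) → ℝ) → ((ι → ℝ) → ℝ) → ℝ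
  | 0, _, X, Y => Y fun i => X i Fin.elim0
  | r + 1, m, X, Y =>
      (∫ ω : ι → ℝ, inner r (Fin.tail m) (fun i v => X i (Fin.cons (ω i) v)) Y ^ m 0
        ∂Measure.pi fun _ => unif01) ^ (1 / m 0)

/-- `𝔼 log Y₀` over the outermost variables `ω₀` of the messages, for given other randomness. -/
noncomputable def levels {n K : ℕ} (r : ℕ) (m : Fin r → ℝ) (x : (Fin (r + 1) → ℝ) → ℝ)
    (Y : (Fin n → Fin K → ℝ) → ℝ) : ℝ :=
  ∫ ω₀ : Fin n × Fin K → ℝ,
    log (inner r m (fun i v => x (Fin.cons (ω₀ i) v)) fun xs => Y fun k j => xs (k, j))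
    ∂Measure.pi fun _ => unif01

/-- `𝒯U` at depth `r`. -/
noncomputable def TU {K : ℕ} (μ : Measure (Clause K)) (ρ : Measure ℝ) (lam : ℝ) (r : ℕ) (m : Fin r → ℝ)
    (x : (Fin (r + 1) → ℝ) → ℝ) : ℝ :=
  ∑' n : ℕ, pois (K * lam) n *
    ∫ h₀, ∫ w : Fin n → Clause K, av (fun ℓ : Fin n → Fin K => levels r m x (cavU h₀ w ℓ))
      ∂Measure.pi (fun _ => μ) ∂ρ

/-- `𝒯V` at depth `r`. -/
noncomputable def TV {K : ℕ} (μ : Measure (Clause K)) (lam : ℝ) (r : ℕ) (m : Fin r → ℝ)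
    (x : (Fin (r + 1) → ℝ) → ℝ) : ℝ :=
  ∑' n : ℕ, pois (((K : ℝ) - 1) * lam) n *
    ∫ w : Fin n → Clause K, levels r m x (cavV w) ∂Measure.pi (fun _ => μ)

/-- The values `𝒯U - 𝒯V` of all trial parameters of every depth `r ≥ 0`. -/
def mpValues {K : ℕ} (μ : Measure (Clause K)) (ρ : Measure ℝ) (lam : ℝ) : Set ℝ :=
  {v | ∃ (r : ℕ) (m : Fin r → ℝ) (x : (Fin (r + 1) → ℝ) → ℝ),
    StrictMono m ∧ (∀ i, m i ∈ Set.Ioo (0 : ℝ) 1) ∧ Measurable x ∧ (∀ ω, |x ω| ≤ 1) ∧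
    v = TU μ ρ lam r m x - TV μ lam r m x}

end Vale.Agent.P168.MP
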