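import Vale.Agent.P168.MP.Purity
import Vale.Agent.P168.MP.TwinValue
import Vale.Agent.P168.MP.Lay
import Vale.Agent.P168.MP.Step
import Vale.Agent.P168.MP.AttBasic

/-! The twin inequality: the identities bound the purity of a tree by the purities of its subtrees
(section C (I) of ROUTE.md). -/

namespace Vale.Agent.P168.MP

open Finset

variable {Ω : Type*} [Fintype Ω] {N R : ℕ} {m : ℕ → ℝ} {w : List Ω → ℝ}
  {rd : List Ω → Fin N → Bool}

/-! ### the identity term of a shape -/

lemma shape_prod {k : ℕ} {lv : Fin (k + 1) → Fin (k + 1) → ℕ} (hc : ∀ a b, lv a b = lv b a)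
    (R : ℕ) (T : List (ℕ × ℕ)) (pos : Fin (k + 1) → ℕ) :
    (∏ q : Pair k, if sp R T (pos q.1.1) (pos q.1.2) = lv q.1.1 q.1.2 then (1 : ℝ) else 0) =
      if Shp R lv T pos then 1 else 0 := by
  by_cases h : Shp R lv T pos
  · rw [if_pos h]
    exact prod_eq_one fun q _ => if_pos (h _ _ q.2.ne)
  · rw [if_neg h]
    simp only [Shp, not_forall] at h
    obtain ⟨a, b, hab, hne⟩ := h
    rcases lt_or_gt_of_ne hab with h' | h'
    · exact prod_eq_zero (mem_univ (⟨(a, b), h'⟩ : Pair k)) (if_neg hne)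
    · exact prod_eq_zero (mem_univ (⟨(b, a), h'⟩ : Pair k))
        (if_neg fun e => hne (by rw [sp_comm, e, hc]))

/-- the term of one admissible sequence -/
noncomputable def seqTerm (R : ℕ) (m : ℕ → ℝ) (w : List Ω → ℝ) (rd : List Ω → Fin N → Bool)
    (n : ℕ) (F : List (Fin N → Bool) → ℝ) {k : ℕ} (spin : Fin (k + 1) → Bool)
    (d : List (ℕ × ℕ)) (pos : Fin (k + 1) → ℕ) : ℝ :=
  ET R m w d fun ps => F ((ps.take n).map rd) *
    avg fun v : Fin N => ∏ a, if spin a then sg (rd (ps.getD (pos a) []) v) else 1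

lemma Dk_twin_shape (b : Batch) (hc : ∀ x y, b.lev x y = b.lev y x) {T : List (ℕ × ℕ)} (hT : Valid R T)
    (hne : T ≠ []) (F : List (Fin N → Bool) → ℝ) :
    Dk b R m w rd T F = ((attSeq R m b.k T).map fun d => d.2 *
      ∑ e, if Shp R b.lev d.1 (posOf T.length e)
        then seqTerm R m w rd T.length F b.spin d.1 (posOf T.length e) else 0).sum := by
  unfold Dk
  refine congrArg List.sum (List.map_congr_left fun d hd => ?_)
  congr 1
  refine sum_congr rfl fun e _ => ?_
  obtain ⟨hv, -⟩ := attSeq_mem b.k hT d hd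
  have hlen := fun a => posOf_lt hne hd e a
  simp only [kappa, shape_prod hc]
  by_cases h : Shp R b.lev d.1 (posOf T.length e)
  · simp only [if_pos h, mul_one, seqTerm]
    refine ET_congr hv fun ps hs => ?_
    congr 1
    refine congrArg _ (funext fun v => prod_congr rfl fun a _ => ?_)
    have e' : (ps.map rd).getD (posOf T.length e a) default =
        rd (ps.getD (posOf T.length e a) []) := by
      have hl : posOf T.length e a < ps.length := hs.1 ▸ hlen a
      rw [List.getD_eq_getElem _ _ (by simpa using hl), List.getD_eq_getElem _ _ hl,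
        List.getElem_map]
    rw [e']
  · simp only [if_neg h, mul_zero]
    refine (ET_congr hv (G := fun _ => (0 : ℝ) * 0) fun ps _ => by simp).trans ?_
    rw [ET_const_mul, zero_mul]

/-! ### two copies of a tree -/

variable [Nonempty Ω]

/-- two copies of a tree separated below its top: their spins give the overlap of the top values -/
lemma twin_purity (hw : ∀ p, 0 < w p) {t : LT} {lo : ℕ} (hwf : LT.Wf R lo t) {T : List (ℕ × ℕ)}
    (hT : Valid R T) {posA posB : ℕ → ℕ} (hA : ∀ i, i < t.size → posA i < T.length)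
    (hB : ∀ i, i < t.size → posB i < T.length)
    (hAA : ∀ i j, i < t.size → j < t.size → sp R T (posA i) (posA j) = t.lv R i j)
    (hBB : ∀ i j, i < t.size → j < t.size → sp R T (posB i) (posB j) = t.lv R i j)
    (hAB : ∀ i j, i < t.size → j < t.size → sp R T (posA i) (posB j) ≤ t.top R) :
    ET R m w T (fun ps => |avg (fun v => lprod rd posA t.size ps v * lprod rd posB t.size ps v) -
      twinK R m w rd t (ps.getD (posA 0) []) (ps.getD (posB 0) [])|) ≤
      2 * pur R m w rd t := by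
  have h0 := LT.size_pos_of_wf (R := R) t hwf
  have I₁ := purity_tree (m := m) (rd := rd) hw t hwf hT posA hA hAA (fun j : Fin t.size => posB j)
    (fun j => hB j j.2) (fun i j hi => hAB i j hi j.2)
    (fun P v => ∏ j, sg (rd (P j) v)) fun P v => by
      rw [abs_prod]; exact prod_le_one (fun _ _ => abs_nonneg _) fun j _ => (abs_sg _).le
  have I₂ := purity_tree (m := m) (rd := rd) hw t hwf hT posB hB hBB (fun _ : Unit => posA 0)
    (fun _ => hA 0 h0) (fun i _ hi => (sp_comm R T _ _).trans_le (hAB 0 i h0 hi))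
    (fun P => nv R m w rd t ((P ()).take (t.top R))) fun P v => abs_nv_le hw t _ v
  rw [two_mul]
  refine le_trans ?_ (add_le_add I₁ I₂)
  rw [← ET_add]
  refine ET_mono hw fun ps => ?_
  have e₁ : (fun v => ∏ j : Fin t.size, sg (rd (ps.getD (posB j) []) v)) =
      lprod rd posB t.size ps := funext fun v =>
    Fin.prod_univ_eq_prod_range (fun j => sg (rd (ps.getD (posB j) []) v)) t.size
  rw [e₁]
  rw [ip_comm (lprod rd posB t.size ps) _, ip_comm (nv R m w rd t ((ps.getD (posB 0) []).take _)) _]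
  exact abs_sub_le _ (ip (nv R m w rd t ((ps.getD (posA 0) []).take (t.top R)))
    (lprod rd posB t.size ps)) _

/-- overlaps are stable under a level shift -/
lemma twinK_shift (hw : ∀ p, 0 < w p) {t : LT} {lo : ℕ} (hwf : LT.Wf R lo t) {T : List (ℕ × ℕ)}
    (hT : Valid R T) {p q : ℕ} (hp : p < T.length) (hq : q < T.length) :
    ET R m w T (fun ps => |twinK R m w rd t.shift (ps.getD p []) (ps.getD q []) -
      twinK R m w rd t (ps.getD p []) (ps.getD q [])|) ≤ 2 * osc R m w rd t t.shift := by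
  let D : List Ω → ℝ := fun r => nrm (nv R m w rd t.shift (r.take (t.shift.top R)) -
    nv R m w rd t (r.take (t.top R)))
  have hm : ∀ i, i < T.length → ET R m w T (fun ps => D (ps.getD i [])) ≤
      osc R m w rd t t.shift := fun i hi => by
    rw [ET_marginal hw hT hi D, ← ET_marginal hw (T := [(0, 0)]) ⟨rfl, rfl⟩ (p := 0) (by simp) D]
    exact ET_top_osc hw (LT.below_shift hwf)
  rw [two_mul]
  refine le_trans ?_ (add_le_add (hm p hp) (hm q hq))
  rw [← ET_add]
  refine ET_mono hw fun ps => ?_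
  simp only [twinK, D]
  set x := nv R m w rd t.shift ((ps.getD p []).take (t.shift.top R))
  set y := nv R m w rd t.shift ((ps.getD q []).take (t.shift.top R))
  set x' := nv R m w rd t ((ps.getD p []).take (t.top R))
  set y' := nv R m w rd t ((ps.getD q []).take (t.top R))
  have e : ip x y - ip x' y' = ip (x - x') y + ip x' (y - y') := by
    rw [ip_sub_left, ip_sub_right]; ring
  have hx : nrm x' ≤ 1 := nrm_le_of_abs zero_le_one fun v => abs_nv_le hw t _ v
  have hy : nrm y ≤ 1 := nrm_le_of_abs zero_le_one fun v => abs_nv_le hw t.shift _ v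
  rw [e]
  refine (abs_add_le _ _).trans (add_le_add ?_ ?_)
  · exact (abs_ip_le_nrm _ _).trans (mul_le_of_le_one_right (nrm_nonneg _) hy)
  · exact (abs_ip_le_nrm _ _).trans (mul_le_of_le_one_left (nrm_nonneg _) hx)

/-! ### the shapes -/

/-- the root with two copies of `t` -/
def LT.twin (η : ℕ) (t : LT) : LT := .node η (.cons t (.cons t .nil))

lemma LT.size_twin (η : ℕ) (t : LT) : (LT.twin η t).size = t.size + t.size := by
  simp [LT.twin, LT.size, LT.sizes]

lemma LT.lv_twin (R η : ℕ) (t : LT) :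
    (∀ i j, i < t.size → j < t.size → (LT.twin η t).lv R i j = t.lv R i j) ∧
    (∀ i j, i < t.size → j < t.size →
      (LT.twin η t).lv R (t.size + i) (t.size + j) = t.lv R i j) ∧
    (∀ i j, i < t.size → j < t.size → (LT.twin η t).lv R i (t.size + j) = η) := by
  refine ⟨fun i j hi hj => ?_, fun i j hi hj => ?_, fun i j hi hj => ?_⟩
  · simp only [LT.twin, LT.lv, LT.lvs]
    rw [if_pos hi, if_pos hj]
  · simp only [LT.twin, LT.lv, LT.lvs]
    rw [if_neg (by omega), if_neg (by omega), if_pos (by omega), if_pos (by omega),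
      Nat.add_sub_cancel_left, Nat.add_sub_cancel_left]
  · simp only [LT.twin, LT.lv, LT.lvs]
    rw [if_pos hi, if_neg (by omega)]

lemma LT.twin_wf {R η : ℕ} {t : LT} (hη : 1 ≤ η) (hηR : η < R) (h : LT.Wf R η t) :
    LT.Wf R 0 (LT.twin η t) := by
  simp [LT.twin, LT.Wf, LT.Wfs, LF.length, h, hηR]
  omega

lemma LT.top_le_shift (R : ℕ) (t : LT) : t.top R ≤ t.shift.top R := by
  cases t <;> simp [LT.shift, LT.map, LT.top]

/-! ### the bracket -/

lemma sum_Ico_diff (f : ℕ → ℝ) {a b : ℕ} (h : a ≤ b) :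
    ∑ l ∈ Ico a b, (f l - f (l + 1)) = f a - f b := by
  induction b, h using Nat.le_induction with
  | base => simp
  | succ b hab ih => rw [sum_Ico_succ_top hab, ih]; ring

lemma bracket_ge {η a : ℕ} (hηa : η < a) (haR : a ≤ R) {Φ : ℕ → ℝ} {P : ℝ} (hP : Φ a = P)
    (hle : ∀ l, η ≤ l → l ≤ a → Φ l ≤ P) (hlow : |Φ η| ≤ 1) :
    lin R (η + 1) * (P - Φ η) - 1 / R ≤ bracket (lin R) η a Φ := by
  have hR : (0 : ℝ) < R := by exact_mod_cast (show 0 < R by omega)
  have hd : ∀ l, l < R → lin R l - lin R (l + 1) = -(R : ℝ)⁻¹ := fun l hl => lin_sub hl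
  have h1 : (∑ l ∈ Ico (η + 1) a, (lin R l - lin R (l + 1))) * P ≤
      ∑ l ∈ Ico (η + 1) a, (lin R l - lin R (l + 1)) * Φ l := by
    rw [sum_mul]
    refine sum_le_sum fun l hl => ?_
    rw [mem_Ico] at hl
    rw [hd l (by omega)]
    exact mul_le_mul_of_nonpos_left (hle l (by omega) (by omega))
      (neg_nonpos.2 (inv_nonneg.2 hR.le))
  rw [sum_Ico_diff _ (by omega : η + 1 ≤ a)] at h1
  rw [bracket, hP]
  have h2 : lin R η = lin R (η + 1) - (R : ℝ)⁻¹ := by linarith [hd η (by omega)]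
  have h3 := (abs_le.1 hlow).2
  rw [h2, one_div]
  nlinarith [inv_nonneg.2 hR.le]

set_option linter.unusedSectionVars false in
mutual
/-- purities are nonnegative -/
lemma pur_nonneg : ∀ t : LT, 0 ≤ pur R m w rd t
  | .leaf => by rw [pur]
  | .node l cs => by rw [pur]; exact purs_nonneg l cs
lemma purs_nonneg : ∀ (l : ℕ) (cs : LF), 0 ≤ purs R m w rd l cs
  | l, .nil => by rw [purs]
  | l, .cons c cs => by
    rw [purs]
    exact add_nonneg (add_nonneg (Real.sqrt_nonneg _) (pur_nonneg c)) (purs_nonneg l cs)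
end

/-! ### the terms of the twin sequences -/

/-- the marked replicas give the overlap of the unshifted tree -/
lemma twin_mark (hw : ∀ p, 0 < w p) {t : LT} {η k : ℕ} (hηR : η < R) (hwf : LT.Wf R η t)
    (hwf' : LT.Wf R η t.shift) (hk : t.size + t.size = k + 1) {d : List (ℕ × ℕ)} (hv : Valid R d)
    (pos : Fin (k + 1) → ℕ) (hpos : ∀ x, pos x < d.length)
    (hs : ∀ x y : Fin (k + 1), sp R d (pos x) (pos y) = (LT.twin η t.shift).lv R x y)
    (x₀ b₀ : Fin (k + 1)) (hx₀ : (x₀ : ℕ) = 0) (hb₀ : (b₀ : ℕ) = t.size) :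
    ET R m w d (fun ps => |avg (fun v : Fin N => ∏ x, sg (rd (ps.getD (pos x) []) v)) -
      twinK R m w rd t (ps.getD (pos x₀) []) (ps.getD (pos b₀) [])|) ≤
      2 * pur R m w rd t.shift + 2 * osc R m w rd t t.shift := by
  have hn' : t.shift.size = t.size := LT.size_map _ t
  have h0 : 0 < t.size := LT.size_pos_of_wf (R := R) t hwf
  obtain ⟨sAA, sBB, sAB⟩ := LT.lv_twin R η t.shift
  rw [hn'] at sAA sBB sAB
  set P : ℕ → ℕ := fun i => if h : i < k + 1 then pos ⟨i, h⟩ else 0 with hP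
  have hPx : ∀ x : Fin (k + 1), P x = pos x := fun x => dif_pos x.2
  have hPl : ∀ i, i < k + 1 → P i < d.length := fun i hi => (hPx ⟨i, hi⟩) ▸ hpos _
  have hPsp : ∀ i j, i < k + 1 → j < k + 1 → sp R d (P i) (P j) = (LT.twin η t.shift).lv R i j :=
    fun i j hi hj => by rw [hPx ⟨i, hi⟩, hPx ⟨j, hj⟩]; exact hs _ _
  have I₁ := twin_purity (m := m) (rd := rd) hw hwf' hv (posA := P) (posB := fun i => P (t.size + i))
    (fun i hi => hPl i (by omega)) (fun i hi => hPl _ (by omega))
    (fun i j hi hj => by rw [hPsp i j (by omega) (by omega)]; exact sAA i j (by omega) (by omega))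
    (fun i j hi hj => by
      rw [hPsp _ _ (by omega) (by omega)]; exact sBB i j (by omega) (by omega))
    (fun i j hi hj => by
      rw [hPsp _ _ (by omega) (by omega), sAB i j (by omega) (by omega)]
      exact le_top_of_wf hηR.le hwf')
  have I₂ := twinK_shift (m := m) (rd := rd) hw hwf hv (hPl 0 (by omega)) (hPl t.size (by omega))
  refine le_trans ?_ (add_le_add I₁ I₂)
  rw [← ET_add]
  refine ET_mono hw fun ps => ?_
  have e0 : P 0 = pos x₀ := by rw [← hx₀]; exact hPx x₀
  have e1 : P t.size = pos b₀ := by rw [← hb₀]; exact hPx b₀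
  have e2 : (fun v : Fin N => ∏ x, sg (rd (ps.getD (pos x) []) v)) =
      fun v => lprod rd P t.size ps v * lprod rd (fun i => P (t.size + i)) t.size ps v := by
    funext v
    rw [← lprod_add, lprod, hk, ← Fin.prod_univ_eq_prod_range (fun i => sg (rd (ps.getD (P i) []) v))]
    exact prod_congr rfl fun x _ => by rw [hPx]
  rw [hn', Nat.add_zero t.size, e0, e1, e2]
  exact abs_sub_le _ _ _

/-- the value of a sequence above two twins -/
lemma twin_value (hw : ∀ p, 0 < w p) {t : LT} {η : ℕ} (hηR : η < R)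
    {d : List (ℕ × ℕ)} (hv : Valid R d) {u q : ℕ} (hu : u < d.length) (hq : q < d.length)
    (h0u : sp R d 0 u = η) (h0q : sp R d 0 q = η) :
    ET R m w d (fun ps => twinK R m w rd t (ps.getD 0 []) (ps.getD u []) *
      twinK R m w rd t (ps.getD 0 []) (ps.getD q [])) =
      twinPhi R m w rd t η (min (t.top R) (sp R d u q)) := by
  set s := sp R d u q with hsd
  have hsη : η ≤ s := by
    have := sp_ultra R d u 0 q
    rw [sp_comm R d u 0, h0u, h0q] at this; simpa [hsd] using this
  have hsR : s ≤ R := sp_le _ _ _ _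
  have hv3 : Valid R [(1, s), (0, η), (0, 0)] := ⟨by simp, hsR, by simp, hηR.le, rfl, rfl⟩
  have h0 : 0 < d.length := by omega
  have e1 : ET R m w d (fun ps => twinK R m w rd t (ps.getD 0 []) (ps.getD u []) *
      twinK R m w rd t (ps.getD 0 []) (ps.getD q [])) = twinPhi R m w rd t η s := by
    refine ET_restrict (ι := Fin 3) (fun k pre => trans_sum hw k pre) hv hv3 ![0, u, q] ![0, 1, 2]
      (fun i => ?_) (fun i => ?_) (fun i j => ?_)
      (fun P => twinK R m w rd t (P 0) (P 1) * twinK R m w rd t (P 0) (P 2))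
    · fin_cases i <;> simp <;> omega
    · fin_cases i <;> simp
    · fin_cases i <;> fin_cases j <;>
        simp [sp, h0q, h0u, ← hsd, sp_comm R d q 0, sp_comm R d u 0, sp_comm R d q u,
          sp_self, min_eq_left hηR.le, min_eq_left hsR, min_eq_right hsη]
  rw [e1]
  rcases le_total (t.top R) s with h | h
  · rw [min_eq_left h, twinPhi_high hw hηR.le h hsR, twinPhi_high hw hηR.le le_rfl (h.trans hsR)]
  · rw [min_eq_right h]

/-- the value of a sequence above one replica -/
lemma twin_pair (hw : ∀ p, 0 < w p) {t : LT} {η : ℕ} (hηR : η < R) {d : List (ℕ × ℕ)}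
    (hv : Valid R d) {q : ℕ} (hq : q < d.length) (h0q : sp R d 0 q = η) :
    ET R m w d (fun ps => twinK R m w rd t (ps.getD 0 []) (ps.getD q [])) =
      ET R m w [(0, η), (0, 0)] (fun ps => twinK R m w rd t (ps.getD 0 []) (ps.getD 1 [])) := by
  have hv2 : Valid R [(0, η), (0, 0)] := ⟨by simp, hηR.le, rfl, rfl⟩
  have h0 : 0 < d.length := by omega
  refine ET_restrict (ι := Fin 2) (fun k pre => trans_sum hw k pre) hv hv2 ![0, q] ![0, 1]
    (fun i => ?_) (fun i => ?_) (fun i j => ?_) (fun P => twinK R m w rd t (P 0) (P 1))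
  · fin_cases i <;> simp <;> omega
  · fin_cases i <;> simp
  · fin_cases i <;> fin_cases j <;>
      simp [sp, h0q, sp_comm R d q 0, sp_self, min_eq_left hηR.le]

/-- the average of a product of signs is bounded by one -/
lemma abs_avg_signs {κ : Type*} (s : Finset κ) (f : κ → Fin N → Bool) :
    |avg fun v : Fin N => ∏ x ∈ s, sg (f x v)| ≤ 1 := by
  have h : ∀ v : Fin N, |∏ x ∈ s, sg (f x v)| ≤ 1 := fun v => by
    rw [abs_prod]; exact prod_le_one (fun _ _ => abs_nonneg _) fun i _ => (abs_sg _).le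
  simpa [ip] using abs_ip_le_one (x := fun v => ∏ x ∈ s, sg (f x v))
    (y := fun _ => (1 : ℝ)) h (fun _ => by simp)

/-! ### the twin inequality -/

/-- a sequence above two twins -/
lemma seq_twin (hw : ∀ p, 0 < w p) {t : LT} {η k : ℕ} (hη : 1 ≤ η) (hηR : η < R)
    (hwf : LT.Wf R η t) (hwf' : LT.Wf R η t.shift) (hk : t.size + t.size = k + 1)
    {d : List (ℕ × ℕ)} (hv : Valid R d) (hd : t.size + t.size ≤ d.length)
    (hold : ∀ i j, i < t.size + t.size → j < t.size + t.size → sp R d i j = (LT.twin η t).lv R i j)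
    (pos : Fin (k + 1) → ℕ) (hpos : ∀ x, pos x < d.length) (hpos0 : pos 0 = 0)
    (hs : ∀ x y : Fin (k + 1), sp R d (pos x) (pos y) = (LT.twin η t.shift).lv R x y)
    (b₀ : Fin (k + 1)) (hb₀ : (b₀ : ℕ) = t.size) (n₀ : ℕ) (hn₀ : n₀ = t.size + t.size) :
    |seqTerm R m w rd n₀
        (fun σs => avg fun v : Fin N => ∏ i ∈ range (t.size + t.size), sg ((σs.getD i default) v))
        (fun _ => true) d pos -
      twinPhi R m w rd t η (min (t.top R) (sp R d t.size (pos b₀)))| ≤
      2 * pur R m w rd t + 2 * pur R m w rd t.shift + 2 * osc R m w rd t t.shift := by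
  subst hn₀
  have h0 : 0 < t.size := LT.size_pos_of_wf (R := R) t hwf
  have hat : η < t.top R := hwf.lt_top hηR
  obtain ⟨tAA, tBB, tAB⟩ := LT.lv_twin R η t
  have hn' : t.shift.size = t.size := LT.size_map _ t
  obtain ⟨sAA, sBB, sAB⟩ := LT.lv_twin R η t.shift
  rw [hn'] at sAA sBB sAB
  have hs0n : sp R d 0 t.size = η := by
    have := tAB 0 0 h0 h0
    rw [Nat.add_zero] at this
    rw [hold 0 t.size (by omega) (by omega), this]
  have hs0q : sp R d 0 (pos b₀) = η := by
    have h1 := hs 0 b₀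
    have h2 := sAB 0 0 h0 h0
    rw [Nat.add_zero] at h2
    rw [hpos0, hb₀] at h1
    exact h1.trans (by simpa using h2)
  rw [← twin_value (m := m) (rd := rd) (t := t) hw hηR hv (u := t.size) (by omega) (hpos b₀)
    hs0n hs0q]
  unfold seqTerm
  rw [← ET_sub]
  refine (ET_abs_le hw _ _).trans ?_
  have I₁ := twin_purity (m := m) (rd := rd) hw hwf hv (posA := fun i => i)
    (posB := fun i => t.size + i) (fun i hi => by omega) (fun i hi => by omega)
    (fun i j hi hj => (hold i j (by omega) (by omega)).trans (tAA i j hi hj))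
    (fun i j hi hj => (hold _ _ (by omega) (by omega)).trans (tBB i j hi hj))
    (fun i j hi hj => ((hold _ _ (by omega) (by omega)).trans (tAB i j hi hj)).le.trans hat.le)
  have I₂ := twin_mark (m := m) (rd := rd) hw hηR hwf hwf' hk hv pos hpos hs 0 b₀ rfl hb₀
  rw [hpos0] at I₂
  rw [Nat.add_zero] at I₁
  refine le_trans ?_ ((add_le_add I₁ I₂).trans_eq (add_assoc _ _ _).symm)
  rw [← ET_add]
  refine ET_mono_on hw hv fun ps hps => ?_
  have eF : (avg fun v : Fin N => ∏ i ∈ range (t.size + t.size),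
      sg ((((ps.take (t.size + t.size)).map rd).getD i default) v)) =
      avg (fun v => lprod rd (fun i => i) t.size ps v *
        lprod rd (fun i => t.size + i) t.size ps v) := by
    refine congrArg avg (funext fun v => ?_)
    rw [← lprod_add]
    refine prod_congr rfl fun i hi => ?_
    rw [mem_range] at hi
    have hl : i < ps.length := by rw [hps.1]; omega
    rw [List.getD_eq_getElem _ _ (by simp; omega), List.getElem_map, List.getElem_take,
      List.getD_eq_getElem _ _ hl]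
  simp only [if_true]
  rw [eF]
  set X := avg (fun v => lprod rd (fun i => i) t.size ps v * lprod rd (fun i => t.size + i) t.size ps v)
  set Y := avg (fun v : Fin N => ∏ x, sg (rd (ps.getD (pos x) []) v))
  set K₁ := twinK R m w rd t (ps.getD 0 []) (ps.getD t.size [])
  set K₂ := twinK R m w rd t (ps.getD 0 []) (ps.getD (pos b₀) [])
  have hK₁ : |K₁| ≤ 1 := abs_twinK_le hw t _ _
  have hY : |Y| ≤ 1 := abs_avg_signs _ _
  calc |X * Y - K₁ * K₂| = |(X - K₁) * Y + K₁ * (Y - K₂)| := by ring_nf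
    _ ≤ |(X - K₁) * Y| + |K₁ * (Y - K₂)| := abs_add_le _ _
    _ ≤ |X - K₁| + |Y - K₂| := by
      rw [abs_mul, abs_mul]
      exact add_le_add (mul_le_of_le_one_right (abs_nonneg _) hY)
        (mul_le_of_le_one_left (abs_nonneg _) hK₁)

/-- a sequence above one replica -/
lemma seq_single (hw : ∀ p, 0 < w p) {t : LT} {η k : ℕ} (hηR : η < R) (hwf : LT.Wf R η t)
    (hwf' : LT.Wf R η t.shift) (hk : t.size + t.size = k + 1) {d : List (ℕ × ℕ)} (hv : Valid R d)
    (n₀ : ℕ) (pos : Fin (k + 1) → ℕ) (hpos : ∀ x, pos x < d.length) (hpos0 : pos 0 = 0)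
    (hs : ∀ x y : Fin (k + 1), sp R d (pos x) (pos y) = (LT.twin η t.shift).lv R x y)
    (b₀ : Fin (k + 1)) (hb₀ : (b₀ : ℕ) = t.size) :
    |seqTerm R m w rd n₀ (fun _ => 1) (fun _ => true) d pos -
      ET R m w [(0, η), (0, 0)] (fun ps => twinK R m w rd t (ps.getD 0 []) (ps.getD 1 []))| ≤
      2 * pur R m w rd t.shift + 2 * osc R m w rd t t.shift := by
  have h0 : 0 < t.size := LT.size_pos_of_wf (R := R) t hwf
  have hn' : t.shift.size = t.size := LT.size_map _ t
  obtain ⟨-, -, sAB⟩ := LT.lv_twin R η t.shift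
  rw [hn'] at sAB
  have hs0q : sp R d 0 (pos b₀) = η := by
    have h1 := hs 0 b₀
    have h2 := sAB 0 0 h0 h0
    rw [Nat.add_zero] at h2
    rw [hpos0, hb₀] at h1
    exact h1.trans (by simpa using h2)
  rw [← twin_pair (m := m) (rd := rd) (t := t) hw hηR hv (hpos b₀) hs0q]
  unfold seqTerm
  rw [← ET_sub]
  refine (ET_abs_le hw _ _).trans ((le_of_eq (congrArg _ (funext fun ps => ?_))).trans
    (twin_mark (m := m) (rd := rd) hw hηR hwf hwf' hk hv pos hpos hs 0 b₀ rfl hb₀))
  simp [hpos0]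

omit [Nonempty Ω] in
/-- an observable close to one with a known total on the sequences of a shape -/
lemma shape_approx {k : ℕ} {lv : Fin (k + 1) → Fin (k + 1) → ℕ} (h : Levels R lv)
    {T : List (ℕ × ℕ)} (hT : Valid R T) (hne : T ≠ []) {L : Finset ℕ} (hR : 0 < R)
    (hL : ∀ l ∈ L, 1 ≤ l ∧ l < R) (hsplit : ∀ a b, a < T.length → b < T.length → sp R T a b ∉ L)
    (G G' : List (ℕ × ℕ) → Equiv.Perm (Fin k) → ℝ) {B V M : ℝ} (hB : 0 ≤ B)
    (hd : ∀ d ∈ attSeq R (lin R) k T, ∀ e, Shp R lv d.1 (posOf T.length e) →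
      |G d.1 e - G' d.1 e| ≤ B)
    (hV : ((attSeq R (lin R) k T).map fun d => d.2 *
      ∑ e, if Shp R lv d.1 (posOf T.length e) then G' d.1 e else 0).sum = V)
    (hM : k.factorial * ((3 + L.card) * (T.length + k : ℝ)) ^ k * ((R : ℝ)⁻¹) ^ pinned lv L ≤ M) :
    |((attSeq R (lin R) k T).map fun d => d.2 *
      ∑ e, if Shp R lv d.1 (posOf T.length e) then G d.1 e else 0).sum - V| ≤ B * M := by
  rw [← hV, ← list_sum_map_sub]
  refine le_trans (le_of_eq (congrArg _ (congrArg _ (List.map_congr_left fun d _ => ?_))))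
    ((shape_bound h hT hne hR hL hsplit (fun d e => G d e - G' d e) hB hd).trans
      (mul_le_mul_of_nonneg_left hM hB))
  rw [← mul_sub, ← sum_sub_distrib]
  congr 1
  exact sum_congr rfl fun e _ => by split_ifs <;> simp

omit [Nonempty Ω] in
lemma count_le {k n l c : ℕ} (hk : k ≤ 2 * n) (hl : l ≤ n + n)
    (hc : (c : ℝ) ≤ (2 * n : ℝ) ^ 2) {q : ℝ} (hq : 0 ≤ q) :
    k.factorial * ((3 + c) * (l + k : ℝ)) ^ k * q ≤
      k.factorial * ((3 + (2 * n : ℝ) ^ 2) * (2 * n + 2 * n)) ^ k * q := by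
  have h1 : (l : ℝ) + k ≤ 2 * n + 2 * n := by exact_mod_cast (show l + k ≤ 2 * n + 2 * n by omega)
  gcongr

/-- the constant of the twin inequality -/
noncomputable def twinA (n : ℕ) (δ : ℝ) : ℝ :=
  (8 * ((2 * n - 1).factorial * ((3 + (2 * n : ℝ) ^ 2) * (2 * n + 2 * n)) ^ (2 * n - 1)) + 3) /
    δ ^ (2 * n)

set_option maxHeartbeats 1000000 in
/-- **(I)** the twin inequality -/
theorem twin_bound [NeZero N] (hw : ∀ p, 0 < w p) {t : LT} {η kmax : ℕ} {E δ : ℝ}
    (hδ : 0 < δ) (hδ1 : δ ≤ 1) (hη : 1 ≤ η) (hηR : η < R) (hwf : LT.Wf R η t)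
    (hwf' : LT.Wf R η t.shift)
    (hsep : ∀ i j i' j', i < t.size → j < t.size → i' < t.size → j' < t.size → i ≠ j → i' ≠ j' →
      t.lv R i j + 1 ≠ t.lv R i' j')
    (hlow : ∀ i j, i < t.size → j < t.size → i ≠ j → δ * R ≤ t.lv R i j)
    (hηlow : δ * R ≤ η) (hk : 2 * t.size ≤ kmax) (hE : 0 ≤ E)
    (hid : Ident R (lin R) w rd kmax E) :
    dtwin R (lin R) w rd t η ≤ twinA t.size δ * (pur R (lin R) w rd t + pur R (lin R) w rd t.shift +
      osc R (lin R) w rd t t.shift + 1 / R + (R : ℝ) ^ ((2 * t.size) ^ 2) * E) := by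
  classical
  set n := t.size with hn
  have h0 : 0 < n := LT.size_pos_of_wf (R := R) t hwf
  have hn' : t.shift.size = n := LT.size_map _ t
  set k := 2 * n - 1 with hk'
  set a := t.top R with ha
  have hat : η < a := hwf.lt_top hηR
  have haR : a ≤ R := hwf.top_le
  have hR0 : (0 : ℝ) < R := by exact_mod_cast (show 0 < R by omega)
  have hm : lin R (R + 1) = 0 := by simp [lin]
  -- the old replicas
  obtain ⟨T, hT, hTl, hTsp⟩ : ∃ T : List (ℕ × ℕ), Valid R T ∧ T.length = n + n ∧
      ∀ i j, i < n + n → j < n + n → sp R T i j = (LT.twin η t).lv R i j := by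
    have h := LT.attach_spec (LT.twin η t) (LT.twin_wf hη hηR hwf) (show 0 < R by omega)
    rw [LT.size_twin] at h
    exact ⟨_, h⟩
  obtain ⟨tAA, tBB, tAB⟩ := LT.lv_twin R η t
  have hne : T ≠ [] := fun e => by rw [e] at hTl; simp at hTl; omega
  -- the shape
  set Sp := LT.twin η t.shift with hSp
  obtain ⟨sAA, sBB, sAB⟩ := LT.lv_twin R η t.shift
  rw [hn'] at sAA sBB sAB
  set lv : Fin (k + 1) → Fin (k + 1) → ℕ := fun x y => Sp.lv R x y with hlv
  have hlvs : Levels R lv := LT.levels Sp (LT.twin_wf hη hηR hwf') (by omega)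
    (by rw [hSp, LT.size_twin, hn']; omega)
  set Bf := univ.filter fun x : Fin (k + 1) => n ≤ x with hBf
  have tw : TwinLv lv Bf η a := by
    have := LT.twinLv (A := t.shift) (B := t.shift) (k := k) (LT.twin_wf hη hηR hwf')
      (by rw [hn']; omega) hη hat (LT.top_le_shift R t) (LT.top_le_shift R t)
    rw [hn'] at this
    exact this
  set b₀ : Fin (k + 1) := ⟨n, by omega⟩ with hb₀
  have hb₀m : b₀ ∈ Bf := by simp [hBf, hb₀]
  -- levels of the new nodes
  set Lset : Finset ℕ := ((univ ×ˢ univ).filter fun q : Fin (k + 1) × Fin (k + 1) =>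
    q.1 ≠ q.2 ∧ lv q.1 q.2 ≠ η).image fun q => lv q.1 q.2 with hLset
  have hlevels : ∀ x y : Fin (k + 1), x ≠ y → lv x y ≠ η →
      ∃ i j, i < n ∧ j < n ∧ i ≠ j ∧ lv x y = t.lv R i j + 1 := by
    intro x y hxy hne'
    have hx : (x : ℕ) < n + n := by omega
    have hy : (y : ℕ) < n + n := by omega
    have hne : (x : ℕ) ≠ y := fun e => hxy (Fin.ext e)
    have hmap : ∀ i j, i < n → j < n → i ≠ j → t.shift.lv R i j = t.lv R i j + 1 :=
      fun i j hi hj hij => LT.lv_map (· + 1) R R t hi hj hij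
    by_cases h1 : (x : ℕ) < n <;> by_cases h2 : (y : ℕ) < n
    · exact ⟨x, y, h1, h2, hne, (sAA _ _ h1 h2).trans (hmap _ _ h1 h2 hne)⟩
    · refine absurd ?_ hne'
      have := sAB x (y - n) h1 (by omega)
      rwa [show n + ((y : ℕ) - n) = y by omega] at this
    · refine absurd ?_ hne'
      have := sAB y (x - n) h2 (by omega)
      rw [show n + ((x : ℕ) - n) = x by omega] at this
      rw [hlvs.comm]; exact this
    · refine ⟨x - n, y - n, by omega, by omega, by omega, ?_⟩
      have := sBB (x - n) (y - n) (by omega) (by omega)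
      rw [show n + ((x : ℕ) - n) = x by omega, show n + ((y : ℕ) - n) = y by omega] at this
      exact this.trans (hmap _ _ (by omega) (by omega) (by omega))
  have hLmem : ∀ l ∈ Lset, (∃ i j, i < n ∧ j < n ∧ i ≠ j ∧ l = t.lv R i j + 1) ∧ 1 ≤ l ∧ l < R := by
    intro l hl
    simp only [hLset, mem_image, mem_filter, mem_product, mem_univ, true_and] at hl
    obtain ⟨⟨x, y⟩, ⟨hxy, hne'⟩, rfl⟩ := hl
    exact ⟨hlevels x y hxy hne', hlvs.pos x y hxy, hlvs.lt x y hxy⟩
  have hLδ : ∀ l ∈ Lset, δ * R ≤ l := fun l hl => by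
    obtain ⟨⟨i, j, hi, hj, hij, rfl⟩, -⟩ := hLmem l hl
    refine (hlow i j hi hj hij).trans ?_
    push_cast; linarith
  have hLcard : (Lset.card : ℝ) ≤ (2 * n : ℝ) ^ 2 := by
    have : Lset.card ≤ (k + 1) * (k + 1) :=
      card_image_le.trans ((card_filter_le _ _).trans (by simp))
    calc (Lset.card : ℝ) ≤ ((k + 1 : ℕ) * (k + 1 : ℕ) : ℕ) := by exact_mod_cast this
      _ = _ := by rw [show k + 1 = 2 * n by omega]; push_cast; ring
  have hpin : pinned lv Lset ≤ (2 * n) ^ 2 := by
    refine le_trans (card_image_le.trans (card_filter_le _ _)) ?_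
    simp only [card_product, card_univ, Fintype.card_fin]
    rw [show k + 1 = 2 * n by omega, sq]
  have hsplit : ∀ i j, i < T.length → j < T.length → sp R T i j ∉ Lset := by
    intro i j hi hj hL'
    obtain ⟨⟨p, q, hp, hq, hpq, e⟩, -, hlt⟩ := hLmem _ hL'
    rw [hTl] at hi hj
    rw [hTsp i j hi hj] at e hlt
    have hgt : η < t.lv R p q + 1 := by
      have := (LT.lv_bounds t hwf hηR p q hp hq).1; omega
    rcases eq_or_ne i j with rfl | hij
    · rw [(LT.lv_bounds _ (LT.twin_wf hη hηR hwf) (by omega) i i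
        (by rw [LT.size_twin]; omega) (by rw [LT.size_twin]; omega)).2.1 rfl] at hlt
      omega
    by_cases h1 : i < n <;> by_cases h2 : j < n
    · rw [tAA i j h1 h2] at e; exact hsep p q i j hp hq h1 h2 hpq hij e.symm
    · have := tAB i (j - n) h1 (by omega)
      rw [show n + (j - n) = j by omega] at this; omega
    · have := tAB j (i - n) h2 (by omega)
      rw [show n + (i - n) = i by omega, LT.lv_comm] at this; omega
    · have := tBB (i - n) (j - n) (by omega) (by omega)
      rw [show n + (i - n) = i by omega, show n + (j - n) = j by omega] at this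
      rw [this] at e
      exact hsep p q (i - n) (j - n) hp hq (by omega) (by omega) hpq (by omega) e.symm
  -- the batch and the function of the old replicas
  set b : Batch := ⟨k, lv, fun _ => true⟩ with hb
  set F : List (Fin N → Bool) → ℝ := fun σs =>
    avg fun v : Fin N => ∏ i ∈ range (n + n), sg ((σs.getD i default) v) with hF
  have habsF : ∀ σs, |F σs| ≤ 1 := fun σs => abs_avg_signs _ fun i => σs.getD i default
  have hlev : ∀ q : Pair b.k, 1 ≤ b.lev q.1.1 q.1.2 ∧ b.lev q.1.1 q.1.2 < R := fun q =>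
    ⟨hlvs.pos _ _ q.2.ne, hlvs.lt _ _ q.2.ne⟩
  have hI := hid b (show k ≤ kmax by omega) hlev T hT hne (by rw [hTl]; omega) F habsF
  rw [Dk_twin_shape b hlvs.comm hT hne, Dk_twin_shape b hlvs.comm (show Valid R [(0, 0)] from ⟨rfl, rfl⟩)
    (by simp)] at hI
  set pu := pur R (lin R) w rd t with hpu
  set pu' := pur R (lin R) w rd t.shift with hpu'
  set os := osc R (lin R) w rd t t.shift with hos
  have hpu0 : 0 ≤ pu := pur_nonneg _
  have hpu0' : 0 ≤ pu' := pur_nonneg _
  have hos0 : 0 ≤ os := osc_nonneg hw (LT.below_shift hwf)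
  -- the sequences
  set Φ : ℕ → ℝ := fun l => twinPhi R (lin R) w rd t η l with hΦ
  have hΦa : Φ a = twinP R (lin R) w rd t η := twinPhi_high hw hηR.le le_rfl haR
  set W₀ := ET R (lin R) w [(0, η), (0, 0)]
    (fun ps => twinK R (lin R) w rd t (ps.getD 0 []) (ps.getD 1 [])) with hW₀
  set err := 2 * pu + 2 * pu' + 2 * os with herr
  have herr0 : 0 ≤ err := by positivity
  have hfull : ∀ (T₀ : List (ℕ × ℕ)), ∀ d, ∀ e : Equiv.Perm (Fin k),
      Shp R lv d (posOf T₀.length e) →
      ∀ x y, sp R d (posOf T₀.length e x) (posOf T₀.length e y) = lv x y := fun T₀ d e hs x y => by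
    rcases eq_or_ne x y with rfl | hxy
    · rw [sp_self]; exact (hlvs.diag x).symm
    · exact hs x y hxy
  have hG : ∀ d ∈ attSeq R (lin R) k T, ∀ e, Shp R lv d.1 (posOf T.length e) →
      |seqTerm R (lin R) w rd T.length F b.spin d.1 (posOf T.length e) -
        Φ (min a (sp R d.1 n (posOf T.length e b₀)))| ≤ err := fun d hd e hs => by
    obtain ⟨hv, hdl⟩ := attSeq_mem k hT d hd
    obtain ⟨pre, hpre, -⟩ := attSeq_suffix k T d hd
    have h := seq_twin (m := lin R) (rd := rd) hw hη hηR hwf hwf' (k := k) (by omega) hv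
      (le_of_le_of_eq (le_add_right hTl.ge) hdl.symm) (fun i j hi hj => by
        rw [hpre, sp_append R pre T (lt_of_lt_of_eq hi hTl.symm) (lt_of_lt_of_eq hj hTl.symm)]
        exact hTsp i j hi hj)
      _ (fun x => posOf_lt hne hd e x) (posOf_zero _ e) (hfull T d.1 e hs) b₀ rfl T.length hTl
    exact h
  have hG₀ : ∀ d ∈ attSeq R (lin R) k [(0, 0)], ∀ e,
      Shp R lv d.1 (posOf ([(0, 0)] : List (ℕ × ℕ)).length e) →
      |seqTerm R (lin R) w rd ([(0, 0)] : List (ℕ × ℕ)).length (fun _ => 1) b.spin d.1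
        (posOf ([(0, 0)] : List (ℕ × ℕ)).length e) - W₀| ≤ err := fun d hd e hs =>
    (seq_single (m := lin R) (rd := rd) hw hηR hwf hwf' (k := k) (by omega)
      (attSeq_mem k (show Valid R [(0, 0)] from ⟨rfl, rfl⟩) d hd).1 _ _
      (fun x => posOf_lt (by simp) hd e x) (posOf_zero _ e)
      (hfull [(0, 0)] d.1 e hs) b₀ rfl).trans (by linarith)
  -- summation
  set Cc : ℝ := k.factorial * ((3 + (2 * n : ℝ) ^ 2) * (2 * n + 2 * n)) ^ k with hCc
  have hCc0 : 0 ≤ Cc := by positivity
  set qp := ((R : ℝ)⁻¹) ^ pinned lv Lset with hqp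
  have hqp0 : 0 ≤ qp := by positivity
  set Wr := Wrest (lin R) lv Bf with hWr
  set br := bracket (lin R) η a Φ with hbr
  have h0u : sp R T 0 n = η := by
    have := tAB 0 0 (by omega) (by omega)
    rw [Nat.add_zero] at this
    rw [hTsp 0 n (by omega) (by omega), this]
  have hA := shape_approx hlvs hT hne (by omega : 0 < R) (fun l hl => (hLmem l hl).2) hsplit
    (fun d e => seqTerm R (lin R) w rd T.length F b.spin d (posOf T.length e))
    (fun d e => Φ (min a (sp R d n (posOf T.length e b₀)))) (V := Wr * br) herr0 hG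
    (twin_sum hm hlvs tw hb₀m hT (u := n) (lt_of_lt_of_eq (show n < n + n by omega) hTl.symm) h0u
      (fun d e => Φ (min a (sp R d n (posOf T.length e b₀)))) Φ (fun _ _ _ _ => rfl))
    (count_le (n := n) (by omega) hTl.le hLcard hqp0)
  have hB := shape_approx hlvs (T := [(0, 0)]) ⟨rfl, rfl⟩ (by simp) (by omega : 0 < R)
    (fun l hl => (hLmem l hl).2) (fun i j hi hj hL' => by
      simp at hi hj; subst hi hj
      rw [sp_self] at hL'
      exact absurd (hLmem R hL').2.2 (lt_irrefl R))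
    (fun d e => seqTerm R (lin R) w rd ([(0, 0)] : List (ℕ × ℕ)).length (fun _ => 1) b.spin d
      (posOf ([(0, 0)] : List (ℕ × ℕ)).length e))
    (fun _ _ => W₀) (V := Wr * ((lin R η - lin R (η + 1)) * W₀)) herr0 hG₀
    (twin_const hm hlvs tw ⟨b₀, hb₀m⟩ (T := [(0, 0)]) ⟨rfl, rfl⟩ (by simp) (fun _ _ => W₀) W₀
      (fun _ _ _ _ => rfl))
    (count_le (n := n) (by omega) (by simp; omega) hLcard hqp0)
  set A₁ := ((attSeq R (lin R) k T).map fun d => d.2 *
    ∑ e, if Shp R lv d.1 (posOf T.length e)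
      then seqTerm R (lin R) w rd T.length F b.spin d.1 (posOf T.length e) else 0).sum
  set A₀ := ((attSeq R (lin R) k [(0, 0)]).map fun d => d.2 *
    ∑ e, if Shp R lv d.1 (posOf ([(0, 0)] : List (ℕ × ℕ)).length e)
      then seqTerm R (lin R) w rd ([(0, 0)] : List (ℕ × ℕ)).length (fun _ => 1) b.spin d.1
        (posOf ([(0, 0)] : List (ℕ × ℕ)).length e) else 0).sum
  set EF := ET R (lin R) w T fun ps => F (ps.map rd)
  have hEF : |EF| ≤ 1 := ET_bound hw fun ps => habsF _
  have hWr0 : qp * δ ^ k ≤ |Wr| := Wrest_lower hlvs tw ⟨b₀, hb₀m⟩ hδ.le hδ1 hLδ (by omega)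
    fun x y hxy hne' => mem_image.2 ⟨(x, y), mem_filter.2 ⟨mem_univ _, hxy, hne'⟩, rfl⟩
  have hWm : |(lin R η - lin R (η + 1)) * W₀| ≤ 1 / R := by
    rw [lin_sub hηR, abs_mul, abs_neg, abs_inv, Nat.abs_cast, one_div]
    exact mul_le_of_le_one_right (by positivity) (ET_bound hw fun ps => abs_twinK_le hw t _ _)
  have hmain : |Wr| * |br| ≤ E + |Wr| * (1 / R) + 2 * err * (Cc * qp) := by
    have h1 : |A₁ - EF * A₀| ≤ E := hI
    have h2 : |A₀| ≤ |Wr| * (1 / R) + err * (Cc * qp) := by
      have := abs_sub_abs_le_abs_sub A₀ (Wr * ((lin R η - lin R (η + 1)) * W₀))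
      have h3 : |Wr * ((lin R η - lin R (η + 1)) * W₀)| ≤ |Wr| * (1 / R) := by
        rw [abs_mul]; exact mul_le_mul_of_nonneg_left hWm (abs_nonneg _)
      linarith
    have h4 : |EF * A₀| ≤ |A₀| := by
      rw [abs_mul]; exact mul_le_of_le_one_left (abs_nonneg _) hEF
    have h5 := abs_sub_abs_le_abs_sub (Wr * br) (EF * A₀)
    have h6 : |Wr * br - EF * A₀| ≤ err * (Cc * qp) + E :=
      (abs_sub_le _ A₁ _).trans (add_le_add (abs_sub_comm A₁ _ ▸ hA) h1)
    rw [abs_mul Wr br] at h5
    linarith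
  -- conclusion
  have hbge := bracket_ge hat haR hΦa (fun l h1 h2 => twinPhi_le hw h1 (h2.trans haR))
    (abs_twinPhi_le hw t η η)
  have hdt := dtwin_le_twin (m := lin R) (rd := rd) hw haR hat.le
  have hmη : δ ≤ lin R (η + 1) := by
    rw [lin, if_pos (show η + 1 ≤ R by omega), le_div_iff₀ hR0]; push_cast; linarith
  have hq0 : 0 < qp * δ ^ k := by positivity
  have hbr' : |br| ≤ 1 / R + (2 * err * Cc + (R : ℝ) ^ ((2 * n) ^ 2) * E) / δ ^ k := by
    have hW : 0 < |Wr| := hq0.trans_le hWr0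
    have h1 : |br| ≤ 1 / R + (2 * err * (Cc * qp) + E) / |Wr| := by
      rw [← sub_le_iff_le_add', le_div_iff₀ hW, sub_mul]
      linarith
    refine h1.trans (add_le_add le_rfl ((div_le_div_of_nonneg_left (by positivity) hq0 hWr0).trans
      (le_of_eq_of_le (show (2 * err * (Cc * qp) + E) / (qp * δ ^ k) =
        (2 * err * Cc + qp⁻¹ * E) / δ ^ k by
          have h1 : qp ≠ 0 := left_ne_zero_of_mul hq0.ne'
          have h2 : δ ^ k ≠ 0 := right_ne_zero_of_mul hq0.ne'
          field_simp) ?_)))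
    gcongr
    rw [hqp, inv_pow, inv_inv]
    exact pow_le_pow_right₀ (by exact_mod_cast (show 1 ≤ R by omega)) hpin
  have hfin : δ * dtwin R (lin R) w rd t η ≤
      2 / R + (2 * err * Cc + (R : ℝ) ^ ((2 * n) ^ 2) * E) / δ ^ k := by
    have h1 := dtwin_nonneg (R := R) (m := lin R) (rd := rd) hw t η
    have h2 : lin R (η + 1) * dtwin R (lin R) w rd t η ≤
        lin R (η + 1) * (twinP R (lin R) w rd t η - Φ η) :=
      mul_le_mul_of_nonneg_left hdt (hδ.le.trans hmη)
    have h3 := mul_le_mul_of_nonneg_right hmη h1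
    have h4 := le_abs_self br
    have : (2 : ℝ) / R = 1 / R + 1 / R := by ring
    linarith
  rw [twinA, show (2 * n : ℕ) - 1 = k from hk'.symm, ← hCc, show 2 * n = k + 1 by omega, pow_succ,
    div_mul_eq_mul_div, le_div_iff₀ (by positivity),
    show dtwin R (lin R) w rd t η * (δ ^ k * δ) = δ * dtwin R (lin R) w rd t η * δ ^ k by ring]
  refine (mul_le_mul_of_nonneg_right hfin (by positivity)).trans ?_
  rw [add_mul, div_mul_cancel₀ _ (by positivity), ← show 2 * n = k + 1 by omega]
  have hδk : δ ^ k ≤ 1 := pow_le_one₀ hδ.le hδ1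
  have hx : (2 : ℝ) / R * δ ^ k ≤ 2 / R := mul_le_of_le_one_right (by positivity) hδk
  have hy : (0 : ℝ) ≤ (R : ℝ) ^ ((2 * n) ^ 2) * E := by positivity
  have hz : (0 : ℝ) ≤ 1 / R := by positivity
  have hu : (2 : ℝ) / R = 2 * (1 / R) := by ring
  rw [herr]
  nlinarith [mul_nonneg hCc0 hz, mul_nonneg hCc0 hy, mul_nonneg hCc0 hpu0, mul_nonneg hCc0 hpu0',
    mul_nonneg hCc0 hos0]

end Vale.Agent.P168.MP
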