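import Vale.Agent.P168.MP.Twin
import Vale.Agent.P168.MP.Sync
import Vale.Agent.P168.MP.Incr
import Vale.Agent.P168.MP.Transfer
import Vale.Agent.P168.MP.CoarseMain

/-! The variances of all site averages are small on average over the layers (end of section C). -/

namespace Vale.Agent.P168.MP

open Finset

variable {L : ℕ} {k : ℕ}

mutual
lemma LT.map_map (f g : ℕ → ℕ) : ∀ t : LT, (t.map f).map g = t.map (g ∘ f)
  | .leaf => by simp [LT.map]
  | .node l cs => by simp [LT.map, LT.maps_maps f g cs]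
lemma LT.maps_maps (f g : ℕ → ℕ) : ∀ cs : LF, LT.maps g (LT.maps f cs) = LT.maps (g ∘ f) cs
  | .nil => by simp [LT.maps]
  | .cons c cs => by simp [LT.maps, LT.map_map f g c, LT.maps_maps f g cs]
end

mutual
/-- the splitting layers of a layered tree -/
lemma LT.Lay.lv_range : ∀ (t : LT) {lo : ℕ}, LT.Lay L lo t → ∀ {i j : ℕ}, i < t.size → j < t.size →
    i ≠ j → lo ≤ t.lv L i j ∧ t.lv L i j < L
  | .leaf, _, _, i, j, hi, hj, hne => by simp [LT.size] at hi hj; omega
  | .node q cs, lo, h, i, j, hi, hj, hne => by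
    rw [LT.Lay] at h
    rw [LT.lv]
    simp only [LT.size] at hi hj
    obtain ⟨h1, h2⟩ := LT.Lays.lvs_range q h.2.1 cs h.2.2.2 hi hj hne
    exact ⟨h.1.trans h1, h2⟩
/-- the splitting layers of a layered forest -/
lemma LT.Lays.lvs_range (q : ℕ) (hq : q < L) : ∀ (cs : LF), LT.Lays L (q + 1) cs → ∀ {i j : ℕ},
    i < LT.sizes cs → j < LT.sizes cs → i ≠ j →
      q ≤ LT.lvs L q cs i j ∧ LT.lvs L q cs i j < L
  | .nil, _, i, _, hi, _, _ => by simp [LT.sizes] at hi
  | .cons c cs, h, i, j, hi, hj, hne => by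
    rw [LT.Lays] at h
    simp only [LT.sizes] at hi hj
    rw [LT.lvs]
    split_ifs with h1 h2 h3
    · obtain ⟨a, b⟩ := LT.Lay.lv_range c h.1 h1 h2 hne
      exact ⟨by omega, b⟩
    · exact ⟨le_rfl, hq⟩
    · exact ⟨le_rfl, hq⟩
    · exact LT.Lays.lvs_range q hq cs h.2 (by omega) (by omega) (by omega)
end

/-- one purity is controlled by those of the subtree -/
theorem small_dtwin (q : Fin L) {c₀ : LT} (hlay : LT.Lay L (q + 1) c₀) (hk : 2 * c₀.size ≤ k)
    (hp : Small (L := L) k fun R S J => pur R (lin R) S.w S.rd (c₀.atJ J)) :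
    Small (L := L) k fun R S J => dtwin R (lin R) S.w S.rd (c₀.atJ J) (lvl J q) := by
  refine (((hp.const_mul (by norm_num : (0 : ℝ) ≤ 2)).add (small_shiftErr c₀ hlay)).add
    (small_osc c₀ hlay)).dom fun c hc => ?_
  refine ⟨|twinA c₀.size (min c 1)|, 0, (2 * c₀.size) ^ 2, abs_nonneg _,
    fun R _ W hW S E hE J hJ => ?_⟩
  obtain ⟨hr1, hr2, hr3⟩ := hW.lvl_range hJ q.isLt
  have hcR : ∀ q', q' < L → min c 1 * R ≤ lvl J q' := fun q' h =>
    (mul_le_mul_of_nonneg_right (min_le_left c 1) (Nat.cast_nonneg R)).trans (hW.lvl_range hJ h).1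
  have hsz := LT.size_atJ J c₀
  have hwf : LT.Wf R (lvl J q) (c₀.atJ J) :=
    hlay.wf_atJ hW hJ fun q' h h' => by have := hW.lvl_lt hJ (show (q : ℕ) < q' by omega) h'; omega
  have hwf' : LT.Wf R (lvl J q) (c₀.atJ J).shift := by
    rw [LT.shift, LT.atJ_eq, LT.map_map]
    refine LT.Lay.wf_map (f := (· + 1) ∘ lvl J) (fun q' h => ?_) (fun a b h h' => ?_) c₀ hlay
      fun q' h h' => ?_
    · have := hW.lvl_range hJ h; simp only [Function.comp_apply]; omega
    · have := hW.lvl_lt hJ h h'; simp only [Function.comp_apply]; omega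
    · have := hW.lvl_lt hJ (show (q : ℕ) < q' by omega) h'; simp only [Function.comp_apply]; omega
  have key := twin_bound (η := lvl J q) (t := c₀.atJ J) (kmax := k) (rd := S.rd) (E := E) S.pos
    (lt_min hc one_pos) (min_le_right c 1) (by omega) (by omega) hwf hwf'
    (fun i j i' j' hi hj hi' hj' hij hij' => by
      rw [hsz] at hi hj hi' hj'
      rw [LT.lv_atJ J R hi hj hij, LT.lv_atJ J R hi' hj' hij']
      obtain ⟨-, a⟩ := LT.Lay.lv_range c₀ hlay hi hj hij
      obtain ⟨-, b⟩ := LT.Lay.lv_range c₀ hlay hi' hj' hij'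
      rcases lt_trichotomy (c₀.lv L i j) (c₀.lv L i' j') with h | h | h
      · have := hW.lvl_lt hJ h b; omega
      · rw [h]; omega
      · have := hW.lvl_lt hJ h a; omega)
    (fun i j hi hj hij => by
      rw [hsz] at hi hj
      rw [LT.lv_atJ J R hi hj hij]
      exact hcR _ (LT.Lay.lv_range c₀ hlay hi hj hij).2)
    (hcR _ q.isLt) (by rw [hsz]; exact hk) hE.1 hE.2
  rw [hsz] at key
  have hs := pur_shift (m := lin R) (rd := S.rd) S.pos (c₀.atJ J) hwf
  have h0 := pur_nonneg (R := R) (m := lin R) (w := S.w) (rd := S.rd) (c₀.atJ J)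
  have h1 := pur_nonneg (R := R) (m := lin R) (w := S.w) (rd := S.rd) (c₀.atJ J).shift
  have h2 := osc_nonneg' (R := R) (m := lin R) (w := S.w) (rd := S.rd) (c₀.atJ J) (c₀.atJ J).shift
  have h3 : (0 : ℝ) ≤ 1 / R := by positivity
  have h4 : (0 : ℝ) ≤ (R : ℝ) ^ ((2 * c₀.size) ^ 2) * E := mul_nonneg (by positivity) hE.1
  set A := twinA c₀.size (min c 1)
  refine key.trans ((mul_le_mul_of_nonneg_right (le_abs_self A) (by positivity)).trans ?_)
  rw [mul_assoc |A| ((R : ℝ) ^ _) E, div_eq_mul_one_div |A| (R : ℝ), ← mul_add, ← mul_add]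
  refine mul_le_mul_of_nonneg_left ?_ (abs_nonneg _)
  linarith

mutual
/-- purities are small -/
theorem small_pur : ∀ (t : LT) {lo : ℕ}, LT.Lay L lo t → 2 * t.size ≤ k →
    Small (L := L) k fun R S J => pur R (lin R) S.w S.rd (t.atJ J)
  | .leaf, _, _, _ => by simpa [LT.atJ, LT.map, pur] using small_zero (L := L) (k := k)
  | .node q cs, lo, h, hk => by
    rw [LT.Lay] at h
    simpa [LT.atJ_eq, LT.map, pur] using small_purs ⟨q, h.2.1⟩ cs h.2.2.2 (by simpa [LT.size] using hk)
/-- purities of a forest are small -/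
theorem small_purs (q : Fin L) : ∀ (cs : LF), LT.Lays L (q + 1) cs → 2 * LT.sizes cs ≤ k →
    Small (L := L) k fun R S J => purs R (lin R) S.w S.rd (lvl J q) (LT.maps (lvl J) cs)
  | .nil, _, _ => by simpa [LT.maps, purs] using small_zero (L := L) (k := k)
  | .cons c cs, h, hk => by
    rw [LT.Lays] at h
    simp only [LT.sizes] at hk
    have hp := small_pur c h.1 (by omega)
    simpa [LT.maps, purs, LT.atJ_eq] using
      (((small_dtwin q h.1 (by omega) hp).sqrt_sqrt fun R S J => dtwin_nonneg S.pos _ _).add hp).add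
        (small_purs q cs h.2 (by omega))
end

/-- increments of the subtrees below their node -/
theorem small_incs (q : Fin L) : ∀ (cs : LF), LT.Lays L (q + 1) cs →
    Small (L := L) k fun R S J => incs R (lin R) S.w S.rd (lvl J q) (LT.maps (lvl J) cs)
  | .nil, _ => by simpa [LT.maps, incs] using small_zero (L := L) (k := k)
  | .cons c cs, h => by
    rw [LT.Lays] at h
    simpa [LT.maps, incs, LT.atJ_eq] using (small_Lam_pred q h.1).add (small_incs q cs h.2)

lemma incs_nonneg {Ω : Type*} [Fintype Ω] {N R : ℕ} {m : ℕ → ℝ} {w : List Ω → ℝ}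
    {rd : List Ω → Fin N → Bool} (j : ℕ) : ∀ cs : LF, 0 ≤ incs R m w rd j cs
  | .nil => by rw [incs]
  | .cons c cs => by rw [incs]; exact add_nonneg (Real.sqrt_nonneg _) (incs_nonneg j cs)

/-- the mean minimises the squared deviation -/
lemma var_le {Ω : Type*} [Fintype Ω] [Nonempty Ω] {R : ℕ} {m : ℕ → ℝ} {w : List Ω → ℝ}
    (hw : ∀ p, 0 < w p) (T : List (ℕ × ℕ)) (F : List (List Ω) → ℝ) (a : ℝ) :
    ET R m w T (fun ps => (F ps - ET R m w T F) ^ 2) ≤ ET R m w T (fun ps => (F ps - a) ^ 2) := by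
  set μ := ET R m w T F with hμ
  have e : ∀ ps, (F ps - a) ^ 2 = (F ps - μ) ^ 2 + (2 * (μ - a) * F ps + (a ^ 2 - μ ^ 2)) :=
    fun ps => by ring
  simp only [e, ET_add, ET_const_mul, ET_const hw, ← hμ]
  nlinarith [sq_nonneg (μ - a)]

/-- the site average over a forest hanging at layer `q` has small variance -/
theorem small_sync (q : Fin L) (cs : LF) (hlay : LT.Lays L (q + 1) cs) (hne : cs ≠ .nil)
    (hk : 2 * LT.sizes cs ≤ k) (Q : ℕ → Sys → (Fin L → ℕ) → ℝ)
    (hQ : ∀ c : ℝ, 0 < c → ∀ R (W : Win L), W.Ok c R → ∀ S : Sys, ∀ J ∈ W.set,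
      LT.Wfs R (lvl J q) (LT.maps (lvl J) cs) → ∃ T : List (ℕ × ℕ), Valid R T ∧
        LT.sizes cs ≤ T.length ∧ (∀ a b, a < LT.sizes cs → b < LT.sizes cs →
          sp R T a b = LT.lvs R (lvl J q) (LT.maps (lvl J) cs) a b) ∧
        Q R S J = ET R (lin R) S.w T fun ps =>
          (avg (lprod S.rd id (LT.sizes cs) ps) -
            ET R (lin R) S.w T fun ps => avg (lprod S.rd id (LT.sizes cs) ps)) ^ 2) :
    Small (L := L) k Q := by
  refine ((small_purs q cs hlay hk).add (small_incs q cs hlay)).dom fun c hc => ?_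
  refine ⟨8 + 2 * (1 / min c 1) ^ LT.sizes cs, 0, (LT.sizes cs + 1) * (LT.sizes cs + 1),
    by positivity, fun R _ W hW S E hE J hJ => ?_⟩
  obtain ⟨hr1, hr2, hr3⟩ := hW.lvl_range hJ q.isLt
  have hwf : LT.Wfs R (lvl J q) (LT.maps (lvl J) cs) :=
    LT.Lays.wf_maps (fun q' h => by have := hW.lvl_range hJ h; omega)
      (fun a b h h' => by have := hW.lvl_lt hJ h h'; omega) cs hlay
      fun q' h h' => by have := hW.lvl_lt hJ (show (q : ℕ) < q' by omega) h'; omega
  obtain ⟨T, hT, hTl, hTsp, e⟩ := hQ c hc R W hW S J hJ hwf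
  have hne' : LT.maps (lvl J) cs ≠ .nil := by
    cases cs with
    | nil => exact absurd rfl hne
    | cons c' cs' => simp [LT.maps]
  have hsz : LT.sizes (LT.maps (lvl J) cs) = LT.sizes cs := LT.sizes_maps _ cs
  have key := sync_var (rd := S.rd) S.pos hE.2 hwf hne' (by omega) (by omega)
    (lt_min hc one_pos) (min_le_right c 1)
    ((mul_le_mul_of_nonneg_right (min_le_left c 1) (Nat.cast_nonneg R)).trans hr1)
    (by rw [hsz]; omega) hT id (fun i hi => by rw [hsz] at hi; simp only [id]; omega)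
    (fun a b ha hb => by rw [hsz] at ha hb; exact hTsp a b ha hb)
  rw [hsz] at key
  rw [e]
  refine (var_le S.pos T _ _).trans (key.trans ?_)
  unfold syncC
  set n := LT.sizes cs
  set pu := purs R (lin R) S.w S.rd (lvl J q) (LT.maps (lvl J) cs)
  set ic := incs R (lin R) S.w S.rd (lvl J q) (LT.maps (lvl J) cs)
  set X := (R : ℝ) ^ ((n + 1) * (n + 1))
  set D := (1 / min c 1) ^ n
  have hpu : 0 ≤ pu := purs_nonneg _ _
  have hic : 0 ≤ ic := incs_nonneg _ _
  have hD : 0 ≤ D := by positivity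
  have hX : 0 ≤ X * E := mul_nonneg (by positivity) hE.1
  have : 0 ≤ (8 + 2 * D) / (R : ℝ) := by positivity
  nlinarith [mul_nonneg hD hpu, mul_nonneg hD hic]

/-- the variance of a layered tree is small -/
theorem small_varT (hL : 0 < L) (t : LT) (hlay : LT.Lay L 0 t) (hk : 2 * t.size ≤ k) :
    Small (L := L) k fun R S J => varT R (lin R) S.w S.rd (t.atJ J) := by
  have hM : ∀ {R : ℕ} (S : Sys) (t' : LT) {n : ℕ}, t'.size = n →
      varT R (lin R) S.w S.rd t' = ET R (lin R) S.w (t'.attach R) fun ps =>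
        (avg (lprod S.rd id n ps) -
          ET R (lin R) S.w (t'.attach R) fun ps => avg (lprod S.rd id n ps)) ^ 2 := by
    intro R S t' n hn
    subst hn
    have e : ∀ ps, Mset S.rd (univ : Finset (Fin t'.size)) ps = avg (lprod S.rd id t'.size ps) :=
      fun ps => congrArg avg (funext fun v =>
        Fin.prod_univ_eq_prod_range (fun i => sg (S.rd (ps.getD i []) v)) t'.size)
    have e' : (Mset S.rd (univ : Finset (Fin t'.size))) =
        fun ps => avg (lprod S.rd id t'.size ps) := funext e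
    simp only [varT, varM, e']
  cases t with
  | leaf =>
    refine small_sync ⟨0, hL⟩ (.cons .leaf .nil) (by simp [LT.Lays, LT.Lay]) (by simp)
      (by simpa [LT.sizes, LT.size] using hk) _ fun c hc R W hW S J hJ hwf => ?_
    refine ⟨(LT.leaf.atJ J).attach R, ?_, ?_, ?_, hM S _ ?_⟩
    · simp [LT.atJ, LT.map, LT.attach, LT.size, Valid]
    · simp [LT.atJ, LT.map, LT.attach, LT.size, LT.sizes]
    · intro a b ha hb
      simp [LT.sizes, LT.size] at ha hb
      subst ha hb
      simp [sp_self, LT.maps, LT.map, LT.lvs, LT.size, LT.lv]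
    · simp [LT.atJ, LT.map, LT.size, LT.sizes]
  | node q cs =>
    rw [LT.Lay] at hlay
    have hne : cs ≠ .nil := LF.ne_nil_of_length_pos (by omega)
    refine small_sync ⟨q, hlay.2.1⟩ cs hlay.2.2.2 hne (by simpa [LT.size] using hk) _
      fun c hc R W hW S J hJ hwf => ?_
    have hR := hW.lvl_range hJ hlay.2.1
    have hwf0 : LT.Wf R 0 ((LT.node q cs).atJ J) := by
      rw [LT.atJ_eq, LT.map, LT.Wf, LT.maps_length]
      exact ⟨by omega, by omega, hlay.2.2.1, hwf⟩
    obtain ⟨hv, hl, hsp⟩ := LT.attach_spec _ hwf0 (by omega)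
    have hsz : ((LT.node q cs).atJ J).size = LT.sizes cs := by rw [LT.size_atJ, LT.size]
    refine ⟨_, hv, by rw [hl, hsz], fun a b ha hb => ?_, hM S _ hsz⟩
    rw [hsp a b (by omega) (by omega), LT.atJ_eq, LT.map, LT.lv]

lemma Small.sqrt {P : ℕ → Sys → (Fin L → ℕ) → ℝ} (hP : Small k P)
    (h0 : ∀ R S J, 0 ≤ P R S J) : Small k fun R S J => √(P R S J) := by
  intro c hc ε hε
  obtain ⟨R₀, h⟩ := (hP.const_mul (a := 1 / (ε / 2)) (by positivity)) c hc (ε / 2) (half_pos hε)
  refine ⟨R₀, fun R hR => ?_⟩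
  obtain ⟨C, hC⟩ := h R hR
  refine ⟨C, fun W hW S E hE => ?_⟩
  calc W.avgJ (fun J => √(P R S J)) ≤ W.avgJ fun J => ε / 2 + 1 / (ε / 2) * P R S J := by
        refine W.avgJ_mono fun J _ => ?_
        have hx := Real.mul_self_sqrt (h0 R S J)
        have hd := half_pos hε
        rw [one_div_mul_eq_div]
        rcases le_total (√(P R S J)) (ε / 2) with h1 | h1
        · have : 0 ≤ P R S J / (ε / 2) := div_nonneg (h0 R S J) hd.le
          linarith
        · have : √(P R S J) ≤ P R S J / (ε / 2) := by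
            rw [le_div_iff₀ hd]
            exact (mul_le_mul_of_nonneg_left h1 (Real.sqrt_nonneg _)).trans_eq hx
          linarith
    _ = ε / 2 + W.avgJ (fun J => 1 / (ε / 2) * P R S J) := by
        rw [W.avgJ_add, Win.avgJ_const hW]
    _ ≤ ε + C * E := by linarith [hC W hW S E hE]

lemma varM_nonneg {Ω : Type} [Fintype Ω] [Nonempty Ω] {N R n : ℕ} {m : ℕ → ℝ} {w : List Ω → ℝ}
    (hw : ∀ p, 0 < w p) (rd : List Ω → Fin N → Bool) (T : List (ℕ × ℕ)) (S : Finset (Fin n)) :
    0 ≤ varM R m w rd T S := ET_nonneg hw fun _ => sq_nonneg _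

/-- **End of section C**: the variances in the comparison with the trial are small -/
theorem small_varM {r : ℕ} (tr : Tree) (hk : 2 * Tree.size r tr ≤ k)
    {X : Finset (Fin (Tree.size r tr))} (hX : X.Nonempty) :
    Small (L := r + 1) k fun R S J =>
      varM R (lin R) S.w S.rd (lvT (layerJ R J) r tr) X := by
  obtain ⟨t, hlay, hsz, he⟩ := exists_lay_tree tr hX
  have hcard : X.card ≤ Tree.size r tr := (card_le_univ X).trans_eq (Fintype.card_fin _)
  refine (small_varT (Nat.succ_pos r) t hlay (by omega)).mono fun c hc R W hW S E _ J hJ => le_of_eq ?_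
  exact he S.Ω S.N R c W hW J hJ (layerJ R J) (layerJ_zero R J)
    (fun q hq => by rw [layerJ_succ R J hq, lvl_of_lt J hq]) (lin R) S.w S.pos S.rd

end Vale.Agent.P168.MP
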